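import Vale.Agent.P097EE.Asm

/-!
# P097EE: the assembly of the last layer, with values in a compact set
-/

namespace Vale.Agent.P097EE

open Filter Topology Set Metric Complex

/-- **block E** with compact values -/
def Spec_E2 : Prop := ∀ (𝒰 : Ultrafilter ℕ) (k m : ℕ) (A : ℝ) (h w K S : ℕ → ℝ)
  (C Z : ℕ → ℕ → C2 → C2), 0 < k → m ≤ k → Gr 𝒰 A h w K S →
  (∀ i ≤ k, Gap 𝒰 h w K S (omg k i) (C i) (Z i)) →
  (∀ c < k, Far 𝒰 h K (C c) (Z c) (C (c + 1)) (Z (c + 1)) ∨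
    NearE 𝒰 A h K (C c) (Z c) (C (c + 1)) (Z (c + 1))) →
  ∃ x μ M : ℝ, |x| ≤ 1 ∧ 0 < μ ∧ μ ≤ 1 / 10 ∧ 0 < M ∧ ∀ᶠ n in (𝒰 : Filter ℕ), ∃ F : C2 → C2,
    (∀ q ∈ Rc x μ (-(5 / 4)) μ ×ˢ ball (0 : ℂ) μ, AnalyticAt ℂ F q ∧ ‖F q‖ ≤ M ∧
      (F q).1.im ≤ -(1 / M) ∧ (F q).2.im ≤ -(1 / M)) ∧
      F =ᶠ[𝓝 ((x : ℂ) - 6 / 5 * I, (0 : ℂ))] Z m n

theorem asm2 (hP : S_PHI) (hF : S_FAR) (hS : S_PASS) (hE : S_END) : Spec_E2 := by
  intro 𝒰 k m A h w K S C Z hk hm G gap tr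
  have c1 : ∀ i, ∃ Φ, i ≤ k → Phi 𝒰 A h K S (omg k i) (C i) (Z i) Φ := fun i => by
    by_cases hi : i ≤ k
    · exact (hP 𝒰 A h w K S _ _ _ G (gap i hi)).imp fun _ H _ => H
    · exact ⟨C i, fun H => absurd H hi⟩
  choose Φ hΦ using c1
  have hA := G.A2
  have big : ∀ᶠ n in (𝒰 : Filter ℕ), 3 ≤ h n ∧ 3 ≤ w n ∧ h n ≤ K n := by
    filter_upwards [G.hl.eventually_ge_atTop 3, G.hw 1, G.hK] with n h1 h2 h3
    have h4 : 1 ≤ Real.log (h n) := by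
      rw [Real.le_log_iff_exp_le (by linarith)]
      linarith [Real.exp_one_lt_d9]
    exact ⟨h1, by nlinarith, h3⟩
  have sub : ∀ n, 3 ≤ h n → Bx 2 (-2) 1 1 ⊆ Bx (50 * A * h n) (-h n) 2 2 := fun n h1 q hq =>
    ⟨hq.1.trans (by nlinarith), by linarith [hq.2.1], by linarith [hq.2.2.1],
      by linarith [hq.2.2.2]⟩
  have ps : ∀ c < k, Pass 𝒰 (Φ c) (Φ (c + 1)) := fun c hc => by
    have p1 := (hΦ c hc.le).mono (om0_le k c)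
    have p2 := (hΦ (c + 1) hc).mono (om0_le k (c + 1))
    rcases tr c hc with H | H
    · refine hF 𝒰 A h w K S _ _ _ _ _ _ G ?_ p1 p2 H
      filter_upwards [big, (gap (c + 1) hc).ch] with n h1 h2 q hq
      obtain ⟨⟨a1, a2, a3⟩, a4⟩ := hq
      rw [sub_zero] at a1
      rw [mem_ball_zero_iff] at a4
      exact h2 q ⟨by linarith [h1.2.1], a2.le, by linarith [h1.1], by linarith⟩
    · exact hS 𝒰 A h w K S _ _ _ _ _ _ G p1 p2 H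
  obtain ⟨x, μ, x1, μ0, μ1, hE⟩ := hE 𝒰 k m Φ hk hm (fun lam hl e he => by
    refine ((finite_le_nat k).eventually_all (p := fun i n => ∀ q ∈ Bx 2 (-2) 1 1,
      q.1.im ≤ omg k i q.2 - lam → AnalyticAt ℂ (Φ i n) q ∧ ‖Φ i n q - q‖ ≤ e)).2 fun i hi => ?_
    filter_upwards [big, hΦ i hi lam hl 1, G.hl.eventually_ge_atTop (1 / e)] with n h1 h2 h3 q hq h4
    obtain ⟨a1, -, a2, -⟩ := h2 q (sub n h1.1 hq) h4
    refine ⟨a1, ?_⟩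
    rw [div_le_iff₀ he] at h3
    rw [pow_one] at a2
    refine le_of_mul_le_mul_right (a2.trans (h3.trans ?_)) (by linarith [h1.1, h1.2.2] : 0 < K n)
    nlinarith [h1.2.2]) ps
  obtain ⟨M, M0, hM⟩ := (gap m hm).cp
  refine ⟨x, μ, M, x1, μ0, μ1, M0, ?_⟩
  filter_upwards [big, hE (1 / 2) one_half_pos, hM, (gap m hm).ch, hΦ m hm (1 / 2) one_half_pos 0]
    with n ⟨b1, b2, b3⟩ ⟨P, P1, P2⟩ h3 h4 h5
  refine ⟨fun q => C m n (P q), fun q hq => ?_, ?_⟩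
  · obtain ⟨a1, a2⟩ := P1 q hq
    obtain ⟨⟨d1, d2, d3⟩, d4⟩ := hq
    rw [mem_ball_zero_iff] at d4
    obtain ⟨e1, e2, e3⟩ := near_le a2
    have hb : P q ∈ Bx (w n) (-h n) 3 81 := by
      obtain ⟨f1, f2⟩ := abs_le.1 e1
      obtain ⟨f3, f4⟩ := abs_le.1 e2
      obtain ⟨f5, f6⟩ := abs_lt.1 d1
      obtain ⟨f7, f8⟩ := abs_le.1 x1
      exact ⟨abs_le.2 ⟨by linarith, by linarith⟩, by linarith, by linarith, by linarith⟩
    obtain ⟨g1, g2, g3⟩ := h3 _ hb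
    exact ⟨((h4 _ hb).1 _ (mem_ball_self (inv_pos.2 (by linarith)))).comp a1, g1, g2, g3⟩
  · filter_upwards [P2, closedBall_mem_nhds ((x : ℂ) - 6 / 5 * I, (0 : ℂ))
      (by norm_num : (0 : ℝ) < 1 / 10)] with q h6 h7
    obtain ⟨e1, e2, e3⟩ := near_le (mem_closedBall_iff_norm.1 h7)
    simp only [sub_re, ofReal_re, mul_re, I_re, I_im, sub_im, ofReal_im, mul_im, norm_zero,
      div_ofNat_re, div_ofNat_im, re_ofNat, im_ofNat] at e1 e2 e3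
    obtain ⟨f1, f2⟩ := abs_le.1 e1
    obtain ⟨f3, f4⟩ := abs_le.1 e2
    obtain ⟨f7, f8⟩ := abs_le.1 x1
    have g1 := (abs_le.1 ((gap m hm).om q.2)).1
    rw [h6]
    exact (h5 q (sub n b1 ⟨abs_le.2 ⟨by linarith, by linarith⟩, by linarith, by linarith,
      by linarith⟩) (by linarith)).2.1

end Vale.Agent.P097EE
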