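import Vale.Agent.P097EE.Defs2

/-!
# P097EE: the two centres are close (row 5814)
-/

set_option linter.all false

noncomputable section

namespace Vale.Agent.P097EE

open Filter Topology Set Metric Complex

theorem cen_one {T Tm L0 R0 α ΦL ΦR : C2 → C2} {ℓ l₁ l L e B h K : ℝ} {cL cR : ℂ} {N : ℕ}
    (hℓ : 100 ≤ ℓ) (hh : 10 * ℓ ≤ h) (hK : h ≤ K) (hL : L ≤ K) (g1 : |cL.im| ≤ 3 / 5 * h)
    (g2 : ‖cL - cR‖ ≤ h / 10) (g3 : h ≤ cL.re) (g4 : cL.re + h ≤ N)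
    (SL : Sd T L0 α ΦL 1 ℓ l₁ l L e (1 / 400) B h 1 (1 / K ^ 2) cL N)
    (SR : Sd Tm R0 (fun q => α (sh q N)) ΦR (-1) ℓ l₁ l L e (1 / 400) B h 1 (1 / K ^ 2)
      (cR - N) N) : ‖cL - cR‖ ≤ (ℓ + max 0 cL.im) / 50 := by
  obtain ⟨E, hE⟩ : ∃ E, E = ‖cL - cR‖ := ⟨_, rfl⟩
  have E0 : 0 ≤ E := hE ▸ norm_nonneg _
  have e1 := abs_le.1 (abs_re_le_norm (cL - cR))
  have e2 := abs_le.1 (abs_im_le_norm (cL - cR))
  rw [sub_re, ← hE] at e1
  rw [sub_im, ← hE] at e2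
  rw [← hE] at g2
  obtain ⟨y, hy⟩ : ∃ y, y = min cL.im 0 - E - (ℓ + E / 4) - 2 := ⟨_, rfl⟩
  have m1 := min_le_left cL.im 0
  have m2 := min_le_right cL.im 0
  have m3 : -(3 / 5 * h) ≤ min cL.im 0 := le_min (abs_le.1 g1).1 (by linarith)
  have m4 : min cL.im 0 + max 0 cL.im = cL.im := by rw [max_comm, min_add_max, add_zero]
  have M0 := le_max_left 0 cL.im
  obtain ⟨j, j1, j2⟩ : ∃ j : ℕ, (j : ℝ) ≤ cL.re ∧ cL.re < j + 1 :=
    ⟨_, Nat.floor_le (by linarith), Nat.lt_floor_add_one _⟩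
  have jN : j ≤ N := by exact_mod_cast (show (j : ℝ) ≤ N by linarith)
  set q : C2 := (y * I, 0) with hq
  have qr : q.1.re = 0 := by simp [hq]
  have qi : q.1.im = y := by simp [hq]
  have q2 : ‖q.2‖ = 0 := norm_zero
  have qC : q ∈ Cn h 1 := ⟨by rw [qr, abs_zero]; norm_num, by rw [qi]; linarith,
    by rw [qi, q2]; linarith, by rw [q2]; norm_num⟩
  have oL : Ok 1 ℓ cL q.1.im j := Or.inr ⟨ℓ + E / 4, by linarith,
    by rw [qi]; exact lt_abs.2 (Or.inr (by linarith)), by linarith⟩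
  have oR : Ok (-1) ℓ (cR - N) q.1.im (N - j) := Or.inr ⟨ℓ + E / 4, by linarith, by
    rw [qi, sub_im, natCast_im]
    exact lt_abs.2 (Or.inr (by linarith)), by
    rw [sub_re, natCast_re, Nat.cast_sub jN]
    linarith⟩
  have tL := (SL.tr q qC j jN oL).2
  have tR := (SR.tr q qC (N - j) (Nat.sub_le _ _) oR).2
  have a1 : |q.1.re| ≤ 4 := by rw [qr, abs_zero]; norm_num
  have a2 : ‖q.2‖ ≤ 3 := by rw [q2]; norm_num
  have a3 : -h - 1 ≤ q.1.im := by rw [qi]; linarith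
  have a4 : q.1.im ≤ 3 := by rw [qi]; linarith
  have a5 : |q.1.im - q.1.im| ≤ 1 := by rw [sub_self, abs_zero]; norm_num
  obtain ⟨-, nL, -, bL, -⟩ := SL.app q j (SL.alw q _ j a1 a2 a3 a4 a5 oL)
  obtain ⟨-, nR, -, bR, -⟩ := SR.app q _ (SR.alw q _ _ a1 a2 a3 a4 a5 oR)
  rw [show sh (sh q (((-1 : ℝ) : ℂ) * ((N - j : ℕ) : ℂ))) N = sh q (((1 : ℝ) : ℂ) * j) by
    simp only [sh, Nat.cast_sub jN]
    congr 1
    push_cast
    ring] at tR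
  rw [show q.1 + ((-1 : ℝ) : ℂ) * ((N - j : ℕ) : ℂ) - (cR - N) =
    q.1 + ((1 : ℝ) : ℂ) * j - cL + (cL - cR) by rw [Nat.cast_sub jN]; push_cast; ring] at bR
  have w1 : ‖q.1 + ((1 : ℝ) : ℂ) * j - cL‖ ≤ 1 + (cL.im - y) := by
    refine (norm_le_abs_re_add_abs_im _).trans (add_le_add (abs_le.2 ?_) (abs_le.2 ?_))
    · simp only [sub_re, add_re, qr, ofReal_one, one_mul, natCast_re]
      constructor <;> linarith
    · simp only [sub_im, add_im, qi, ofReal_one, one_mul, natCast_im]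
      constructor <;> linarith
  generalize q.1 + ((1 : ℝ) : ℂ) * j - cL = τ at *
  generalize T^[j] (L0 q) = X at *
  generalize Tm^[N - j] (R0 q) = Y at *
  have d1 : ‖(X - Y).1‖ ≤ 2 * (1 / K ^ 2) := by
    have := norm_sub_le_norm_sub_add_norm_sub X (α (sh q (((1 : ℝ) : ℂ) * j))) Y
    rw [norm_sub_rev X (α _)] at this
    linarith [norm_fst_le (X - Y)]
  have d2 : ‖X.1 + Y.1‖ ≤ K := by
    nlinarith [norm_add_le X.1 Y.1, nL.2.1, nR.2.1, sq_nonneg (‖X.1‖ - 1), sq_nonneg (‖Y.1‖ - 1)]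
  have K0 : 0 < K := by linarith
  have d3 : ‖X.1 ^ 2 - Y.1 ^ 2‖ ≤ 1 := by
    rw [sq_sub_sq, norm_mul]
    refine (mul_le_mul d2 d1 (norm_nonneg _) K0.le).trans ?_
    rw [show K * (2 * (1 / K ^ 2)) = 2 / K by field_simp, div_le_one K0]
    linarith
  have d4 : ‖cL - cR‖ ≤ ‖X.1 ^ 2 - τ‖ + ‖Y.1 ^ 2 - (τ + (cL - cR))‖ + ‖X.1 ^ 2 - Y.1 ^ 2‖ := by
    refine le_trans (le_of_eq ?_) ((norm_sub_le _ _).trans (add_le_add (norm_sub_le _ _) le_rfl))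
    congr 1
    ring
  have d5 := norm_add_le τ (cL - cR)
  rw [← hE] at *
  linarith

theorem cen : S_CEN := by
  intro D 𝒰 ℓ C₁ cL cR g t
  filter_upwards [t.geo, t.sd 1 one_pos 2, g.gr.hK, g.nr.LK,
    g.gr.hl.eventually_ge_atTop (10 * ℓ)] with n a b c d e
  exact cen_one (by exact_mod_cast t.l1) e c d.2.1 a.1 a.2.1 a.2.2.1 a.2.2.2 b.1 b.2

end Vale.Agent.P097EE
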