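import Vale.Agent.P097EE.Defs

/-!
# P097EE: orbits near a reference orbit
-/

set_option linter.all false

noncomputable section

namespace Vale.Agent.P097EE

open Filter Topology Set Metric Complex

namespace Lip

/-- rescaling of the first coordinate -/
def sc (ρ : ℝ) (x : C2) : C2 := (x.1 / ρ, x.2)

theorem sc_sub (ρ : ℝ) (x y : C2) : sc ρ (x - y) = sc ρ x - sc ρ y := by
  simp [sc, sub_div]

theorem sc_norm {ρ : ℝ} (h : 0 < ρ) (x : C2) : ‖sc ρ x‖ = max (‖x.1‖ / ρ) ‖x.2‖ := by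
  simp [sc, Prod.norm_def, abs_of_pos h]

theorem sc_le {ρ : ℝ} (h : 1 ≤ ρ) (x : C2) : ‖sc ρ x‖ ≤ ‖x‖ := by
  rw [sc_norm (by linarith), Prod.norm_def]
  exact max_le_max (div_le_self (norm_nonneg _) h) le_rfl

theorem sc_chg {ρ ρ' k : ℝ} (h : 0 < ρ) (h' : 0 < ρ') (hk : 1 ≤ k) (e : ρ ≤ k * ρ') (x : C2) :
    ‖sc ρ' x‖ ≤ k * ‖sc ρ x‖ := by
  rw [sc_norm h, sc_norm h']
  have a1 := le_max_left (‖x.1‖ / ρ) ‖x.2‖
  have a2 := le_max_right (‖x.1‖ / ρ) ‖x.2‖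
  have a3 := norm_nonneg x.1
  have a4 := norm_nonneg x.2
  refine max_le (le_trans ?_ (mul_le_mul_of_nonneg_left a1 (by linarith))) (by nlinarith)
  rw [← mul_div_assoc, div_le_div_iff₀ h' h]
  nlinarith

theorem le_sc {ρ : ℝ} (h : 1 ≤ ρ) (x : C2) : ‖x‖ ≤ ρ * ‖sc ρ x‖ := by
  have := sc_chg (ρ := ρ) (ρ' := 1) (k := ρ) (by linarith) one_pos h (by linarith) x
  simpa [sc] using this

theorem one_le {l L e : ℝ} {r : C2} (hl : 1 ≤ l) (hr : r ∈ An (2 * l) L e) : 1 ≤ ‖r.1‖ := by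
  have a := hr.1
  have b := norm_nonneg r.1
  nlinarith

/-- the weighted ball lies in the annulus -/
theorem mem {l L e c : ℝ} {r x : C2} (hl : 1 ≤ l) (hr : r ∈ An (2 * l) (L / 2) (e / 2))
    (c1 : c ≤ 1 / 10) (c2 : c ≤ e / 2) (hx : ‖sc ‖r.1‖ (x - r)‖ < c) :
    x ∈ An l L e ∧ 9 / 10 * ‖r.1‖ ≤ ‖x.1‖ := by
  have h1 := one_le hl hr
  obtain ⟨r1, r2, r3⟩ := hr
  rw [sc_norm (by linarith), max_lt_iff, div_lt_iff₀ (by linarith), Prod.fst_sub, Prod.snd_sub] at hx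
  have a1 := abs_le.1 (abs_norm_sub_norm_le x.1 r.1)
  have a2 := norm_sub_norm_le x.2 r.2
  have a3 : c * ‖r.1‖ ≤ 1 / 10 * ‖r.1‖ := mul_le_mul_of_nonneg_right c1 (by linarith)
  have b1 : 9 / 10 * ‖r.1‖ ≤ ‖x.1‖ := by linarith [a1.1, hx.1]
  have b2 : ‖x.1‖ ≤ 11 / 10 * ‖r.1‖ := by linarith [a1.2, hx.1]
  have b3 := pow_le_pow_left₀ (by linarith) b1 2
  have b4 := pow_le_pow_left₀ (norm_nonneg _) b2 2
  exact ⟨⟨by nlinarith, by nlinarith, by linarith [hx.2]⟩, b1⟩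

/-- one step -/
theorem step {T : C2 → C2} {a C l L e η ν c : ℝ} (h : Stp T a C l L e η ν) (hC : 0 ≤ C)
    (hl : 1 ≤ l) {r x x' : C2} (hr : r ∈ An (2 * l) (L / 2) (e / 2)) (c0 : 0 < c)
    (c1 : c ≤ 1 / 10) (c2 : c ≤ e / 2) (hx : ‖sc ‖r.1‖ (x - r)‖ ≤ c / 4)
    (hx' : ‖sc ‖r.1‖ (x' - r)‖ ≤ c / 4) :
    ‖sc ‖r.1‖ (T x - T x')‖ ≤ (1 + 6 * C / c / ‖r.1‖ ^ 2) * ‖sc ‖r.1‖ (x - x')‖ := by
  have h1 := one_le hl hr
  have hm := fun x => mem (x := x) hl hr c1 c2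
  generalize ‖r.1‖ = ρ at *
  have ρ0 : 0 < ρ := by linarith
  have ρ' : (ρ : ℂ) ≠ 0 := ofReal_ne_zero.2 ρ0.ne'
  obtain ⟨u, hu⟩ : ∃ u : C2 → C2, u = fun y => (r.1 + ρ * y.1, r.2 + y.2) := ⟨_, rfl⟩
  have u1 : ∀ y, sc ρ (u y - r) = y := fun y => by
    simp [hu, sc, mul_div_cancel_left₀ _ ρ']
  have u2 : ∀ z, u (sc ρ (z - r)) = z := fun z => by
    simp [hu, sc, mul_div_cancel₀ _ ρ']
  have ud : Differentiable ℂ u := by
    rw [hu]
    fun_prop
  have sd : Differentiable ℂ (sc ρ) := by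
    unfold sc
    fun_prop
  have hb : ∀ y : C2, ‖y‖ < c → DifferentiableAt ℂ (fun y => sc ρ (T (u y) - u y)) y ∧
      ‖sc ρ (T (u y) - u y)‖ ≤ 2 * C / ρ ^ 2 := by
    intro y hy
    obtain ⟨m1, m2⟩ := hm (u y) (by rwa [u1])
    refine ⟨(sd _).comp y (((h.an _ m1).differentiableAt.comp y (ud y)).sub (ud y)), ?_⟩
    obtain ⟨k1, k2⟩ := h.cr _ m1
    have m3 := pow_le_pow_left₀ (by linarith) m2 2
    rw [sc_norm ρ0, Prod.fst_sub, Prod.snd_sub]
    have n1 := norm_nonneg ((T (u y)).1 - (u y).1)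
    have n2 := norm_nonneg ((T (u y)).2 - (u y).2)
    refine max_le ?_ ?_
    · rw [div_le_div_iff₀ ρ0 (by positivity)]
      have : ‖(T (u y)).1 - (u y).1‖ * ρ ≤ 2 * C := by nlinarith
      nlinarith
    · rw [le_div_iff₀ (by positivity)]
      nlinarith
  generalize hy : sc ρ (x - r) = y at hx
  generalize hy' : sc ρ (x' - r) = y' at hx'
  have hin : ∀ z ∈ ball y' (3 * c / 4), ‖z‖ < c := fun z hz => by
    have := norm_sub_norm_le z y'
    rw [mem_ball_iff_norm] at hz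
    linarith
  have key := Complex.dist_le_div_mul_dist_of_mapsTo_ball (f := fun y => sc ρ (T (u y) - u y))
    (c := y') (z := y) (R₁ := 3 * c / 4) (R₂ := 4 * C / ρ ^ 2)
    (fun z hz => (hb z (hin z hz)).1.differentiableWithinAt)
    (fun z hz => by
      rw [mem_closedBall_iff_norm]
      have b1 := (hb z (hin z hz)).2
      have b2 := (hb y' (by linarith)).2
      have b3 : 4 * C / ρ ^ 2 = 2 * C / ρ ^ 2 + 2 * C / ρ ^ 2 := by ring
      linarith [norm_sub_le (sc ρ (T (u z) - u z)) (sc ρ (T (u y') - u y'))])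
    (by
      rw [mem_ball_iff_norm]
      linarith [norm_sub_le y y'])
  have e1 : y - y' = sc ρ (x - x') := by
    rw [← hy, ← hy', ← sc_sub]
    exact congrArg _ (by abel)
  have e2 : u y = x := by rw [← hy, u2]
  have e3 : u y' = x' := by rw [← hy', u2]
  rw [dist_eq_norm, dist_eq_norm, e1, e2, e3] at key
  have e4 : sc ρ (T x - T x') = sc ρ (T x - x) - sc ρ (T x' - x') + sc ρ (x - x') := by
    simp only [sc_sub]
    abel
  have e5 : 4 * C / ρ ^ 2 / (3 * c / 4) ≤ 6 * C / c / ρ ^ 2 := by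
    have b : 4 * C / ρ ^ 2 / (3 * c / 4) = 16 / 3 * C / c / ρ ^ 2 := by field_simp; ring
    rw [b]
    gcongr
    norm_num
  have e6 := mul_le_mul_of_nonneg_right e5 (norm_nonneg (sc ρ (x - x')))
  rw [e4]
  linarith [norm_add_le (sc ρ (T x - x) - sc ρ (T x' - x')) (sc ρ (x - x'))]

theorem ratio {C ρ ρ' : ℝ} (hC : 1 ≤ C) (h : 1 ≤ ρ) (h' : 1 ≤ ρ') (e : (ρ - ρ') * ρ ≤ C) :
    ρ ≤ (1 + 4 * C ^ 2 / ρ ^ 2) * ρ' := by
  have a : (1 + 4 * C ^ 2 / ρ ^ 2) * ρ' = (ρ ^ 2 * ρ' + 4 * C ^ 2 * ρ') / ρ ^ 2 := by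
    field_simp
  rw [a, le_div_iff₀ (by positivity)]
  have b : (ρ - ρ') * ρ * ρ ≤ C * ρ := mul_le_mul_of_nonneg_right e (by linarith)
  rcases le_total ρ (2 * ρ') with k | k
  · have b2 : C * ρ ≤ C * (2 * ρ') := mul_le_mul_of_nonneg_left k (by linarith)
    have b3 : C * ρ' ≤ C ^ 2 * ρ' := mul_le_mul_of_nonneg_right (by nlinarith) (by linarith)
    nlinarith
  · have b2 : ρ ≤ 2 * C := by nlinarith
    have b3 : C * ρ ≤ C * (2 * C) := mul_le_mul_of_nonneg_left b2 (by linarith)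
    have b4 : C ^ 2 ≤ C ^ 2 * ρ' := le_mul_of_one_le_right (by positivity) h'
    nlinarith

end Lip

open Lip in
theorem lip : S_LIP := by
  intro C e hC he
  obtain ⟨c, c0, c1, c2⟩ : ∃ c : ℝ, 0 < c ∧ c ≤ 1 / 10 ∧ c ≤ e / 2 :=
    ⟨min (1 / 10) (e / 2), lt_min (by norm_num) (by linarith), min_le_left _ _, min_le_right _ _⟩
  obtain ⟨K, hK⟩ : ∃ K : ℝ, K = 6 * C / c + 4 * C ^ 2 := ⟨_, rfl⟩
  have k1 : 0 ≤ 6 * C / c := by positivity
  have k2 : 4 / c ≤ 6 * C / c := div_le_div_of_nonneg_right (by linarith) c0.le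
  have k3 : 1 ≤ C ^ 2 := one_le_pow₀ hC
  refine ⟨K, by linarith, fun T a l L η ν B r j hl h hr hT hB => ?_⟩
  have L1 : 1 ≤ L := by
    have := hr 0 (Nat.zero_le _)
    linarith [this.1, this.2.1]
  have hE : ∀ i ≤ j, Real.exp (K * ∑ k ∈ Finset.range i, 1 / ‖(r k).1‖ ^ 2) ≤ Real.exp (K * B) := by
    intro i hi
    refine Real.exp_le_exp.2 (mul_le_mul_of_nonneg_left (le_trans ?_ hB) (by linarith))
    exact Finset.sum_le_sum_of_subset_of_nonneg (Finset.range_mono hi) fun _ _ _ => by positivity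
  have hit : ∀ i ≤ j, T^[i] (r 0) = r i := by
    intro i
    induction i with
    | zero => exact fun _ => rfl
    | succ i ih =>
      intro hi
      rw [Function.iterate_succ_apply', ih (Nat.le_of_succ_le hi), hT i hi]
  have hsm : ∀ s : C2, ‖s - r 0‖ * (K * L * Real.exp (K * B)) ≤ 1 →
      Real.exp (K * B) * ‖s - r 0‖ ≤ c / 4 := by
    intro s hs
    have b0 : 0 ≤ Real.exp (K * B) * ‖s - r 0‖ := by positivity
    have b1 : 4 / c ≤ K * L := by nlinarith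
    have b2 := mul_le_mul_of_nonneg_left b1 b0
    have b3 : Real.exp (K * B) * ‖s - r 0‖ * (4 / c) ≤ 1 := by linarith
    rw [← mul_div_assoc, div_le_one c0] at b3
    linarith
  have near : ∀ i ≤ j, ∀ s : C2, ‖s - r 0‖ * (K * L * Real.exp (K * B)) ≤ 1 →
      ‖sc ‖(r i).1‖ (T^[i] s - T^[i] (r 0))‖ ≤
        Real.exp (K * ∑ k ∈ Finset.range i, 1 / ‖(r k).1‖ ^ 2) * ‖s - r 0‖ →
      ‖sc ‖(r i).1‖ (T^[i] s - r i)‖ ≤ c / 4 := by
    intro i hi s hs k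
    rw [hit i hi] at k
    exact k.trans ((mul_le_mul_of_nonneg_right (hE i hi) (norm_nonneg _)).trans (hsm s hs))
  have r0 : ‖r 0 - r 0‖ * (K * L * Real.exp (K * B)) ≤ 1 := by simp
  have main : ∀ i ≤ j, ∀ s s' : C2, ‖s - r 0‖ * (K * L * Real.exp (K * B)) ≤ 1 →
      ‖s' - r 0‖ * (K * L * Real.exp (K * B)) ≤ 1 → ‖sc ‖(r i).1‖ (T^[i] s - T^[i] s')‖ ≤
        Real.exp (K * ∑ k ∈ Finset.range i, 1 / ‖(r k).1‖ ^ 2) * ‖s - s'‖ := by
    intro i
    induction i with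
    | zero =>
      intro hi s s' _ _
      simpa using sc_le (one_le hl (hr 0 hi)) (s - s')
    | succ i ih =>
      intro hi s s' hs hs'
      have hi' := Nat.le_of_succ_le hi
      have ρ1 := one_le hl (hr i hi')
      have ρ2 := one_le hl (hr _ hi)
      have b1 := step h (by linarith) hl (hr i hi') c0 c1 c2 (near i hi' s hs (ih hi' s _ hs r0))
        (near i hi' s' hs' (ih hi' s' _ hs' r0))
      have b2 : (‖(r i).1‖ - ‖(r (i + 1)).1‖) * ‖(r i).1‖ ≤ C := by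
        have m := (mem (x := r i) hl (hr i hi') c1 c2 (by simpa [sc] using c0)).1
        refine le_trans (mul_le_mul_of_nonneg_right ?_ (norm_nonneg _)) (h.cr _ m).1
        rw [hT i hi, norm_sub_rev]
        exact norm_sub_norm_le _ _
      have p1 : 0 ≤ 4 * C ^ 2 / ‖(r i).1‖ ^ 2 := by positivity
      have p2 : 0 ≤ 6 * C / c / ‖(r i).1‖ ^ 2 := by positivity
      have b3 := sc_chg (by linarith) (by linarith) (by linarith) (ratio hC ρ1 ρ2 b2)
        (T (T^[i] s) - T (T^[i] s'))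
      have b4 := Real.add_one_le_exp (4 * C ^ 2 / ‖(r i).1‖ ^ 2)
      have b5 := Real.add_one_le_exp (6 * C / c / ‖(r i).1‖ ^ 2)
      have b6 := ih hi' s s' hs hs'
      have e : K * ∑ k ∈ Finset.range (i + 1), 1 / ‖(r k).1‖ ^ 2 = 4 * C ^ 2 / ‖(r i).1‖ ^ 2 +
          (6 * C / c / ‖(r i).1‖ ^ 2 + K * ∑ k ∈ Finset.range i, 1 / ‖(r k).1‖ ^ 2) := by
        rw [Finset.sum_range_succ, mul_add, hK]
        ring
      rw [Function.iterate_succ_apply', Function.iterate_succ_apply', e, Real.exp_add, Real.exp_add,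
        mul_assoc, mul_assoc]
      refine b3.trans (mul_le_mul (by linarith) (b1.trans ?_) (norm_nonneg _) (by positivity))
      exact mul_le_mul (by linarith) b6 (norm_nonneg _) (by positivity)
  intro s s' hs hs' i hi
  have ρ1 := one_le hl (hr i hi)
  refine ⟨(mem hl (hr i hi) c1 c2 ((near i hi s hs (main i hi s _ hs r0)).trans_lt
    (by linarith))).1, (le_sc ρ1 _).trans ?_⟩
  have b1 : ‖(r i).1‖ ≤ K * L := by
    have := (hr i hi).2.1
    nlinarith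
  rw [mul_assoc (K * L)]
  exact mul_le_mul b1 ((main i hi s s' hs hs').trans
    (mul_le_mul_of_nonneg_right (hE i hi) (norm_nonneg _))) (norm_nonneg _) (by nlinarith)

end Vale.Agent.P097EE
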