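import Vale.Agent.P097EE.Defs2
import Vale.Agent.P097EE.Lip

/-!
# P097EE: the obstacle is within a bounded number of steps of the top
-/

set_option linter.all false

noncomputable section

namespace Vale.Agent.P097EE

open Filter Topology Set Metric Complex

namespace CoreP

theorem an_mono {l L e l' L' e' : ℝ} {s : C2} (h : s ∈ An l L e) (h1 : l' ≤ l) (h2 : L ≤ L')
    (h3 : e ≤ e') : s ∈ An l' L' e' :=
  ⟨h1.trans_lt h.1, h.2.1.trans_le h2, h.2.2.trans_le h3⟩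

theorem an_ball {l L e c : ℝ} {r x : C2} (hl : 1 ≤ l) (hr : r ∈ An (2 * l) (L / 2) (e / 2))
    (c1 : c ≤ 1 / 10) (c2 : c ≤ e / 2) (hx : ‖x - r‖ < c) : x ∈ An l L e :=
  (Lip.mem hl hr c1 c2 ((Lip.sc_le (Lip.one_le hl hr) _).trans_lt hx)).1

/-- bounded analytic maps on the annulus are Lipschitz -/
theorem an_lip {E : Type} [NormedAddCommGroup E] [NormedSpace ℂ E] {f : C2 → E} {l L e c M : ℝ}
    {r x : C2} (hl : 1 ≤ l) (hr : r ∈ An (2 * l) (L / 2) (e / 2)) (c1 : c ≤ 1 / 10)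
    (c2 : c ≤ e / 2) (hf : ∀ s ∈ An l L e, AnalyticAt ℂ f s ∧ ‖f s‖ ≤ M) (hx : ‖x - r‖ < c) :
    ‖f x - f r‖ ≤ 2 * M / c * ‖x - r‖ := by
  have c0 : 0 < c := (norm_nonneg _).trans_lt hx
  have hb : ∀ z ∈ ball r c, AnalyticAt ℂ f z ∧ ‖f z‖ ≤ M := fun z hz =>
    hf z (an_ball hl hr c1 c2 (mem_ball_iff_norm.1 hz))
  have key := Complex.dist_le_div_mul_dist_of_mapsTo_ball (f := f) (c := r) (z := x) (R₁ := c)
    (R₂ := 2 * M) (fun z hz => (hb z hz).1.differentiableAt.differentiableWithinAt)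
    (fun z hz => by
      rw [mem_closedBall_iff_norm]
      linarith [norm_sub_le (f z) (f r), (hb z hz).2, (hb r (mem_ball_self c0)).2])
    (mem_ball_iff_norm.2 hx)
  rwa [dist_eq_norm, dist_eq_norm] at key

/-- the numbers at one scale -/
structure Nm (ℓ h : ℝ) (c : ℂ) (j₀ : ℕ) : Prop where
  l1 : 100 ≤ ℓ
  hh : 6 * ℓ ≤ h
  c1 : -(4 * ℓ) < c.im
  c2 : c.im < 2 * ℓ
  j1 : (j₀ : ℝ) ≤ c.re - 2 * ℓ
  j2 : c.re - 2 * ℓ - 1 ≤ j₀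

theorem ok {ℓ h y : ℝ} {c : ℂ} {j₀ j : ℕ} (N : Nm ℓ h c j₀) (hj : (j : ℝ) ≤ 4 * ℓ)
    (ho : j = 0 ∨ y ≤ -(6 * ℓ) + 2) : Ok 1 ℓ c y (j₀ + j) := by
  obtain ⟨l1, hh, c1, c2, j1, j2⟩ := N
  rcases ho with rfl | ho
  · left
    push_cast
    linarith
  · refine Or.inr ⟨ℓ, le_rfl, ?_, ?_⟩
    · linarith [neg_le_abs (y - c.im)]
    · push_cast
      linarith

theorem st {T Z α Φ : C2 → C2} {ℓ l₁ l L e B h lam s : ℝ} {c : ℂ} {J j₀ j : ℕ}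
    (sd : Sd T Z α Φ 1 ℓ l₁ l L e (1 / 400) B h lam s c J) (N : Nm ℓ h c j₀) {q : C2}
    (q1 : q ∈ Rc 0 2 (-(6 * ℓ)) 1 ×ˢ ball (0 : ℂ) 1) (hj : (j : ℝ) ≤ 4 * ℓ)
    (ho : j = 0 ∨ q.1.im ≤ -(6 * ℓ) + 2) :
    AnalyticAt ℂ (fun p => T^[j₀ + j] (Z p)) q ∧ T^[j₀ + j] (Z q) ∈ An (4 * l) (15 * ℓ) (e / 4) := by
  have o := ok N hj ho
  obtain ⟨l1, hh, c1, c2, j1, j2⟩ := N
  obtain ⟨⟨a1, a2, a3⟩, a4⟩ := q1
  rw [sub_zero] at a1
  rw [mem_ball_zero_iff] at a4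
  obtain ⟨b1, b2, -, b3, -⟩ := sd.app q (j₀ + j) (sd.alw q q.1.im (j₀ + j) (by linarith)
    (by linarith) (by linarith) (by linarith) (by simp) o)
  refine ⟨b1, b2.1, ?_, b2.2.2⟩
  have d1 := norm_le_abs_re_add_abs_im (q.1 + ((1 : ℝ) : ℂ) * ((j₀ + j : ℕ) : ℂ) - c)
  have d2 : (q.1 + ((1 : ℝ) : ℂ) * ((j₀ + j : ℕ) : ℂ) - c).re = q.1.re + (j₀ + j) - c.re := by simp
  have d3 : (q.1 + ((1 : ℝ) : ℂ) * ((j₀ + j : ℕ) : ℂ) - c).im = q.1.im - c.im := by simp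
  have j0 : (0 : ℝ) ≤ j := Nat.cast_nonneg j
  have d4 : |q.1.re + (j₀ + j) - c.re| ≤ 2 * ℓ + 3 := by
    rw [abs_lt] at a1
    rw [abs_le]
    constructor <;> linarith [a1.1, a1.2]
  have d5 : |q.1.im - c.im| ≤ 8 * ℓ := by
    rw [abs_le]
    constructor <;> linarith
  rw [d2, d3] at d1
  have d6 := norm_sub_norm_le ((T^[j₀ + j] (Z q)).1 ^ 2)
    (q.1 + ((1 : ℝ) : ℂ) * ((j₀ + j : ℕ) : ℂ) - c)
  rw [norm_pow] at d6
  linarith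

theorem cpt {𝒰 : Filter ℕ} {K : Set C2} {P : ℕ → C2 → Prop} (hK : IsCompact K)
    (h : ∀ s ∈ K, ∃ ρ > 0, ∀ᶠ n in 𝒰, ∀ x ∈ ball s ρ, P n x) : ∀ᶠ n in 𝒰, ∀ x ∈ K, P n x := by
  refine hK.induction_on (p := fun A => ∀ᶠ n in 𝒰, ∀ x ∈ A, P n x) (by simp)
    (fun A B e k => k.mono fun n hn x hx => hn x (e hx))
    (fun A B k k' => (k.and k').mono fun n hn x hx => hx.elim (hn.1 x) (hn.2 x)) fun s hs => ?_
  obtain ⟨ρ, hρ, k⟩ := h s hs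
  exact ⟨_, mem_nhdsWithin_of_mem_nhds (ball_mem_nhds s hρ), k⟩

theorem sh_an (c t : ℂ) : AnalyticAt ℂ (fun t : ℂ => sh (t, 0) c) t :=
  (analyticAt_id.add analyticAt_const).prod analyticAt_const

end CoreP

open CoreP in
theorem coreP (INNER : S_INNER) : S_CORE := by
  intro D 𝒰 ℓ C₁ cL cR g two cen lv x₁ x₂ x1 x2 x3
  have l1 : (100 : ℝ) ≤ ℓ := by exact_mod_cast two.l1
  have hl := g.loc.l1
  have he := g.loc.e0
  have A2 := g.gr.A2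
  obtain ⟨j₀, hj₀⟩ : ∃ j₀ : ℕ → ℕ, j₀ = fun n => ⌊(cL n).re - 2 * ℓ⌋₊ := ⟨_, rfl⟩
  have base : ∀ᶠ n in (𝒰 : Filter ℕ), Nm ℓ (D.h n) (cL n) (j₀ n) ∧ j₀ n + 4 * ℓ ≤ D.N n ∧
      30 * (ℓ : ℝ) ≤ D.L n := by
    filter_upwards [g.gr.hl.eventually_ge_atTop (6 * ℓ), lv, two.geo, g.nr.LK] with n a b c d
    have b1 : (j₀ n : ℝ) ≤ (cL n).re - 2 * ℓ := by
      rw [hj₀]
      exact Nat.floor_le (by linarith [c.2.2.1])
    have b2 : (cL n).re - 2 * ℓ < j₀ n + 1 := by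
      rw [hj₀]
      exact Nat.lt_floor_add_one _
    refine ⟨⟨l1, a, b.1, b.2, b1, by linarith⟩, ?_, by nlinarith [d.1]⟩
    have : ((j₀ n + 4 * ℓ : ℕ) : ℝ) ≤ D.N n := by
      push_cast
      linarith [c.2.2.2]
    exact_mod_cast this
  have hK : Tendsto D.K 𝒰 atTop := tendsto_atTop_mono' _ g.gr.hK g.gr.hl
  obtain ⟨K₀, m, k1, k2, m0, bd⟩ := g.loc.bd (30 * ℓ)
  obtain ⟨M, hM⟩ := k1.isBounded.exists_norm_le
  obtain ⟨c, c0, c1, c2⟩ : ∃ c : ℝ, 0 < c ∧ c ≤ 1 / 10 ∧ c ≤ D.e / 2 :=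
    ⟨min (1 / 10) (D.e / 2), lt_min (by norm_num) (by linarith), min_le_left _ _, min_le_right _ _⟩
  have cj : ∀ j : ℕ, j ≤ 4 * ℓ → (j : ℝ) ≤ 4 * ℓ := fun j hj => by exact_mod_cast hj
  have i1 : ∀ s ∈ An (4 * D.l) (15 * ℓ) (D.e / 4), s ∈ An D.l (30 * ℓ) D.e := fun s hs =>
    an_mono hs (by linarith) (by linarith) (by linarith)
  have i2 : ∀ s ∈ An (4 * D.l) (15 * ℓ) (D.e / 4), s ∈ An (2 * D.l) (30 * ℓ / 2) (D.e / 2) :=
    fun s hs => an_mono hs (by linarith) (by linarith) (by linarith)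
  obtain ⟨x, ρ, K₁, r0, r1, r2, r3, k3, k4, hS⟩ := INNER 𝒰 D.O D.F D.G D.Fn D.Gn (4 * ℓ) (6 * ℓ) m K₀
    (fun n j q => D.ι n ((D.T n)^[j₀ n + j] (D.L0 n q)))
    (fun n j q => D.v n ((D.T n)^[j₀ n + j] (D.L0 n q)))
    (fun n j t => D.σ n (sh (t, 0) (j₀ n + j : ℕ))) (fun n j t => D.u n (sh (t, 0) (j₀ n + j : ℕ)))
    g.loc.sys (by linarith) m0 k1 k2
    (by
      filter_upwards [base, two.sd 1 one_pos 0, bd, g.loc.aι] with n a b b' d q hq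
      obtain ⟨s1, s2⟩ := st b.1 a.1 hq (cj 0 (Nat.zero_le _)) (Or.inl rfl)
      exact ⟨AnalyticAt.comp (g := D.ι n) (d _ (an_mono (i1 _ s2) le_rfl a.2.2 le_rfl)).1 s1,
        (b' _ (i1 _ s2)).1⟩)
    (by
      filter_upwards [base, two.sd 1 one_pos 0, bd, g.loc.aι] with n a b b' d q hq j hj
      have hq' : q ∈ Rc 0 2 (-(6 * ℓ)) 1 ×ˢ ball (0 : ℂ) 1 :=
        ⟨⟨hq.1.1, hq.1.2.1, by linarith [hq.1.2.2]⟩, hq.2⟩
      obtain ⟨s1, s2⟩ := st b.1 a.1 hq' (cj j hj.le) (Or.inr hq.1.2.2.le)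
      obtain ⟨-, s3⟩ := st b.1 a.1 hq' (cj (j + 1) hj) (Or.inr hq.1.2.2.le)
      obtain ⟨-, d2, -, d4, d5⟩ := d _ (an_mono (i1 _ s2) le_rfl a.2.2 le_rfl)
      obtain ⟨e1, e2, e3⟩ := b' _ (i1 _ s2)
      rw [← add_assoc, Function.iterate_succ_apply'] at s3
      refine ⟨AnalyticAt.comp (g := D.v n) d2 s1, e1, e2, d4, e3, ?_⟩
      rw [← add_assoc, Function.iterate_succ_apply']
      exact (d5 (an_mono (i1 _ s3) le_rfl a.2.2 le_rfl)).symm)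
    (by
      intro lam hlam
      have z1 : Tendsto (fun n => 1 / D.K n ^ 1) 𝒰 (𝓝 0) := by
        simp only [pow_one, one_div]
        exact hK.inv_tendsto_atTop
      have z2 : ∀ b : ℝ, ∀ᶠ n in (𝒰 : Filter ℕ), b * (1 / D.K n ^ 1) < lam := fun b =>
        (z1.const_mul b).eventually_lt_const (by simpa using hlam)
      filter_upwards [base, two.sd lam hlam 1, bd, g.loc.aι, g.nr.tr lam hlam,
        z1.eventually_lt_const c0, z2 |2 * M / c|, z2 |2 * (1 / m) / c|] with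
        n a b b' d tr y1 y2 y3 t ht
      have hh := a.1.hh
      obtain ⟨t1, t2, t3⟩ := ht
      have hq : ((t, 0) : C2) ∈ Rc 0 2 (-(6 * ℓ)) 1 ×ˢ ball (0 : ℂ) 1 :=
        ⟨⟨t1, t2, by linarith⟩, mem_ball_self one_pos⟩
      rw [sub_zero] at t1
      have hC : ((t, 0) : C2) ∈ Cn (D.h n) lam :=
        ⟨by linarith, by linarith, by simpa using t3, by simp⟩
      have tr' := tr (t, 0) ⟨by nlinarith, by linarith, by linarith, by simp⟩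
        (by simpa using t3.le)
      have cl : ∀ j ≤ 4 * ℓ, (j = 0 ∨ t.im ≤ -(6 * ℓ) + 2) →
          D.α n (sh (t, 0) (j₀ n + j : ℕ)) = (D.T n)^[j₀ n + j] (D.L0 n (D.ΦL n (t, 0))) ∧
          ‖D.α n (sh (t, 0) (j₀ n + j : ℕ)) - (D.T n)^[j₀ n + j] (D.L0 n (t, 0))‖ ≤
            1 / D.K n ^ 1 := by
        intro j hj ho
        have := b.1.tr (t, 0) hC (j₀ n + j) (by omega) (ok a.1 (cj j hj) ho)
        rwa [ofReal_one, one_mul] at this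
      have inA : ∀ j ≤ 4 * ℓ, (j = 0 ∨ t.im ≤ -(6 * ℓ) + 2) →
          D.α n (sh (t, 0) (j₀ n + j : ℕ)) ∈ An D.l (D.L n) D.e := fun j hj ho =>
        an_mono (an_ball hl (i2 _ (st b.1 a.1 hq (cj j hj) ho).2) c1 c2
          ((cl j hj ho).2.trans_lt y1)) le_rfl a.2.2 le_rfl
      have lp : ∀ {E : Type} [NormedAddCommGroup E] [NormedSpace ℂ E] (f : C2 → E) (B : ℝ),
          (∀ s ∈ An D.l (30 * ℓ) D.e, AnalyticAt ℂ f s ∧ ‖f s‖ ≤ B) →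
          |2 * B / c| * (1 / D.K n ^ 1) < lam → ∀ j ≤ 4 * ℓ, (j = 0 ∨ t.im ≤ -(6 * ℓ) + 2) →
          ‖f (D.α n (sh (t, 0) (j₀ n + j : ℕ))) - f ((D.T n)^[j₀ n + j] (D.L0 n (t, 0)))‖ ≤ lam := by
        intro E _ _ f B hf hB j hj ho
        refine (an_lip hl (i2 _ (st b.1 a.1 hq (cj j hj) ho).2) c1 c2 hf
          ((cl j hj ho).2.trans_lt y1)).trans (le_trans ?_ hB.le)
        exact mul_le_mul (le_abs_self _) (cl j hj ho).2 (norm_nonneg _) (abs_nonneg _)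
      refine ⟨?_, fun j hj => ?_⟩
      · have := ((tr' (j₀ n + 0) (by omega)).2.2.2.2 (inA 0 (Nat.zero_le _) (Or.inl rfl))).1
        show ‖D.σ n (sh (t, 0) (j₀ n + 0 : ℕ)) - D.ι n ((D.T n)^[j₀ n + 0] (D.L0 n (t, 0)))‖ ≤ lam
        rw [this]
        exact lp (D.ι n) M (fun s hs => ⟨(d s (an_mono hs le_rfl a.2.2 le_rfl)).1,
          hM _ (b' s hs).1⟩) y2 0 (Nat.zero_le _) (Or.inl rfl)
      · obtain ⟨-, u1, u2, u3, u4⟩ := tr' (j₀ n + j) (by omega)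
        have e : ((j₀ n + j : ℕ) : ℂ) + 1 = ((j₀ n + (j + 1) : ℕ) : ℂ) := by
          push_cast
          ring
        rw [e] at u3 u4
        refine ⟨AnalyticAt.comp (g := D.σ n) u1 (sh_an _ t),
          AnalyticAt.comp (g := D.u n) u2 (sh_an _ t), u3, fun lo => ?_⟩
        have := (u4 (inA j hj.le (Or.inr lo.le))).2 (by
          rw [(cl j hj.le (Or.inr lo.le)).1, (cl (j + 1) hj (Or.inr lo.le)).1, ← add_assoc,
            Function.iterate_succ_apply'])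
        show ‖D.u n (sh (t, 0) (j₀ n + j : ℕ)) - D.v n ((D.T n)^[j₀ n + j] (D.L0 n (t, 0)))‖ ≤ lam
        rw [this]
        exact lp (D.v n) (1 / m) (fun s hs => ⟨(d s (an_mono hs le_rfl a.2.2 le_rfl)).2.1,
          (b' s hs).2.1⟩) y3 j hj.le (Or.inr lo.le))
    x₁ x₂ x1 x2 x3
  have hκ : ∀ᶠ n in (𝒰 : Filter ℕ), ∀ s ∈ K₁, AnalyticAt ℂ (D.κ n) s ∧ ‖D.κ n s‖ ≤ D.K n := by
    refine cpt k3 fun s hs => ?_
    obtain ⟨r, B, hr, k⟩ := g.loc.aκ s (k4 hs)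
    refine ⟨r, hr, ?_⟩
    filter_upwards [k, hK.eventually_ge_atTop B] with n a b y hy
    exact ⟨a.1 y hy, (a.2 y hy).trans b⟩
  refine ⟨x, ρ, 6 * ℓ - 1 / 2, r0, r1, r2, r3, by linarith, ?_⟩
  filter_upwards [base, two.sd 1 one_pos 0, g.loc.aι, hS, hκ, cen] with n a b d ⟨S', hS'⟩ kp ce
  refine ⟨j₀ n + 4 * ℓ, fun q => D.κ n (S' q), a.2.1, fun y _ => Or.inl ?_,
    fun y hy => ok a.1 (cj _ le_rfl) (Or.inr (by linarith [hy.2])), fun q hq => ?_⟩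
  · have e1 : max 0 (cL n).im ≤ 2 * ℓ := max_le (by linarith) a.1.c2.le
    have e2 := neg_le_of_abs_le (abs_re_le_norm (cL n - cR n))
    rw [sub_re] at e2
    rw [Nat.cast_sub a.2.1, sub_re, natCast_re]
    push_cast
    linarith [a.1.j2]
  · obtain ⟨⟨q1, q2, q3⟩, q4⟩ := hq
    obtain ⟨s1, s2, s3⟩ := hS' q ⟨⟨q1, by linarith, q3⟩, q4⟩
    refine ⟨AnalyticAt.comp (g := D.κ n) (kp _ s2).1 s1, (kp _ s2).2, fun lo => ?_⟩
    have hq' : q ∈ Rc 0 2 (-(6 * ℓ)) 1 ×ˢ ball (0 : ℂ) 1 := by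
      rw [abs_lt] at q1
      refine ⟨⟨?_, by linarith, by linarith⟩, ball_subset_ball (by linarith) q4⟩
      rw [sub_zero, abs_lt]
      constructor <;> linarith [q1.1, q1.2]
    have s4 := (st b.1 a.1 hq' (cj _ le_rfl) (Or.inr (by linarith))).2
    show D.κ n (S' q) = _
    rw [s3 (by linarith)]
    exact (d _ (an_mono (i1 _ s4) le_rfl a.2.2 le_rfl)).2.2.1

end Vale.Agent.P097EE
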