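import Vale.Agent.P097EE.Defs

/-! # P097EE: a transition which is defined up to the top -/

set_option linter.all false

noncomputable section

namespace Vale.Agent.P097EE

open Filter Topology Set Metric Complex

theorem fr_eq (x b y₁ y₂ : ℝ) :
    Rc x b y₁ y₂ = (reLm ⁻¹' Ioo (x - b) (x + b)) ∩ (imLm ⁻¹' Ioo y₁ y₂) := by
  ext y
  simp only [Rc, mem_setOf_eq, mem_inter_iff, mem_preimage, mem_Ioo, abs_lt, reLm_coe, imLm_coe]
  constructor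
  · rintro ⟨⟨h1, h2⟩, h3, h4⟩
    exact ⟨⟨by linarith, by linarith⟩, h3, h4⟩
  · rintro ⟨⟨h1, h2⟩, h3, h4⟩
    exact ⟨⟨by linarith, by linarith⟩, h3, h4⟩

theorem fr_cvx (x b y₁ y₂ : ℝ) : Convex ℝ (Rc x b y₁ y₂) := by
  rw [fr_eq]
  exact ((convex_Ioo _ _).linear_preimage _).inter ((convex_Ioo _ _).linear_preimage _)

theorem fr_open (x b y₁ y₂ : ℝ) : IsOpen (Rc x b y₁ y₂) := by
  rw [fr_eq]
  exact (isOpen_Ioo.preimage continuous_re).inter (isOpen_Ioo.preimage continuous_im)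

theorem fr_near {p q : C2} {δ : ℝ} (h : ‖p - q‖ ≤ δ) :
    |p.1.re - q.1.re| ≤ δ ∧ |p.1.im - q.1.im| ≤ δ ∧ ‖p.2‖ ≤ ‖q.2‖ + δ := by
  have h1 : ‖p.1 - q.1‖ ≤ δ := (norm_fst_le (p - q)).trans h
  have h2 : ‖p.2 - q.2‖ ≤ δ := (norm_snd_le (p - q)).trans h
  refine ⟨(abs_re_le_norm (p.1 - q.1)).trans h1, (abs_im_le_norm (p.1 - q.1)).trans h1, ?_⟩
  linarith [norm_sub_norm_le p.2 q.2]

theorem far : S_FAR := by
  intro 𝒰 A h w K S CL ZL ΦL CR ZR ΦR G ch pL pR fr x₁ x₂ a1 a2 a3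
  set ρ := min (1 / 10) ((x₂ - x₁) / 2) with hρ
  have r0 : 0 < ρ := lt_min (by norm_num) (by linarith)
  have r1 : ρ ≤ 1 / 10 := min_le_left _ _
  have r2 : ρ ≤ (x₂ - x₁) / 2 := min_le_right _ _
  refine ⟨(x₁ + x₂) / 2, ρ, r0, r1, by linarith, by linarith, fun e e0 => ?_⟩
  filter_upwards [ch, pL (1 / 4) (by norm_num) 2, pR (1 / 4) (by norm_num) 2, fr, G.hK,
    G.hl.eventually_ge_atTop 4, G.hl.eventually_ge_atTop (1 / e)] with n ch pL pR fr hK h4 he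
  obtain ⟨B, b1, b2⟩ := fr
  have A2 := G.A2
  generalize h n = h at *
  generalize K n = K at *
  have K0 : 0 < K := by linarith
  have sm : ∀ t : ℝ, 0 ≤ t → t * K ^ 2 ≤ 1 → t ≤ (4 * K)⁻¹ := fun t t0 k => by
    rw [← one_div, le_div_iff₀ (by positivity)]
    nlinarith [mul_nonneg t0 K0.le]
  have sb : ∀ t : ℝ, t * (4 * K) ≤ 1 → t ≤ (4 * K)⁻¹ := fun t k => by
    rwa [← one_div, le_div_iff₀ (by positivity)]
  have k1 : (4 * K)⁻¹ ≤ 1 := inv_le_one_of_one_le₀ (by linarith)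
  have k0 : 0 < K⁻¹ := by positivity
  have k2 : (4 * K)⁻¹ = K⁻¹ / 4 := by field_simp
  have k3 : (2 * K)⁻¹ = K⁻¹ / 2 := by field_simp
  refine ⟨fun q => q + B q, fun q hq => ?_, ?_⟩
  · obtain ⟨⟨q1, q2, q3⟩, q4⟩ := hq
    have q5 := mem_ball_zero_iff.1 q4
    rw [abs_lt] at q1
    obtain ⟨c1, c2⟩ := b1 q ⟨abs_le.2 ⟨by linarith, by linarith⟩, by linarith, by linarith,
      by linarith⟩
    refine ⟨analyticAt_id.add c1, ?_⟩
    rw [add_sub_cancel_left]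
    refine (sb _ c2).trans ?_
    rw [inv_le_comm₀ (by positivity) e0, ← one_div]
    linarith
  let W : Set C2 := Rc 0 1 (-h) (-(1 / 2)) ×ˢ ball (0 : ℂ) (1 / 10)
  have m1 : ∀ q ∈ W, q ∈ Bx (50 * A * h) (-h) 2 2 ∧ q.1.im ≤ om0 q.2 - 1 / 4 := by
    rintro q ⟨⟨q1, q2, q3⟩, q4⟩
    have q5 := mem_ball_zero_iff.1 q4
    rw [sub_zero] at q1
    exact ⟨⟨by nlinarith, q2.le, by linarith, by linarith⟩, by rw [om0]; linarith⟩
  have nL : ∀ q ∈ W, ‖ΦL n q - q‖ ≤ (4 * K)⁻¹ := fun q hq =>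
    sm _ (norm_nonneg _) (pL q (m1 q hq).1 (m1 q hq).2).2.2.1
  have m2 : ∀ q ∈ W, ΦL n q ∈ Bx 2 (-h - 1) 1 2 := fun q hq => by
    obtain ⟨u1, u2, u3⟩ := fr_near ((nL q hq).trans k1)
    obtain ⟨⟨q1, q2, q3⟩, q4⟩ := hq
    have q5 := mem_ball_zero_iff.1 q4
    rw [sub_zero, abs_lt] at q1
    rw [abs_le] at u1 u2
    exact ⟨abs_le.2 ⟨by linarith, by linarith⟩, by linarith, by linarith, by linarith⟩
  have a : AnalyticOnNhd ℂ (fun q => ΦL n q + B (ΦL n q)) W := fun q hq =>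
    (pL q (m1 q hq).1 (m1 q hq).2).1.add
      ((b1 _ (m2 q hq)).1.comp (pL q (m1 q hq).1 (m1 q hq).2).1)
  have b : AnalyticOnNhd ℂ (ΦR n) W := fun q hq => (pR q (m1 q hq).1 (m1 q hq).2).1
  have oW : IsOpen W := (fr_open _ _ _ _).prod isOpen_ball
  have oD : IsOpen (Dp h) := (fr_open _ _ _ _).prod isOpen_ball
  have z1 : ((⟨0, -h + 1 / 2⟩ : ℂ), (0 : ℂ)) ∈ W :=
    ⟨⟨by simp, by simp, by simp; linarith⟩, mem_ball_self (by norm_num)⟩
  have z2 : ((⟨0, -h + 1 / 2⟩ : ℂ), (0 : ℂ)) ∈ Dp h :=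
    ⟨⟨by simp, by simp, by simp; norm_num⟩, mem_ball_self (by norm_num)⟩
  have E := b.eqOn_of_preconnected_of_eventuallyEq a
    ((fr_cvx _ _ _ _).prod (convex_ball _ _)).isPreconnected z1 (by
      filter_upwards [oW.mem_nhds z1, oD.mem_nhds z2] with q hq hd
      have u1 := nL q hq
      have u2 := sm _ (norm_nonneg _) (pR q (m1 q hq).1 (m1 q hq).2).2.2.1
      have u3 := sb _ (b1 _ (m2 q hq)).2
      have u4 := b2 q hd (ΦL n q) (mem_ball_iff_norm.2 (by linarith))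
        (pL q (m1 q hq).1 (m1 q hq).2).2.1
      have u5 : ‖ΦL n q + B (ΦL n q) - q‖ < K⁻¹ := by
        rw [add_sub_right_comm]
        linarith [norm_add_le (ΦL n q - q) (B (ΦL n q))]
      have u6 := ((ch q hd).2 (ΦR n q) (mem_ball_iff_norm.2 (by linarith)) _
        (mem_ball_iff_norm.2 u5)).1
      rw [u4, (pR q (m1 q hq).1 (m1 q hq).2).2.1, sub_self, norm_zero, mul_zero] at u6
      exact sub_eq_zero.1 (norm_le_zero_iff.1 u6))
  rintro q ⟨⟨q1, q2, q3⟩, q4⟩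
  have q5 := mem_ball_zero_iff.1 q4
  rw [abs_lt] at q1
  exact E ⟨⟨by rw [sub_zero, abs_lt]; constructor <;> linarith, by linarith, by linarith⟩,
    mem_ball_zero_iff.2 (by linarith)⟩

end Vale.Agent.P097EE
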