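import Vale.Agent.P097S.Lip

/-!
# P097EE: continuation along a family of discs whose boundaries carry two one-sided continuations
-/

set_option linter.all false

noncomputable section

namespace Vale.Agent.P097EE.End

open Set Metric Filter Topology Complex
open Vale.Agent.P097T (Strip)

variable {E : Type*} [NormedAddCommGroup E] [NormedSpace ℂ E] [CompleteSpace E]

/-- the Cauchy integral in the second variable -/
def cau (G : ℂ × ℂ → E) (q : ℂ × ℂ) : E :=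
  (2 * Real.pi * I : ℂ)⁻¹ • ∮ u in C(0, 1), (u - q.2)⁻¹ • G (q.1, u)

theorem cau_an {G : ℂ × ℂ → E} {q : ℂ × ℂ} (h : ∀ u ∈ sphere (0 : ℂ) 1, AnalyticAt ℂ G (q.1, u))
    (hq : ‖q.2‖ < 1) : AnalyticAt ℂ (cau G) q := by
  have o : IsOpen {p : (ℂ × ℂ) × ℂ | AnalyticAt ℂ G (p.1.1, p.2) ∧ p.2 - p.1.2 ≠ 0} :=
    ((isOpen_analyticAt ℂ G).preimage (by fun_prop)).inter
      (isOpen_ne_fun (by fun_prop) continuous_const)
  obtain ⟨V, W, hV, hW, h1, h2, h3⟩ := generalized_tube_lemma (s := {q}) (t := sphere (0 : ℂ) 1)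
    isCompact_singleton (isCompact_sphere 0 1) o (by
      rintro ⟨x, u⟩ ⟨rfl, hu⟩
      refine ⟨h u hu, fun k => ?_⟩
      have e : u = x.2 := sub_eq_zero.1 k
      rw [← e, mem_sphere_zero_iff_norm.1 hu] at hq
      exact lt_irrefl _ hq)
  have k := P097.Hol.differentiableOn_circleIntegral (c := 0) (R := 1)
    (G := fun p : (ℂ × ℂ) × ℂ => (p.2 - p.1.2)⁻¹ • G (p.1.1, p.2)) zero_le_one hV hW h2
    (fun p hp => DifferentiableAt.differentiableWithinAt (DifferentiableAt.fun_smul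
      (DifferentiableAt.fun_inv (by fun_prop) (h3 hp).2)
      (DifferentiableAt.comp (f := fun p : (ℂ × ℂ) × ℂ => (p.1.1, p.2)) p
        (h3 hp).1.differentiableAt (by fun_prop))))
  exact P097.Hol.analyticAt_of_differentiableOn hV (k.const_smul (2 * Real.pi * I : ℂ)⁻¹) (h1 rfl)

theorem cau_eq {G H : ℂ × ℂ → E} {q : ℂ × ℂ}
    (h : ∀ u ∈ closedBall (0 : ℂ) 1, AnalyticAt ℂ H (q.1, u))
    (e : ∀ u ∈ sphere (0 : ℂ) 1, G (q.1, u) = H (q.1, u)) (hq : ‖q.2‖ < 1) : cau G q = H q := by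
  have k : ∀ u ∈ closedBall (0 : ℂ) 1, DifferentiableAt ℂ (fun u => H (q.1, u)) u := fun u hu =>
    DifferentiableAt.comp (f := fun u : ℂ => (q.1, u)) _ (h u hu).differentiableAt (by fun_prop)
  rw [cau, circleIntegral.integral_congr zero_le_one
    (g := fun u => (u - q.2)⁻¹ • H (q.1, u)) fun u hu => by simp only [e u hu]]
  exact Complex.two_pi_I_inv_smul_circleIntegral_sub_inv_smul_of_differentiable_on_off_countable
    (f := fun u => H (q.1, u)) countable_empty (mem_ball_zero_iff.2 hq)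
    (fun u hu => (k u hu).continuousAt.continuousWithinAt)
    fun u hu => k u (ball_subset_closedBall hu.1)

theorem cau_le {G : ℂ × ℂ → E} {q : ℂ × ℂ} {B : ℝ}
    (h : ∀ u ∈ sphere (0 : ℂ) 1, ‖G (q.1, u)‖ ≤ B) (hq : ‖q.2‖ < 1) :
    ‖cau G q‖ ≤ (1 - ‖q.2‖)⁻¹ * B := by
  have k := circleIntegral.norm_two_pi_i_inv_smul_integral_le_of_norm_le_const (c := 0) (R := 1)
    (f := fun u => (u - q.2)⁻¹ • G (q.1, u)) (C := (1 - ‖q.2‖)⁻¹ * B) zero_le_one fun u hu => by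
      rw [norm_smul, norm_inv]
      refine mul_le_mul (inv_anti₀ (by linarith) ?_) (h u hu) (norm_nonneg _)
        (inv_nonneg.2 (by linarith))
      have := norm_sub_norm_le u q.2
      rwa [mem_sphere_zero_iff_norm.1 hu] at this
  rwa [one_mul] at k

/-- continuation in the coordinates of the family -/
theorem hart {G H : ℂ × ℂ → E} {V : Set ℂ} {ξ₀ : ℂ} (hV : IsOpen V) (hc : IsPreconnected V)
    (h₀ : ξ₀ ∈ V) (h1 : ∀ ξ ∈ V, ∀ u ∈ sphere (0 : ℂ) 1, AnalyticAt ℂ G (ξ, u))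
    (h2 : ∀ u ∈ closedBall (0 : ℂ) 1, AnalyticAt ℂ H (ξ₀, u))
    (h3 : ∀ u ∈ sphere (0 : ℂ) 1, G =ᶠ[𝓝 (ξ₀, u)] H) :
    AnalyticOnNhd ℂ (cau G) (V ×ˢ ball 0 1) ∧ cau G =ᶠ[𝓝 (ξ₀, 0)] H ∧
      ∀ ξ ∈ V, ∀ z ∈ ball (0 : ℂ) 1, ∀ (l : E →L[ℂ] ℂ) (b : ℝ),
        (∀ u ∈ sphere (0 : ℂ) 1, (l (G (ξ, u))).re ≤ b) → (l (cau G (ξ, z))).re ≤ b := by
  have ev : ∀ᶠ q : ℂ × ℂ in 𝓝 (ξ₀, 0), (∀ u ∈ closedBall (0 : ℂ) 1, AnalyticAt ℂ H (q.1, u)) ∧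
      (∀ u ∈ sphere (0 : ℂ) 1, G (q.1, u) = H (q.1, u)) ∧ ‖q.2‖ < 1 := by
    have a1 : ∀ᶠ ξ in 𝓝 ξ₀, ∀ u ∈ closedBall (0 : ℂ) 1, AnalyticAt ℂ H (ξ, u) :=
      (isCompact_closedBall 0 1).eventually_forall_of_forall_eventually fun u hu =>
        (h2 u hu).eventually_analyticAt
    have a2 : ∀ᶠ ξ in 𝓝 ξ₀, ∀ u ∈ sphere (0 : ℂ) 1, G (ξ, u) = H (ξ, u) :=
      (isCompact_sphere 0 1).eventually_forall_of_forall_eventually fun u hu => h3 u hu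
    have a3 : ∀ᶠ z : ℂ in 𝓝 0, ‖z‖ < 1 :=
      (ball_mem_nhds (0 : ℂ) one_pos) |> fun h => Filter.mem_of_superset h fun z hz =>
        mem_ball_zero_iff.1 hz
    filter_upwards [continuous_fst.continuousAt.eventually (a1.and a2),
      continuous_snd.continuousAt.eventually a3] with q q1 q2
    exact ⟨q1.1, q1.2, q2⟩
  have A : AnalyticOnNhd ℂ (cau G) (V ×ˢ ball 0 1) := fun q hq =>
    cau_an (h1 q.1 hq.1) (mem_ball_zero_iff.1 hq.2)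
  have B : cau G =ᶠ[𝓝 (ξ₀, 0)] H := ev.mono fun q hq => cau_eq hq.1 hq.2.1 hq.2.2
  refine ⟨A, B, fun ξ hξ z hz l b hb => ?_⟩
  have z1 := mem_ball_zero_iff.1 hz
  have key : ∀ n : ℕ, Real.exp (n * (l (cau G (ξ, z))).re) ≤ (1 - ‖z‖)⁻¹ * Real.exp (n * b) := by
    intro n
    have a : ∀ (K : ℂ × ℂ → E) (q : ℂ × ℂ), AnalyticAt ℂ K q →
        AnalyticAt ℂ (fun p => exp (n * l (K p))) q := fun K q hq =>
      (analyticAt_const.mul ((l.analyticAt _).comp hq)).cexp'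
    have e := AnalyticOnNhd.eqOn_of_preconnected_of_eventuallyEq
      (f := fun p => exp (n * l (cau G p))) (g := cau fun p => exp (n * l (G p)))
      (fun q hq => a _ q (A q hq))
      (fun q hq => cau_an (fun u hu => a G _ (h1 q.1 hq.1 u hu)) (mem_ball_zero_iff.1 hq.2))
      (hc.prod (convex_ball (0 : ℂ) 1).isPreconnected) (z₀ := (ξ₀, 0))
      ⟨h₀, mem_ball_self one_pos⟩ (by
        filter_upwards [ev, B] with q hq hq'
        rw [hq', cau_eq (H := fun p => exp (n * l (H p))) (fun u hu => a H _ (hq.1 u hu))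
          (fun u hu => by simp only [hq.2.1 u hu]) hq.2.2])
      (show (ξ, z) ∈ V ×ˢ ball (0 : ℂ) 1 from ⟨hξ, hz⟩)
    have k := cau_le (G := fun p => exp (n * l (G p))) (q := (ξ, z)) (B := Real.exp (n * b))
      (fun u hu => by
        rw [norm_exp, ← ofReal_natCast, re_ofReal_mul]
        exact Real.exp_le_exp.2 (mul_le_mul_of_nonneg_left (hb u hu) (Nat.cast_nonneg n))) z1
    rw [← e] at k
    simp only [norm_exp] at k
    rwa [← ofReal_natCast, re_ofReal_mul] at k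
  by_contra hn
  push Not at hn
  obtain ⟨n, hn'⟩ := exists_nat_gt ((1 - ‖z‖)⁻¹ / ((l (cau G (ξ, z))).re - b))
  rw [div_lt_iff₀ (by linarith)] at hn'
  have k1 := key n
  have k2 := Real.add_one_le_exp (n * ((l (cau G (ξ, z))).re - b))
  have k3 : Real.exp (n * (l (cau G (ξ, z))).re) =
      Real.exp (n * ((l (cau G (ξ, z))).re - b)) * Real.exp (n * b) := by
    rw [← Real.exp_add]
    congr 1
    ring
  rw [k3] at k1
  have k4 := le_of_mul_le_mul_right k1 (Real.exp_pos _)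
  linarith

/-- germs along a connected set, from one germ -/
theorem spread {F G : ℂ × ℂ → E} {K : Set ℂ} {w x₀ : ℂ} (hK : IsPreconnected K) (h0 : x₀ ∈ K)
    (ha : ∀ x ∈ K, AnalyticAt ℂ F (x, w) ∧ AnalyticAt ℂ G (x, w)) (he : F =ᶠ[𝓝 (x₀, w)] G) :
    ∀ x ∈ K, F =ᶠ[𝓝 (x, w)] G := by
  have oA : IsOpen {t : ℂ | F =ᶠ[𝓝 (t, w)] G} :=
    isOpen_setOf_eventually_nhds.preimage (Continuous.prodMk_left w)
  refine hK.subset_of_closure_inter_subset oA ⟨x₀, h0, he⟩ ?_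
  rintro x ⟨x1, x2⟩
  obtain ⟨η, hη, hb⟩ := Metric.eventually_nhds_iff_ball.mp
    ((ha x x2).1.eventually_analyticAt.and (ha x x2).2.eventually_analyticAt)
  obtain ⟨y, y1, y2⟩ := Metric.mem_closure_iff.mp x1 η hη
  have k := AnalyticOnNhd.eqOn_of_preconnected_of_eventuallyEq (fun q hq => (hb q hq).1)
    (fun q hq => (hb q hq).2) (convex_ball _ _).isPreconnected (z₀ := (y, w))
    (by rw [mem_ball, dist_comm]; simpa using y2) y1
  exact (isOpen_ball.eventually_mem (mem_ball_self hη)).mono fun q hq => k hq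

/-- the family of discs -/
def dsc (φ : ℂ → ℂ) (w₀ s : ℂ) (q : ℂ × ℂ) : ℂ × ℂ := (q.1 + φ q.2, w₀ + s * q.2)

/-- the union of the open discs -/
def Dom (V : Set ℂ) (φ : ℂ → ℂ) (w₀ s : ℂ) : Set (ℂ × ℂ) :=
  {q | q.1 - φ ((q.2 - w₀) / s) ∈ V ∧ ‖(q.2 - w₀) / s‖ < 1}

theorem dom_open {V : Set ℂ} {φ : ℂ → ℂ} {w₀ s : ℂ} (hV : IsOpen V) (hφ : Differentiable ℂ φ) :
    IsOpen (Dom V φ w₀ s) := by
  have c := hφ.continuous
  exact (hV.preimage (f := fun q : ℂ × ℂ => q.1 - φ ((q.2 - w₀) / s)) (by fun_prop)).inter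
    (isOpen_lt (f := fun q : ℂ × ℂ => ‖(q.2 - w₀) / s‖) (by fun_prop) continuous_const)

/-- **the end lemma**: `Yp` on the upper half circles, `Ym` on the lower half circles -/
theorem fin {Y Yp Ym : ℂ × ℂ → E} {V : Set ℂ} {φ : ℂ → ℂ} {w₀ s ξ₀ : ℂ} (hV : IsOpen V)
    (hc : IsPreconnected V) (h₀ : ξ₀ ∈ V) (hs : s ≠ 0) (hφ : Differentiable ℂ φ)
    (hp : ∀ ξ ∈ V, ∀ z ∈ sphere (0 : ℂ) 1, 0 ≤ z.im → AnalyticAt ℂ Yp (dsc φ w₀ s (ξ, z)))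
    (hm : ∀ ξ ∈ V, ∀ z ∈ sphere (0 : ℂ) 1, z.im ≤ 0 → AnalyticAt ℂ Ym (dsc φ w₀ s (ξ, z)))
    (hY : ∀ z ∈ closedBall (0 : ℂ) 1, AnalyticAt ℂ Y (dsc φ w₀ s (ξ₀, z)))
    (ep : ∀ z ∈ sphere (0 : ℂ) 1, 0 ≤ z.im → Yp =ᶠ[𝓝 (dsc φ w₀ s (ξ₀, z))] Y)
    (em : ∀ z ∈ sphere (0 : ℂ) 1, z.im ≤ 0 → Ym =ᶠ[𝓝 (dsc φ w₀ s (ξ₀, z))] Y) :
    ∃ F : ℂ × ℂ → E, AnalyticOnNhd ℂ F (Dom V φ w₀ s) ∧ F =ᶠ[𝓝 (ξ₀ + φ 0, w₀)] Y ∧
      ∀ q ∈ Dom V φ w₀ s, ∃ ξ ∈ V, ∀ (l : E →L[ℂ] ℂ) (b : ℝ),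
        (∀ z ∈ sphere (0 : ℂ) 1, (0 ≤ z.im → (l (Yp (dsc φ w₀ s (ξ, z)))).re ≤ b) ∧
          (z.im ≤ 0 → (l (Ym (dsc φ w₀ s (ξ, z)))).re ≤ b)) → (l (F q)).re ≤ b := by
  classical
  have aφ : ∀ z, AnalyticAt ℂ φ z := fun z => hφ.analyticAt z
  have aγ : ∀ q, AnalyticAt ℂ (dsc φ w₀ s) q := fun q =>
    (analyticAt_fst.add ((aφ _).comp analyticAt_snd)).prod
      (analyticAt_const.add (analyticAt_const.mul analyticAt_snd))
  let G : ℂ × ℂ → E := fun q => if 0 ≤ q.2.im then Yp (dsc φ w₀ s q) else Ym (dsc φ w₀ s q)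
  have pm : ∀ z ∈ sphere (0 : ℂ) 1, z.im = 0 → ∀ ξ ∈ V,
      (fun q => Yp (dsc φ w₀ s q)) =ᶠ[𝓝 (ξ, z)] fun q => Ym (dsc φ w₀ s q) := fun z hz z0 =>
    spread hc h₀ (fun ξ hξ => ⟨(hp ξ hξ z hz z0.ge).comp (aγ _), (hm ξ hξ z hz z0.le).comp (aγ _)⟩)
      ((aγ _).continuousAt.eventually ((ep z hz z0.ge).trans (em z hz z0.le).symm))
  have ci : Continuous fun q : ℂ × ℂ => q.2.im := by fun_prop
  have Gp : ∀ ξ ∈ V, ∀ z ∈ sphere (0 : ℂ) 1, 0 ≤ z.im →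
      G =ᶠ[𝓝 (ξ, z)] fun q => Yp (dsc φ w₀ s q) := fun ξ hξ z hz z0 => by
    rcases z0.eq_or_lt with e | e
    · filter_upwards [pm z hz e.symm ξ hξ] with q hq
      simp only [G]
      split_ifs
      · rfl
      · exact hq.symm
    · filter_upwards [ci.continuousAt.eventually (lt_mem_nhds (a := (0 : ℝ)) (b := (ξ, z).2.im) e)]
        with q hq
      exact if_pos hq.le
  have Gm : ∀ ξ : ℂ, ∀ z : ℂ, z.im < 0 → G =ᶠ[𝓝 (ξ, z)] fun q => Ym (dsc φ w₀ s q) :=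
    fun ξ z e => by
      filter_upwards [ci.continuousAt.eventually (gt_mem_nhds (a := (0 : ℝ)) (b := (ξ, z).2.im) e)]
        with q hq
      exact if_neg (not_le.2 hq)
  obtain ⟨A, B, C⟩ := hart (G := G) (H := fun q => Y (dsc φ w₀ s q)) hV hc h₀
    (fun ξ hξ z hz => by
      rcases le_or_gt 0 z.im with e | e
      · exact ((hp ξ hξ z hz e).comp (aγ _)).congr (Gp ξ hξ z hz e).symm
      · exact ((hm ξ hξ z hz e.le).comp (aγ _)).congr (Gm ξ z e).symm)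
    (fun z hz => (hY z hz).comp (aγ _))
    (fun z hz => by
      rcases le_or_gt 0 z.im with e | e
      · exact (Gp ξ₀ h₀ z hz e).trans ((aγ _).continuousAt.eventually (ep z hz e))
      · exact (Gm ξ₀ z e).trans ((aγ _).continuousAt.eventually (em z hz e.le)))
  let ι : ℂ × ℂ → ℂ × ℂ := fun q => (q.1 - φ ((q.2 - w₀) / s), (q.2 - w₀) / s)
  have aι : ∀ q, AnalyticAt ℂ ι q := fun q => by
    have a : AnalyticAt ℂ (fun q : ℂ × ℂ => (q.2 - w₀) / s) q :=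
      (analyticAt_snd.sub analyticAt_const).div_const
    exact (analyticAt_fst.sub ((aφ _).comp (f := fun q : ℂ × ℂ => (q.2 - w₀) / s) a)).prod a
  have inv : ∀ q, dsc φ w₀ s (ι q) = q := fun q => by
    refine Prod.ext (sub_add_cancel _ _) ?_
    simp only [dsc, ι]
    rw [mul_div_cancel₀ _ hs, add_sub_cancel]
  have mem : ∀ q ∈ Dom V φ w₀ s, ι q ∈ V ×ˢ ball (0 : ℂ) 1 := fun q hq =>
    ⟨hq.1, mem_ball_zero_iff.2 hq.2⟩
  refine ⟨fun q => cau G (ι q), fun q hq => (A _ (mem q hq)).comp (aι q), ?_, fun q hq =>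
    ⟨(ι q).1, hq.1, fun l b hb => C _ hq.1 _ (mem q hq).2 l b fun z hz => ?_⟩⟩
  · have e : ι (ξ₀ + φ 0, w₀) = (ξ₀, 0) := by simp [ι]
    have t : Tendsto ι (𝓝 (ξ₀ + φ 0, w₀)) (𝓝 (ξ₀, 0)) := e ▸ (aι _).continuousAt
    filter_upwards [t.eventually B] with q hq
    rw [hq, inv]
  · simp only [G]
    split_ifs with h
    · exact (hb z hz).1 h
    · exact (hb z hz).2 (not_le.1 h).le

/-- a continuous function below `r` on a compact set stays below some `b < r` -/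
theorem gap {K : Set ℂ} (hK : IsCompact K) {f : ℂ → ℝ} {r : ℝ} (hf : ∀ z ∈ K, ContinuousAt f z)
    (h : ∀ z ∈ K, f z < r) : ∃ b < r, ∀ z ∈ K, f z ≤ b := by
  rcases K.eq_empty_or_nonempty with rfl | hne
  · exact ⟨r - 1, by linarith, fun _ h => h.elim⟩
  · obtain ⟨z, hz, hm⟩ := hK.exists_isMaxOn hne fun z hz => (hf z hz).continuousWithinAt
    exact ⟨f z, h z hz, fun y hy => hm hy⟩

/-- **the input of `Lp.up`**. `P` is the pair of consecutive vertices along the leaf `w₀`,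
`Pp`, `Pm` are the ends of the chains which start on the left and on the right. -/
theorem top {Y : ℂ × ℂ → ℂ} {Pp Pm : ℂ × ℂ → ℂ × ℂ} {V : Set ℂ} {φ : ℂ → ℂ} {s ξ₀ x₁ : ℂ}
    {r T w₀ : ℝ} (hV : IsOpen V) (hc : Convex ℝ V) (h₀ : ξ₀ ∈ V) (hs : s ≠ 0)
    (hφ : Differentiable ℂ φ) (hT : ∀ x ∈ Strip T, AnalyticAt ℂ Y (x, w₀))
    (h0T : ξ₀ + φ 0 ∈ Strip T) (hx₁ : x₁ - φ 0 ∈ V)
    (hp : ∀ ξ ∈ V, ∀ z ∈ sphere (0 : ℂ) 1, 0 ≤ z.im → AnalyticAt ℂ Pp (dsc φ w₀ s (ξ, z)) ∧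
      Pp (dsc φ w₀ s (ξ, z)) ∈ Strip r ×ˢ Strip r)
    (hm : ∀ ξ ∈ V, ∀ z ∈ sphere (0 : ℂ) 1, z.im ≤ 0 → AnalyticAt ℂ Pm (dsc φ w₀ s (ξ, z)) ∧
      Pm (dsc φ w₀ s (ξ, z)) ∈ Strip r ×ˢ Strip r)
    (Z : ℂ × ℂ → ℂ × ℂ) (hZ : ∀ z ∈ closedBall (0 : ℂ) 1, AnalyticAt ℂ Z (dsc φ w₀ s (ξ₀, z)))
    (eZ : Z =ᶠ[𝓝 (ξ₀ + φ 0, (w₀ : ℂ))] fun q => (Y q, Y (q.1 + q.2, q.2)))
    (ep : ∀ z ∈ sphere (0 : ℂ) 1, 0 ≤ z.im → Pp =ᶠ[𝓝 (dsc φ w₀ s (ξ₀, z))] Z)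
    (em : ∀ z ∈ sphere (0 : ℂ) 1, z.im ≤ 0 → Pm =ᶠ[𝓝 (dsc φ w₀ s (ξ₀, z))] Z) :
    ∃ (ρ : ℝ) (F₀ F₁ : ℂ × ℂ → ℂ), 0 < ρ ∧
      AnalyticOnNhd ℂ F₀ (ball x₁ ρ ×ˢ ball (w₀ : ℂ) ρ) ∧
      AnalyticOnNhd ℂ F₁ (ball x₁ ρ ×ˢ ball (w₀ : ℂ) ρ) ∧
      MapsTo F₀ (ball x₁ ρ ×ˢ ball (w₀ : ℂ) ρ) (Strip r) ∧
      MapsTo F₁ (ball x₁ ρ ×ˢ ball (w₀ : ℂ) ρ) (Strip r) ∧
      ∀ x ∈ ball x₁ ρ ∩ Strip T, F₀ =ᶠ[𝓝 (x, (w₀ : ℂ))] Y ∧
        F₁ =ᶠ[𝓝 (x, (w₀ : ℂ))] fun q => Y (q.1 + q.2, q.2) := by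
  obtain ⟨F, A, B, C⟩ := fin hV hc.isPreconnected h₀ hs hφ (fun ξ a z b c => (hp ξ a z b c).1)
    (fun ξ a z b c => (hm ξ a z b c).1) hZ ep em
  have dm : ∀ x : ℂ, x - φ 0 ∈ V → (x, (w₀ : ℂ)) ∈ Dom V φ w₀ s := fun x hx => by
    simpa [Dom] using hx
  obtain ⟨ρ, hρ, sub⟩ := Metric.isOpen_iff.1 (dom_open (w₀ := w₀) (s := s) hV hφ) _ (dm x₁ hx₁)
  rw [← ball_prod_same] at sub
  have cγ : ∀ ξ : ℂ, Continuous fun z : ℂ => dsc φ w₀ s (ξ, z) := fun ξ => by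
    have c := hφ.continuous
    simp only [dsc]
    fun_prop
  have k1 : IsCompact (sphere (0 : ℂ) 1 ∩ {z : ℂ | 0 ≤ z.im}) :=
    (isCompact_sphere 0 1).inter_right (isClosed_le continuous_const continuous_im)
  have k2 : IsCompact (sphere (0 : ℂ) 1 ∩ {z : ℂ | z.im ≤ 0}) :=
    (isCompact_sphere 0 1).inter_right (isClosed_le continuous_im continuous_const)
  have val : ∀ l : (ℂ × ℂ) →L[ℂ] ℂ, (∀ p ∈ Strip r ×ˢ Strip r, (l p).re < r) →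
      ∀ q ∈ Dom V φ w₀ s, (l (F q)).re < r := by
    intro l hl q hq
    obtain ⟨ξ, hξ, h⟩ := C q hq
    obtain ⟨b1, e1, f1⟩ := gap k1 (f := fun z => (l (Pp (dsc φ w₀ s (ξ, z)))).re) (r := r)
      (fun z hz => continuous_re.continuousAt.comp (l.continuous.continuousAt.comp
        (ContinuousAt.comp (f := fun z => dsc φ w₀ s (ξ, z)) (hp ξ hξ z hz.1 hz.2).1.continuousAt
          (cγ ξ).continuousAt)))
      fun z hz => hl _ (hp ξ hξ z hz.1 hz.2).2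
    obtain ⟨b2, e2, f2⟩ := gap k2 (f := fun z => (l (Pm (dsc φ w₀ s (ξ, z)))).re) (r := r)
      (fun z hz => continuous_re.continuousAt.comp (l.continuous.continuousAt.comp
        (ContinuousAt.comp (f := fun z => dsc φ w₀ s (ξ, z)) (hm ξ hξ z hz.1 hz.2).1.continuousAt
          (cγ ξ).continuousAt)))
      fun z hz => hl _ (hm ξ hξ z hz.1 hz.2).2
    exact (h l (max b1 b2) fun z hz => ⟨fun e => (f1 z ⟨hz, e⟩).trans (le_max_left _ _),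
      fun e => (f2 z ⟨hz, e⟩).trans (le_max_right _ _)⟩).trans_lt (max_lt e1 e2)
  have st : ∀ l : (ℂ × ℂ) →L[ℂ] ℂ, (∀ p ∈ Strip r ×ˢ Strip r, l p ∈ Strip r) →
      ∀ q ∈ Dom V φ w₀ s, l (F q) ∈ Strip r := by
    intro l hl q hq
    have v1 := val (I • l) (fun p hp => by
      have := abs_lt.1 (show |(l p).im| < r from hl p hp)
      simp only [ContinuousLinearMap.smul_apply, smul_eq_mul, mul_re, I_re, I_im]
      linarith [this.1]) q hq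
    have v2 := val ((-I) • l) (fun p hp => by
      have := abs_lt.1 (show |(l p).im| < r from hl p hp)
      simp only [ContinuousLinearMap.smul_apply, smul_eq_mul, mul_re, neg_re, neg_im, I_re, I_im]
      linarith [this.2]) q hq
    simp only [ContinuousLinearMap.smul_apply, smul_eq_mul, mul_re, neg_re, neg_im, I_re, I_im]
      at v1 v2
    exact (abs_lt.2 ⟨by linarith, by linarith⟩ : |(l (F q)).im| < r)
  have cv : Convex ℝ ({x : ℂ | x - φ 0 ∈ V} ∩ Strip T) :=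
    Convex.inter (fun x hx y hy a b ha hb hab => by
      have := hc hx hy ha hb hab
      have e : (a : ℂ) + b = 1 := by exact_mod_cast hab
      have e2 : a • x + b • y - φ 0 = a • (x - φ 0) + b • (y - φ 0) := by
        simp only [real_smul]
        linear_combination φ 0 * e
      show a • x + b • y - φ 0 ∈ V
      rwa [e2]) (P097Top.Leaf.convex_strip T)
  have sp := spread (F := F) (G := fun q => (Y q, Y (q.1 + q.2, q.2))) (w := w₀)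
    cv.isPreconnected (x₀ := ξ₀ + φ 0) ⟨by simpa using h₀, h0T⟩
    (fun x hx => ⟨A _ (dm x hx.1), (hT x hx.2).prod (AnalyticAt.comp
      (f := fun q : ℂ × ℂ => (q.1 + q.2, q.2)) (hT (x + w₀) (by simpa [Strip] using hx.2))
      ((analyticAt_fst.add analyticAt_snd).prod analyticAt_snd))⟩) (B.trans eZ)
  refine ⟨ρ, fun q => (F q).1, fun q => (F q).2, hρ,
    fun q hq => analyticAt_fst.comp (A q (sub hq)), fun q hq => analyticAt_snd.comp (A q (sub hq)),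
    fun q hq => st (ContinuousLinearMap.fst ℂ ℂ ℂ) (fun p hp => hp.1) q (sub hq),
    fun q hq => st (ContinuousLinearMap.snd ℂ ℂ ℂ) (fun p hp => hp.2) q (sub hq), fun x hx => ?_⟩
  have m : x - φ 0 ∈ V := by
    have := (sub (show (x, (w₀ : ℂ)) ∈ ball x₁ ρ ×ˢ ball (w₀ : ℂ) ρ from
      ⟨hx.1, mem_ball_self hρ⟩)).1
    simpa using this
  have e := sp x ⟨m, hx.2⟩
  exact ⟨e.mono fun q hq => congrArg Prod.fst hq, e.mono fun q hq => congrArg Prod.snd hq⟩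

end Vale.Agent.P097EE.End
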