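import Vale.Agent.P097EE.Defs
import Vale.Agent.P097EE.End
import Vale.Agent.P299.H720.Montel

/-!
# P097EE: the discs (row 5810)
-/

set_option linter.all false

noncomputable section

namespace Vale.Agent.P097EE

open Filter Topology Set Metric Complex

namespace FinA

/-- the composition of the maps number `a, …, a + j - 1` -/
def cmp (Ψ : ℕ → C2 → C2) (a : ℕ) : ℕ → C2 → C2
  | 0, p => p
  | j + 1, p => Ψ (a + j) (cmp Ψ a j p)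

theorem cmp_bd {Ψ : ℕ → C2 → C2} {a : ℕ} {q p : C2} {r ε : ℝ} (ε0 : 0 ≤ ε) (j : ℕ)
    (h : ∀ c < a + j, ∀ p ∈ ball q r, AnalyticAt ℂ (Ψ c) p ∧ ‖Ψ c p - p‖ ≤ ε)
    (hp : ‖p - q‖ + j * ε < r) : AnalyticAt ℂ (cmp Ψ a j) p ∧ ‖cmp Ψ a j p - p‖ ≤ j * ε := by
  induction j with
  | zero => exact ⟨analyticAt_id, by simp [cmp]⟩
  | succ j ih =>
    push_cast at hp ⊢
    obtain ⟨a1, a2⟩ := ih (fun c hc => h c (by omega)) (by linarith)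
    obtain ⟨b1, b2⟩ := h (a + j) (by omega) (cmp Ψ a j p) (by
      rw [mem_ball, dist_eq_norm]
      linarith [norm_sub_le_norm_sub_add_norm_sub (cmp Ψ a j p) p q])
    refine ⟨b1.comp a1, ?_⟩
    linarith [norm_sub_le_norm_sub_add_norm_sub (Ψ (a + j) (cmp Ψ a j p)) (cmp Ψ a j p) p,
      show cmp Ψ a (j + 1) p = Ψ (a + j) (cmp Ψ a j p) from rfl,
      show ‖cmp Ψ a (j + 1) p - p‖ = ‖Ψ (a + j) (cmp Ψ a j p) - p‖ from rfl]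

theorem cmp_eq {Ψ Φ : ℕ → C2 → C2} {a : ℕ} {q : C2} (j : ℕ)
    (h : ∀ c < a + j, Φ (c + 1) q = Ψ c (Φ c q)) : Φ (a + j) q = cmp Ψ a j (Φ a q) := by
  induction j with
  | zero => rfl
  | succ j ih => rw [cmp, ← ih fun c hc => h c (by omega), ← h _ (by omega), add_assoc]

theorem rc_open (x b y₁ y₂ : ℝ) : IsOpen (Rc x b y₁ y₂) :=
  (isOpen_lt (f := fun t : ℂ => |t.re - x|) (by fun_prop) continuous_const).inter
    ((isOpen_lt continuous_const continuous_im).inter (isOpen_lt continuous_im continuous_const))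

theorem rc_conv (x b y₁ y₂ : ℝ) : Convex ℝ (Rc x b y₁ y₂) := by
  have : Rc x b y₁ y₂ = ({t : ℂ | x - b < t.re} ∩ {t | t.re < x + b}) ∩
      ({t | y₁ < t.im} ∩ {t | t.im < y₂}) := by
    ext t
    simp only [Rc, mem_setOf_eq, mem_inter_iff, abs_lt]
    constructor
    · rintro ⟨⟨a, b⟩, c, d⟩
      exact ⟨⟨by linarith, by linarith⟩, c, d⟩
    · rintro ⟨⟨a, b⟩, c, d⟩
      exact ⟨⟨by linarith, by linarith⟩, c, d⟩
  rw [this]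
  exact ((convex_halfSpace_re_gt _).inter (convex_halfSpace_re_lt _)).inter
    ((convex_halfSpace_im_gt _).inter (convex_halfSpace_im_lt _))

theorem mid {x ρ : ℝ} (ρ1 : ρ ≤ 1 / 10) {q : C2}
    (hq : q ∈ Rc x (ρ / 2) (-(3 / 2)) (ρ / 2) ×ˢ ball (0 : ℂ) (ρ / 2)) :
    ball q (ρ / 2) ⊆ Rc x ρ (-2) ρ ×ˢ ball (0 : ℂ) ρ := fun p hp => by
  obtain ⟨⟨a1, a2, a3⟩, a4⟩ := hq
  rw [mem_ball, Prod.dist_eq, max_lt_iff, dist_eq_norm, dist_eq_norm] at hp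
  rw [mem_ball_zero_iff] at a4
  have b1 := abs_lt.1 ((abs_re_le_norm _).trans_lt hp.1)
  have b2 := abs_lt.1 ((abs_im_le_norm _).trans_lt hp.1)
  rw [sub_re] at b1
  rw [sub_im] at b2
  rw [abs_lt] at a1
  refine ⟨⟨abs_lt.2 ⟨by linarith, by linarith⟩, by linarith, by linarith⟩, ?_⟩
  rw [mem_ball_zero_iff]
  linarith [norm_sub_norm_le p.2 q.2]

theorem omg_ge (k i : ℕ) (ζ : ℂ) : -(2 * ‖ζ‖) ≤ omg k i ζ := by
  have h : ∀ a, -(2 * ‖ζ‖) ≤ omp a ζ := fun a => by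
    unfold omp
    split_ifs with h
    · linarith [norm_nonneg ζ]
    · exact le_rfl
  unfold omg
  split_ifs
  · exact h _
  · exact h _
  · exact le_rfl

/-- the shape of the discs -/
def ph (σ : ℝ) (z : ℂ) : ℂ := I * σ * (1 - 3 * z ^ 2)

theorem ph_re (σ : ℝ) (z : ℂ) : (ph σ z).re = 6 * σ * (z.re * z.im) := by
  simp [ph, pow_two]; ring

theorem ph_im (σ : ℝ) (z : ℂ) : (ph σ z).im = σ * (1 - 3 * (z.re ^ 2 - z.im ^ 2)) := by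
  simp [ph, pow_two]

theorem ph_bd {σ t : ℝ} (σ0 : 0 ≤ σ) {z : ℂ} (hz : ‖z‖ ≤ t) :
    |(ph σ z).re| ≤ 3 * σ * t ^ 2 ∧ |(ph σ z).im - σ| ≤ 3 * σ * t ^ 2 := by
  have h : z.re ^ 2 + z.im ^ 2 ≤ t ^ 2 := by
    have := pow_le_pow_left₀ (norm_nonneg z) hz 2
    rw [Complex.sq_norm, normSq_apply] at this
    linarith
  rw [ph_re, ph_im, abs_le, abs_le]
  have h1 : 2 * (z.re * z.im) ≤ t ^ 2 := by nlinarith [sq_nonneg (z.re - z.im)]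
  have h2 : -t ^ 2 ≤ 2 * (z.re * z.im) := by nlinarith [sq_nonneg (z.re + z.im)]
  have h3 : z.re ^ 2 - z.im ^ 2 ≤ t ^ 2 := by nlinarith [sq_nonneg z.im]
  have h4 : -t ^ 2 ≤ z.re ^ 2 - z.im ^ 2 := by nlinarith [sq_nonneg z.re]
  refine ⟨⟨?_, ?_⟩, ?_, ?_⟩
  · nlinarith [mul_le_mul_of_nonneg_left h2 σ0]
  · nlinarith [mul_le_mul_of_nonneg_left h1 σ0]
  · nlinarith [mul_le_mul_of_nonneg_left h3 σ0]
  · nlinarith [mul_le_mul_of_nonneg_left h4 σ0]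

/-- the last gap -/
theorem last {k : ℕ} {Φ Ψ : ℕ → C2 → C2} {x ρ ε : ℝ} (k0 : 0 < k) (x1 : |x| ≤ 1) (ρ0 : 0 < ρ)
    (ρ1 : ρ ≤ 1 / 10) (ε0 : 0 ≤ ε) (hε : (k + 1) * ε < ρ / 2)
    (hΦ : ∀ i ≤ k, ∀ q ∈ Bx 2 (-2) 1 1, q.1.im ≤ omg k i q.2 - ρ / 2000 →
      AnalyticAt ℂ (Φ i) q ∧ ‖Φ i q - q‖ ≤ ε)
    (hΨ : ∀ c < k, ∀ q ∈ Rc x ρ (-2) ρ ×ˢ ball (0 : ℂ) ρ, AnalyticAt ℂ (Ψ c) q ∧ ‖Ψ c q - q‖ ≤ ε)
    (hE : ∀ c < k, ∀ q ∈ Rc x ρ (-(3 / 2)) (-1) ×ˢ ball (0 : ℂ) ρ, Φ (c + 1) q = Ψ c (Φ c q)) :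
    ∃ P : C2 → C2, (∀ q ∈ Rc x (ρ / 8000) (-(5 / 4)) (ρ / 8000) ×ˢ ball (0 : ℂ) (ρ / 8000),
      AnalyticAt ℂ P q ∧ ‖P q - q‖ ≤ (k + 1) * ε) ∧ P =ᶠ[𝓝 ((x : ℂ) - 6 / 5 * I, (0 : ℂ))] Φ k := by
  obtain ⟨σ, hσ⟩ : ∃ σ : ℝ, σ = ρ / 2000 := ⟨_, rfl⟩
  have σ0 : 0 < σ := by rw [hσ]; positivity
  have x2 := abs_le.1 x1
  have s0 : ((20 * σ : ℝ) : ℂ) ≠ 0 := ofReal_ne_zero.2 (by positivity)
  have dφ : Differentiable ℂ (ph σ) := by unfold ph; fun_prop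
  have n2 : ∀ ξ z : ℂ, ‖(End.dsc (ph σ) 0 ((20 * σ : ℝ) : ℂ) (ξ, z)).2‖ = 20 * σ * ‖z‖ :=
    fun ξ z => by
      simp only [End.dsc, zero_add, norm_mul, norm_real, Real.norm_eq_abs]
      rw [abs_of_pos σ0, abs_of_pos (by norm_num : (0 : ℝ) < 20)]
  have geo : ∀ ξ ∈ Rc x (ρ / 4) (-(5 / 4) - 20 * σ) (-(σ / 2)), ∀ z ∈ sphere (0 : ℂ) 1,
      End.dsc (ph σ) 0 ((20 * σ : ℝ) : ℂ) (ξ, z) ∈ Bx 2 (-2) 1 1 ∧
      End.dsc (ph σ) 0 ((20 * σ : ℝ) : ℂ) (ξ, z) ∈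
        Rc x (ρ / 2) (-(3 / 2)) (ρ / 2) ×ˢ ball (0 : ℂ) (ρ / 2) ∧
      ∀ a : ℝ, a = 1 ∨ a = -1 → 0 ≤ a * z.im →
        (End.dsc (ph σ) 0 ((20 * σ : ℝ) : ℂ) (ξ, z)).1.im ≤
          omp a (End.dsc (ph σ) 0 ((20 * σ : ℝ) : ℂ) (ξ, z)).2 - ρ / 2000 := by
    rintro ξ ⟨a1, a2, a3⟩ z hz
    rw [mem_sphere_zero_iff_norm] at hz
    obtain ⟨b1, b2⟩ := ph_bd σ0.le hz.le
    have n := n2 ξ z
    rw [hz] at n
    rw [abs_lt] at a1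
    rw [abs_le] at b1 b2
    have r1 : (End.dsc (ph σ) 0 ((20 * σ : ℝ) : ℂ) (ξ, z)).1.re = ξ.re + (ph σ z).re := rfl
    have r2 : (End.dsc (ph σ) 0 ((20 * σ : ℝ) : ℂ) (ξ, z)).1.im = ξ.im + (ph σ z).im := rfl
    refine ⟨⟨?_, ?_, ?_, ?_⟩, ⟨⟨?_, ?_, ?_⟩, ?_⟩, fun a ha h => ?_⟩
    · rw [r1, abs_le]; constructor <;> linarith
    · rw [r2]; linarith
    · rw [r2]; linarith
    · rw [n]; linarith
    · rw [r1, abs_lt]; constructor <;> linarith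
    · rw [r2]; linarith
    · rw [r2]; linarith
    · rw [mem_ball_zero_iff, n]; linarith
    have r3 : (End.dsc (ph σ) 0 ((20 * σ : ℝ) : ℂ) (ξ, z)).2.im = 20 * σ * z.im := by
      simp [End.dsc]
    have e1 : z.re ^ 2 + z.im ^ 2 = 1 := by
      have := Complex.sq_norm z
      rw [hz, normSq_apply] at this
      linarith
    have e2 : z.im ^ 2 ≤ a * z.im := by
      have := abs_le.1 ((abs_im_le_norm z).trans hz.le)
      rcases ha with rfl | rfl <;> nlinarith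
    have e3 := mul_nonneg σ0.le h
    have e4 := mul_le_mul_of_nonneg_left e2 σ0.le
    rw [omp, if_pos (by rw [r3]; linarith), n, r2, r3, ph_im, show z.re ^ 2 = 1 - z.im ^ 2 by
      linarith]
    linarith
  have low : ∀ z ∈ closedBall (0 : ℂ) 1, End.dsc (ph σ) 0 ((20 * σ : ℝ) : ℂ)
      ((x : ℂ) - 6 / 5 * I - ph σ 0, z) ∈ Rc x ρ (-(3 / 2)) (-1) ×ˢ ball (0 : ℂ) ρ := by
    intro z hz
    rw [mem_closedBall_zero_iff] at hz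
    obtain ⟨b1, b2⟩ := ph_bd σ0.le hz
    rw [abs_le] at b1 b2
    have r1 : (End.dsc (ph σ) 0 ((20 * σ : ℝ) : ℂ) ((x : ℂ) - 6 / 5 * I - ph σ 0, z)).1.re =
        x + (ph σ z).re := by simp [End.dsc, ph]
    have r2 : (End.dsc (ph σ) 0 ((20 * σ : ℝ) : ℂ) ((x : ℂ) - 6 / 5 * I - ph σ 0, z)).1.im =
        -(6 / 5) - σ + (ph σ z).im := by simp [End.dsc, ph]
    refine ⟨⟨?_, ?_, ?_⟩, ?_⟩
    · rw [r1, abs_lt]; constructor <;> linarith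
    · rw [r2]; linarith
    · rw [r2]; linarith
    · rw [mem_ball_zero_iff, n2]; nlinarith
  have oL : IsOpen (Rc x ρ (-(3 / 2)) (-1) ×ˢ ball (0 : ℂ) ρ) := (rc_open _ _ _ _).prod isOpen_ball
  have up : ∀ ξ ∈ Rc x (ρ / 4) (-(5 / 4) - 20 * σ) (-(σ / 2)), ∀ z ∈ sphere (0 : ℂ) 1, 0 ≤ z.im →
      AnalyticAt ℂ (fun q => cmp Ψ 0 k (Φ 0 q) - q) (End.dsc (ph σ) 0 ((20 * σ : ℝ) : ℂ) (ξ, z)) ∧
      ‖cmp Ψ 0 k (Φ 0 (End.dsc (ph σ) 0 ((20 * σ : ℝ) : ℂ) (ξ, z))) -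
        End.dsc (ph σ) 0 ((20 * σ : ℝ) : ℂ) (ξ, z)‖ ≤ (k + 1) * ε := fun ξ hξ z hz h => by
    obtain ⟨g1, g2, g3⟩ := geo ξ hξ z hz
    obtain ⟨a1, a2⟩ := hΦ 0 k0.le _ g1 (by
      rw [omg, if_pos rfl]; exact g3 1 (Or.inl rfl) (by linarith))
    obtain ⟨b1, b2⟩ := cmp_bd (Ψ := Ψ) (a := 0) ε0 k
      (fun c hc p hp => hΨ c (by omega) p (mid ρ1 g2 hp))
      ((add_le_add_left a2 _).trans_lt (by linarith))
    refine ⟨(b1.comp a1).sub analyticAt_id, ?_⟩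
    linarith [norm_sub_le_norm_sub_add_norm_sub
      (cmp Ψ 0 k (Φ 0 (End.dsc (ph σ) 0 ((20 * σ : ℝ) : ℂ) (ξ, z))))
      (Φ 0 (End.dsc (ph σ) 0 ((20 * σ : ℝ) : ℂ) (ξ, z)))
      (End.dsc (ph σ) 0 ((20 * σ : ℝ) : ℂ) (ξ, z))]
  have dn : ∀ ξ ∈ Rc x (ρ / 4) (-(5 / 4) - 20 * σ) (-(σ / 2)), ∀ z ∈ sphere (0 : ℂ) 1, z.im ≤ 0 →
      AnalyticAt ℂ (Φ k) (End.dsc (ph σ) 0 ((20 * σ : ℝ) : ℂ) (ξ, z)) ∧
      ‖Φ k (End.dsc (ph σ) 0 ((20 * σ : ℝ) : ℂ) (ξ, z)) -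
        End.dsc (ph σ) 0 ((20 * σ : ℝ) : ℂ) (ξ, z)‖ ≤ ε := fun ξ hξ z hz h => by
    obtain ⟨g1, -, g3⟩ := geo ξ hξ z hz
    exact hΦ k le_rfl _ g1 (by
      rw [omg, if_neg k0.ne', if_pos rfl]; exact g3 (-1) (Or.inr rfl) (by linarith))
  obtain ⟨F, A, B, C⟩ := End.fin (Y := fun q => Φ k q - q) (Yp := fun q => cmp Ψ 0 k (Φ 0 q) - q)
    (Ym := fun q => Φ k q - q) (ξ₀ := (x : ℂ) - 6 / 5 * I - ph σ 0) (w₀ := 0)
    (rc_open x (ρ / 4) (-(5 / 4) - 20 * σ) (-(σ / 2))) (rc_conv _ _ _ _).isPreconnected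
    (by
      refine ⟨?_, ?_, ?_⟩ <;> simp [ph] <;> linarith) s0 dφ
    (fun ξ hξ z hz h => (up ξ hξ z hz h).1)
    (fun ξ hξ z hz h => (dn ξ hξ z hz h).1.sub analyticAt_id)
    (fun z hz => by
      obtain ⟨⟨a1, a2, a3⟩, a4⟩ := low z hz
      rw [mem_ball_zero_iff] at a4
      rw [abs_lt] at a1
      exact (hΦ k le_rfl _ ⟨abs_le.2 ⟨by linarith, by linarith⟩, by linarith, by linarith,
        by linarith⟩ (le_trans (by linarith) (sub_le_sub_right (omg_ge k k _) _))).1.sub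
          analyticAt_id)
    (fun z hz _ => by
      filter_upwards [oL.mem_nhds (low z (sphere_subset_closedBall hz))] with q hq
      rw [← cmp_eq (Ψ := Ψ) (Φ := Φ) (a := 0) k fun c hc => hE c (by omega) q hq, zero_add])
    (fun z hz _ => EventuallyEq.rfl)
  refine ⟨fun q => F q + q, fun q hq => ?_, ?_⟩
  · obtain ⟨⟨a1, a2, a3⟩, a4⟩ := hq
    rw [mem_ball_zero_iff] at a4
    have b0 : ‖(q.2 - 0) / ((20 * σ : ℝ) : ℂ)‖ ≤ 1 / 80 := by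
      rw [sub_zero, norm_div, norm_real, Real.norm_of_nonneg (by positivity),
        div_le_iff₀ (by positivity)]
      linarith
    obtain ⟨b1, b2⟩ := ph_bd σ0.le b0
    rw [abs_le] at b1 b2
    rw [abs_lt] at a1
    have m : q ∈ End.Dom (Rc x (ρ / 4) (-(5 / 4) - 20 * σ) (-(σ / 2))) (ph σ) 0
        ((20 * σ : ℝ) : ℂ) := by
      refine ⟨⟨?_, ?_, ?_⟩, by linarith⟩
      · rw [sub_re, abs_lt]; constructor <;> linarith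
      · rw [sub_im]; linarith
      · rw [sub_im]; linarith
    refine ⟨(A q m).add analyticAt_id, ?_⟩
    obtain ⟨ξ, hξ, H⟩ := C q m
    obtain ⟨l, l1, l2⟩ := exists_dual_vector'' ℂ (F q)
    have lb : ∀ v : C2, (l v).re ≤ ‖v‖ := fun v => (re_le_norm _).trans
      ((l.le_opNorm v).trans (mul_le_of_le_one_left (norm_nonneg _) l1))
    have := H l ((k + 1) * ε) fun z hz => ⟨fun h => (lb _).trans (up ξ hξ z hz h).2,
      fun h => (lb _).trans ((dn ξ hξ z hz h).2.trans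
        (le_mul_of_one_le_left ε0 (by linarith [Nat.cast_nonneg (α := ℝ) k])))⟩
    rw [l2] at this
    simpa using this
  · rw [sub_add_cancel] at B
    filter_upwards [B] with q hq
    rw [hq, sub_add_cancel]

/-- one column for all transitions -/
theorem nest {𝒰 : Filter ℕ} {Φ : ℕ → ℕ → C2 → C2} (j : ℕ)
    (h : ∀ c < j, Pass 𝒰 (Φ c) (Φ (c + 1))) : ∃ x₁ x₂ : ℝ, -1 ≤ x₁ ∧ x₁ < x₂ ∧ x₂ ≤ 1 ∧
    ∀ c < j, ∀ x ρ : ℝ, x₁ ≤ x - ρ → x + ρ ≤ x₂ → ∀ e > 0, ∀ᶠ n in 𝒰, ∃ Ψ : C2 → C2,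
      (∀ q ∈ Rc x ρ (-2) ρ ×ˢ ball (0 : ℂ) ρ, AnalyticAt ℂ Ψ q ∧ ‖Ψ q - q‖ ≤ e) ∧
      ∀ q ∈ Rc x ρ (-(3 / 2)) (-1) ×ˢ ball (0 : ℂ) ρ, Φ (c + 1) n q = Ψ (Φ c n q) := by
  induction j with
  | zero => exact ⟨-1, 1, le_rfl, by norm_num, le_rfl, by simp⟩
  | succ j ih =>
    obtain ⟨x₁, x₂, a1, a2, a3, H⟩ := ih fun c hc => h c (by omega)
    obtain ⟨y, r, r0, -, b1, b2, G⟩ := h j (by omega) x₁ x₂ a1 a2 a3
    refine ⟨y - r / 2, y + r / 2, by linarith, by linarith, by linarith,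
      fun c hc x ρ c1 c2 e he => ?_⟩
    rcases (Nat.lt_succ_iff.1 hc).eq_or_lt with rfl | hc'
    · filter_upwards [G e he] with n ⟨Ψ, g1, g2⟩
      refine ⟨Ψ, fun q ⟨⟨d1, d2, d3⟩, d4⟩ => g1 q ⟨⟨?_, d2, by linarith⟩,
        ball_subset_ball (by linarith) d4⟩, fun q ⟨⟨d1, d2, d3⟩, d4⟩ => g2 q ⟨⟨?_, d2, d3⟩,
        ball_subset_ball (by linarith) d4⟩⟩
      · rw [abs_lt] at d1 ⊢; constructor <;> linarith
      · rw [abs_lt] at d1 ⊢; constructor <;> linarith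
    · exact H c hc' x ρ (by linarith) (by linarith) e he

/-- a small perturbation of the identity is a chart -/
theorem chart {G : C2 → C2} {Ω : Set C2} {ρ δ : ℝ} (ρ0 : 0 < ρ) (ρ1 : ρ ≤ 1) (hδ : 32 * δ ≤ ρ)
    (h : ∀ q ∈ Ω, ∀ p ∈ ball q (ρ / 4), AnalyticAt ℂ G p ∧ ‖G p - p‖ ≤ δ) :
    Chart G Ω (16 / ρ) := fun q hq => by
  rw [inv_div]
  refine ⟨fun p hp => (h q hq p (ball_subset_ball (by linarith) hp)).1, fun p hp p' hp' => ?_⟩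
  have L := P299.H720.lip_of_bdd (f := fun p => G p - p) (x := q) (r := ρ / 4) (C := δ)
    (by positivity) (fun p hp => ((h q hq p hp).1.differentiableAt.sub
      differentiableAt_id).differentiableWithinAt) (fun p hp => (h q hq p hp).2)
    (y := p') (z := p) (ball_subset_ball (by linarith) hp') (ball_subset_ball (by linarith) hp)
  rw [dist_eq_norm, dist_eq_norm, show G p - p - (G p' - p') = G p - G p' - (p - p') by abel] at L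
  have L2 : 4 * δ / (ρ / 4) ≤ 1 / 2 := by rw [div_le_iff₀ (by positivity)]; linarith
  have L3 := mul_le_mul_of_nonneg_right L2 (norm_nonneg (p - p'))
  have K2 : 2 ≤ 16 / ρ := by rw [le_div_iff₀ ρ0]; linarith
  have u1 := norm_sub_norm_le (G p - G p') (p - p')
  have u2 := norm_sub_norm_le (p - p') (G p - G p')
  rw [norm_sub_rev (p - p')] at u2
  have v1 := mul_le_mul_of_nonneg_right K2 (norm_nonneg (p - p'))
  have v2 := mul_le_mul_of_nonneg_right K2 (norm_nonneg (G p - G p'))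
  constructor <;> linarith [norm_nonneg (p - p')]

end FinA

open FinA

theorem fin (hI : S_INV) : S_END := by
  intro 𝒰 k m Φ k0 hm hΦ hP
  obtain ⟨x₁, x₂, a1, a2, a3, H⟩ := nest k hP
  obtain ⟨ρ, hρ⟩ : ∃ ρ : ℝ, ρ = min (1 / 10) ((x₂ - x₁) / 2) := ⟨_, rfl⟩
  have ρ0 : 0 < ρ := by rw [hρ]; exact lt_min (by norm_num) (by linarith)
  have ρ1 : ρ ≤ 1 / 10 := hρ ▸ min_le_left _ _
  have ρ2 : ρ ≤ (x₂ - x₁) / 2 := hρ ▸ min_le_right _ _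
  obtain ⟨x, hx⟩ : ∃ x : ℝ, x = (x₁ + x₂) / 2 := ⟨_, rfl⟩
  have x1 : |x| ≤ 1 := abs_le.2 ⟨by linarith, by linarith⟩
  have x2 := abs_le.1 x1
  refine ⟨x, ρ / 8000, x1, by positivity, by linarith, fun e he => ?_⟩
  obtain ⟨δ, hδ⟩ : ∃ δ : ℝ, δ = min (ρ * e / 16) (ρ ^ 2 / 2048) := ⟨_, rfl⟩
  have δ0 : 0 < δ := by rw [hδ]; exact lt_min (by positivity) (by positivity)
  have δ1 : δ ≤ ρ * e / 16 := hδ ▸ min_le_left _ _
  have δ2 : δ ≤ ρ ^ 2 / 2048 := hδ ▸ min_le_right _ _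
  have δ3 : δ ≤ ρ / 2048 := by nlinarith
  have kn := Nat.cast_nonneg (α := ℝ) k
  obtain ⟨ε, hε⟩ : ∃ ε : ℝ, ε = δ / (2 * k + 1) := ⟨_, rfl⟩
  have ε0 : 0 < ε := by rw [hε]; positivity
  have ε1 : (2 * k + 1) * ε = δ := by rw [hε]; field_simp
  have ε2 : 0 ≤ k * ε := by positivity
  have E := (eventually_all_finite (finite_lt_nat k)).2 fun c hc =>
    H c hc x ρ (by linarith) (by linarith) ε ε0
  filter_upwards [E, hΦ (ρ / 2000) (by positivity) ε ε0] with n h1 h2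
  choose! Ψ g1 g2 using h1
  obtain ⟨P, p1, p2⟩ := last (Φ := fun i => Φ i n) (Ψ := Ψ) k0 x1 ρ0 ρ1 ε0.le (by linarith) h2 g1 g2
  have km : ((k - m : ℕ) : ℝ) * ε ≤ k * ε :=
    mul_le_mul_of_nonneg_right (Nat.cast_le.2 (Nat.sub_le k m)) ε0.le
  have G : ∀ q ∈ Rc x (ρ / 2) (-(3 / 2)) (ρ / 2) ×ˢ ball (0 : ℂ) (ρ / 2), ∀ p ∈ ball q (ρ / 4),
      AnalyticAt ℂ (cmp Ψ m (k - m)) p ∧ ‖cmp Ψ m (k - m) p - p‖ ≤ k * ε := fun q hq p hp => by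
    rw [mem_ball, dist_eq_norm] at hp
    have := cmp_bd (Ψ := Ψ) (a := m) (q := q) (p := p) ε0.le (k - m)
      (fun c hc p hp => g1 c (show c < k by omega) p (mid ρ1 hq hp)) (by linarith)
    exact ⟨this.1, this.2.trans km⟩
  have Ch := chart ρ0 (by linarith) (by linarith) G
  have K1 : 1 ≤ 16 / ρ := by rw [le_div_iff₀ ρ0]; linarith
  obtain ⟨Ξ, hΞ⟩ := hI _ P id _ _ K1 Ch
  have sub : Rc x (ρ / 8000) (-(5 / 4)) (ρ / 8000) ×ˢ ball (0 : ℂ) (ρ / 8000) ⊆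
      Rc x (ρ / 2) (-(3 / 2)) (ρ / 2) ×ˢ ball (0 : ℂ) (ρ / 2) := fun q ⟨⟨d1, d2, d3⟩, d4⟩ =>
    ⟨⟨by linarith, by linarith, by linarith⟩, ball_subset_ball (by linarith) d4⟩
  have key : ∀ q ∈ Rc x (ρ / 8000) (-(5 / 4)) (ρ / 8000) ×ˢ ball (0 : ℂ) (ρ / 8000),
      AnalyticAt ℂ Ξ q ∧ cmp Ψ m (k - m) (Ξ q) = P q ∧ ‖Ξ q - q‖ ≤ 16 / ρ * δ := fun q hq => by
    have b1 : ‖P q - cmp Ψ m (k - m) q‖ ≤ δ := by
      have := (G q (sub hq) q (mem_ball_self (by positivity))).2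
      rw [norm_sub_rev] at this
      linarith [norm_sub_le_norm_sub_add_norm_sub (P q) q (cmp Ψ m (k - m) q), (p1 q hq).2]
    obtain ⟨c1, c2, c3⟩ := hΞ q (p1 q hq).1 continuousAt_id (sub hq) (b1.trans_lt (by
      rw [show 1 / (4 * (16 / ρ) ^ 2) = ρ ^ 2 / 1024 by field_simp; norm_num]
      linarith [pow_pos ρ0 2]))
    exact ⟨c1, c2, c3.trans (mul_le_mul_of_nonneg_left b1 (by positivity))⟩
  refine ⟨Ξ, fun q hq => ⟨(key q hq).1, (key q hq).2.2.trans ?_⟩, ?_⟩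
  · rw [div_mul_eq_mul_div, div_le_iff₀ ρ0]; linarith
  have o1 : IsOpen (Rc x (ρ / 8000) (-(5 / 4)) (-1) ×ˢ ball (0 : ℂ) (ρ / 8000)) :=
    (rc_open _ _ _ _).prod isOpen_ball
  filter_upwards [p2, o1.mem_nhds (x := ((x : ℂ) - 6 / 5 * I, (0 : ℂ))) ⟨⟨by simpa using ρ0,
    by norm_num, by norm_num⟩, mem_ball_self (by positivity)⟩] with q e1 ⟨⟨d1, d2, d3⟩, d4⟩
  have hq : q ∈ Rc x (ρ / 8000) (-(5 / 4)) (ρ / 8000) ×ˢ ball (0 : ℂ) (ρ / 8000) :=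
    ⟨⟨d1, d2, by linarith⟩, d4⟩
  obtain ⟨-, c2, c3⟩ := key q hq
  have d5 := mem_ball_zero_iff.1 d4
  have d6 := abs_lt.1 d1
  have c4 := (h2 m hm q ⟨abs_le.2 ⟨by linarith, by linarith⟩, by linarith, by linarith,
    by linarith⟩ (le_trans (by linarith) (sub_le_sub_right (omg_ge k m _) _))).2
  have c5 := cmp_eq (Ψ := Ψ) (Φ := fun i => Φ i n) (a := m) (q := q) (k - m) fun c hc =>
    g2 c (show c < k by omega) q ⟨⟨by linarith, by linarith, d3⟩, ball_subset_ball (by linarith) d4⟩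
  rw [show m + (k - m) = k by omega] at c5
  have c6 := ((Ch q (sub hq)).2 (Ξ q) (by
    rw [inv_div, mem_ball, dist_eq_norm]
    refine c3.trans_lt ?_
    rw [div_mul_eq_mul_div, div_lt_iff₀ ρ0]
    nlinarith) (Φ m n q) (by
    rw [inv_div, mem_ball, dist_eq_norm]
    linarith)).1
  rw [c2, e1, ← c5, sub_self, norm_zero, mul_zero] at c6
  exact sub_eq_zero.1 (norm_le_zero_iff.1 c6)

end Vale.Agent.P097EE
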