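import Vale.Agent.P097EE.InnB

/-! Row 5807: a column through the core. -/

open Filter Metric Set Topology

namespace Vale.Agent.P097EE

open Vale.Agent.P299.H720 Vale.Agent.P097T Vale.Agent.P097T.EndTop

theorem rc_eq (x b y₁ y₂ : ℝ) : Rc x b y₁ y₂ = Ioo (x - b) (x + b) ×ℂ Ioo y₁ y₂ := by
  ext t
  simp only [Rc, mem_ofPred_eq, Complex.mem_reProdIm, mem_Ioo, abs_lt]
  constructor
  · rintro ⟨⟨a, b⟩, c⟩; exact ⟨⟨by linarith, by linarith⟩, c⟩
  · rintro ⟨⟨a, b⟩, c⟩; exact ⟨⟨by linarith, by linarith⟩, c⟩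

theorem rc_open (x b y₁ y₂ : ℝ) : IsOpen (Rc x b y₁ y₂) := by
  rw [rc_eq]; exact isOpen_Ioo.reProdIm isOpen_Ioo

theorem rc_conv (x b y₁ y₂ : ℝ) : Convex ℝ (Rc x b y₁ y₂) := by
  rw [rc_eq]
  exact ((convex_Ioo _ _).linear_preimage Complex.reLm).inter
    ((convex_Ioo _ _).linear_preimage Complex.imLm)

theorem schE {E : Type} [NormedAddCommGroup E] [NormedSpace ℂ E] {f : C2 → E} {t ζ : ℂ} {M : ℝ}
    (h : ∀ x ∈ ball (0 : ℂ) 1, AnalyticAt ℂ f (t, x) ∧ ‖f (t, x)‖ ≤ M) (hζ : ζ ∈ ball (0 : ℂ) 1) :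
    ‖f (t, ζ) - f (t, 0)‖ ≤ 2 * M * ‖ζ‖ := by
  have := Complex.dist_le_div_mul_dist_of_mapsTo_ball (f := fun x => f (t, x)) (R₂ := 2 * M)
    (fun x hx => ((h x hx).1.differentiableAt.comp x
      ((differentiableAt_const t).prodMk differentiableAt_id)).differentiableWithinAt)
    (fun x hx => by
      rw [mem_closedBall, dist_eq_norm]
      linarith [norm_sub_le (f (t, x)) (f (t, 0)), (h x hx).2, (h 0 (mem_ball_self one_pos)).2]) hζ
  simpa [dist_eq_norm] using this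

theorem inner : S_INNER := by
  intro 𝒰 O F G Fn Gn J h m K₀ S V σ u Y h3 hm hK₀ hKO H0 H1 H2 x₁ x₂ hx1 hx12 hx2
  classical
  have z0 : (0 : ℂ) ∈ ball (0 : ℂ) 1 := mem_ball_self one_pos
  obtain ⟨M, hM⟩ := hK₀.isBounded.exists_norm_le
  have BR : Rc 0 2 (-h) 0 ⊆ Rc 0 2 (-h) 1 := fun t ht => ⟨ht.1, ht.2.1, by linarith [ht.2.2]⟩
  obtain ⟨s, s1, s2, -⟩ := montel_full 𝒰 (f := fun n t => S n 0 (t, 0)) (rc_open 0 2 (-h) 1)
    fun t ht => by
      obtain ⟨r, hr, k⟩ := Metric.isOpen_iff.1 (rc_open 0 2 (-h) 1) t ht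
      exact ⟨r, hr, M, H0.mono fun n hn => ⟨fun y hy => ((hn (y, 0) ⟨k hy, z0⟩).1.differentiableAt.comp
        y (differentiableAt_id.prodMk (differentiableAt_const _))).differentiableWithinAt,
        fun y hy => hM _ (hn (y, 0) ⟨k hy, z0⟩).2⟩⟩
  have as := s1.analyticOnNhd (rc_open 0 2 (-h) 1)
  have ms : MapsTo s (Rc 0 2 (-h) 1) O := fun t ht => hKO (hK₀.isClosed.mem_of_tendsto
    (s2.tendsto_at ht) (H0.mono fun n hn => (hn (t, 0) ⟨ht, z0⟩).2))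
  have loc : ∀ t ∈ Rc 0 2 (-h) 0, ∃ r > 0, ∃ l > 0, ∀ lam ≤ l, ball t r ⊆ Rc 0 2 (-h) (-lam) := by
    intro t ht
    obtain ⟨r, hr, k⟩ := Metric.isOpen_iff.1 (rc_open 0 2 (-h) (t.im / 2)) t
      ⟨ht.1, ht.2.1, by linarith [ht.2.2]⟩
    exact ⟨r, hr, -(t.im / 2), by linarith [ht.2.2], fun lam hl y hy =>
      ⟨(k hy).1, (k hy).2.1, by linarith [(k hy).2.2]⟩⟩
  have c0 : TendstoLocallyUniformlyOn (fun n => σ n 0) s 𝒰 (Rc 0 2 (-h) 0) := by
    refine (tlu_iff (rc_open _ _ _ _) (as.mono BR).continuousOn).2 fun t ht => ?_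
    obtain ⟨r, hr, l, hl, k⟩ := loc t ht
    refine ((tlu_iff (rc_open _ _ _ _) as.continuousOn).1 s2 t (BR ht)).congr_dist
      (NormedAddGroup.tendsto_nhds_zero.2 fun ε hε => ?_)
    filter_upwards [(H2 (min (ε / 2) l) (by positivity)).prod_mk (ball_mem_nhds t hr)] with z hz
    rw [Real.norm_of_nonneg dist_nonneg, dist_comm, dist_eq_norm]
    exact (hz.1 z.2 (k _ (min_le_right _ _) hz.2)).1.trans_lt
      ((min_le_left _ _).trans_lt (by linarith))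
  set t0 : ℂ := ((-h + 1 : ℝ) : ℂ) * Complex.I with ht0
  have r0 : ∀ y : ℝ, -h + 1 < y → t0 ∈ Rc 0 2 (-h) y := fun y hy =>
    ⟨by simp [ht0], by simp [ht0], by simpa [ht0] using hy⟩
  have m0 : t0 ∈ Rc 0 2 (-h) 0 := r0 _ (by linarith)
  have pt := ptl 𝒰 Y (J := J) hm (S := fun n j => S n j (t0, 0)) (σ := fun n j => σ n j t0)
    (V := fun n j => V n j (t0, 0)) (u := fun n j => u n j t0) (ms (BR m0))
    (s2.tendsto_at (BR m0)) (c0.tendsto_at m0)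
    (H1.mono fun n hn j hj => by
      obtain ⟨-, -, a, -, b⟩ := hn (t0, 0) ⟨r0 _ (by linarith), z0⟩ j hj
      exact ⟨a, b⟩)
    ((H2 1 one_pos).mono fun n hn j hj ho =>
      (((hn t0 (r0 _ (by linarith))).2 j hj).2.2.1 ho).2)
    (fun j hj => NormedAddGroup.tendsto_nhds_zero.2 fun ε hε =>
      (H2 (min (ε / 2) 1) (by positivity)).mono fun n hn =>
        (((hn t0 (r0 _ (by linarith [min_le_right (ε / 2) 1]))).2 j hj).2.2.2
          (r0 _ (by linarith)).2.2).trans_lt ((min_le_left _ _).trans_lt (by linarith)))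
  obtain ⟨v, hv, hs⟩ := limN 𝒰 Y (σ := σ) (u := u) (rc_open _ _ _ _) (rc_conv _ _ _ _).isPreconnected m0
    (as.mono BR) (ms.mono_left BR) c0 J (fun j hj t ht => by
      obtain ⟨r, hr, l, hl, k⟩ := loc t ht
      exact ⟨r, hr, (H2 l hl).mono fun n hn y hy =>
        ⟨((hn y (k l le_rfl hy)).2 j hj).2.1, ((hn y (k l le_rfl hy)).2 j hj).2.2.1⟩⟩)
    (fun j hj => by
      obtain ⟨r, hr, k⟩ := Metric.isOpen_iff.1 (rc_open 0 2 (-h) (-h + 2)) t0 (r0 _ (by linarith))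
      refine ⟨r, hr, 1 / m + 1, (H1.and (H2 1 one_pos)).mono fun n hn y hy => ?_⟩
      have a1 := (hn.1 (y, 0) ⟨k hy, z0⟩ j hj).2.2.1
      have a2 := ((hn.2 y ⟨(k hy).1, (k hy).2.1, by linarith [(k hy).2.2]⟩).2 j hj).2.2.2 (k hy).2.2
      linarith [norm_sub_norm_le (u n j y) (V n j (y, 0))])
    (fun j hj a ha => by
      obtain ⟨b, hb, c, k1, -, k3⟩ := pt j hj
      rw [tendsto_nhds_unique ha k1]
      exact nz_of_fd (Y.aF _ ⟨hb, mem_univ _⟩).differentiableAt k3)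
  have aB := fun j (hj : j ≤ J) t (ht : t ∈ Rc 0 2 (-h) 0) => stc_an Y.aG Y.mG (as t (BR ht))
    (ms (BR ht)) (j := j) fun i hi => (hv i (by omega)).1 t ht
  have yR : ball (((x₁ + x₂) / 2 : ℝ) : ℂ) ((x₂ - x₁) / 2) ⊆ Rc 0 2 (-h) 1 := fun t ht => by
    rw [mem_ball, dist_eq_norm] at ht
    have a1 := abs_lt.1 ((Complex.abs_re_le_norm _).trans_lt ht)
    have a2 := abs_lt.1 ((Complex.abs_im_le_norm _).trans_lt ht)
    simp only [Complex.sub_re, Complex.ofReal_re, Complex.sub_im, Complex.ofReal_im] at a1 a2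
    exact ⟨abs_lt.2 ⟨by linarith, by linarith⟩, by linarith, by linarith⟩
  have yB : ∀ t ∈ ball (((x₁ + x₂) / 2 : ℝ) : ℂ) ((x₂ - x₁) / 2), t.im < 0 → t ∈ Rc 0 2 (-h) 0 :=
    fun t ht h0 => ⟨(yR ht).1, (yR ht).2.1, h0⟩
  have hB : HD (((x₁ + x₂) / 2 : ℝ) : ℂ) ((x₂ - x₁) / 2) ⊆ Rc 0 2 (-h) 0 :=
    fun t ht => yB t ht.1 (by simpa using ht.2)
  obtain ⟨z, hz, zi, e, he, hsub, w, hw⟩ := discD Y.aF Y.aG Y.mG (v := v) (by linarith)
    (as.mono yR) (ms.mono_left yR) J (fun j hj => ((hv j hj).1.mono hB).differentiableOn)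
    (fun j hj t ht => (hv j hj).2.2 t (hB ht)) (fun j hj t ht => by
      have ag : AnalyticOnNhd ℂ (fun x => fderiv ℂ F (stc G s v j x, v j x) (0, 1))
          (Rc 0 2 (-h) 0) := fun x hx => an_fd2 (Y.aF _ ⟨(aB j hj.le x hx).2, mem_univ _⟩)
        (aB j hj.le x hx).1 ((hv j hj).1 x hx)
      obtain ⟨b, hb, c, k1, k2, k3⟩ := pt j hj
      rw [tendsto_nhds_unique k1 ((hs j hj.le).tendsto_at m0),
        tendsto_nhds_unique k2 ((hv j hj).2.1.tendsto_at m0)] at k3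
      exact (ag t (hB ht)).eventually_eq_zero_or_eventually_ne_zero.resolve_left fun h => k3
        (ag.eqOn_zero_of_preconnected_of_eventuallyEq_zero (rc_conv _ _ _ _).isPreconnected (hB ht) h m0))
  obtain ⟨z, rfl⟩ : ∃ x : ℝ, z = x := ⟨z.re, Complex.ext (by simp) (by simpa using zi)⟩
  set W : ℕ → ℂ → ℂ := fun j t => if t ∈ ball (z : ℂ) e then w j t else v j t with hW
  have e1 : ∀ j, EqOn (W j) (w j) (ball (z : ℂ) e) := fun j t ht => if_pos ht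
  have e2 : ∀ j < J, EqOn (W j) (v j) (Rc 0 2 (-h) 0) := fun j hj t ht => by
    by_cases k : t ∈ ball (z : ℂ) e
    · rw [e1 j k]; exact (hw j hj).2.1 t ⟨k, by simpa using ht.2.2⟩
    · exact if_neg k
  have DR : Rc 0 2 (-h) 0 ∪ ball (z : ℂ) e ⊆ Rc 0 2 (-h) 1 := union_subset BR (hsub.trans yR)
  have aW : ∀ j < J, AnalyticOnNhd ℂ (W j) (Rc 0 2 (-h) 0 ∪ ball (z : ℂ) e) := by
    rintro j hj t (ht | ht)
    · exact ((hv j hj).1 t ht).congr
        ((e2 j hj).eventuallyEq_of_mem ((rc_open _ _ _ _).mem_nhds ht)).symm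
    · exact ((hw j hj).1 t ht).congr ((e1 j).eventuallyEq_of_mem (isOpen_ball.mem_nhds ht)).symm
  have aD := fun j (hj : j ≤ J) t ht => stc_an Y.aG Y.mG (as t (DR ht)) (ms (DR ht)) (j := j)
    fun i hi => aW i (by omega) t ht
  have f1 : ∀ j, ∀ t ∈ ball (z : ℂ) e, stc G s W j t = stc G s w j t := fun j t ht =>
    stc_congr fun i _ => e1 i ht
  have ez : ∀ a : ℝ, |a| < e → |z + a - (x₁ + x₂) / 2| < (x₂ - x₁) / 2 := fun a ha => by
    have : ((z + a : ℝ) : ℂ) ∈ ball (z : ℂ) e := by simpa [mem_ball, dist_eq_norm] using ha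
    have k := hsub this
    rwa [mem_ball, dist_eq_norm, ← Complex.ofReal_sub, Complex.norm_real, Real.norm_eq_abs] at k
  obtain ⟨x, ρ1, hρ1, ρe, xz, hcol⟩ := column ((rc_open _ _ _ _).union isOpen_ball)
    ((rc_conv _ _ _ _).isPreconnected.union _ (hB ⟨hsub (hd_pt z he).1, by
      simpa using (hd_pt z he).2⟩) (hd_pt z he).1 (convex_ball _ e).isPreconnected)
    (g := fun t => ∏ j ∈ Finset.range J, fderiv ℂ F (stc G s W j t, W j t) (0, 1))
    (fun t ht => Finset.analyticAt_fun_prod _ fun j hj => by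
      have hj := Finset.mem_range.1 hj
      exact an_fd2 (Y.aF _ ⟨(aD j hj.le t ht).2, mem_univ _⟩) (aD j hj.le t ht).1 (aW j hj t ht))
    (y := -h + 1 / 2) he subset_union_right
    (fun t ht => Finset.prod_ne_zero_iff.2 fun j hj => by
      rw [f1 j t ht, e1 j ht]; exact ((hw j (Finset.mem_range.1 hj)).2.2 t ht).2)
    (fun t a1 a2 a3 => Or.inl ⟨by
      have := abs_lt.1 (ez _ a1)
      exact abs_lt.2 ⟨by linarith, by linarith⟩, by linarith, a3⟩)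
  set K := Icc (x - ρ1) (x + ρ1) ×ℂ Icc (-h + 1 / 2) ρ1 with hKd
  have hK : IsCompact K := isCompact_Icc.reProdIm isCompact_Icc
  have KD : K ⊆ Rc 0 2 (-h) 0 ∪ ball (z : ℂ) e := fun t ht => (hcol t ht).1
  obtain ⟨ρu, hρu, hP⟩ := perP Y hK (w := W) (as.mono (KD.trans DR)) (ms.mono_left (KD.trans DR)) J
    fun j hj => ⟨(aW j hj).mono KD, fun t ht => ⟨by
      rcases KD ht with k | k
      · rw [stc_congr fun i hi => e2 i (by omega) k, e2 j hj k]; exact (hv j hj).2.2 t k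
      · rw [f1 j t k, e1 j k]; exact ((hw j hj).2.2 t k).1,
      Finset.prod_ne_zero_iff.1 (hcol t ht).2 j (Finset.mem_range.2 hj)⟩⟩
  have hc : IsCompact (stc G s W J '' K) := hK.image_of_continuousOn fun t ht =>
    (aD J le_rfl t (KD ht)).1.continuousAt.continuousWithinAt
  obtain ⟨τ, hτ, hth⟩ := hc.exists_cthickening_subset_open Y.op (by
    rintro _ ⟨t, ht, rfl⟩; exact (aD J le_rfl t (KD ht)).2)
  obtain ⟨η, hη, hP⟩ := hP τ hτ
  obtain ⟨ρ, hρ, q1, q2, q3, q4⟩ : ∃ ρ : ℝ, 0 < ρ ∧ ρ ≤ ρ1 ∧ ρ ≤ 1 / 10 ∧ 2 * |M| * ρ ≤ η / 2 ∧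
      2 * (1 / m) * ρ ≤ ρu / 4 := by
    refine ⟨min (min ρ1 (1 / 10)) (min (η / (4 * (|M| + 1))) (ρu * m / 8)), by positivity,
      (min_le_left _ _).trans (min_le_left _ _), (min_le_left _ _).trans (min_le_right _ _), ?_, ?_⟩
    · calc _ ≤ 2 * (|M| + 1) * (η / (4 * (|M| + 1))) := by
            gcongr
            · linarith
            · exact (min_le_right _ _).trans (min_le_left _ _)
        _ = η / 2 := by field_simp; ring
    · calc _ ≤ 2 * (1 / m) * (ρu * m / 8) := by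
            gcongr; exact (min_le_right _ _).trans (min_le_right _ _)
        _ = ρu / 4 := by field_simp; ring
  have xz' := abs_lt.1 xz
  have b1 := abs_lt.1 (ez (e / 2) (by rw [abs_of_pos (by linarith)]; linarith))
  have b2 := abs_lt.1 (ez (-(e / 2)) (by rw [abs_neg, abs_of_pos (by linarith)]; linarith))
  refine ⟨x, ρ, cthickening τ (stc G s W J '' K), hρ, q2, by linarith, by linarith,
    hc.cthickening, hth, ?_⟩
  have hK' : IsCompact (Icc (-1 : ℝ) 1 ×ℂ Icc (-h + 1 / 2) (-h + 3 / 2)) :=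
    isCompact_Icc.reProdIm isCompact_Icc
  have E1 := Metric.tendstoUniformlyOn_iff.1 ((tendstoLocallyUniformlyOn_iff_forall_isCompact
    (rc_open _ _ _ _)).1 s2 K (KD.trans DR) hK) (η / 2) (by positivity)
  have E2 : ∀ᶠ n in (𝒰 : Filter ℕ), ∀ j ∈ Finset.range J,
      ∀ t ∈ Icc (-1 : ℝ) 1 ×ℂ Icc (-h + 1 / 2) (-h + 3 / 2), dist (v j t) (u n j t) < ρu / 4 :=
    (Finset.range J).eventually_all.2 fun j hj => Metric.tendstoUniformlyOn_iff.1
      ((tendstoLocallyUniformlyOn_iff_forall_isCompact (rc_open _ _ _ _)).1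
        (hv j (Finset.mem_range.1 hj)).2.1 _ (fun t ht => ⟨abs_lt.2 ⟨by linarith [ht.1.1],
          by linarith [ht.1.2]⟩, by linarith [ht.2.1], by linarith [ht.2.2]⟩) hK') _ (by positivity)
  filter_upwards [hP, H0, H1, H2 (min (ρu / 4) 1) (by positivity), E1, E2]
    with n hP H0 H1 H2 E1 E2
  have mK : ∀ q ∈ Rc x ρ (-h + 1 / 2) ρ ×ˢ ball (0 : ℂ) ρ, q.1 ∈ K ∧ q.2 ∈ ball (0 : ℂ) 1 ∧
      ‖q.2‖ ≤ ρ := fun q hq => by
    have a := abs_lt.1 hq.1.1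
    exact ⟨⟨⟨by linarith, by linarith⟩, hq.1.2.1.le, by linarith [hq.1.2.2]⟩,
      ball_subset_ball (by linarith) hq.2, (mem_ball_zero_iff.1 hq.2).le⟩
  obtain ⟨c, k1, k2⟩ := hP _ (S n 0) ((rc_open x ρ (-h + 1 / 2) ρ).prod isOpen_ball)
    (fun q hq => (H0 q ⟨DR (KD (mK q hq).1), (mK q hq).2.1⟩).1) fun q hq => by
      obtain ⟨a1, a2, a3⟩ := mK q hq
      have a4 := schE (f := S n 0) (t := q.1) (M := |M|) (fun y hy =>
        ⟨(H0 (q.1, y) ⟨DR (KD a1), hy⟩).1,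
          (hM _ (H0 (q.1, y) ⟨DR (KD a1), hy⟩).2).trans (le_abs_self M)⟩) a2
      have a5 := E1 _ a1
      rw [dist_comm, dist_eq_norm] at a5
      have a6 := mul_le_mul_of_nonneg_left a3 (show 0 ≤ 2 * |M| by positivity)
      have a7 := norm_sub_le_norm_sub_add_norm_sub (S n 0 (q.1, q.2)) (S n 0 (q.1, 0)) (s q.1)
      exact ⟨a1, a7.trans (by linarith)⟩
  refine ⟨stc (Gn n) (S n 0) c J, fun q hq => ⟨(k1 J le_rfl).1 q hq,
    mem_cthickening_of_dist_le _ _ _ _ (mem_image_of_mem _ (mK q hq).1)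
      (by rw [dist_eq_norm]; exact (k1 J le_rfl).2 q hq), fun hi => ?_⟩⟩
  obtain ⟨a1, a2, a3⟩ := mK q hq
  have a0 := abs_lt.1 hq.1.1
  have lo : ∀ y : ℝ, -h + 3 / 2 ≤ y → q.1 ∈ Rc 0 2 (-h) y := fun y hy =>
    ⟨(DR (KD a1)).1, (DR (KD a1)).2.1, by linarith⟩
  suffices key : ∀ j ≤ J, stc (Gn n) (S n 0) c j q = S n j q from key J le_rfl
  intro j
  induction j with
  | zero => exact fun _ => rfl
  | succ j ih =>
    intro hj
    obtain ⟨-, -, -, d1, -, d2⟩ := H1 q ⟨lo _ (by linarith), a2⟩ j hj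
    simp only [stc]
    rw [← k2 j hj q hq (V n j q) ?_ (by rw [ih (by omega)]; exact d1), ih (by omega), d2]
    have a4 := schE (f := V n j) (t := q.1) (M := 1 / m) (fun y hy =>
      ⟨(H1 (q.1, y) ⟨lo _ (by linarith), hy⟩ j hj).1,
        (H1 (q.1, y) ⟨lo _ (by linarith), hy⟩ j hj).2.2.1⟩) a2
    have a5 := (((H2 q.1 (lo _ (by linarith [min_le_right (ρu / 4) 1]))).2 j hj).2.2.2
      (by linarith)).trans (min_le_left _ _)
    have a6 := E2 j (Finset.mem_range.2 hj) q.1 ⟨⟨by linarith, by linarith⟩, hq.1.2.1.le, hi.le⟩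
    rw [dist_comm, dist_eq_norm] at a6
    rw [norm_sub_rev] at a5
    rw [e2 j hj (lo _ (by linarith))]
    have a7 := mul_le_mul_of_nonneg_left a3 (show 0 ≤ 2 * (1 / m) by positivity)
    have a8 := norm_sub_le_norm_sub_add_norm_sub (V n j (q.1, 0)) (u n j q.1) (v j q.1)
    exact (norm_sub_le_norm_sub_add_norm_sub (V n j (q.1, q.2)) (V n j (q.1, 0))
      (v j q.1)).trans_lt (by linarith)

end Vale.Agent.P097EE
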