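import Vale.Agent.P097EE.Defs

/-!
# P097EE: the inverse of a chart along a family
-/

set_option linter.all false

noncomputable section

namespace Vale.Agent.P097EE

open Filter Topology Set Metric Complex

/-- a local analytic inverse of a map which expands distances -/
lemma inv_loc {R : C2 → C2} {p : C2} {K : ℝ} (hK : 0 < K) (hR : AnalyticAt ℂ R p)
    (h : ∀ᶠ z in 𝓝 p, ‖z - p‖ ≤ K * ‖R z - R p‖) :
    ∃ G : C2 → C2, AnalyticAt ℂ G (R p) ∧ G (R p) = p ∧ ∀ᶠ y in 𝓝 (R p), R (G y) = y := by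
  have d := hR.differentiableAt.hasFDerivAt
  have inj : Function.Injective (fderiv ℂ R p).toLinearMap :=
    (injective_iff_map_eq_zero _).2 fun v hv => by
      have hv' : fderiv ℂ R p v = 0 := hv
      have t1 : Tendsto (fun t : ℂ => p + t • v) (𝓝[≠] 0) (𝓝 p) :=
        (Continuous.tendsto' (by fun_prop) 0 p (by simp)).mono_left nhdsWithin_le_nhds
      obtain ⟨t, ⟨a1, a2⟩, a3⟩ := ((t1.eventually (h.and (d.isLittleO.def
        (show 0 < 1 / (2 * K) by positivity)))).and self_mem_nhdsWithin).exists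
      simp only [add_sub_cancel_left, map_smul, hv', smul_zero, sub_zero] at a1 a2
      have a4 := a1.trans (mul_le_mul_of_nonneg_left a2 hK.le)
      rw [← mul_assoc, show K * (1 / (2 * K)) = 1 / 2 by field_simp] at a4
      have a5 : ‖t • v‖ = 0 := by linarith [norm_nonneg (t • v)]
      exact (smul_eq_zero.1 (norm_eq_zero.1 a5)).resolve_left a3
  let e : C2 ≃L[ℂ] C2 := (LinearEquiv.ofInjectiveEndo _ inj).toContinuousLinearEquiv
  have d' : HasFDerivAt R (e : C2 →L[ℂ] C2) p := d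
  have c : ContDiffAt ℂ ⊤ R p := hR.contDiffAt
  exact ⟨c.localInverse d' (by simp), (c.to_localInverse d' (by simp)).analyticAt,
    c.localInverse_apply_image d' (by simp),
    (c.hasStrictFDerivAt' d' (by simp)).eventually_right_inverse⟩

lemma inv_sur {R : C2 → C2} {q y : C2} {K : ℝ} (hK : 0 < K) (hR : AnalyticOnNhd ℂ R (ball q K⁻¹))
    (h : ∀ p ∈ ball q K⁻¹, ∀ p' ∈ ball q K⁻¹, ‖p - p'‖ ≤ K * ‖R p - R p'‖)
    (hy : ‖y - R q‖ < 1 / (4 * K ^ 2)) : ∃ p, ‖p - q‖ < 1 / (2 * K) ∧ R p = y := by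
  have k1 : 1 / (2 * K) < K⁻¹ := by
    rw [← one_div]; exact one_div_lt_one_div_of_lt hK (by linarith)
  have k0 : 0 < 1 / (2 * K) := by positivity
  have sub : closedBall q (1 / (2 * K)) ⊆ ball q K⁻¹ := closedBall_subset_ball k1
  obtain ⟨p, hp, hm⟩ := (isCompact_closedBall q (1 / (2 * K))).exists_isMinOn
    ⟨q, mem_closedBall_self k0.le⟩ (f := fun p => ‖R p - y‖)
    ((hR.continuousOn.mono sub).sub continuousOn_const).norm
  have a1 : ‖R p - y‖ ≤ ‖R q - y‖ := hm (mem_closedBall_self k0.le)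
  have a2 : ‖p - q‖ < 1 / (2 * K) := by
    have b1 := h p (sub hp) q (mem_ball_self (by positivity))
    have b2 := norm_sub_le_norm_sub_add_norm_sub (R p) y (R q)
    rw [norm_sub_rev] at hy
    rw [norm_sub_rev y] at b2
    have b3 : K * ‖R p - R q‖ < K * (2 * (1 / (4 * K ^ 2))) :=
      mul_lt_mul_of_pos_left (by linarith) hK
    rw [show K * (2 * (1 / (4 * K ^ 2))) = 1 / (2 * K) by field_simp; ring] at b3
    linarith
  refine ⟨p, a2, ?_⟩
  obtain ⟨G, g1, g2, g3⟩ := inv_loc hK (hR p (sub hp)) (by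
    filter_upwards [isOpen_ball.mem_nhds (sub hp)] with z hz using h z hz p (sub hp))
  have g4 : ∀ᶠ w in 𝓝 (R p), G w ∈ closedBall q (1 / (2 * K)) :=
    g1.continuousAt.eventually (by
      rw [g2]; exact closedBall_mem_nhds_of_mem (mem_ball_iff_norm.2 a2))
  have t1 : Tendsto (fun t : ℝ => y + t • (R p - y)) (𝓝[<] 1) (𝓝 (R p)) :=
    (Continuous.tendsto' (by fun_prop) 1 (R p) (by simp)).mono_left nhdsWithin_le_nhds
  obtain ⟨t, ⟨b1, b2⟩, b3⟩ := ((t1.eventually (g3.and g4)).and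
    (Ioo_mem_nhdsLT (show (0 : ℝ) < 1 by norm_num))).exists
  have b4 : ‖R p - y‖ ≤ ‖R (G (y + t • (R p - y))) - y‖ := hm b2
  rw [b1, add_sub_cancel_left, norm_smul, Real.norm_eq_abs, abs_of_pos b3.1] at b4
  have b5 : ‖R p - y‖ = 0 := by nlinarith [norm_nonneg (R p - y), b3.2]
  exact sub_eq_zero.1 (norm_eq_zero.1 b5)

theorem inv : S_INV := by
  classical
  intro R L k Ω K hK hC
  have K0 : 0 < K := by linarith
  have k2 : 1 / (2 * K) + 1 / (2 * K) = K⁻¹ := by field_simp; ring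
  have k0 : 0 < 1 / (2 * K) := by positivity
  let Ψ : C2 → C2 := fun x =>
    if h : ∃ p, ‖p - k x‖ < 1 / (2 * K) ∧ R p = L x then h.choose else k x
  have hΨ : ∀ x, (∃ p, ‖p - k x‖ < 1 / (2 * K) ∧ R p = L x) →
      ‖Ψ x - k x‖ < 1 / (2 * K) ∧ R (Ψ x) = L x := fun x h => by
    simp only [Ψ, dif_pos h]
    exact h.choose_spec
  refine ⟨Ψ, fun x hL hk hx hs => ?_⟩
  obtain ⟨an, bi⟩ := hC _ hx
  obtain ⟨a1, a2⟩ := hΨ x (inv_sur K0 an (fun p hp p' hp' => (bi p hp p' hp').1) hs)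
  have m0 : Ψ x ∈ ball (k x) K⁻¹ := mem_ball_iff_norm.2 (by linarith)
  refine ⟨?_, a2, a2 ▸ (bi _ m0 _ (mem_ball_self (by positivity))).1⟩
  obtain ⟨G, g1, g2, g3⟩ := inv_loc K0 (an _ m0) (by
    filter_upwards [isOpen_ball.mem_nhds m0] with z hz using (bi z hz _ m0).1)
  rw [a2] at g1 g2 g3
  have g4 : AnalyticAt ℂ (fun z => G (L z)) x := g1.comp hL
  refine g4.congr ?_
  have c1 : ContinuousAt (fun z => ‖G (L z) - k z‖) x := (g4.continuousAt.sub hk).norm
  have c2 : ContinuousAt (fun z => ‖k z - k x‖) x := (hk.sub continuousAt_const).norm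
  filter_upwards [hL.continuousAt.eventually g3, c1.eventually (gt_mem_nhds (by
    show ‖G (L x) - k x‖ < 1 / (2 * K); rwa [g2])), c2.eventually (gt_mem_nhds (by
    show ‖k x - k x‖ < 1 / (2 * K); simpa using k0))] with z z1 z2 z3
  obtain ⟨b1, b2⟩ := hΨ z ⟨_, z2, z1⟩
  have := (bi (G (L z)) (mem_ball_iff_norm.2 (by
    linarith [norm_sub_le_norm_sub_add_norm_sub (G (L z)) (k z) (k x)])) (Ψ z)
    (mem_ball_iff_norm.2 (by
      linarith [norm_sub_le_norm_sub_add_norm_sub (Ψ z) (k z) (k x)]))).1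
  rw [z1, b2, sub_self, norm_zero, mul_zero] at this
  exact sub_eq_zero.1 (norm_le_zero_iff.1 this)

end Vale.Agent.P097EE
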