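import Vale.Agent.P097EE.Defs2

/-!
# P097EE: the obstacle is not far below the top
-/

set_option linter.all false

noncomputable section

namespace Vale.Agent.P097EE

open Filter Topology Set Metric Complex

/-- the clock of the true state, seen from one side -/
theorem Sd.clock {T Z α Φ : C2 → C2} {a ℓ l₁ l L e B h lam s : ℝ} {ξ : ℂ} {J : ℕ}
    (S : Sd T Z α Φ a ℓ l₁ l L e (1 / 400) B h lam s ξ J) (l1 : 100 ≤ ℓ) (lam0 : 0 ≤ lam)
    (hs : s * ℓ ≤ 1 / 5) {q : C2} (hq : q ∈ Cn h lam) {j : ℕ} (hj : j ≤ J)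
    (ok : Ok a ℓ ξ q.1.im j) (hd : ‖q.1 + a * j - ξ‖ ≤ 3 * ℓ) :
    ‖(α (sh q (a * j))).1 ^ 2 - (q.1 + a * j - ξ)‖ ≤ ℓ / 50 := by
  obtain ⟨q1, q2, q3, q4⟩ := hq
  have n0 := norm_nonneg q.2
  have al := S.alw q q.1.im j (by linarith) (by linarith) (by linarith) (by linarith) (by simp) ok
  obtain ⟨-, -, -, a4, -⟩ := S.app q j al
  obtain ⟨-, t2⟩ := S.tr q ⟨q1, q2, q3, q4⟩ j hj ok
  obtain ⟨x, hx⟩ : ∃ x, x = (α (sh q (a * j))).1 := ⟨_, rfl⟩
  obtain ⟨y, hy⟩ : ∃ y, y = (T^[j] (Z q)).1 := ⟨_, rfl⟩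
  obtain ⟨w, hw⟩ : ∃ w, w = q.1 + a * j - ξ := ⟨_, rfl⟩
  have d1 : ‖x - y‖ ≤ s := by
    rw [hx, hy]
    exact (norm_fst_le (α (sh q (a * j)) - T^[j] (Z q))).trans t2
  rw [← hy, ← hw] at a4
  rw [← hw] at hd
  rw [← hx, ← hw]
  have s0 : 0 ≤ s := (norm_nonneg _).trans d1
  have y2 : ‖y‖ ^ 2 ≤ 4 * ℓ := by
    have := norm_add_le (y ^ 2 - w) w
    rw [sub_add_cancel, norm_pow] at this
    linarith
  have y1 : ‖y‖ ≤ ℓ := by
    by_contra hc
    push Not at hc
    nlinarith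
  have x1 : ‖x + y‖ ≤ s + 2 * ℓ := by
    have := norm_add_le (x - y) (2 * y)
    rw [show x - y + 2 * y = x + y by ring, norm_mul, Complex.norm_ofNat] at this
    linarith
  have e1 : x ^ 2 - w = (x - y) * (x + y) + (y ^ 2 - w) := by ring
  have e2 : ‖(x - y) * (x + y)‖ ≤ s * (s + 2 * ℓ) := by rw [norm_mul]; gcongr
  have s1 : s ≤ 1 / 5 := by nlinarith
  have := norm_add_le ((x - y) * (x + y)) (y ^ 2 - w)
  rw [e1]
  nlinarith

theorem dich2 {w : ℂ} {ℓ : ℝ} (l0 : 0 ≤ ℓ) (h : ‖w‖ = 2 * ℓ) :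
    11 / 10 * ℓ < |w.im| ∨ 3 / 2 * ℓ ≤ |w.re| := by
  by_contra hc
  push Not at hc
  have e : ‖w‖ ^ 2 = |w.re| ^ 2 + |w.im| ^ 2 := by
    rw [Complex.sq_norm, normSq_apply, sq_abs, sq_abs]; ring
  rw [h] at e
  nlinarith [abs_nonneg w.re, abs_nonneg w.im, hc.1, hc.2]

theorem lev (hN : S_NOSQ) : S_LEV := by
  intro D 𝒰 ℓ C₁ cL cR g t cen
  have l1 : (100 : ℝ) ≤ ℓ := by exact_mod_cast t.l1
  have A2 := g.gr.A2
  filter_upwards [t.geo, t.sd 1 one_pos 1, g.nr.tr 1 one_pos, cen, g.gr.hK,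
    g.gr.hl.eventually (eventually_gt_atTop (5 * (ℓ : ℝ)))] with n geo sd tr ce hK hh
  by_contra hc
  push Not at hc
  obtain ⟨g1, -, g3, g4⟩ := geo
  obtain ⟨sL, sR⟩ := sd
  rw [max_eq_left (by linarith), add_zero] at ce
  have g1' := abs_le.1 g1
  have hs : 1 / D.K n ^ 1 * ℓ ≤ 1 / 5 := by
    rw [pow_one, one_div_mul_eq_div, div_le_iff₀ (by linarith)]
    linarith
  have c1 := abs_le.1 ((abs_re_le_norm (cL n - cR n)).trans ce)
  have c2 := abs_le.1 ((abs_im_le_norm (cL n - cR n)).trans ce)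
  rw [sub_re] at c1
  rw [sub_im] at c2
  have key : ∀ τ ∈ sphere (cL n) (2 * ℓ), AnalyticAt ℂ (D.α n) (τ, 0) ∧
      ‖(D.α n (τ, 0)).1 ^ 2 - (τ - cL n)‖ ≤ 2 * ℓ / 2 := by
    intro τ hτ
    rw [mem_sphere, dist_eq_norm] at hτ
    have r1 := abs_le.1 ((abs_re_le_norm (τ - cL n)).trans hτ.le)
    have r2 := abs_le.1 ((abs_im_le_norm (τ - cL n)).trans hτ.le)
    have dd := dich2 (by linarith) hτ
    rw [sub_re] at r1 dd
    rw [sub_im] at r2 dd
    have τ0 : 0 ≤ τ.re := by linarith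
    obtain ⟨j, hj⟩ : ∃ j : ℕ, j = ⌊τ.re⌋₊ := ⟨_, rfl⟩
    have j1 : (j : ℝ) ≤ τ.re := hj ▸ Nat.floor_le τ0
    have j2 : τ.re < j + 1 := hj ▸ Nat.lt_floor_add_one _
    have jN : j ≤ D.N n := by
      have : (j : ℝ) ≤ D.N n := by linarith
      exact_mod_cast this
    have qre : (τ - j).re = τ.re - j := by simp
    have qim : (τ - j).im = τ.im := by simp
    have hq : ((τ - j, 0) : C2) ∈ Cn (D.h n) 1 := by
      refine ⟨?_, ?_, ?_, by simp⟩
      · show |(τ - j).re| < 3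
        rw [qre, abs_lt]; constructor <;> linarith
      · show -D.h n < (τ - j).im
        rw [qim]; linarith
      · show (τ - j).im < -(2 * ‖(0 : ℂ)‖) - 1
        rw [qim, norm_zero]; linarith
    have an : AnalyticAt ℂ (D.α n) (τ, 0) := by
      have := (tr (τ - j, 0) ⟨hq.1.le.trans (by nlinarith), hq.2.1.le, by
        show (τ - j).im ≤ 0
        rw [qim]; linarith, by simp⟩ hq.2.2.1.le j jN).1
      simpa [sh] using this
    refine ⟨an, ?_⟩
    rcases le_total τ.re (cL n).re with b | b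
    · have e : (τ - j) + ((1 : ℝ) : ℂ) * j - cL n = τ - cL n := by simp
      have k := sL.clock l1 zero_le_one hs hq jN (by
        show Ok 1 ℓ (cL n) (τ - j).im j
        rw [qim]
        rcases dd with d | d
        · exact Or.inr ⟨ℓ, le_rfl, by linarith, by linarith⟩
        · rw [abs_of_nonpos (by linarith)] at d
          exact Or.inl (by linarith)) (by
        show ‖(τ - j) + ((1 : ℝ) : ℂ) * j - cL n‖ ≤ 3 * ℓ
        rw [e]; linarith)
      have e2 : sh ((τ - j, 0) : C2) (((1 : ℝ) : ℂ) * j) = (τ, 0) := by simp [sh]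
      rw [e2] at k
      dsimp only at k
      rw [e] at k
      linarith
    · have cN : ((D.N n - j : ℕ) : ℝ) = D.N n - j := Nat.cast_sub jN
      have cN' : ((D.N n - j : ℕ) : ℂ) = D.N n - j := Nat.cast_sub jN
      have e : (τ - j) + ((-1 : ℝ) : ℂ) * (D.N n - j : ℕ) - (cR n - D.N n) = τ - cR n := by
        rw [cN']; push_cast; ring
      have tR : ‖τ - cR n‖ ≤ 3 * ℓ := by
        have := norm_add_le (τ - cL n) (cL n - cR n)
        rw [sub_add_sub_cancel] at this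
        linarith
      have k := sR.clock l1 zero_le_one hs hq (Nat.sub_le _ j) (by
        show Ok (-1) ℓ (cR n - D.N n) (τ - j).im (D.N n - j)
        have x1 : (cR n - D.N n).re = (cR n).re - D.N n := by simp
        have x2 : (cR n - D.N n).im = (cR n).im := by simp
        rw [qim, Ok, x1, x2, cN]
        rcases dd with d | d
        · refine Or.inr ⟨ℓ, le_rfl, ?_, by linarith⟩
          rcases lt_abs.1 d with d | d
          · exact lt_abs.2 (Or.inl (by linarith))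
          · exact lt_abs.2 (Or.inr (by linarith))
        · rw [abs_of_nonneg (by linarith)] at d
          exact Or.inl (by linarith)) (by
        show ‖(τ - j) + ((-1 : ℝ) : ℂ) * (D.N n - j : ℕ) - (cR n - D.N n)‖ ≤ 3 * ℓ
        rw [e]; exact tR)
      have e2 : sh (sh ((τ - j, 0) : C2) (((-1 : ℝ) : ℂ) * (D.N n - j : ℕ))) (D.N n) = (τ, 0) := by
        simp only [sh, cN', Prod.mk.injEq, and_true]
        push_cast; ring
      dsimp only at k
      rw [e2, e] at k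
      have := norm_add_le ((D.α n (τ, 0)).1 ^ 2 - (τ - cR n)) (cR n - cL n - 2 * (cR n - cL n))
      rw [show (D.α n (τ, 0)).1 ^ 2 - (τ - cR n) + (cR n - cL n - 2 * (cR n - cL n)) =
        (D.α n (τ, 0)).1 ^ 2 - (τ - cL n) by ring,
        show cR n - cL n - 2 * (cR n - cL n) = cL n - cR n by ring] at this
      linarith
  refine hN (fun τ => (D.α n (τ, 0)).1) (cL n) (2 * ℓ) (by linarith) (fun τ hτ => ?_)
    fun τ hτ => (key τ hτ).2
  have c : ContinuousAt (fun τ : ℂ => D.α n (τ, 0)) τ :=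
    ContinuousAt.comp (f := fun τ : ℂ => ((τ, 0) : C2)) (key τ hτ).1.continuousAt (by fun_prop)
  exact c.fst.continuousWithinAt

end Vale.Agent.P097EE
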