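import Vale.Agent.P097EE.Defs

/-! # P097EE: no continuous square root on a circle -/

set_option linter.all false

noncomputable section

namespace Vale.Agent.P097EE

open Filter Topology Set Metric Complex

theorem nosq : S_NOSQ := by
  intro η c R R0 hc h
  have m : ∀ x : ℝ, c + R * exp (2 * x * I) ∈ sphere c R := fun x => by
    rw [mem_sphere, dist_eq_norm, add_sub_cancel_left, norm_mul, norm_real, Real.norm_eq_abs,
      abs_of_pos R0, show (2 * x * I : ℂ) = ((2 * x : ℝ) : ℂ) * I by push_cast; ring,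
      norm_exp_ofReal_mul_I, mul_one]
  set f : ℝ → ℂ := fun x => η (c + R * exp (2 * x * I)) * exp (-(x * I)) with hf
  have fc : Continuous f :=
    (hc.comp_continuous (by fun_prop) m).mul (by fun_prop)
  have ne : ∀ x, (f x).re ≠ 0 := fun x h0 => by
    have k := h _ (m x)
    rw [add_sub_cancel_left] at k
    have e1 : exp (2 * x * I) * exp (-(x * I)) ^ 2 = 1 := by
      rw [← exp_nat_mul, ← exp_add]
      rw [show (2 * x * I + ((2 : ℕ) : ℂ) * -(x * I) : ℂ) = 0 by push_cast; ring, exp_zero]
    have e2 : f x ^ 2 - R =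
        (η (c + R * exp (2 * x * I)) ^ 2 - R * exp (2 * x * I)) * exp (-(x * I)) ^ 2 := by
      simp only [hf]
      linear_combination (R : ℂ) * e1
    have e3 : ‖exp (-(x * I))‖ = 1 := by
      rw [show (-(x * I) : ℂ) = ((-x : ℝ) : ℂ) * I by push_cast; ring, norm_exp_ofReal_mul_I]
    have e4 : ‖f x ^ 2 - R‖ ≤ R / 2 := by
      rw [e2, norm_mul, norm_pow, e3, one_pow, mul_one]
      exact k
    have e5 := (abs_le.mp ((abs_re_le_norm _).trans e4)).1
    rw [sub_re, ofReal_re, sq, mul_re, h0] at e5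
    nlinarith [mul_self_nonneg (f x).im]
  have e : f Real.pi = -f 0 := by
    simp only [hf]
    rw [exp_two_pi_mul_I, exp_neg, exp_pi_mul_I]
    simp
  have z : (0 : ℝ) ∈ uIcc (f 0).re (f Real.pi).re := by
    rw [e, neg_re]
    rcases le_total 0 (f 0).re with k | k
    · exact mem_uIcc.2 (Or.inr ⟨by linarith, k⟩)
    · exact mem_uIcc.2 (Or.inl ⟨k, by linarith⟩)
  obtain ⟨x, -, hx⟩ := intermediate_value_uIcc (f := fun x => (f x).re)
    (continuous_re.comp fc).continuousOn z
  exact ne x hx

end Vale.Agent.P097EE
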