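import Vale.Agent.P097U.PJ

/-!
# P097EE: two constants with explicit exponents
-/

set_option linter.all false

noncomputable section

namespace Vale.Agent.P097EE.Tc

open Set Metric Filter Topology Complex

variable {E : Type*} [NormedAddCommGroup E] [NormedSpace ℂ E]

/-- two constants with a holomorphic exponent -/
theorem tc {f : ℂ → E} {Φ : ℂ → ℂ} {U : Set ℂ} {M L : ℝ} (hU : Bornology.IsBounded U)
    (hf : DiffContOnCl ℂ f U) (hΦ : DiffContOnCl ℂ Φ U) (hL : 0 ≤ L) (hM : 0 ≤ M)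
    (hb : ∀ z ∈ frontier U, (‖f z‖ ≤ M * Real.exp (-L) ∧ (Φ z).re ≤ 1) ∨
      (‖f z‖ ≤ M ∧ (Φ z).re ≤ 0)) {z : ℂ} (hz : z ∈ closure U) :
    ‖f z‖ ≤ M * Real.exp (-(L * (Φ z).re)) := by
  have nn : ∀ w, ‖exp (L * Φ w) • f w‖ = Real.exp (L * (Φ w).re) * ‖f w‖ := fun w => by
    rw [norm_smul, norm_exp, re_ofReal_mul]
  have hd : DiffContOnCl ℂ (fun w => exp (L * Φ w) • f w) U :=
    ⟨((hΦ.differentiableOn.const_mul _).cexp).smul hf.differentiableOn,
      ((continuousOn_const.mul hΦ.continuousOn).cexp).smul hf.continuousOn⟩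
  have k := Complex.norm_le_of_forall_mem_frontier_norm_le (C := M) hU hd (fun w hw => by
    rw [nn]
    rcases hb w hw with ⟨h1, h2⟩ | ⟨h1, h2⟩
    · calc _ ≤ Real.exp L * (M * Real.exp (-L)) := by
            gcongr
            nlinarith
        _ = M := by rw [mul_left_comm, ← Real.exp_add]; simp
    · calc _ ≤ Real.exp 0 * M := by
            gcongr
            nlinarith
        _ = M := by simp) hz
  rw [nn] at k
  rw [Real.exp_neg, ← div_eq_mul_inv, le_div_iff₀ (Real.exp_pos _), mul_comm]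
  exact k

/-- the standard rectangle, small on the bottom side -/
theorem rect0 {f : ℂ → E} {b h m M L : ℝ} (hb : 0 < b) (hh : 0 < h) (hL : 0 ≤ L)
    (hf : DiffContOnCl ℂ f (Ioo (-b) b ×ℂ Ioo 0 h))
    (h1 : ∀ z : ℂ, |z.re| ≤ b → 0 ≤ z.im → z.im ≤ h → ‖f z‖ ≤ M)
    (h2 : ∀ x : ℝ, |x| ≤ b → ‖f x‖ ≤ M * Real.exp (-L)) {z : ℂ} (hm : 0 ≤ m)
    (z1 : |z.re| ≤ b - m) (z2 : 0 ≤ z.im) (z3 : z.im ≤ h) :
    ‖f z‖ ≤ M * Real.exp (-(L * ((h - z.im) / h - 4 * Real.exp (-(m / h))))) := by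
  have hM : 0 ≤ M := (norm_nonneg _).trans (h1 0 (by simpa using hb.le) (by simp) (by simpa using hh.le))
  let Φ : ℂ → ℂ := fun w => (I * w + h) / h - 2 * exp ((w - b - h / 2 * I) / h) -
    2 * exp ((-w - b + h / 2 * I) / h)
  have re1 : ∀ w : ℂ, (Φ w).re = (h - w.im) / h -
      2 * (Real.exp ((w.re - b) / h) * Real.cos ((w.im - h / 2) / h)) -
      2 * (Real.exp ((-w.re - b) / h) * Real.cos ((w.im - h / 2) / h)) := fun w => by
    have e1 : ((I * w + h) / h).re = (h - w.im) / h := by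
      rw [div_ofReal_re]
      simp only [add_re, mul_re, I_re, I_im, ofReal_re]
      ring
    have e2 : ((w - b - h / 2 * I) / h).re = (w.re - b) / h := by
      rw [div_ofReal_re]
      simp
    have e3 : ((w - b - h / 2 * I) / h).im = (w.im - h / 2) / h := by
      rw [div_ofReal_im]
      simp
    have e4 : ((-w - b + h / 2 * I) / h).re = (-w.re - b) / h := by
      rw [div_ofReal_re]
      simp
    have e5 : ((-w - b + h / 2 * I) / h).im = -((w.im - h / 2) / h) := by
      rw [div_ofReal_im]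
      simp
      ring
    simp only [Φ, sub_re, e1, mul_re, re_ofNat, im_ofNat, zero_mul, sub_zero, exp_re,
      e2, e3, e4, e5, Real.cos_neg]
  have cs : ∀ y : ℝ, 0 ≤ y → y ≤ h → 1 / 2 ≤ Real.cos ((y - h / 2) / h) := fun y y0 y1 => by
    have a1 : |(y - h / 2) / h| ≤ 1 := by
      rw [abs_div, abs_of_pos hh, div_le_one hh, abs_le]
      constructor <;> linarith
    have a2 := Real.one_sub_sq_div_two_le_cos (x := (y - h / 2) / h)
    have a3 : ((y - h / 2) / h) ^ 2 ≤ 1 := by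
      rw [← sq_abs]
      exact pow_le_one₀ (abs_nonneg _) a1
    linarith
  have hbd : Bornology.IsBounded (Ioo (-b) b ×ℂ Ioo 0 h) :=
    (isBounded_Ioo _ _).reProdIm (isBounded_Ioo _ _)
  have hcl : closure (Ioo (-b) b ×ℂ Ioo (0 : ℝ) h) = Icc (-b) b ×ℂ Icc 0 h := by
    rw [closure_reProdIm, closure_Ioo (by linarith), closure_Ioo hh.ne]
  have k := tc (Φ := Φ) (z := z) hbd hf (Differentiable.diffContOnCl (by fun_prop)) hL hM
    (fun w hw => by
      have bb : -b < b := by linarith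
      rw [frontier_reProdIm, closure_Ioo bb.ne, closure_Ioo hh.ne, frontier_Ioo bb,
        frontier_Ioo hh] at hw
      have p1 := Real.exp_pos ((w.re - b) / h)
      have p2 := Real.exp_pos ((-w.re - b) / h)
      rcases hw with ⟨w1, w2⟩ | ⟨w1, w2⟩
      · have w3 : |w.re| ≤ b := abs_le.2 w1
        rcases w2 with w2 | w2
        · have c := cs w.im (by rw [w2]) (by rw [w2]; exact hh.le)
          left
          refine ⟨?_, ?_⟩
          · have e : w = (w.re : ℝ) := Complex.ext rfl (by simpa using w2)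
            rw [e]
            exact h2 _ w3
          · have e : (h - w.im) / h = 1 := by rw [w2, sub_zero, div_self hh.ne']
            rw [re1, e]
            nlinarith
        · have w4 : w.im = h := w2
          have c := cs w.im (by rw [w4]; exact hh.le) w4.le
          right
          refine ⟨h1 w w3 (by rw [w4]; exact hh.le) w4.le, ?_⟩
          have e : (h - w.im) / h = 0 := by rw [w4, sub_self, zero_div]
          rw [re1, e]
          nlinarith
      · have c := cs w.im w2.1 w2.2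
        have e : (h - w.im) / h ≤ 1 := by
          rw [div_le_one hh]
          linarith [w2.1]
        right
        rcases w1 with w1 | w1
        · refine ⟨h1 w (by rw [w1, abs_neg, abs_of_pos hb]) w2.1 w2.2, ?_⟩
          have e2 : Real.exp ((-w.re - b) / h) = 1 := by rw [w1]; simp
          rw [re1, e2]
          nlinarith
        · have w4 : w.re = b := w1
          refine ⟨h1 w (by rw [w4, abs_of_pos hb]) w2.1 w2.2, ?_⟩
          have e2 : Real.exp ((w.re - b) / h) = 1 := by rw [w4]; simp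
          rw [re1, e2]
          nlinarith)
    (by
      rw [hcl]
      have := abs_le.1 z1
      exact ⟨⟨by linarith [this.1], by linarith [this.2]⟩, z2, z3⟩)
  refine k.trans (mul_le_mul_of_nonneg_left (Real.exp_le_exp.2 (neg_le_neg
    (mul_le_mul_of_nonneg_left ?_ hL))) hM)
  have a := abs_le.1 z1
  have q1 : Real.exp ((z.re - b) / h) ≤ Real.exp (-(m / h)) := Real.exp_le_exp.2 (by
    rw [← neg_div]
    gcongr
    linarith [a.2])
  have q2 : Real.exp ((-z.re - b) / h) ≤ Real.exp (-(m / h)) := Real.exp_le_exp.2 (by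
    rw [← neg_div]
    gcongr
    linarith [a.1])
  have c1 := Real.cos_le_one ((z.im - h / 2) / h)
  have p1 := Real.exp_pos ((z.re - b) / h)
  have p2 := Real.exp_pos ((-z.re - b) / h)
  rw [re1]
  nlinarith

/-- the rectangle `c + ω ([-b, b] × [0, h])`, small on the side `c + ω [-b, b]` -/
theorem rect {f : ℂ → E} {c ω : ℂ} {b h m M L : ℝ} (hb : 0 < b) (hh : 0 < h) (hL : 0 ≤ L)
    (hf : ∀ z : ℂ, |z.re| ≤ b → 0 ≤ z.im → z.im ≤ h → DifferentiableAt ℂ f (c + ω * z))
    (h1 : ∀ z : ℂ, |z.re| ≤ b → 0 ≤ z.im → z.im ≤ h → ‖f (c + ω * z)‖ ≤ M)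
    (h2 : ∀ x : ℝ, |x| ≤ b → ‖f (c + ω * x)‖ ≤ M * Real.exp (-L)) {z : ℂ} (hm : 0 ≤ m)
    (z1 : |z.re| ≤ b - m) (z2 : 0 ≤ z.im) (z3 : z.im ≤ h) :
    ‖f (c + ω * z)‖ ≤ M * Real.exp (-(L * ((h - z.im) / h - 4 * Real.exp (-(m / h))))) := by
  refine rect0 (f := fun z => f (c + ω * z)) hb hh hL (DifferentiableOn.diffContOnCl ?_) h1 h2 hm
    z1 z2 z3
  rw [closure_reProdIm, closure_Ioo (by linarith), closure_Ioo hh.ne]
  intro w hw
  exact ((hf w (abs_le.2 hw.1) hw.2.1 hw.2.2).comp w (by fun_prop)).differentiableWithinAt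

/-- small on a diameter (direction `ω`), hence small near the centre -/
theorem diam {f : ℂ → E} {c ω : ℂ} {R M L : ℝ} (hR : 0 < R) (hL : 0 ≤ L) (hω : ‖ω‖ = 1)
    (hf : DifferentiableOn ℂ f (ball c R)) (h1 : ∀ z ∈ ball c R, ‖f z‖ ≤ M)
    (h2 : ∀ x : ℝ, |x| < R → ‖f (c + ω * x)‖ ≤ M * Real.exp (-L)) {z : ℂ}
    (hz : ‖z - c‖ ≤ R / 40) : ‖f z‖ ≤ M * Real.exp (-(L / 2)) := by
  have hM : 0 ≤ M := (norm_nonneg _).trans (h1 c (mem_ball_self hR))
  have main : ∀ ω : ℂ, ‖ω‖ = 1 → (∀ x : ℝ, |x| < R → ‖f (c + ω * x)‖ ≤ M * Real.exp (-L)) →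
      ∀ w : ℂ, ‖w‖ ≤ R / 40 → 0 ≤ w.im → ‖f (c + ω * w)‖ ≤ M * Real.exp (-(L / 2)) := by
    intro ω hω h2 w hw w0
    have mem : ∀ z : ℂ, |z.re| ≤ R / 2 → 0 ≤ z.im → z.im ≤ R / 10 → c + ω * z ∈ ball c R :=
      fun z a1 a2 a3 => by
        rw [mem_ball, dist_eq_norm, add_sub_cancel_left, norm_mul, hω, one_mul]
        have := norm_le_abs_re_add_abs_im z
        rw [abs_of_nonneg a2] at this
        linarith
    have i1 := (le_abs_self _).trans ((abs_im_le_norm w).trans hw)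
    have k := rect (b := R / 2) (h := R / 10) (m := 2 * R / 5) (z := w) (by positivity)
      (by positivity) hL
      (fun z a1 a2 a3 => hf.differentiableAt (isOpen_ball.mem_nhds (mem z a1 a2 a3)))
      (fun z a1 a2 a3 => h1 _ (mem z a1 a2 a3)) (fun x hx => h2 x (by linarith))
      (by positivity) (by linarith [(abs_re_le_norm w).trans hw]) w0 (by linarith)
    refine k.trans (mul_le_mul_of_nonneg_left (Real.exp_le_exp.2 (neg_le_neg ?_)) hM)
    have e1 : 2 * R / 5 / (R / 10) = 4 := by field_simp; norm_num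
    have e2 : 3 / 4 ≤ (R / 10 - w.im) / (R / 10) := by
      rw [le_div_iff₀ (by positivity)]
      linarith
    have e3 : Real.exp (-4) ≤ 1 / 16 := by
      have a := Real.add_one_le_exp 1
      have b : Real.exp 4 = Real.exp 1 ^ 4 := by rw [← Real.exp_nat_mul]; norm_num
      rw [Real.exp_neg, b, one_div]
      refine inv_anti₀ (by norm_num) ?_
      calc (16 : ℝ) = 2 ^ 4 := by norm_num
        _ ≤ _ := pow_le_pow_left₀ (by norm_num) (by linarith) 4
    rw [e1]
    nlinarith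
  have ω0 : ω ≠ 0 := by rintro rfl; simp at hω
  have nz : ‖(z - c) / ω‖ ≤ R / 40 := by rwa [norm_div, hω, div_one]
  rcases le_total 0 ((z - c) / ω).im with h | h
  · have k := main ω hω h2 _ nz h
    rwa [mul_div_cancel₀ _ ω0, add_sub_cancel] at k
  · have k := main (-ω) (by rwa [norm_neg]) (fun x hx => by
      have := h2 (-x) (by rwa [abs_neg])
      rwa [ofReal_neg, mul_neg, ← neg_mul] at this) (-((z - c) / ω)) (by rwa [norm_neg])
      (by rw [neg_im]; linarith)
    rwa [neg_mul_neg, mul_div_cancel₀ _ ω0, add_sub_cancel] at k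

/-- small on a disc, hence small on a larger concentric disc -/
theorem disc {f : ℂ → E} {c z : ℂ} {r ρ R M L : ℝ} (hr : 0 < r) (h0 : r ≤ ρ) (hρ : ρ < R)
    (hL : 0 ≤ L) (hf : DifferentiableOn ℂ f (closedBall c R))
    (h1 : ∀ z ∈ closedBall c R, ‖f z‖ ≤ M)
    (h2 : ∀ z ∈ closedBall c r, ‖f z‖ ≤ M * Real.exp (-L)) (hz : ‖z - c‖ ≤ ρ) :
    ‖f z‖ ≤ M * Real.exp (-(L * (Real.log (R / ρ) / Real.log (R / r)))) := by
  have hM : 0 ≤ M := (norm_nonneg _).trans (h1 c (mem_closedBall_self (by linarith)))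
  have ρ0 : 0 < ρ := by linarith
  have l0 : 0 < Real.log (R / r) := Real.log_pos (by rw [lt_div_iff₀ hr]; linarith)
  have l1 : Real.log (R / ρ) ≤ Real.log (R / r) :=
    Real.log_le_log (div_pos (by linarith) ρ0) (by gcongr; linarith)
  rcases le_total ‖z - c‖ r with h | h
  · refine (h2 z (mem_closedBall_iff_norm.2 h)).trans (mul_le_mul_of_nonneg_left
      (Real.exp_le_exp.2 (neg_le_neg ?_)) hM)
    exact mul_le_of_le_one_right hL ((div_le_one l0).2 l1)
  · have k := P097U.PJ.circles3 (f := f) (c := c) (z := z) (A := M * Real.exp (-L)) (B := M) hr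
      (h0.trans_lt hρ) ⟨h, by linarith⟩
      (hf.mono fun y hy => mem_closedBall_iff_norm.2 hy.2.le)
      (hf.continuousOn.mono fun y hy => mem_closedBall_iff_norm.2 hy.2)
      (fun y hy => h2 y (mem_closedBall_iff_norm.2 hy.le))
      (fun y hy => h1 y (mem_closedBall_iff_norm.2 hy.le))
    refine k.trans ?_
    set t := Real.log (‖z - c‖ / r) / Real.log (R / r) with ht
    have z0 : 0 < ‖z - c‖ := hr.trans_le h
    have t1 : Real.log (R / ρ) / Real.log (R / r) ≤ 1 - t := by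
      rw [ht, le_sub_iff_add_le, ← add_div, div_le_one l0,
        ← Real.log_mul (div_pos (by linarith) ρ0).ne' (div_pos z0 hr).ne']
      refine Real.log_le_log (mul_pos (div_pos (by linarith) ρ0) (div_pos z0 hr)) ?_
      rw [div_mul_div_comm, div_le_div_iff₀ (by positivity) hr]
      have : 0 < R * r := mul_pos (by linarith) hr
      nlinarith
    rcases hM.eq_or_lt with rfl | M0
    · have := h1 z (mem_closedBall_iff_norm.2 (by linarith))
      have t0 : 0 < 1 - t := lt_of_lt_of_le (div_pos (Real.log_pos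
        (by rw [lt_div_iff₀ ρ0]; linarith)) l0) t1
      simp [Real.zero_rpow t0.ne']
    · rw [Real.mul_rpow hM (Real.exp_pos _).le, mul_right_comm, ← Real.rpow_add M0, sub_add_cancel,
        Real.rpow_one, ← Real.exp_mul]
      refine mul_le_mul_of_nonneg_left (Real.exp_le_exp.2 ?_) hM
      nlinarith

/-- propagation of smallness with a power that only depends on the geometry -/
theorem small_pow {U K : Set ℂ} {z₀ : ℂ} {ρ : ℝ} (hU : IsOpen U) (hc : IsPreconnected U)
    (hK : IsCompact K) (KU : K ⊆ U) (h₀ : z₀ ∈ U) (hρ : 0 < ρ) :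
    ∃ γ : ℝ, 0 < γ ∧ γ ≤ 1 ∧ ∀ (f : ℂ → E) (M L : ℝ), 0 ≤ L → DifferentiableOn ℂ f U →
      (∀ z ∈ U, ‖f z‖ ≤ M) → (∀ z ∈ U, z ∈ ball z₀ ρ → ‖f z‖ ≤ M * Real.exp (-L)) →
      ∀ z ∈ K, ‖f z‖ ≤ M * Real.exp (-(γ * L)) := by
  let P : Set ℂ → Prop := fun A => ∃ γ : ℝ, 0 < γ ∧ γ ≤ 1 ∧ ∀ (f : ℂ → E) (M L : ℝ), 0 ≤ L →
    DifferentiableOn ℂ f U → (∀ z ∈ U, ‖f z‖ ≤ M) →
    (∀ z ∈ U, z ∈ ball z₀ ρ → ‖f z‖ ≤ M * Real.exp (-L)) →
    ∀ z ∈ A, ‖f z‖ ≤ M * Real.exp (-(γ * L))
  let S : Set ℂ := {z | ∃ δ > 0, P (ball z δ)}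
  have So : IsOpen S := by
    rw [Metric.isOpen_iff]
    rintro z ⟨δ, hδ, γ, g0, g1, h⟩
    refine ⟨δ, hδ, fun w hw => ?_⟩
    obtain ⟨e, he, sub⟩ := Metric.isOpen_iff.1 isOpen_ball w hw
    exact ⟨e, he, γ, g0, g1, fun f M L a b c d y hy => h f M L a b c d y (sub hy)⟩
  have US : U ⊆ S := by
    refine hc.subset_of_closure_inter_subset So ⟨z₀, h₀, ?_⟩ ?_
    · obtain ⟨e, he, sub⟩ := Metric.isOpen_iff.1 (hU.inter isOpen_ball) z₀ ⟨h₀, mem_ball_self hρ⟩
      exact ⟨e, he, 1, one_pos, le_rfl, fun f M L _ _ _ d y hy => by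
        rw [one_mul]
        exact d y (sub hy).1 (sub hy).2⟩
    · rintro z ⟨z1, z2⟩
      obtain ⟨R, hR, sub⟩ := Metric.isOpen_iff.1 hU z z2
      obtain ⟨w, ⟨δ, hδ, γ, g0, g1, h⟩, hw⟩ := Metric.mem_closure_iff.1 z1 (R / 8) (by positivity)
      have sb : closedBall w (R / 2) ⊆ U := fun y hy => sub (by
        rw [mem_closedBall] at hy
        rw [mem_ball]
        linarith [dist_triangle y w z, dist_comm z w])
      set r := min (δ / 2) (R / 4) with hr
      have r0 : 0 < r := lt_min (by positivity) (by positivity)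
      have r1 : r ≤ R / 4 := min_le_right _ _
      have r2 : r ≤ δ / 2 := min_le_left _ _
      have l0 : 0 < Real.log (R / 2 / r) := Real.log_pos (by rw [lt_div_iff₀ r0]; linarith)
      have l1 : 0 < Real.log (R / 2 / (R / 4)) :=
        Real.log_pos (by rw [lt_div_iff₀ (by positivity)]; linarith)
      have l2 : Real.log (R / 2 / (R / 4)) ≤ Real.log (R / 2 / r) :=
        Real.log_le_log (by positivity) (by gcongr)
      refine ⟨R / 8, by positivity, γ * (Real.log (R / 2 / (R / 4)) / Real.log (R / 2 / r)),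
        by positivity, mul_le_one₀ g1 (by positivity) ((div_le_one l0).2 l2),
        fun f M L a b c d y hy => ?_⟩
      have k := disc (f := f) (c := w) (z := y) (r := r) (ρ := R / 4) (R := R / 2) (M := M)
        (L := γ * L) r0 r1 (by linarith) (by positivity) (b.mono sb) (fun v hv => c v (sb hv))
        (fun v hv => h f M L a b c d v (closedBall_subset_ball (by linarith) hv)) (by
          rw [mem_ball] at hy
          rw [← dist_eq_norm]
          linarith [dist_triangle y z w])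
      rwa [mul_right_comm] at k
  refine hK.induction_on (p := P) ⟨1, one_pos, le_rfl, fun _ _ _ _ _ _ _ _ h => h.elim⟩ ?_ ?_ ?_
  · rintro s t st ⟨γ, g0, g1, h⟩
    exact ⟨γ, g0, g1, fun f M L a b c d y hy => h f M L a b c d y (st hy)⟩
  · rintro s t ⟨γ, g0, g1, h⟩ ⟨γ', g0', g1', h'⟩
    refine ⟨min γ γ', lt_min g0 g0', (min_le_left _ _).trans g1, fun f M L a b c d y hy => ?_⟩
    have hM : 0 ≤ M := (norm_nonneg _).trans (c z₀ h₀)
    rcases hy with hy | hy
    · refine (h f M L a b c d y hy).trans (mul_le_mul_of_nonneg_left (Real.exp_le_exp.2 ?_) hM)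
      exact neg_le_neg (mul_le_mul_of_nonneg_right (min_le_left _ _) a)
    · refine (h' f M L a b c d y hy).trans (mul_le_mul_of_nonneg_left (Real.exp_le_exp.2 ?_) hM)
      exact neg_le_neg (mul_le_mul_of_nonneg_right (min_le_right _ _) a)
  · intro z hz
    obtain ⟨δ, hδ, h⟩ := US (KU hz)
    exact ⟨ball z δ, mem_nhdsWithin_of_mem_nhds (ball_mem_nhds z hδ), h⟩

end Vale.Agent.P097EE.Tc
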