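import Vale.Agent.P097EE.Defs
import Vale.Agent.P097EE.Tc

/-!
# P097EE: the true family read in the clean chart
-/

set_option linter.all false

noncomputable section

namespace Vale.Agent.P097EE

open Filter Topology Set Metric Complex

namespace PhiP

def cay (p : C2) : C2 := ((p.1 - I)⁻¹, (p.2 - I)⁻¹)

/-- both points are below the real line -/
def Lw (p : C2) : Prop := p.1.im < 0 ∧ p.2.im < 0

lemma one_le {y : ℂ} (h : y.im < 0) : 1 ≤ ‖y - I‖ := by
  have := neg_le_of_abs_le (abs_im_le_norm (y - I))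
  simp only [sub_im, I_im] at this
  linarith

lemma ne0 {y : ℂ} (h : y.im < 0) : y - I ≠ 0 := norm_pos_iff.1 (one_pos.trans_le (one_le h))

lemma id1 {y c : ℂ} (h : y.im < 0) (h' : c.im < 0) :
    ‖y - c‖ = ‖(y - I)⁻¹ - (c - I)⁻¹‖ * (‖y - I‖ * ‖c - I‖) := by
  have := ne0 h
  have := ne0 h'
  rw [← norm_mul, ← norm_mul, norm_sub_rev]
  congr 1
  field_simp
  ring

lemma lip1 {y c : ℂ} (h : y.im < 0) (h' : c.im < 0) : ‖(y - I)⁻¹ - (c - I)⁻¹‖ ≤ ‖y - c‖ := by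
  rw [id1 h h']
  exact le_mul_of_one_le_right (norm_nonneg _) (one_le_mul_of_one_le_of_one_le (one_le h) (one_le h'))

lemma inv1 {y c : ℂ} {M d : ℝ} (h : y.im < 0) (h' : c.im < 0) (hM : ‖c‖ ≤ M)
    (hd : ‖(y - I)⁻¹ - (c - I)⁻¹‖ ≤ d) (hd' : d * (M + 1) ≤ 1 / 2) :
    ‖y - c‖ ≤ 2 * (M + 1) ^ 2 * d := by
  have h1 : ‖c - I‖ ≤ M + 1 := (norm_sub_le _ _).trans (by simpa using hM)
  have h2 : ‖y - I‖ ≤ ‖y - c‖ + (M + 1) := (norm_sub_le_norm_sub_add_norm_sub y c I).trans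
    (by linarith)
  have d0 : 0 ≤ d := (norm_nonneg _).trans hd
  have M0 : 0 ≤ M + 1 := (norm_nonneg _).trans h1
  have n := norm_nonneg (y - c)
  have h3 : ‖y - c‖ ≤ d * ((‖y - c‖ + (M + 1)) * (M + 1)) :=
    (id1 h h').trans_le (by gcongr)
  nlinarith [mul_le_mul_of_nonneg_left hd' n]

lemma bd {p q : C2} (h : Lw p) (h' : Lw q) : ‖cay p - cay q‖ ≤ 2 := by
  have k : ∀ y : ℂ, y.im < 0 → ‖(y - I)⁻¹‖ ≤ 1 := fun y hy => by
    rw [norm_inv]
    exact inv_le_one_of_one_le₀ (one_le hy)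
  exact norm_prod_le_iff.2
    ⟨(norm_sub_le _ _).trans ((add_le_add (k _ h.1) (k _ h'.1)).trans_eq one_add_one_eq_two),
      (norm_sub_le _ _).trans ((add_le_add (k _ h.2) (k _ h'.2)).trans_eq one_add_one_eq_two)⟩

lemma lip {p q : C2} (h : Lw p) (h' : Lw q) : ‖cay p - cay q‖ ≤ ‖p - q‖ :=
  norm_prod_le_iff.2 ⟨(lip1 h.1 h'.1).trans (norm_fst_le (p - q)),
    (lip1 h.2 h'.2).trans (norm_snd_le (p - q))⟩

lemma inv {p q : C2} {M d : ℝ} (h : Lw p) (h' : Lw q) (hM : ‖q‖ ≤ M) (hd : ‖cay p - cay q‖ ≤ d)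
    (hd' : d * (M + 1) ≤ 1 / 2) : ‖p - q‖ ≤ 2 * (M + 1) ^ 2 * d :=
  norm_prod_le_iff.2
    ⟨inv1 h.1 h'.1 ((norm_fst_le q).trans hM) ((norm_fst_le (cay p - cay q)).trans hd) hd',
      inv1 h.2 h'.2 ((norm_snd_le q).trans hM) ((norm_snd_le (cay p - cay q)).trans hd) hd'⟩

lemma dcay {p : C2} (h : Lw p) : DifferentiableAt ℂ cay p :=
  ((differentiableAt_fst.sub_const I).inv (ne0 h.1)).prodMk
    ((differentiableAt_snd.sub_const I).inv (ne0 h.2))

/-- the two applications of the two constants theorem -/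
lemma core {h w S A l : ℝ} {ω : ℂ → ℝ} {D : C2 → C2} (om : ∀ ζ, |ω ζ| ≤ 2 * ‖ζ‖) (l0 : 0 < l)
    (l1 : l ≤ 1) (h1 : 163 ≤ h) (h2 : 16 / l ≤ h) (S0 : 0 ≤ S) (A0 : 0 ≤ A)
    (hw : 50 * A * h + 4 * h * Real.log h ≤ w)
    (hD : ∀ q ∈ Bx w (-h) 3 81, q.1.im ≤ ω q.2 - l → DifferentiableAt ℂ D q ∧ ‖D q‖ ≤ 2)
    (dp : ∀ x ζ : ℝ, |x| ≤ w → |ζ| ≤ 81 → ‖D (x - h * I, ζ)‖ ≤ Real.exp (-S)) {q : C2}
    (hq : q ∈ Bx (50 * A * h) (-h) 2 2) (hq' : q.1.im ≤ ω q.2 - 2 * l) :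
    ‖D q‖ ≤ 2 * Real.exp (-(S * l / (8 * h))) ∧
      (q.1.im ≤ -h + 1 → ‖D q‖ ≤ 2 * Real.exp (-(S / 4))) := by
  obtain ⟨t, ζ⟩ := q
  obtain ⟨q1, q2, q3, q4⟩ := hq
  simp only at q1 q2 q3 q4 hq' ⊢
  have h0 : 0 < h := by linarith
  have lg : 0 < Real.log h := Real.log_pos (by linarith)
  have m0 : 0 < 4 * h * Real.log h := by positivity
  have a0 : 0 ≤ 50 * A * h := by positivity
  have line : ∀ x : ℝ, |x| ≤ w → ‖D (x - h * I, ζ)‖ ≤ 2 * Real.exp (-(S / 2)) := fun x hx => by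
    have k : ∀ z ∈ ball (0 : ℂ) 80, DifferentiableAt ℂ D (x - h * I, z) ∧ ‖D (x - h * I, z)‖ ≤ 2 :=
      fun z hz => by
        rw [mem_ball_zero_iff] at hz
        have := neg_le_of_abs_le (om z)
        exact hD _ ⟨by simpa using hx, by simp, by simp; linarith, by simp only; linarith⟩
          (by simp; linarith)
    refine Tc.diam (f := fun z => D (x - h * I, z)) (c := 0) (ω := 1) (R := 80) (by norm_num) S0
      (by simp) (fun z hz => ((k z hz).1.comp z ((differentiableAt_const _).prodMk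
        differentiableAt_id)).differentiableWithinAt) (fun z hz => (k z hz).2) (fun y hy => ?_)
      (by simp; linarith)
    simp only [zero_add, one_mul]
    linarith [dp x y hx (by linarith), Real.exp_pos (-S)]
  obtain ⟨H, hH⟩ : ∃ H, H = h + min 3 (ω ζ - l) := ⟨_, rfl⟩
  have o1 := neg_le_of_abs_le (om ζ)
  have H1 : H ≤ h + 3 := by linarith [min_le_left 3 (ω ζ - l)]
  have H2 : H ≤ h + (ω ζ - l) := by linarith [min_le_right 3 (ω ζ - l)]
  have H3 : h - 5 ≤ H := by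
    have : -5 ≤ min 3 (ω ζ - l) := le_min (by norm_num) (by linarith)
    linarith
  have H4 : t.im + h + l ≤ H := by
    have : t.im + l ≤ min 3 (ω ζ - l) := le_min (by linarith) (by linarith)
    linarith
  have H0 : 0 < H := by linarith
  have k : ∀ z : ℂ, |z.re| ≤ w → 0 ≤ z.im → z.im ≤ H →
      DifferentiableAt ℂ D (-(h * I) + 1 * z, ζ) ∧ ‖D (-(h * I) + 1 * z, ζ)‖ ≤ 2 :=
    fun z a1 a2 a3 => hD _ ⟨by simpa using a1, by simpa using a2, by simp; linarith,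
      by simp only; linarith⟩ (by simp; linarith)
  have R := Tc.rect (f := fun z => D (z, ζ)) (c := -(h * I)) (ω := 1) (b := w) (h := H)
    (m := 4 * h * Real.log h) (M := 2) (L := S / 2) (z := t + h * I) (by linarith) H0 (by linarith)
    (fun z a1 a2 a3 => DifferentiableAt.comp (f := fun z : ℂ => (z, ζ)) _ (k z a1 a2 a3).1
      (differentiableAt_id.prodMk (differentiableAt_const _)))
    (fun z a1 a2 a3 => (k z a1 a2 a3).2)
    (fun x hx => by simpa only [one_mul, neg_add_eq_sub] using line x hx) m0.le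
    (by simp; linarith) (by simp; linarith) (by simp; linarith)
  rw [show -(h * I) + 1 * (t + h * I) = t by ring,
    show (t + h * I).im = t.im + h by simp] at R
  have e1 : Real.exp (-(4 * h * Real.log h / H)) ≤ 1 / h ^ 2 := by
    have : 2 * Real.log h ≤ 4 * h * Real.log h / H := by
      rw [le_div_iff₀ H0]
      nlinarith
    refine (Real.exp_le_exp.2 (neg_le_neg this)).trans_eq ?_
    rw [Real.exp_neg, mul_comm, Real.exp_mul, Real.exp_log h0, one_div, Real.rpow_two]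
  have e2 : 4 * (1 / h ^ 2) ≤ l / (4 * h) := by
    rw [div_le_iff₀ l0] at h2
    rw [mul_one_div, div_le_div_iff₀ (by positivity) (by positivity)]
    nlinarith
  refine ⟨R.trans ?_, fun hd => R.trans ?_⟩
  · have e3 : l / (2 * h) ≤ (H - (t.im + h)) / H :=
      div_le_div₀ (by linarith) (by linarith) H0 (by linarith)
    have e4 : l / (2 * h) = 2 * (l / (4 * h)) := by field_simp; norm_num
    have e5 : S * l / (8 * h) = S / 2 * (l / (4 * h)) := by field_simp; ring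
    rw [e5]
    gcongr
    linarith
  · have e3 : 3 / 4 ≤ (H - (t.im + h)) / H := by
      rw [le_div_iff₀ H0]
      linarith
    have e4 : l / (4 * h) ≤ 1 / 4 := by
      rw [div_le_div_iff₀ (by positivity) (by norm_num)]
      linarith
    rw [show S / 4 = S / 2 * (1 / 2) by ring]
    gcongr
    linarith

end PhiP

open PhiP

theorem phi (hI : S_INV) : S_PHI := by
  intro 𝒰 A h w K S ω C Z G P
  have ex : ∀ n, ∃ Ψ : C2 → C2, 1 ≤ K n → Chart (C n) (Bx (w n) (-h n) 3 81) (K n) →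
      ∀ x, AnalyticAt ℂ (Z n) x → x ∈ Bx (w n) (-h n) 3 81 →
        ‖Z n x - C n x‖ < 1 / (4 * K n ^ 2) → AnalyticAt ℂ Ψ x ∧ C n (Ψ x) = Z n x ∧
          ‖Ψ x - x‖ ≤ K n * ‖Z n x - C n x‖ := fun n => by
    by_cases H : 1 ≤ K n ∧ Chart (C n) (Bx (w n) (-h n) 3 81) (K n)
    · obtain ⟨Ψ, hΨ⟩ := hI (C n) (Z n) id _ _ H.1 H.2
      exact ⟨Ψ, fun _ _ x a b c => hΨ x a continuousAt_id b c⟩
    · exact ⟨id, fun a b => absurd ⟨a, b⟩ H⟩
  choose Φ hΦ using ex
  refine ⟨Φ, fun lam lam0 b => ?_⟩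
  obtain ⟨M, M0, cp⟩ := P.cp
  obtain ⟨l, l0, l1, l2⟩ : ∃ l : ℝ, 0 < l ∧ l ≤ 1 ∧ 2 * l ≤ lam :=
    ⟨min 1 (lam / 2), lt_min one_pos (by linarith), min_le_left _ _,
      by linarith [min_le_right 1 (lam / 2)]⟩
  have A0 : 0 < A := by linarith [G.A2]
  filter_upwards [P.ch, cp, P.tr l l0, P.dp, G.hK, G.hw (50 * A + 4), G.hS (8 * (b + 4) / l),
    G.hl.eventually_ge_atTop 163, G.hl.eventually_ge_atTop (16 / l),
    G.hl.eventually_ge_atTop (4 * (M + 1) ^ 2)] with n ch cp tr dp hK hw hS h1 h2 h3 q hq hq'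
  have hΦ := hΦ n
  generalize h n = h, w n = w, K n = K, S n = S, C n = C, Z n = Z, Φ n = Φ at *
  have h0 : 0 < h := by linarith
  have K0 : 0 < K := by linarith
  have lg : 1 ≤ Real.log h := by
    rw [Real.le_log_iff_exp_le h0]
    linarith [Real.exp_one_lt_d9]
  have lK : 1 ≤ Real.log K := lg.trans (Real.log_le_log h0 hK)
  have b0 : (0 : ℝ) ≤ b := b.cast_nonneg
  have S1 : 8 * (b + 4) / l * h * Real.log K ≤ S := by
    refine le_trans ?_ hS
    have : h ≤ h ^ (1 + 1 / A) := Real.self_le_rpow_of_one_le (by linarith)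
      (le_add_of_nonneg_right (by positivity))
    gcongr
  have S2 : (b + 4) * Real.log K ≤ S * l / (8 * h) := by
    rw [le_div_iff₀ (by positivity)]
    calc (b + 4) * Real.log K * (8 * h) = 8 * (b + 4) / l * h * Real.log K * l := by field_simp
      _ ≤ _ := by gcongr
  have S0 : 0 ≤ S := le_trans (by positivity) S1
  have S3 : S * l / (8 * h) ≤ S / 32 := by
    rw [div_le_div_iff₀ (by positivity) (by norm_num)]
    exact (mul_assoc _ _ _).trans_le (mul_le_mul_of_nonneg_left (by linarith) S0)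
  have w1 : 50 * A * h + 4 * h * Real.log h ≤ w := by
    have : 50 * A * h * 1 ≤ 50 * A * h * Real.log h := by gcongr
    linarith
  have w2 : 50 * A * h ≤ w := by
    have : 0 ≤ 4 * h * Real.log h := by positivity
    linarith
  have lC : ∀ q ∈ Bx w (-h) 3 81, Lw (C q) := fun q hq => by
    have : 0 < 1 / M := by positivity
    exact ⟨by linarith [(cp q hq).2.1], by linarith [(cp q hq).2.2]⟩
  have hq2 : q ∈ Bx w (-h) 3 81 :=
    ⟨hq.1.trans w2, hq.2.1, by linarith [hq.2.2.1], by linarith [hq.2.2.2]⟩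
  obtain ⟨aZ, lZ⟩ := tr q hq2 (by linarith)
  obtain ⟨c1, c2⟩ := core (D := fun q => cay (Z q) - cay (C q)) P.om l0 l1 h1 h2 S0 A0.le w1
    (fun q hq k => ⟨((dcay (tr q hq k).2).comp q (tr q hq k).1.differentiableAt).sub
      ((dcay (lC q hq)).comp q ((ch q hq).1 q (mem_ball_self (by positivity))).differentiableAt),
      bd (tr q hq k).2 (lC q hq)⟩)
    (fun x ζ a1 a2 => by
      have m : ((x : ℂ) - h * I, (ζ : ℂ)) ∈ Bx w (-h) 3 81 :=
        ⟨by simpa using a1, by simp, by simp; linarith, by simpa using a2⟩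
      have := neg_le_of_abs_le (P.om ζ)
      rw [norm_real, Real.norm_eq_abs] at this
      exact (lip (tr _ m (by simp; linarith)).2 (lC _ m)).trans (dp x ζ a1 a2)) hq (by linarith)
  have e1 : Real.exp (-(S * l / (8 * h))) ≤ (K ^ (b + 4))⁻¹ := by
    refine (Real.exp_le_exp.2 (neg_le_neg S2)).trans_eq ?_
    rw [Real.exp_neg, ← Nat.cast_ofNat, ← Nat.cast_add, Real.exp_nat_mul, Real.exp_log K0]
  have K1 : 1 ≤ K := by linarith
  have MK : 4 * (M + 1) ≤ K := by nlinarith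
  have sm : ∀ d : ℝ, 0 ≤ d → d ≤ K⁻¹ → ‖cay (Z q) - cay (C q)‖ ≤ 2 * d → ‖Z q - C q‖ ≤ K * d :=
    fun d d0 d1 d2 => by
      have d3 : K * d ≤ 1 := by rwa [← le_div_iff₀' K0, one_div]
      refine (inv lZ (lC q hq2) (cp q hq2).1 d2 ?_).trans ?_
      · nlinarith [mul_le_mul_of_nonneg_right MK d0]
      · nlinarith [mul_le_mul_of_nonneg_right (h3.trans hK) d0]
  have pw : (K ^ (b + 4))⁻¹ ≤ K⁻¹ := inv_anti₀ K0 (le_self_pow₀ K1 (by omega))
  have z1 := sm _ (by positivity) pw (c1.trans (by gcongr))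
  have Kb : 1 ≤ K ^ b := one_le_pow₀ K1
  obtain ⟨f1, f2, f3⟩ := hΦ K1 ch q aZ hq2 (z1.trans_lt (by
    rw [← div_eq_mul_inv, div_lt_div_iff₀ (by positivity) (by positivity), pow_add]
    calc K * (4 * K ^ 2) = 4 * K ^ 3 := by ring
      _ < K * K ^ 3 := by gcongr; linarith
      _ = 1 * (1 * K ^ 4) := by ring
      _ ≤ _ := by gcongr))
  refine ⟨f1, f2, ?_, fun hd => ?_⟩
  · calc ‖Φ q - q‖ * K ^ b ≤ K * (K * (K ^ (b + 4))⁻¹) * K ^ b := by
          gcongr
          exact f3.trans (by gcongr)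
      _ = (K ^ 2)⁻¹ := by rw [pow_add]; field_simp
      _ ≤ 1 := inv_le_one_of_one_le₀ (one_le_pow₀ K1)
  · have l4 : 4 * Real.log K ≤ S / 32 := by nlinarith
    have eK : K = Real.exp (Real.log K) := (Real.exp_log K0).symm
    have z2 := sm (Real.exp (-(S / 4))) (Real.exp_pos _).le (by
      rw [eK, ← Real.exp_neg]
      exact Real.exp_le_exp.2 (by linarith)) (c2 hd)
    refine f3.trans ((mul_le_mul_of_nonneg_left z2 K0.le).trans ?_)
    rw [eK, ← Real.exp_add, ← Real.exp_add]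
    exact Real.exp_le_exp.2 (by linarith)

end Vale.Agent.P097EE
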