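import Vale.Agent.P097EE.Defs2

/-!
# P097EE: the obstacle is high above the top
-/

set_option linter.all false

noncomputable section

namespace Vale.Agent.P097EE

open Filter Topology Set Metric Complex

theorem row : S_ROW := by
  intro D 𝒰 ℓ C₁ cL cR x ρ g t c hY hx r0 r1
  filter_upwards [t.geo, t.sd 1 one_pos 0, c, hY, g.gr.hK, g.nr.LK] with n ⟨g1, _, g3, g4⟩ ⟨s, _⟩
    c hY hK ⟨_, hL, _⟩
  have l1 : (100 : ℝ) ≤ ℓ := by exact_mod_cast t.l1
  have h1 := (abs_le.1 g1).2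
  rw [max_eq_right (by linarith)] at c
  have c1 := abs_le.1 ((abs_re_le_norm _).trans c)
  have c2 := abs_le.1 ((abs_im_le_norm _).trans c)
  rw [sub_re] at c1
  rw [sub_im] at c2
  have j1 : (⌊(cL n).re⌋₊ : ℝ) ≤ (cL n).re := Nat.floor_le (by linarith)
  have j2 := Nat.lt_floor_add_one (cL n).re
  have j3 : ⌊(cL n).re⌋₊ ≤ D.N n := by exact_mod_cast (by linarith : (⌊(cL n).re⌋₊ : ℝ) ≤ D.N n)
  have ok : ∀ y ≤ (1 : ℝ), Ok 1 ℓ (cL n) y ⌊(cL n).re⌋₊ := fun y hy =>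
    Or.inr ⟨(cL n).im / 2, by linarith, lt_abs.2 (Or.inr (by linarith)), by linarith⟩
  refine ⟨⌊(cL n).re⌋₊, fun q => (D.T n)^[⌊(cL n).re⌋₊] (D.L0 n q), j3, fun y hy => ?_,
    fun y hy => ok y (by linarith [hy.2]), fun q ⟨⟨q1, q2, q3⟩, q4⟩ => ?_⟩
  · refine Or.inr ⟨(cL n).im / 2, by linarith, lt_abs.2 (Or.inr ?_), ?_⟩
    · rw [sub_im, natCast_im]
      linarith [hy.2]
    · rw [sub_re, natCast_re, Nat.cast_sub j3]
      linarith
  · rw [mem_ball_zero_iff] at q4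
    have a1 := abs_lt.1 q1
    have a2 := abs_le.1 hx
    obtain ⟨b1, ⟨-, b2, -⟩, b3, -⟩ := s.app q _ (s.alw q q.1.im _
      (abs_le.2 ⟨by linarith, by linarith⟩) (by linarith) (by linarith) (by linarith) (by simp)
      (ok _ (by linarith)))
    refine ⟨b1, norm_prod_le_iff.2 ⟨?_, by linarith⟩, fun _ => rfl⟩
    exact abs_le_of_sq_le_sq' (by nlinarith) (by linarith) |>.2

end Vale.Agent.P097EE
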