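import Vale.Agent.P097EE.Defs

/-!
# P097EE: a family which follows the step on an open set follows it everywhere
-/

set_option linter.all false

noncomputable section

namespace Vale.Agent.P097EE

open Filter Topology Set Metric Complex

theorem trk_an (c : ℂ) (q : C2) : AnalyticAt ℂ (fun p : C2 => sh p c) q :=
  (analyticAt_fst.add analyticAt_const).prod analyticAt_snd

theorem trk_sh (q : C2) (b c : ℂ) : sh (sh q b) c = sh q (b + c) := by
  simp [sh, add_assoc]

theorem trk_zero (q : C2) : sh q 0 = q := by simp [sh]

theorem trk : S_TRK := by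
  intro T α U a J hU hc ⟨q₁, h1, h1'⟩ hα hT ⟨q₀, h0, h0'⟩
  have aL : ∀ j ≤ J, AnalyticOnNhd ℂ (fun q => α (sh q (a * j))) U := fun j hj q hq =>
    AnalyticAt.comp (g := α) (hα q hq j hj) (trk_an _ q)
  have aR : ∀ j ≤ J, AnalyticOnNhd ℂ (fun q => T^[j] (α q)) U := by
    intro j
    induction j with
    | zero =>
      intro _ q hq
      simpa [trk_zero] using hα q hq 0 (Nat.zero_le _)
    | succ j ih =>
      intro hj q hq
      simp only [Function.iterate_succ_apply']
      exact AnalyticAt.comp (g := T) (hT q hq j hj) (ih (Nat.le_of_succ_le hj) q hq)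
  have c1 : 1 ≤ J → ∀ q ∈ U, α (sh q a) = T (α q) := fun hJ q hq => by
    have := (aL 1 hJ).eqOn_of_preconnected_of_eventuallyEq (aR 1 hJ) hc h0
      (h0'.mono fun q e => by simpa using e) hq
    simpa using this
  intro q hq j
  induction j generalizing q with
  | zero =>
    intro _
    simp [trk_zero]
  | succ j ih =>
    intro hj
    refine (aL _ hj).eqOn_of_preconnected_of_eventuallyEq (aR _ hj) hc h1 ?_ hq
    filter_upwards [hU.mem_nhds h1,
      (trk_an a q₁).continuousAt.preimage_mem_nhds (hU.mem_nhds h1')] with p b1 b2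
    have e : a * ((j + 1 : ℕ) : ℂ) = a + a * j := by
      push_cast
      ring
    rw [e, ← trk_sh, ih _ b2 (Nat.le_of_succ_le hj), c1 (by omega) p b1,
      Function.iterate_succ_apply]

end Vale.Agent.P097EE
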