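import Vale.Agent.P097EE.Defs2
import Vale.Agent.P097EE.Trk

/-!
# P097EE: one side of an obstacle (row 5812)
-/

set_option linter.all false

noncomputable section

namespace Vale.Agent.P097EE

open Filter Topology Set Metric Complex

theorem Ok.mono {a ℓ : ℝ} {ξ : ℂ} {y : ℝ} {i j : ℕ} (h : Ok a ℓ ξ y j) (hij : i ≤ j) :
    Ok a ℓ ξ y i := by
  have : (i : ℝ) ≤ j := by exact_mod_cast hij
  rcases h with h | ⟨D, h1, h2, h3⟩
  · exact Or.inl (by linarith)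
  · exact Or.inr ⟨D, h1, h2, by linarith⟩

theorem side_alw {a ℓ l₁ h : ℝ} {ξ : ℂ} (ha : a = 1 ∨ a = -1) (h1 : 100 ≤ ℓ) (h2 : 4 * ℓ ≤ l₁)
    (h3 : 4 * (h + |ξ.im| + 4) ≤ l₁) (h5 : 5 ≤ h) (p : C2) (y : ℝ) (j : ℕ) (b1 : |p.1.re| ≤ 4)
    (b2 : ‖p.2‖ ≤ 3) (b3 : -h - 1 ≤ p.1.im) (b4 : p.1.im ≤ 3) (b5 : |p.1.im - y| ≤ 1)
    (ok : Ok a ℓ ξ y j) : Alw a 4 ℓ l₁ ξ p j := by
  have m1 := le_max_left ℓ |p.1.im - ξ.im|
  have m2 := le_max_right ℓ |p.1.im - ξ.im|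
  have ar : a * p.1.re ≤ 4 := by
    rcases ha with rfl | rfl <;> linarith [abs_le.1 b1]
  have t1 : |y - ξ.im| ≤ 1 + |p.1.im - ξ.im| := by
    have := abs_sub_le y p.1.im ξ.im
    rw [abs_sub_comm y p.1.im] at this
    linarith
  refine ⟨b2, ?_, by linarith, ?_, ?_⟩
  · have : |p.1.im - ξ.im| ≤ h + |ξ.im| + 4 := by
      have := abs_le.1 (le_refl |ξ.im|)
      rw [abs_le]; constructor <;> linarith [this.1, this.2]
    rcases max_cases ℓ |p.1.im - ξ.im| with e | e <;> rw [e.1] <;> linarith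
  · rcases ok with o | ⟨D, o1, o2, o3⟩ <;> linarith
  · rcases ok with o | ⟨D, o1, o2, o3⟩
    · exact Or.inl (by linarith)
    · exact Or.inr (by linarith)

/-- a part of the cone cut by a half plane -/
def SdC (h lam s c : ℝ) : Set C2 := Cn h lam ∩ {p | c < s * p.1.im}

theorem sdc_open (h lam s c : ℝ) : IsOpen (SdC h lam s c) := by
  have e : SdC h lam s c = {q : C2 | |q.1.re| < 3} ∩ ({q | -h < q.1.im} ∩
      ({q | q.1.im < -(2 * ‖q.2‖) - lam} ∩ {q | ‖q.2‖ < 2})) ∩ {p | c < s * p.1.im} := rfl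
  rw [e]
  refine (IsOpen.inter ?_ (IsOpen.inter ?_ (IsOpen.inter ?_ ?_))).inter ?_ <;>
    exact isOpen_lt (by fun_prop) (by fun_prop)

theorem sdc_convex (h lam s c : ℝ) : Convex ℝ (SdC h lam s c) := by
  rintro p ⟨⟨p1, p2, p3, p4⟩, p5⟩ q ⟨⟨q1, q2, q3, q4⟩, q5⟩ a b ha hb hab
  have key : ∀ x y z : ℝ, x < z → y < z → a * x + b * y < z := fun x y z hx hy => by
    have := (convex_Iio z) hx hy ha hb hab
    simpa using this
  have n2 : ‖(a • p + b • q).2‖ ≤ a * ‖p.2‖ + b * ‖q.2‖ := by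
    refine (norm_add_le _ _).trans ?_
    simp [norm_smul, abs_of_nonneg ha, abs_of_nonneg hb]
  have e1 : (a • p + b • q).1.re = a * p.1.re + b * q.1.re := by simp
  have e2 : (a • p + b • q).1.im = a * p.1.im + b * q.1.im := by simp
  simp only [mem_setOf_eq] at p5 q5
  rw [abs_lt] at p1 q1
  refine ⟨⟨?_, ?_, ?_, ?_⟩, ?_⟩
  · rw [e1, abs_lt]
    exact ⟨by linarith [key (-p.1.re) (-q.1.re) 3 (by linarith) (by linarith)], key _ _ _ p1.2 q1.2⟩
  · rw [e2]; linarith [key (-p.1.im) (-q.1.im) h (by linarith) (by linarith)]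
  · rw [e2]
    linarith [key (p.1.im + 2 * ‖p.2‖) (q.1.im + 2 * ‖q.2‖) (-lam) (by linarith) (by linarith)]
  · linarith [key _ _ _ p4 q4]
  · simp only [mem_setOf_eq]
    rw [e2]
    linarith [key (-(s * p.1.im)) (-(s * q.1.im)) (-c) (by linarith) (by linarith)]

theorem sdc_sh {h lam s c a : ℝ} (ha : a = 1 ∨ a = -1) {q : C2} (hq : q ∈ SdC h lam s c) :
    ∃ p ∈ SdC h lam s c, sh p a ∈ SdC h lam s c := by
  obtain ⟨⟨-, q2, q3, q4⟩, q5⟩ := hq
  refine ⟨((q.1.im : ℂ) * I, q.2), ⟨⟨?_, ?_, ?_, q4⟩, ?_⟩, ⟨⟨?_, ?_, ?_, q4⟩, ?_⟩⟩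
  · simp
  · simpa using q2
  · simpa using q3
  · simpa using q5
  · rcases ha with rfl | rfl <;> simp [sh]
  · simpa [sh] using q2
  · simpa [sh] using q3
  · simpa [sh] using q5

theorem side_near {q p : C2} {s : ℝ} (h : ‖p - q‖ ≤ s) : |p.1.re - q.1.re| ≤ s ∧
    |p.1.im - q.1.im| ≤ s ∧ ‖p.2‖ ≤ ‖q.2‖ + s := by
  have h1 : ‖p.1 - q.1‖ ≤ s := (norm_fst_le (p - q)).trans h
  have h2 : ‖p.2 - q.2‖ ≤ s := (norm_snd_le (p - q)).trans h
  refine ⟨?_, ?_, by linarith [norm_sub_norm_le p.2 q.2]⟩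
  · simpa using (abs_re_le_norm _).trans h1
  · simpa using (abs_im_le_norm _).trans h1

theorem side (trk : S_TRK) : S_SIDE := by
  intro T Z α Φ a ℓ l₁ l L e δ B h lam s C η ν ξ J ha app stp l1 e0 h1 h2 h3 h4 h5 lam0 lam1 s0 s1 J1
    hΦ hD
  have alw := side_alw (ξ := ξ) ha h1 h2 h3 h5
  refine ⟨app, alw, ?_⟩
  -- the approach at points near the cone
  have ap : ∀ q ∈ Cn h lam, ∀ p : C2, ‖p - q‖ ≤ 1 → ∀ j, Ok a ℓ ξ q.1.im j →
      AnalyticAt ℂ (fun p => T^[j] (Z p)) p ∧ T^[j] (Z p) ∈ An (4 * l) (L / 2) (e / 4) := by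
    rintro q ⟨q1, q2, q3, q4⟩ p hp j ok
    obtain ⟨n1, n2, n3⟩ := side_near hp
    have := norm_nonneg q.2
    have := app p j (alw p q.1.im j
      (by rw [abs_le] at n1 ⊢; rw [abs_lt] at q1; constructor <;> linarith [n1.1, n1.2])
      (by linarith) (by linarith [(abs_le.1 n2).1]) (by linarith [(abs_le.1 n2).2]) n2 ok)
    exact ⟨this.1, this.2.1⟩
  have sub : An (4 * l) (L / 2) (e / 4) ⊆ An l L e := by
    rintro x ⟨x1, x2, x3⟩
    exact ⟨by linarith, by linarith, by linarith⟩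
  have ok0 : ∀ y, Ok a ℓ ξ y 0 := fun y => Or.inl (by push_cast; linarith)
  have cn : SdC h lam 0 (-1) = Cn h lam := by
    ext p; simp [SdC]
  have dp : Dp h ⊆ Cn h lam := by
    rintro p ⟨⟨p1, p2, p3⟩, p4⟩
    rw [mem_ball_zero_iff] at p4
    rw [sub_zero] at p1
    exact ⟨by linarith, p2, by linarith, by linarith⟩
  have dpo : IsOpen (Dp h) := by
    refine IsOpen.prod ?_ isOpen_ball
    have e : Rc 0 1 (-h) (-h + 1) = {t : ℂ | |t.re - 0| < 1} ∩ ({t | -h < t.im} ∩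
      {t | t.im < -h + 1}) := rfl
    rw [e]
    refine IsOpen.inter ?_ (IsOpen.inter ?_ ?_) <;> exact isOpen_lt (by fun_prop) (by fun_prop)
  obtain ⟨q₀, hq₀⟩ : ∃ q₀, q₀ ∈ Dp h :=
    ⟨(((-h + 1 / 2 : ℝ) : ℂ) * I, 0), ⟨by simp, by simp, by simp; norm_num⟩, by simp⟩
  have aα : ∀ q ∈ Cn h lam, AnalyticAt ℂ α q := fun q hq => by
    simpa [trk_zero] using (hΦ q hq).2.2 0 (Nat.zero_le _)
  have c0 : ∀ q ∈ Cn h lam, α q = Z (Φ q) := by
    have aZ : AnalyticOnNhd ℂ (fun q => Z (Φ q)) (Cn h lam) := fun q hq =>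
      AnalyticAt.comp (g := Z) (ap q hq (Φ q) (by linarith [(hΦ q hq).2.1]) 0 (ok0 _)).1
        (hΦ q hq).1
    exact fun q hq => AnalyticOnNhd.eqOn_of_preconnected_of_eventuallyEq aα aZ
      (cn ▸ (sdc_convex h lam 0 (-1)).isPreconnected) (dp hq₀)
      (by filter_upwards [dpo.mem_nhds hq₀] with p hp using (hD p hp).1.symm) hq
  have tk : ∀ (σ c : ℝ) (j : ℕ), j ≤ J → (∀ p ∈ SdC h lam σ c, ∀ i < j, Ok a ℓ ξ p.1.im i) →
      (∃ q₀ ∈ SdC h lam σ c, ∀ᶠ q in 𝓝 q₀, α (sh q a) = T (α q)) →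
      ∀ q ∈ SdC h lam σ c, α (sh q (a * j)) = T^[j] (α q) := by
    intro σ c j hj ok g q hq
    refine trk T α (SdC h lam σ c) a j (sdc_open _ _ _ _) (sdc_convex _ _ _ _).isPreconnected
      (sdc_sh ha hq) (fun p hp i hi => (hΦ p hp.1).2.2 i (hi.trans hj)) (fun p hp i hi => ?_) g q hq
      j le_rfl
    rw [c0 p hp.1]
    exact stp.an _ (sub (ap p hp.1 (Φ p) (by linarith [(hΦ p hp.1).2.1]) i (ok p hp i hi)).2)
  have c1 : ∀ q ∈ Cn h lam, α (sh q a) = T (α q) := fun q hq => by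
    have := tk 0 (-1) 1 J1 (fun p _ i hi => by rw [Nat.lt_one_iff.1 hi]; exact ok0 _)
      ⟨q₀, cn ▸ dp hq₀, by filter_upwards [dpo.mem_nhds hq₀] with p hp using (hD p hp).2⟩ q
      (cn ▸ hq)
    simpa using this
  intro q hq j hj ok
  have c2 : α (sh q (a * j)) = T^[j] (Z (Φ q)) := by
    obtain ⟨σ, c, m, o⟩ : ∃ σ c : ℝ, q ∈ SdC h lam σ c ∧ ∀ p ∈ SdC h lam σ c, Ok a ℓ ξ p.1.im j := by
      rcases ok with o | ⟨D, o1, o2, o3⟩
      · exact ⟨0, -1, cn ▸ hq, fun p _ => Or.inl o⟩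
      · rcases lt_abs.1 o2 with o2 | o2
        · refine ⟨1, D + 1 + ξ.im, ⟨hq, by simp only [mem_setOf_eq]; linarith⟩, fun p hp =>
            Or.inr ⟨D, o1, lt_abs.2 (Or.inl ?_), o3⟩⟩
          have := hp.2
          simp only [mem_setOf_eq] at this
          linarith
        · refine ⟨-1, D + 1 - ξ.im, ⟨hq, by simp only [mem_setOf_eq]; linarith⟩, fun p hp =>
            Or.inr ⟨D, o1, lt_abs.2 (Or.inr ?_), o3⟩⟩
          have := hp.2
          simp only [mem_setOf_eq] at this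
          linarith
    rw [← c0 q hq]
    refine tk σ c j hj (fun p hp i hi => (o p hp).mono hi.le) ⟨q, m, ?_⟩ q m
    filter_upwards [(sdc_open h lam σ c).mem_nhds m] with p hp using c1 p hp.1
  refine ⟨c2, ?_⟩
  have nb : ∀ x ∈ An (4 * l) (L / 2) (e / 4), ‖x‖ ≤ L + e := by
    rintro x ⟨x1, x2, x3⟩
    have : ‖x.1‖ ≤ L := by nlinarith [norm_nonneg x.1]
    rw [Prod.norm_def]
    exact max_le (by linarith) (by linarith [norm_nonneg x.1])
  have apb := fun p (hp : p ∈ ball q 1) => ap q hq p (mem_ball_iff_norm.1 hp).le j ok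
  have n0 := nb _ (apb q (mem_ball_self one_pos)).2
  have sw := Complex.dist_le_div_mul_dist_of_mapsTo_ball (f := fun p => T^[j] (Z p)) (c := q)
    (R₁ := 1) (R₂ := 2 * (L + e)) (z := Φ q)
    (fun p hp => (apb p hp).1.differentiableAt.differentiableWithinAt)
    (fun p hp => by
      rw [mem_closedBall, dist_eq_norm]
      linarith [norm_sub_le (T^[j] (Z p)) (T^[j] (Z q)), nb _ (apb p hp).2])
    (by rw [mem_ball_iff_norm]; linarith [(hΦ q hq).2.1])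
  rw [dist_eq_norm, dist_eq_norm, div_one] at sw
  have L0 : 0 ≤ L + e := (norm_nonneg _).trans n0
  rw [c2]
  calc _ ≤ 2 * (L + e) * s := sw.trans (by gcongr; exact (hΦ q hq).2.1)
    _ ≤ _ := by gcongr; norm_num

end Vale.Agent.P097EE
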