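import Vale.Agent.P097EE.Defs2

/-!
# P097EE: both sides of an obstacle (row 5813)
-/

set_option linter.all false

noncomputable section

namespace Vale.Agent.P097EE

open Filter Topology Set Metric Complex

theorem Two.app {T Z : C2 → C2} {a A ℓ l₁ l L e δ δ' B B' : ℝ} {ξ : ℂ}
    (h : App T Z a A ℓ l₁ l L e δ B ξ) (h1 : δ ≤ δ') (h2 : B ≤ B') :
    App T Z a A ℓ l₁ l L e δ' B' ξ := fun q j k =>
  ⟨(h q j k).1, (h q j k).2.1, (h q j k).2.2.1.trans h1,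
    (h q j k).2.2.2.1.trans (mul_le_mul_of_nonneg_right h1 (norm_nonneg _)),
    (h q j k).2.2.2.2.trans h2⟩

theorem Two.one (hS : S_SIDE) {T Z α Φ : C2 → C2} {a ℓ A l L e δ C₁ h lam K C η ν : ℝ} {ξ : ℂ}
    {J b : ℕ} (ha : a = 1 ∨ a = -1)
    (app : App T Z a 4 ℓ (10 * A * h) l L e δ (C₁ * (Real.log (10 * A * h) + 1)) ξ)
    (hδ : δ ≤ 1 / 400) (st : Stp T a C l L e η ν) (l1 : 1 ≤ l) (e0 : 0 < e) (m1 : 100 ≤ ℓ)
    (m2 : 4 * ℓ ≤ 10 * A * h) (A2 : 2 ≤ A) (him : |ξ.im| ≤ 3 / 5 * h)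
    (hre : 10 * A * h ≤ a * ξ.re) (h16 : 16 ≤ h) (he : e ≤ h) (hK : h ≤ K)
    (L1 : 600 * A * h ≤ L) (LK : L ≤ K) (lam0 : 0 < lam) (J1 : 1 ≤ J)
    (H1 : ∀ q ∈ Cn h (min lam 1), AnalyticAt ℂ Φ q ∧ ‖Φ q - q‖ * K ^ (b + 2) ≤ 1 ∧
      ∀ j ≤ J, AnalyticAt ℂ α (sh q (a * j)))
    (H2 : ∀ q ∈ Dp h, Z (Φ q) = α q ∧ α (sh q a) = T (α q)) :
    Sd T Z α Φ a ℓ (10 * A * h) l L e (1 / 400) (max C₁ 0 * (Real.log K + 1)) h lam (1 / K ^ b)
      ξ J := by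
  have K16 : 16 ≤ K := h16.trans hK
  have K0 : 0 < K := by linarith
  have Ah : 2 * h ≤ A * h := mul_le_mul_of_nonneg_right A2 (by linarith)
  have g0 : 0 ≤ Real.log (10 * A * h) := Real.log_nonneg (by linarith)
  have g1 : Real.log (10 * A * h) ≤ Real.log K := Real.log_le_log (by linarith) (by linarith)
  have hB : C₁ * (Real.log (10 * A * h) + 1) ≤ max C₁ 0 * (Real.log K + 1) :=
    (mul_le_mul_of_nonneg_right (le_max_left _ _) (by linarith)).trans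
      (mul_le_mul_of_nonneg_left (by linarith) (le_max_right _ _))
  have Kb : 1 ≤ K ^ b := one_le_pow₀ (by linarith)
  have s1 : 1 / K ^ (b + 2) ≤ 1 / 2 := by
    refine one_div_le_one_div_of_le (by norm_num) ?_
    rw [pow_add]
    nlinarith
  have s2 : 8 * (L + e) * (1 / K ^ (b + 2)) ≤ 1 / K ^ b := by
    rw [mul_one_div, div_le_div_iff₀ (by positivity) (by positivity), pow_add, one_mul, mul_comm]
    refine mul_le_mul_of_nonneg_left ?_ (by positivity)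
    nlinarith
  have key := hS T Z α Φ a ℓ (10 * A * h) l L e (1 / 400) (max C₁ 0 * (Real.log K + 1)) h
    (min lam 1) (1 / K ^ (b + 2)) C η ν ξ J ha (Two.app app hδ hB) st l1 e0 m1 m2 (by linarith)
    (by linarith) (by linarith) (lt_min lam0 one_pos) (min_le_right _ _) (by positivity) s1 J1
    (fun q hq => ⟨(H1 q hq).1, by
      rw [le_div_iff₀ (by positivity)]
      exact (H1 q hq).2.1, (H1 q hq).2.2⟩) H2
  refine ⟨key.app, key.alw, fun q hq j hj ok => ?_⟩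
  have hq' : q ∈ Cn h (min lam 1) :=
    ⟨hq.1, hq.2.1, by linarith [hq.2.2.1, min_le_left lam 1], hq.2.2.2⟩
  exact ⟨(key.tr q hq' j hj ok).1, (key.tr q hq' j hj ok).2.trans s2⟩

theorem Two.dp {h lam : ℝ} (h5 : 5 ≤ h) (l1 : lam ≤ 1) {q : C2} (hq : q ∈ Dp h) : q ∈ Cn h lam := by
  obtain ⟨⟨a, b, c⟩, d⟩ := hq
  rw [mem_ball_zero_iff] at d
  rw [sub_zero] at a
  exact ⟨by linarith, b, by linarith, by linarith⟩

theorem Two.bx {A h lam y : ℝ} (A2 : 2 ≤ A) (h5 : 5 ≤ h) (l0 : 0 < lam) (y0 : 0 ≤ y) {q : C2}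
    (hq : q ∈ Cn h lam) : q ∈ Bx (50 * A * h) (-h) y 2 := by
  obtain ⟨a, b, c, d⟩ := hq
  have Ah : 2 * h ≤ A * h := mul_le_mul_of_nonneg_right A2 (by linarith)
  exact ⟨by linarith, b.le, by linarith [norm_nonneg q.2], d.le⟩

theorem Two.ball {K : ℝ} {b : ℕ} {p q : C2} (K2 : 2 ≤ K) (h : ‖p - q‖ * K ^ (b + 2) ≤ 1) :
    p ∈ ball q K⁻¹ := by
  have Kb : 1 ≤ K ^ b := one_le_pow₀ (by linarith)
  have K0 : 0 < K := by linarith
  rw [mem_ball, dist_eq_norm, ← one_div, lt_div_iff₀ K0]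
  have h1 : 2 * K ≤ K ^ (b + 2) := by
    rw [pow_add]
    nlinarith
  have h2 := mul_le_mul_of_nonneg_left h1 (norm_nonneg (p - q))
  linarith

theorem Two.ch {𝒰 : Filter ℕ} {r : ℕ → ℂ → Prop} (h : ∀ᶠ n in 𝒰, ∃ y, r n y) :
    ∃ f : ℕ → ℂ, ∀ᶠ n in 𝒰, r n (f n) :=
  ⟨fun n => Classical.epsilon (r n), h.mono fun n k => Classical.epsilon_spec k⟩

theorem two (hA : S_APP) (hS : S_SIDE) : S_TWO := by
  rintro D 𝒰 ⟨gr, pL, pR, loc, nr⟩
  have A2 := gr.A2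
  have A0 : 0 < D.A := by linarith
  have hδ : 1 / (200 * D.A) ≤ 1 / 400 := one_div_le_one_div_of_le (by norm_num) (by linarith)
  obtain ⟨ℓ₀, β₀, C₁, β0, app⟩ := hA D.C D.e 4 (1 / (200 * D.A)) loc.C1 loc.e0 (by norm_num)
    (by positivity)
  obtain ⟨ℓ, hℓ⟩ := exists_nat_ge (max (max ℓ₀ (10 * D.l)) 100)
  have m0 : ℓ₀ ≤ ℓ := ((le_max_left _ _).trans (le_max_left _ _)).trans hℓ
  have m1 : 10 * D.l ≤ ℓ := ((le_max_right _ _).trans (le_max_left _ _)).trans hℓ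
  have m2 : (100 : ℝ) ≤ ℓ := (le_max_right _ _).trans hℓ
  have l1 := loc.l1
  have big : ∀ᶠ n in 𝒰, 16 ≤ D.h n ∧ D.e ≤ D.h n ∧ 4 * (ℓ : ℝ) ≤ 10 * D.A * D.h n := by
    filter_upwards [gr.hl.eventually_ge_atTop 16, gr.hl.eventually_ge_atTop D.e,
      gr.hl.eventually_ge_atTop (ℓ : ℝ)] with n a b c
    have Ah : 2 * D.h n ≤ D.A * D.h n := mul_le_mul_of_nonneg_right A2 (by linarith)
    exact ⟨a, b, by linarith⟩
  have e20 : ∀ n, 1 / (200 * D.A) * (10 * D.A * D.h n) = D.h n / 20 := fun n => by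
    field_simp
    ring
  have exL : ∀ᶠ n in 𝒰, ∃ ξ : ℂ, ‖ξ - D.ξ n‖ ≤ D.h n / 20 ∧ App (D.T n) (D.L0 n) 1 4 ℓ
      (10 * D.A * D.h n) D.l (D.L n) D.e (1 / (200 * D.A))
      (C₁ * (Real.log (10 * D.A * D.h n) + 1)) ξ := by
    filter_upwards [big, loc.stp, nr.LK, nr.gt, nr.sm.eventually (ge_mem_nhds β0)] with n a b c d e
    rw [← e20]
    exact app _ _ 1 ℓ _ D.l (D.L n) _ _ _ _ _ m0 (Or.inl rfl) b.1 d.1 c.2.2.1 c.2.2.2.1 c.2.2.2.2
      (by linarith) m1 (by linarith [c.1]) a.2.2 e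
  have exR : ∀ᶠ n in 𝒰, ∃ ξ : ℂ, ‖ξ - D.ξ n‖ ≤ D.h n / 20 ∧ App (D.Tm n) (D.R0 n) (-1) 4 ℓ
      (10 * D.A * D.h n) D.l (D.L n) D.e (1 / (200 * D.A))
      (C₁ * (Real.log (10 * D.A * D.h n) + 1)) (ξ - D.N n) := by
    filter_upwards [big, loc.stp, nr.LK, nr.gt, nr.sm.eventually (ge_mem_nhds β0)] with n a b c d e
    obtain ⟨ξ, k1, k2⟩ := app _ _ (-1) ℓ _ D.l (D.L n) _ _ _ _ _ m0 (Or.inr rfl) b.2.1 d.2.1
      c.2.2.1 c.2.2.2.1 c.2.2.2.2 (by linarith) m1 (by linarith [c.1]) a.2.2 e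
    refine ⟨ξ + D.N n, ?_, by rwa [add_sub_cancel_right]⟩
    rw [e20] at k1
    rwa [show ξ + D.N n - D.ξ n = ξ - (D.ξ n - D.N n) by ring]
  obtain ⟨cL, hL⟩ := Two.ch exL
  obtain ⟨cR, hR⟩ := Two.ch exR
  have geo : ∀ᶠ n in 𝒰, |(cL n).im| ≤ 3 / 5 * D.h n ∧ |(cR n - D.N n).im| ≤ 3 / 5 * D.h n ∧
      ‖cL n - cR n‖ ≤ D.h n / 10 ∧ 10 * D.A * D.h n ≤ 1 * (cL n).re ∧
      10 * D.A * D.h n ≤ -1 * (cR n - D.N n).re ∧ D.h n ≤ (cL n).re ∧
      (cL n).re + D.h n ≤ D.N n := by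
    filter_upwards [big, hL, hR, nr.gt] with n a b c d
    have Ah : 2 * D.h n ≤ D.A * D.h n := mul_le_mul_of_nonneg_right A2 (by linarith)
    have b1 := abs_le.1 ((abs_re_le_norm _).trans b.1)
    have b2 := abs_le.1 ((abs_im_le_norm _).trans b.1)
    have c1 := abs_le.1 ((abs_re_le_norm _).trans c.1)
    have c2 := abs_le.1 ((abs_im_le_norm _).trans c.1)
    have d1 := abs_le.1 d.1.c
    have d2 := abs_le.1 d.2.1.c
    have d3 := abs_le.1 d.2.2.1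
    simp only [sub_re, sub_im, natCast_re, natCast_im, sub_zero] at b1 b2 c1 c2 d1 d2 ⊢
    refine ⟨abs_le.2 ⟨by linarith, by linarith⟩, abs_le.2 ⟨by linarith, by linarith⟩, ?_,
      by linarith, by linarith, by linarith, by linarith⟩
    have := norm_sub_le (cL n - D.ξ n) (cR n - D.ξ n)
    rw [sub_sub_sub_cancel_right] at this
    linarith [b.1, c.1]
  refine ⟨ℓ, max C₁ 0, cL, cR, by exact_mod_cast m2, m1, le_max_right _ _,
    geo.mono fun n g => ⟨g.1, g.2.2.1, g.2.2.2.2.2⟩, fun lam lam0 b => ?_⟩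
  have lm : 0 < min lam 1 := lt_min lam0 one_pos
  filter_upwards [big, hL, hR, geo, loc.stp, nr.LK, gr.hK, nr.lk, nr.tr _ lm, pL _ lm (b + 2),
    pR _ lm (b + 2)] with n a kL kR g st lk hK ln tr fL fR
  obtain ⟨a1, a2, a3⟩ := a
  have h5 : 5 ≤ D.h n := by linarith
  have N1 : 1 ≤ D.N n := by
    have : (1 : ℝ) ≤ D.N n := by linarith [g.2.2.2.2.2.1, g.2.2.2.2.2.2]
    exact_mod_cast this
  have fL' := fun q (hq : q ∈ Cn (D.h n) (min lam 1)) =>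
    fL q (Two.bx A2 h5 lm (by norm_num) hq) hq.2.2.1.le
  have fR' := fun q (hq : q ∈ Cn (D.h n) (min lam 1)) =>
    fR q (Two.bx A2 h5 lm (by norm_num) hq) hq.2.2.1.le
  have tr' := fun q (hq : q ∈ Cn (D.h n) (min lam 1)) j hj =>
    (tr q (Two.bx A2 h5 lm le_rfl hq) hq.2.2.1.le j hj).1
  constructor
  · refine Two.one hS (Or.inl rfl) kL.2 hδ st.1 l1 loc.e0 m2 a3 A2 g.1 g.2.2.2.1 a1 a2 hK lk.1
      lk.2.1 lam0 N1 (fun q hq => ⟨(fL' q hq).1, (fL' q hq).2.2.1, fun j hj => ?_⟩)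
      fun q hq => ?_
    · rw [ofReal_one, one_mul]
      exact tr' q hq j hj
    · have hq' := Two.dp h5 (min_le_right lam 1) hq
      rw [ofReal_one]
      exact ⟨((ln q hq).1 _ (Two.ball (by linarith) (fL' q hq').2.2.1)).1 (fL' q hq').2.1,
        (ln q hq).2.1⟩
  · refine Two.one hS (Or.inr rfl) kR.2 hδ st.2.1 l1 loc.e0 m2 a3 A2 g.2.1 g.2.2.2.2.1 a1 a2 hK
      lk.1 lk.2.1 lam0 N1 (fun q hq => ⟨(fR' q hq).1, (fR' q hq).2.2.1, fun j hj => ?_⟩)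
      fun q hq => ?_
    · have e : sh (sh q (((-1 : ℝ) : ℂ) * j)) (D.N n) = sh q ((D.N n - j : ℕ) : ℂ) := by
        simp only [sh]
        rw [Nat.cast_sub hj]
        push_cast
        exact Prod.ext (by ring) rfl
      have k := tr' q hq (D.N n - j) (Nat.sub_le _ _)
      rw [← e] at k
      exact AnalyticAt.comp (g := D.α n) (f := fun p : C2 => sh p (D.N n)) k
        ((analyticAt_fst.add analyticAt_const).prod analyticAt_snd)
    · have hq' := Two.dp h5 (min_le_right lam 1) hq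
      have e : sh (sh q ((-1 : ℝ) : ℂ)) (D.N n) = sh q (D.N n - 1) := by
        simp only [sh]
        push_cast
        exact Prod.ext (by ring) rfl
      refine ⟨((ln q hq).1 _ (Two.ball (by linarith) (fR' q hq').2.2.1)).2 (fR' q hq').2.1, ?_⟩
      show D.α n (sh (sh q ((-1 : ℝ) : ℂ)) (D.N n)) = _
      rw [e]
      exact (ln q hq).2.2

end Vale.Agent.P097EE
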