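import Vale.Agent.P097EE.Fini
import Vale.Agent.P097EE.Inv
import Vale.Agent.P097EE.Side
import Vale.Agent.P097EE.Two
import Vale.Agent.P097EE.Cen
import Vale.Agent.P097EE.Lev
import Vale.Agent.P097EE.Row
import Vale.Agent.P097EE.CoreP
import Vale.Agent.P097EE.InnC
import Vale.Agent.P097EE.Fin
import Vale.Agent.P097EE.Far
import Vale.Agent.P097EE.Phi
import Vale.Agent.P097EE.Asm2
import Vale.Agent.P097EE.Trk
import Vale.Agent.P097EE.Nosq
import Vale.Agent.P097EE.Lip

/-!
# P097EE: block E from the approach lemma
-/

set_option linter.all false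

noncomputable section

namespace Vale.Agent.P097EE

theorem pass_app (hA : S_APP) : S_PASS :=
  pass_of (two hA (side trk)) cen (lev nosq) (fini lip inv) (coreP inner) row

theorem specE2_app (hA : S_APP) : Spec_E2 := asm2 (phi inv) far (pass_app hA) (fin inv)

end Vale.Agent.P097EE
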