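import Vale.Agent.P097EE.Defs

/-!
# P097EE: the approach, one step at a time (the invariant)
-/

set_option linter.all false

noncomputable section

namespace Vale.Agent.P097EE.Ap

open Filter Topology Set Metric Complex

/-- a sup bound gives a Lipschitz bound with respect to the points of the half ball -/
theorem semi {D : C2 → ℂ} {c : C2} {r M : ℝ} {w : ℂ} (hr : 0 < r)
    (hD : DifferentiableOn ℂ D (ball c r)) (hM : ∀ q ∈ ball c r, ‖D q - w‖ ≤ M) {p q : C2}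
    (hp : p ∈ ball c (r / 2)) (hq : q ∈ ball c r) : ‖D q - D p‖ ≤ 4 * M / r * ‖q - p‖ := by
  have hp' : p ∈ ball c r := ball_subset_ball (by linarith) hp
  have M0 : 0 ≤ M := (norm_nonneg _).trans (hM p hp')
  have two : ∀ x ∈ ball c r, ‖D x - D p‖ ≤ 2 * M := fun x hx => by
    have := norm_sub_le (D x - w) (D p - w)
    rw [sub_sub_sub_cancel_right] at this
    linarith [hM x hx, hM p hp']
  by_cases h : q ∈ ball p (r / 2)
  · have sub : ball p (r / 2) ⊆ ball c r := fun x hx => by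
      rw [mem_ball] at *
      linarith [dist_triangle x p c]
    have := Complex.dist_le_div_mul_dist_of_mapsTo_ball (R₂ := 2 * M) (hD.mono sub)
      (fun x hx => by simpa [dist_eq_norm] using two x (sub hx)) h
    rw [dist_eq_norm, dist_eq_norm] at this
    exact this.trans_eq (by field_simp; ring)
  · rw [mem_ball, dist_eq_norm, not_lt] at h
    refine (two q hq).trans ?_
    calc 2 * M = 4 * M / r * (r / 2) := by field_simp; ring
      _ ≤ _ := by gcongr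

/-- the centre of a stage -/
def cen (y : ℝ) : C2 := ((y : ℂ) * I, 0)

/-- the orbit -/
def W (T Z : C2 → C2) (n : ℕ) (q : C2) : C2 := T^[n] (Z q)

/-- the time defect -/
def ph (T Z : C2 → C2) (a : ℝ) (f : ℂ) (n : ℕ) (q : C2) : ℂ :=
  (W T Z n q).1 ^ 2 - (q.1 - f * q.2 + a * n)

/-- the potential -/
def Lam (C ω R₀ R : ℝ) : ℝ := 4 * C * ω * (Real.log R₀ - Real.log R) + 72 * C ^ 2 / R

/-- the data -/
structure Dat (T : C2 → C2) (a C l L e η ν β ω ℓ R₀ ε : ℝ) (f : ℂ) : Prop where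
  ha : a = 1 ∨ a = -1
  S : Stp T a C l L e η ν
  C1 : 1 ≤ C
  f1 : ‖f‖ ≤ 1 / 4
  η0 : 0 ≤ η
  ν0 : 0 ≤ ν
  β0 : 0 ≤ β
  l0 : 0 < l
  lℓ : 10 * l ≤ ℓ
  RL : 6 * R₀ ≤ L
  om : 2 * β + η + 4 * ν * R₀ ≤ ω
  hω : C * ω * (Real.log R₀ + 1) ≤ ε
  hℓ : C ^ 2 ≤ ε * ℓ
  ε1 : ε ≤ 1 / 600
  εe : 12 * ε < e

/-- the invariant -/
structure Inv (T Z : C2 → C2) (a C ν β ω ℓ R₀ ε : ℝ) (f : ℂ) (n : ℕ) (y R : ℝ) : Prop where
  hR : R = -(a * ((W T Z n (cen y)).1 ^ 2).re)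
  im : |((W T Z n (cen y)).1 ^ 2).im| ≤ 3 * ε
  R0 : R + n / 2 ≤ R₀
  R1 : 9 * ℓ ≤ R
  an : ∀ q ∈ ball (cen y) (R / 3), AnalyticAt ℂ (W T Z n) q
  e : ∀ q ∈ ball (cen y) (R / 3),
    ‖(W T Z n q).2‖ ≤ (1 + 2 * Lam C ω R₀ R) * (β + 8 * C / R + ν * n)
  lip : ∀ p ∈ ball (cen y) (R / 6), ∀ q ∈ ball (cen y) (R / 3),
    ‖ph T Z a f n q - ph T Z a f n p‖ ≤ (2 * β + 6 * Lam C ω R₀ R) * ‖q - p‖
  sum : ∀ q ∈ ball (cen y) (R / 3),
    ∑ i ∈ Finset.range n, 1 / ‖(W T Z i q).1‖ ^ 2 ≤ 4 * (Real.log R₀ - Real.log R)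

theorem W_succ (T Z : C2 → C2) (n : ℕ) (q : C2) : W T Z (n + 1) q = T (W T Z n q) :=
  Function.iterate_succ_apply' _ _ _

variable {T Z : C2 → C2} {a C l L e η ν β ω ℓ R₀ ε : ℝ} {f : ℂ} {n : ℕ} {y R : ℝ}

theorem Dat.nums (H : Dat T a C l L e η ν β ω ℓ R₀ ε f) (h1 : 9 * ℓ ≤ R) (h2 : R ≤ R₀) :
    0 < ε ∧ 600 ≤ ℓ ∧ 0 ≤ ω ∧ C * ω ≤ ε ∧ ω ≤ ε ∧ C ^ 2 / R ≤ ε / 9 ∧ C / R ≤ ε / 9 ∧
      0 ≤ Lam C ω R₀ R ∧ Lam C ω R₀ R ≤ 12 * ε ∧ 0 ≤ Real.log R ∧ Real.log R ≤ Real.log R₀ := by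
  have C1 := H.C1
  have l0 : 0 < ℓ := by linarith [H.l0, H.lℓ]
  have c2 : 1 ≤ C ^ 2 := one_le_pow₀ C1
  have e0 : 0 < ε := by
    by_contra h
    nlinarith [H.hℓ, not_lt.1 h]
  have l6 : 600 ≤ ℓ := by nlinarith [H.hℓ, H.ε1]
  have R0 : 0 < R := by linarith
  have o0 : 0 ≤ ω := by
    have := mul_nonneg H.ν0 (show 0 ≤ R₀ by linarith)
    linarith [H.om, H.β0, H.η0]
  have g0 : 0 ≤ Real.log R := Real.log_nonneg (by linarith)
  have g1 : Real.log R ≤ Real.log R₀ := Real.log_le_log R0 h2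
  have co : 0 ≤ C * ω := by positivity
  have co1 : C * ω ≤ ε := by nlinarith [H.hω]
  have cR : C ^ 2 / R ≤ ε / 9 := by
    rw [div_le_iff₀ R0]
    nlinarith [H.hℓ]
  have cR' : C / R ≤ C ^ 2 / R := by gcongr; nlinarith
  refine ⟨e0, l6, o0, co1, by nlinarith, cR, cR'.trans cR, ?_, ?_, g0, g1⟩
  · unfold Lam
    have : 0 ≤ 4 * C * ω * (Real.log R₀ - Real.log R) :=
      mul_nonneg (by positivity) (by linarith)
    positivity
  · unfold Lam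
    have : C * ω * (Real.log R₀ - Real.log R) ≤ ε := by nlinarith [H.hω]
    rw [mul_div_assoc]
    linarith

theorem aa (ha : a = 1 ∨ a = -1) : a * a = 1 ∧ |a| = 1 := by
  rcases ha with rfl | rfl <;> simp

theorem re_le (ha : a = 1 ∨ a = -1) (z : ℂ) : |a * z.re| ≤ ‖z‖ := by
  rw [abs_mul, (aa ha).2, one_mul]
  exact abs_re_le_norm z

/-- the states of a stage -/
theorem Inv.base (H : Dat T a C l L e η ν β ω ℓ R₀ ε f) (J : Inv T Z a C ν β ω ℓ R₀ ε f n y R)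
    {q : C2} (hq : q ∈ ball (cen y) (R / 3)) :
    R / 2 ≤ ‖(W T Z n q).1‖ ^ 2 ∧ ‖(W T Z n q).1‖ ^ 2 ≤ 3 * R / 2 ∧
      a * ((W T Z n q).1 ^ 2).re ≤ 0 ∧ ‖(W T Z n q).2‖ + η ≤ ω + 16 * (C / R) ∧
      ‖ph T Z a f n q - ph T Z a f n (cen y)‖ ≤ 25 * ε * R := by
  have n0 : (0 : ℝ) ≤ n := n.cast_nonneg
  obtain ⟨e0, l6, o0, co, oe, cR, cR', L0, L1, -⟩ := H.nums J.R1 (by linarith [J.R0])
  have R1 := J.R1
  have ε1 := H.ε1
  have R0 : 0 < R := by linarith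
  have nR : 0 ≤ ν * R₀ := mul_nonneg H.ν0 (by linarith [J.R0])
  have β1 : 2 * β ≤ ε := by linarith [H.om, H.η0]
  have d : ‖q - cen y‖ ≤ R / 3 := (mem_ball_iff_norm.1 hq).le
  have l1 := J.lip (cen y) (mem_ball_self (by positivity)) q hq
  have l2 : ‖ph T Z a f n q - ph T Z a f n (cen y)‖ ≤ 25 * ε * R := by
    refine l1.trans ?_
    calc _ ≤ (73 * ε) * (R / 3) := by gcongr; linarith
      _ ≤ _ := by nlinarith
  have d1 : ‖q.1 - (cen y).1‖ ≤ R / 3 := (norm_fst_le (q - cen y)).trans d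
  have d2 : ‖f * q.2‖ ≤ 1 / 4 * (R / 3) := by
    refine norm_mul_le_of_le H.f1 ?_
    simpa [cen] using (norm_snd_le (q - cen y)).trans d
  have c0 : ‖(W T Z n (cen y)).1 ^ 2 + a * R‖ ≤ 3 * ε := by
    refine (norm_le_abs_re_add_abs_im _).trans ?_
    have h1 : ((W T Z n (cen y)).1 ^ 2 + a * R).re = 0 := by
      have := (aa H.ha).1
      rw [add_re, ← ofReal_mul, ofReal_re]
      nth_rewrite 1 [J.hR]
      linear_combination (-((W T Z n (cen y)).1 ^ 2).re) * this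
    have h2 : ((W T Z n (cen y)).1 ^ 2 + a * R).im = ((W T Z n (cen y)).1 ^ 2).im := by
      rw [add_im, ← ofReal_mul, ofReal_im, add_zero]
    rw [h1, h2, abs_zero, zero_add]
    exact J.im
  have k : ‖(W T Z n q).1 ^ 2 + a * R‖ ≤ R / 2 := by
    have : (W T Z n q).1 ^ 2 + a * R = (ph T Z a f n q - ph T Z a f n (cen y)) +
        ((W T Z n (cen y)).1 ^ 2 + a * R) + (q.1 - (cen y).1) - f * q.2 := by
      simp only [ph, cen]; ring
    rw [this]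
    have := norm_sub_le_of_le (norm_add_le_of_le (norm_add_le_of_le l2 c0) d1) d2
    nlinarith
  have nA : ‖((a : ℂ) * R)‖ = R := by
    rw [← ofReal_mul, norm_real, Real.norm_eq_abs, abs_mul, (aa H.ha).2, one_mul, abs_of_pos R0]
  have k1 := norm_sub_norm_le ((a : ℂ) * R) (-(W T Z n q).1 ^ 2)
  have k2 := norm_sub_le ((W T Z n q).1 ^ 2 + a * R) ((a : ℂ) * R)
  rw [sub_neg_eq_add, add_comm, norm_neg, norm_pow, nA] at k1
  rw [add_sub_cancel_right, norm_pow, nA] at k2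
  have k3 := (abs_le.1 ((re_le H.ha _).trans k)).2
  rw [add_re, ← ofReal_mul, ofReal_re, mul_add, ← mul_assoc, (aa H.ha).1] at k3
  refine ⟨by linarith, by linarith, by linarith, ?_, l2⟩
  have b0 : 0 ≤ β + 8 * C / R + ν * n := by
    have := H.β0
    have := H.ν0
    have := H.C1
    positivity
  have b1 : ν * n ≤ 2 * (ν * R₀) := by
    have : (n : ℝ) ≤ 2 * R₀ := by linarith [J.R0]
    nlinarith [H.ν0]
  have := (J.e q hq).trans (mul_le_mul_of_nonneg_right (show _ ≤ (2 : ℝ) by linarith) b0)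
  rw [mul_div_assoc] at this
  linarith [H.om]

theorem Inv.mem (H : Dat T a C l L e η ν β ω ℓ R₀ ε f) (J : Inv T Z a C ν β ω ℓ R₀ ε f n y R)
    {q : C2} (hq : q ∈ ball (cen y) (R / 3)) :
    W T Z n q ∈ An (4 * l) (L / 2) (e / 4) ∧ ‖(W T Z n q).2‖ + η ≤ 3 * ε := by
  have n0 : (0 : ℝ) ≤ n := n.cast_nonneg
  obtain ⟨e0, l6, o0, co, oe, cR, cR', L0, L1, -⟩ := H.nums J.R1 (by linarith [J.R0])
  obtain ⟨b1, b2, -, b4, -⟩ := J.base H hq
  have := J.R1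
  have := J.R0
  have := H.lℓ
  have := H.RL
  have := H.η0
  exact ⟨⟨by linarith, by linarith, by linarith [H.εe]⟩, by linarith⟩

theorem An_sub (l0 : 0 < l) {s : C2} (h : s ∈ An (4 * l) (L / 2) (e / 4)) : s ∈ An l L e := by
  obtain ⟨h1, h2, h3⟩ := h
  have := norm_nonneg s.2
  exact ⟨by linarith, by linarith, by linarith⟩

end Vale.Agent.P097EE.Ap
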