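import Vale.Agent.P097EE.ApA

/-!
# P097EE: the approach, one step at a time (the step)
-/

set_option linter.all false

noncomputable section

namespace Vale.Agent.P097EE.Ap

open Filter Topology Set Metric Complex

variable {T Z : C2 → C2} {a C l L e η ν β ω ℓ R₀ ε : ℝ} {f : ℂ} {n : ℕ} {y R : ℝ}

theorem pot {R R' : ℝ} (h0 : 0 < R') (h : R' ≤ R - 1 / 2) :
    1 / (2 * R) ≤ Real.log R - Real.log R' ∧ 1 / (2 * R ^ 2) ≤ 1 / R' - 1 / R := by
  have R0 : 0 < R := by linarith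
  constructor
  · have := Real.log_le_sub_one_of_pos (div_pos h0 R0)
    rw [Real.log_div h0.ne' R0.ne'] at this
    have h2 : R' / R ≤ 1 - 1 / (2 * R) := by
      rw [div_le_iff₀ R0]
      field_simp
      linarith
    linarith
  · rw [div_sub_div _ _ h0.ne' R0.ne', div_le_div_iff₀ (by positivity) (by positivity)]
    nlinarith [mul_pos h0 R0, mul_pos R0 R0]

theorem estep {E' E x' x g' g ν B Λ Λ' : ℝ} (h1 : E' ≤ (1 + x') * E + g' + ν) (x1 : x' ≤ x)
    (x2 : g' ≤ g) (e1 : E ≤ (1 + 2 * Λ) * B) (E0 : 0 ≤ E) (x0 : 0 ≤ x) (B0 : 0 ≤ B)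
    (g0 : 0 ≤ g + ν) (L0 : 0 ≤ Λ) (L1 : Λ ≤ 1 / 2) (dL : x ≤ Λ' - Λ) :
    E' ≤ (1 + 2 * Λ') * (B + (g + ν)) := by
  have h2 : (1 + x) * (1 + 2 * Λ) ≤ 1 + 2 * Λ' := by nlinarith
  have h3 : (1 + x') * E ≤ (1 + x) * ((1 + 2 * Λ) * B) :=
    (mul_le_mul_of_nonneg_right (show 1 + x' ≤ 1 + x by linarith) E0).trans (by gcongr)
  have h4 : (1 + x) * (1 + 2 * Λ) * B ≤ (1 + 2 * Λ') * B := by gcongr
  have h5 : 0 ≤ Λ' * (g + ν) := mul_nonneg (by linarith) g0
  nlinarith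

theorem ph_an {q : C2} (h : AnalyticAt ℂ (W T Z n) q) : AnalyticAt ℂ (ph T Z a f n) q :=
  ((analyticAt_fst.comp h).pow 2).sub
    ((analyticAt_fst.sub (analyticAt_const.mul analyticAt_snd)).add analyticAt_const)

theorem Inv.step (H : Dat T a C l L e η ν β ω ℓ R₀ ε f) (J : Inv T Z a C ν β ω ℓ R₀ ε f n y R)
    (hR : 10 * ℓ ≤ R) : ∃ y' R', Inv T Z a C ν β ω ℓ R₀ ε f (n + 1) y' R' ∧
      ‖ph T Z a f (n + 1) (cen y') - ph T Z a f n (cen y)‖ ≤ 6 * ε ∧ R - 2 ≤ R' ∧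
      R' ≤ R - 1 / 2 := by
  have n0 : (0 : ℝ) ≤ n := n.cast_nonneg
  have RR := J.R0
  obtain ⟨e0, l6, o0, co, oe, cR, cR', L0, L1, -⟩ := H.nums J.R1 (by linarith)
  have ε1 := H.ε1
  have C1 := H.C1
  have β0 := H.β0
  have ν0 := H.ν0
  have R0 : 0 < R := by linarith
  have nR : 0 ≤ ν * R₀ := mul_nonneg H.ν0 (by linarith)
  have β1 : 2 * β ≤ ε := by linarith [H.om, H.η0]
  obtain ⟨u, hu⟩ : ∃ u, u = ω + 18 * (C / R) := ⟨_, rfl⟩
  have u0 : 0 ≤ u := by rw [hu]; positivity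
  have Cu : C * u = C * ω + 18 * (C ^ 2 / R) := by rw [hu]; ring
  have M1 : C * u ≤ 3 * ε := by linarith
  have mem : ∀ q ∈ ball (cen y) (R / 3), W T Z n q ∈ An l L e := fun q hq =>
    An_sub H.l0 (J.mem H hq).1
  have inv : ∀ q ∈ ball (cen y) (R / 3), 1 / ‖(W T Z n q).1‖ ^ 2 ≤ 2 / R := fun q hq => by
    have := (J.base H hq).1
    rw [div_le_div_iff₀ (by linarith) R0]
    linarith
  have uu : ∀ q ∈ ball (cen y) (R / 3),
      ‖(W T Z n q).2‖ + η + 1 / ‖(W T Z n q).1‖ ^ 2 ≤ u := fun q hq => by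
    have h2 : 2 / R ≤ 2 * (C / R) := by
      rw [← mul_div_assoc]; gcongr; linarith
    linarith [(J.base H hq).2.2.2.1, inv q hq]
  have an' : ∀ q ∈ ball (cen y) (R / 3), AnalyticAt ℂ (W T Z (n + 1)) q := fun q hq => by
    rw [show W T Z (n + 1) = fun q => T (W T Z n q) from funext (W_succ T Z n)]
    exact (H.S.an _ (mem q hq)).comp (J.an q hq)
  have hD : ∀ q ∈ ball (cen y) (R / 3),
      ‖ph T Z a f (n + 1) q - ph T Z a f n q - 0‖ ≤ C * u := fun q hq => by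
    have := H.S.th _ (mem q hq)
    rw [← W_succ T Z n q] at this
    rw [show ph T Z a f (n + 1) q - ph T Z a f n q - 0 =
      (W T Z (n + 1) q).1 ^ 2 - (W T Z n q).1 ^ 2 - a by simp only [ph]; push_cast; ring]
    exact this.trans (by gcongr; exact uu q hq)
  have lip' : ∀ p ∈ ball (cen y) (R / 6), ∀ q ∈ ball (cen y) (R / 3),
      ‖ph T Z a f (n + 1) q - ph T Z a f (n + 1) p‖ ≤
        (2 * β + 6 * Lam C ω R₀ R + 12 * (C * u) / R) * ‖q - p‖ := fun p hp q hq => by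
    have h1 := semi (D := fun q => ph T Z a f (n + 1) q - ph T Z a f n q) (by positivity)
      (fun x hx => ((ph_an (an' x hx)).sub (ph_an (J.an x hx))).differentiableAt.differentiableWithinAt)
      hD (p := p) (by rwa [show R / 3 / 2 = R / 6 by ring]) hq
    have h2 := norm_add_le_of_le (J.lip p hp q hq) h1
    rw [show 4 * (C * u) / (R / 3) = 12 * (C * u) / R by field_simp; ring, ← add_mul] at h2
    refine le_of_eq_of_le ?_ h2
    congr 1
    ring
  have c0 : cen y ∈ ball (cen y) (R / 6) := mem_ball_self (by positivity)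
  have hf : ball (cen y) (R / 6) ⊆ ball (cen y) (R / 3) := ball_subset_ball (by linarith)
  obtain ⟨y', hy⟩ : ∃ y', y' = y - ((W T Z (n + 1) (cen y)).1 ^ 2).im := ⟨_, rfl⟩
  have imp : ∀ m x, (ph T Z a f m (cen x)).im = ((W T Z m (cen x)).1 ^ 2).im - x := by
    intro m x
    simp [ph, cen]
  have rep : ∀ m x, (ph T Z a f m (cen x)).re = ((W T Z m (cen x)).1 ^ 2).re - a * m := by
    intro m x
    simp [ph, cen]
  have dy : |y' - y| ≤ 6 * ε := by
    have h1 := abs_le.1 ((abs_im_le_norm _).trans (hD _ (hf c0)))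
    rw [sub_zero, sub_im, imp, imp] at h1
    have h2 := abs_le.1 J.im
    rw [hy]
    exact abs_le.2 ⟨by linarith, by linarith⟩
  have dc : ‖cen y' - cen y‖ ≤ 6 * ε := by
    rw [show cen y' - cen y = (((y' - y : ℝ) : ℂ) * I, 0) by simp [cen, sub_mul]]
    simpa [← ofReal_sub] using dy
  have c1 : cen y' ∈ ball (cen y) (R / 6) := mem_ball_iff_norm.2 (by linarith)
  have MR : 12 * (C * u) / R ≤ ε := by
    rw [div_le_iff₀ R0]; nlinarith
  have half : ∀ m : ℝ, m ≤ 74 * ε → m * ‖cen y' - cen y‖ ≤ 3 * ε := fun m hm => by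
    calc _ ≤ (74 * ε) * (6 * ε) := by gcongr
      _ ≤ _ := by nlinarith
  have dξ : ‖ph T Z a f (n + 1) (cen y') - ph T Z a f n (cen y)‖ ≤ 6 * ε := by
    have h1 := (J.lip _ c0 _ (hf c1)).trans (half _ (by linarith))
    have h2 := norm_add_le_of_le (hD _ (hf c1)) h1
    rw [sub_zero, sub_add_sub_cancel] at h2
    linarith
  obtain ⟨R', hR'⟩ : ∃ R', R' = -(a * ((W T Z (n + 1) (cen y')).1 ^ 2).re) := ⟨_, rfl⟩
  have dR : |R' - R + 1| ≤ 6 * ε := by
    have h1 := (re_le H.ha _).trans dξ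
    rw [sub_re, rep, rep] at h1
    rw [← abs_neg]
    refine le_of_eq_of_le ?_ h1
    congr 1
    rw [hR']
    nth_rewrite 1 [J.hR]
    push_cast
    linear_combination (aa H.ha).1
  have dR' := abs_le.1 dR
  have R'0 : 0 < R' := by linarith
  obtain ⟨p1, p2⟩ := pot R'0 (show R' ≤ R - 1 / 2 by linarith)
  have sub : ∀ k : ℝ, 0 < k → k ≤ 6 → ball (cen y') (R' / k) ⊆ ball (cen y) (R / k) := by
    intro k k0 k6
    refine ball_subset_ball' ?_
    rw [dist_eq_norm]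
    have : R' / k + 1 / 2 / k ≤ R / k := by rw [← add_div]; gcongr; linarith
    have : 1 / 2 / 6 ≤ 1 / 2 / k := by gcongr
    linarith
  have dL : 2 * (C * u) / R ≤ Lam C ω R₀ R' - Lam C ω R₀ R := by
    have h1 : 4 * C * ω * (1 / (2 * R)) ≤ 4 * C * ω * (Real.log R - Real.log R') := by gcongr
    have h2 : 72 * C ^ 2 * (1 / (2 * R ^ 2)) ≤ 72 * C ^ 2 * (1 / R' - 1 / R) := by gcongr
    have h3 : 2 * (C * u) / R = 4 * C * ω * (1 / (2 * R)) + 72 * C ^ 2 * (1 / (2 * R ^ 2)) := by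
      rw [Cu]; field_simp; ring
    have h4 : Lam C ω R₀ R' - Lam C ω R₀ R = 4 * C * ω * (Real.log R - Real.log R') +
      72 * C ^ 2 * (1 / R' - 1 / R) := by unfold Lam; ring
    linarith
  refine ⟨y', R', ⟨hR', ?_, by push_cast; linarith, by linarith,
    fun q hq => an' q (sub 3 (by norm_num) (by norm_num) hq), fun q hq => ?_, fun p hp q hq => ?_,
    fun q hq => ?_⟩, dξ, by linarith, by linarith⟩
  · have h1 := (abs_im_le_norm _).trans ((lip' _ c0 _ (hf c1)).trans (half _ (by linarith)))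
    rw [sub_im, imp, imp] at h1
    refine le_of_eq_of_le ?_ h1
    congr 1
    linarith
  · have hq' := sub 3 (by norm_num) (by norm_num) hq
    obtain ⟨b1, -, b3, -⟩ := J.base H hq'
    have h1 := H.S.e2 _ (mem q hq') b3
    rw [← W_succ T Z n q] at h1
    have x1 : C * (‖(W T Z n q).2‖ + η + 1 / ‖(W T Z n q).1‖ ^ 2) / ‖(W T Z n q).1‖ ^ 2 ≤
        2 * (C * u) / R := by
      calc _ ≤ C * u / (R / 2) := by gcongr; exact uu q hq'
        _ = _ := by field_simp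
    have x2 : C / ‖(W T Z n q).1‖ ^ 4 ≤ 8 * C * (1 / R' - 1 / R) := by
      calc _ = C / (‖(W T Z n q).1‖ ^ 2) ^ 2 := by ring
        _ ≤ C / (R / 2) ^ 2 := by gcongr
        _ = 8 * C * (1 / (2 * R ^ 2)) := by field_simp; ring
        _ ≤ _ := by gcongr
    have g0 : 0 ≤ 1 / R' - 1 / R := le_trans (by positivity) p2
    rw [show β + 8 * C / R' + ν * ((n + 1 : ℕ) : ℝ) =
      (β + 8 * C / R + ν * n) + (8 * C * (1 / R' - 1 / R) + ν) by push_cast; ring]
    exact estep h1 x1 x2 (J.e q hq') (norm_nonneg _) (by positivity) (by positivity)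
      (by positivity) L0 (L1.trans (by linarith only [ε1])) dL
  · refine (lip' p (sub 6 (by norm_num) le_rfl hp) q (sub 3 (by norm_num) (by norm_num) hq)).trans ?_
    refine mul_le_mul_of_nonneg_right ?_ (norm_nonneg _)
    rw [show 12 * (C * u) / R = 6 * (2 * (C * u) / R) by ring]
    linarith
  · have hq' := sub 3 (by norm_num) (by norm_num) hq
    rw [Finset.sum_range_succ]
    have : 2 / R = 4 * (1 / (2 * R)) := by field_simp; ring
    linarith [J.sum q hq', inv q hq']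

end Vale.Agent.P097EE.Ap
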