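import Vale.Agent.P097EE.ApB

/-!
# P097EE: the approach, one step at a time (the last stretch)
-/

set_option linter.all false

noncomputable section

namespace Vale.Agent.P097EE.Ap

open Filter Topology Set Metric Complex

structure Al (a A ℓ m : ℝ) (ξ : ℂ) (q : C2) (j : ℕ) : Prop where
  z : ‖q.2‖ ≤ 12
  m1 : ℓ ≤ m
  m2 : |q.1.im - ξ.im| ≤ m
  x : |q.1.re| ≤ A * m
  r : a * (q.1.re - ξ.re) + j ≤ A * m
  o : ∀ i ≤ j, m ≤ ‖q.1 + a * i - ξ‖

def Co (T Z : C2 → C2) (a l L e δ B : ℝ) (ξ : ℂ) (q : C2) (j : ℕ) : Prop :=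
  AnalyticAt ℂ (W T Z j) q ∧ W T Z j q ∈ An (4 * l) (L / 2) (e / 4) ∧ ‖(W T Z j q).2‖ ≤ δ ∧
    ‖(W T Z j q).1 ^ 2 - (q.1 + a * j - ξ)‖ ≤ δ * ‖q.1 + a * j - ξ‖ ∧
    ∑ i ∈ Finset.range j, 1 / ‖(W T Z i q).1‖ ^ 2 ≤ B

variable {T Z : C2 → C2} {a C l L e η ν β ω ℓ R₀ ε A m δ : ℝ} {f ξ : ℂ} {n j : ℕ} {y R : ℝ}
  {q : C2}

theorem Inv.inb (H : Dat T a C l L e η ν β ω ℓ R₀ ε f) (J : Inv T Z a C ν β ω ℓ R₀ ε f n y R)
    (hξ : ‖ξ + ph T Z a f n (cen y)‖ ≤ 12 * ε * R) (Q : Al a A ℓ m ξ q j) (A2 : 2 ≤ A)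
    (hm : 6 * (A * m) ≤ R) : q ∈ ball (cen y) (R / 3) ∧
      ‖(W T Z n q).1 ^ 2 - (q.1 + a * n - ξ)‖ ≤ 38 * ε * R := by
  have n0 : (0 : ℝ) ≤ n := n.cast_nonneg
  obtain ⟨e0, l6, -⟩ := H.nums J.R1 (by linarith [J.R0])
  have R1 := J.R1
  have ε1 := H.ε1
  have m0 : 0 ≤ m := by linarith [Q.m1]
  have eR : 9 ≤ ε * R := by nlinarith [H.hℓ, one_le_pow₀ (n := 2) H.C1]
  have eR' : ε * R ≤ R / 600 := by nlinarith
  have hq : q ∈ ball (cen y) (R / 3) := by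
    have h1 := abs_le.1 ((abs_im_le_norm _).trans hξ)
    rw [add_im, show (ph T Z a f n (cen y)).im = ((W T Z n (cen y)).1 ^ 2).im - y by
      simp [ph, cen]] at h1
    have h2 := abs_le.1 J.im
    have h3 := abs_le.1 Q.m2
    have h4 := norm_le_abs_re_add_abs_im (q.1 - y * I)
    have h5 : |q.1.im - y| ≤ m + 12 * ε * R + 3 * ε := abs_le.2 ⟨by linarith, by linarith⟩
    simp only [sub_re, sub_im, mul_re, mul_im, ofReal_re, ofReal_im, I_re, I_im, mul_zero,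
      zero_mul, sub_zero, mul_one, add_zero] at h4
    rw [mem_ball, Prod.dist_eq, max_lt_iff, dist_eq_norm, dist_eq_norm]
    have h6 : 2 * m ≤ A * m := by gcongr
    exact ⟨by simp only [cen]; linarith [Q.x], by simp only [cen, sub_zero]; linarith [Q.z]⟩
  refine ⟨hq, ?_⟩
  have h1 := norm_sub_le_of_le (norm_add_le_of_le (J.base H hq).2.2.2.2 hξ)
    (norm_mul_le_of_le H.f1 Q.z)
  refine le_of_eq_of_le ?_ (h1.trans (by linarith))
  congr 1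
  simp only [ph]
  ring

theorem Inv.here (H : Dat T a C l L e η ν β ω ℓ R₀ ε f) (J : Inv T Z a C ν β ω ℓ R₀ ε f n y R)
    (hξ : ‖ξ + ph T Z a f n (cen y)‖ ≤ 12 * ε * R) (Q : Al a A ℓ m ξ q j) (A2 : 2 ≤ A)
    (hm : 6 * (A * m) ≤ R) (hδ : 152 * ε ≤ δ) :
    Co T Z a l L e δ (4 * Real.log R₀ + 30 * A) ξ q n := by
  have n0 : (0 : ℝ) ≤ n := n.cast_nonneg
  obtain ⟨e0, l6, -, -, -, -, -, -, -, g0, -⟩ := H.nums J.R1 (by linarith [J.R0])
  obtain ⟨hq, h1⟩ := J.inb H hξ Q A2 hm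
  obtain ⟨m1, m2⟩ := J.mem H hq
  have R1 := J.R1
  have ε1 := H.ε1
  have eR' : ε * R ≤ R / 600 := by nlinarith
  refine ⟨J.an q hq, m1, by linarith [H.η0], ?_, by linarith [J.sum q hq]⟩
  have h2 := norm_sub_norm_le ((W T Z n q).1 ^ 2) (q.1 + a * n - ξ)
  rw [norm_pow] at h2
  have h3 : R / 4 ≤ ‖q.1 + a * n - ξ‖ := by linarith [(J.base H hq).1]
  calc _ ≤ (152 * ε) * (R / 4) := by linarith
    _ ≤ _ := mul_le_mul hδ h3 (by linarith) (by linarith)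

theorem nu1 {A C K ε m ν x γ : ℝ} {i : ℕ} (A2 : 2 ≤ A) (C1 : 1 ≤ C) (m0 : 0 < m) (e0 : 0 < ε)
    (ν0 : 0 ≤ ν) (hi : (i : ℝ) ≤ 15 * (A * m)) (hK : K = Real.exp (30 * C * A))
    (hx : x = 2 * C / m) (hγ : γ = 4 * C / m ^ 2 + ν) (Cm : C / m ≤ ε)
    (hν : 15 * (A * m) * ν ≤ ε) : (1 + x) ^ i * (3 * ε + i * γ) ≤ 64 * A * K * ε := by
  have x0 : 0 ≤ x := by rw [hx]; positivity
  have γ0 : 0 ≤ γ := by rw [hγ]; positivity
  have h1 : (1 + x) ^ i ≤ K := by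
    calc _ ≤ Real.exp x ^ i := by gcongr; linarith [Real.add_one_le_exp x]
      _ = Real.exp (i * x) := (Real.exp_nat_mul _ _).symm
      _ ≤ Real.exp (15 * (A * m) * x) := by gcongr
      _ = K := by rw [hK, hx]; congr 1; field_simp; ring
  have h2 : i * γ ≤ 60 * A * ε + ε := by
    calc _ ≤ 15 * (A * m) * γ := by gcongr
      _ = 60 * A * (C / m) + 15 * (A * m) * ν := by rw [hγ]; field_simp; ring
      _ ≤ _ := by gcongr
  have K0 : 0 ≤ K := by rw [hK]; positivity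
  calc _ ≤ K * (64 * A * ε) := by gcongr; nlinarith
    _ = _ := by ring

theorem nu2 {A C K ε m R μ δ : ℝ} {i : ℕ} (A2 : 2 ≤ A) (C1 : 1 ≤ C) (K1 : 1 ≤ K) (m0 : 0 < m)
    (e0 : 0 < ε) (hi : (i : ℝ) ≤ 15 * (A * m)) (hR : R ≤ 7 * (A * m)) (μ0 : 0 ≤ μ)
    (hμ : μ ≤ C * (64 * A * K * ε) + 3 * ε) (hδ : 1300 * (A ^ 2 * K * C) * ε ≤ δ) :
    38 * ε * R + i * μ ≤ δ * m := by
  have h1 : 1 ≤ A * K * C := one_le_mul_of_one_le_of_one_le
    (one_le_mul_of_one_le_of_one_le (by linarith) K1) C1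
  have h2 : ε ≤ A * K * C * ε := le_mul_of_one_le_left e0.le h1
  have Am : 0 < A * m := by positivity
  calc _ ≤ 38 * ε * (7 * (A * m)) + 15 * (A * m) * (C * (64 * A * K * ε) + 3 * ε) := by gcongr
    _ = (311 * ε + 960 * (A * K * C * ε)) * (A * m) := by ring
    _ ≤ (1300 * (A * K * C * ε)) * (A * m) := by gcongr; linarith
    _ = 1300 * (A ^ 2 * K * C) * ε * m := by ring
    _ ≤ _ := by gcongr

theorem Inv.stretch (H : Dat T a C l L e η ν β ω ℓ R₀ ε f)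
    (J : Inv T Z a C ν β ω ℓ R₀ ε f n y R) (hξ : ‖ξ + ph T Z a f n (cen y)‖ ≤ 12 * ε * R)
    (Q : Al a A ℓ m ξ q j) (A2 : 2 ≤ A) (hm : 6 * (A * m) ≤ R) (hm' : R ≤ 7 * (A * m))
    (hδ : 1300 * (A ^ 2 * Real.exp (30 * C * A) * C) * ε ≤ δ) (δ1 : δ ≤ 1 / 2) (δe : 8 * δ ≤ e)
    (nj : n ≤ j) : Co T Z a l L e δ (4 * Real.log R₀ + 30 * A) ξ q j := by
  have n0 : (0 : ℝ) ≤ n := n.cast_nonneg
  have RR := J.R0
  obtain ⟨e0, l6, o0, co, oe, -, -, -, -, g0, -⟩ := H.nums J.R1 (by linarith)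
  obtain ⟨hq, h1⟩ := J.inb H hξ Q A2 hm
  obtain ⟨-, m2⟩ := J.mem H hq
  obtain ⟨-, b2, -⟩ := J.base H hq
  have ε1 := H.ε1
  have C1 := H.C1
  have η0 := H.η0
  have ν0 := H.ν0
  have m1 := Q.m1
  have m0 : 0 < m := by linarith
  have R0 : 0 < R := by linarith [J.R1]
  have eR' : ε * R ≤ R / 600 := by nlinarith
  obtain ⟨K, hK⟩ : ∃ K, K = Real.exp (30 * C * A) := ⟨_, rfl⟩
  have K1 : 1 ≤ K := by rw [hK]; exact Real.one_le_exp (by positivity)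
  rw [← hK] at hδ
  have Am : 2 * m ≤ A * m := by gcongr
  have C2m : C ^ 2 / m ≤ ε := by
    rw [div_le_iff₀ m0]
    exact H.hℓ.trans (by gcongr)
  have Cm : C / m ≤ ε := le_trans (by gcongr; nlinarith) C2m
  have nR : 0 ≤ ν * R₀ := mul_nonneg ν0 (by linarith)
  have hν : 15 * (A * m) * ν ≤ ε := by
    have : 6 * (A * m) * ν ≤ R₀ * ν := by gcongr; linarith
    linarith [H.om, H.β0]
  have Cη : C * η ≤ ε := le_trans (by gcongr; linarith [H.om, H.β0]) co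
  have rP : ∀ i : ℕ, a * (q.1 + a * i - ξ).re = a * (q.1.re - ξ.re) + i := fun i => by
    rw [sub_re, add_re, ← ofReal_natCast, ← ofReal_mul, ofReal_re]
    linear_combination (i : ℝ) * (aa H.ha).1
  have lo : -(14 * (A * m)) ≤ a * (q.1.re - ξ.re) + n := by
    have h2 := norm_sub_norm_le (q.1 + a * n - ξ) ((W T Z n q).1 ^ 2)
    rw [norm_pow, norm_sub_rev _ ((W T Z n q).1 ^ 2)] at h2
    have h3 := (abs_le.1 (re_le H.ha (q.1 + a * n - ξ))).1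
    rw [rP] at h3
    linarith
  have e2 : 64 * A * K * ε ≤ δ := by
    refine le_trans ?_ hδ
    have : A * K * ε ≤ (A * C) * (A * K * ε) :=
      le_mul_of_one_le_left (by positivity) (by nlinarith)
    have : 0 ≤ A * K * ε := by positivity
    nlinarith
  obtain ⟨x, hx⟩ : ∃ x, x = 2 * C / m := ⟨_, rfl⟩
  obtain ⟨γ, hγ⟩ : ∃ γ, γ = 4 * C / m ^ 2 + ν := ⟨_, rfl⟩
  obtain ⟨μ, hμ⟩ : ∃ μ, μ = C * (64 * A * K * ε + η + 2 / m) := ⟨_, rfl⟩
  have x0 : 0 ≤ x := by rw [hx]; positivity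
  have γ0 : 0 ≤ γ := by rw [hγ]; positivity
  have μ0 : 0 ≤ μ := by rw [hμ]; positivity
  have μ1 : μ ≤ C * (64 * A * K * ε) + 3 * ε := by
    rw [hμ, mul_add, mul_add, show C * (2 / m) = 2 * (C / m) by ring]
    linarith
  have cnt : ∀ i : ℕ, n + i ≤ j → (i : ℝ) ≤ 15 * (A * m) ∧ (n : ℝ) + i ≤ j := fun i hi => by
    have : (n : ℝ) + i ≤ j := by exact_mod_cast hi
    exact ⟨by linarith [Q.r], this⟩
  have der : ∀ i : ℕ, n + i ≤ j → ‖(W T Z (n + i) q).2‖ ≤ (1 + x) ^ i * (3 * ε + i * γ) →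
      ‖(W T Z (n + i) q).1 ^ 2 - (q.1 + a * (n + i : ℕ) - ξ)‖ ≤ 38 * ε * R + i * μ →
      ‖(W T Z (n + i) q).2‖ ≤ 64 * A * K * ε ∧
      ‖(W T Z (n + i) q).1 ^ 2 - (q.1 + a * (n + i : ℕ) - ξ)‖ ≤ δ * m ∧
      m / 2 ≤ ‖(W T Z (n + i) q).1‖ ^ 2 ∧ W T Z (n + i) q ∈ An (4 * l) (L / 2) (e / 4) := by
    intro i hi d1 d2
    obtain ⟨c1, c2⟩ := cnt i hi
    have i0 : (0 : ℝ) ≤ i := i.cast_nonneg
    have d3 := d1.trans (nu1 A2 C1 m0 e0 ν0 c1 hK hx hγ Cm hν)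
    have d4 := d2.trans (nu2 A2 C1 K1 m0 e0 c1 hm' μ0 μ1 hδ)
    have d5 : δ * m ≤ 1 / 2 * m := by gcongr
    have o := Q.o _ hi
    have u1 := norm_le_abs_re_add_abs_im (q.1 + a * (n + i : ℕ) - ξ)
    have u2 : |(q.1 + a * (n + i : ℕ) - ξ).re| ≤ 14 * (A * m) := by
      rw [← one_mul |_|, ← (aa H.ha).2, ← abs_mul, rP, Nat.cast_add]
      exact abs_le.2 ⟨by linarith, by linarith [Q.r]⟩
    have u3 : |(q.1 + a * (n + i : ℕ) - ξ).im| ≤ m := by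
      rw [sub_im, add_im, ← ofReal_natCast, ← ofReal_mul, ofReal_im, add_zero]
      exact Q.m2
    have v1 := norm_sub_norm_le ((W T Z (n + i) q).1 ^ 2) (q.1 + a * (n + i : ℕ) - ξ)
    have v2 := norm_sub_norm_le (q.1 + a * (n + i : ℕ) - ξ) ((W T Z (n + i) q).1 ^ 2)
    rw [norm_sub_rev _ ((W T Z (n + i) q).1 ^ 2)] at v2
    rw [norm_pow] at v1 v2
    have l0 := H.l0
    have := H.lℓ
    have := H.RL
    have := H.εe
    exact ⟨d3, d4, by linarith, by linarith, by linarith, by linarith⟩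
  have ind : ∀ i : ℕ, n + i ≤ j → AnalyticAt ℂ (W T Z (n + i)) q ∧
      ‖(W T Z (n + i) q).2‖ ≤ (1 + x) ^ i * (3 * ε + i * γ) ∧
      ‖(W T Z (n + i) q).1 ^ 2 - (q.1 + a * (n + i : ℕ) - ξ)‖ ≤ 38 * ε * R + i * μ ∧
      ∑ k ∈ Finset.range (n + i), 1 / ‖(W T Z k q).1‖ ^ 2 ≤ 4 * Real.log R₀ + i * (2 / m) := by
    intro i
    induction i with
    | zero =>
      intro _
      refine ⟨J.an q hq, ?_, by simpa using h1, ?_⟩
      · simp only [Nat.add_zero, pow_zero, one_mul, Nat.cast_zero, zero_mul, add_zero]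
        linarith only [m2, η0]
      · simp only [Nat.add_zero, Nat.cast_zero, zero_mul, add_zero]
        linarith only [J.sum q hq, g0]
    | succ i ih =>
      intro hi
      obtain ⟨i1, i2, i3, i4⟩ := ih (by omega)
      obtain ⟨d1, -, d3, d4⟩ := der i (by omega) i2 i3
      have mem := An_sub H.l0 d4
      have iv : 1 / ‖(W T Z (n + i) q).1‖ ^ 2 ≤ 2 / m := by
        rw [div_le_div_iff₀ (by linarith only [d3, m0]) m0]
        linarith only [d3]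
      have t1 := H.S.th _ mem
      have t2 := H.S.e1 _ mem
      rw [← W_succ T Z (n + i) q] at t1 t2
      rw [← add_assoc]
      refine ⟨?_, ?_, ?_, ?_⟩
      · rw [show W T Z (n + i + 1) = fun q => T (W T Z (n + i) q) from funext (W_succ T Z _)]
        exact (H.S.an _ mem).comp i1
      · have x1 : C / ‖(W T Z (n + i) q).1‖ ^ 2 ≤ x := by
          rw [hx, div_eq_mul_one_div, show 2 * C / m = C * (2 / m) by ring]
          gcongr
        have x2 : C / ‖(W T Z (n + i) q).1‖ ^ 4 ≤ 4 * C / m ^ 2 := by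
          calc _ = C / (‖(W T Z (n + i) q).1‖ ^ 2) ^ 2 := by ring
            _ ≤ C / (m / 2) ^ 2 := by gcongr
            _ = _ := by field_simp; ring
        have x3 : γ ≤ (1 + x) ^ (i + 1) * γ :=
          le_mul_of_one_le_left γ0 (one_le_pow₀ (by linarith only [x0]))
        calc _ ≤ (1 + x) * ((1 + x) ^ i * (3 * ε + i * γ)) + γ := by
              refine t2.trans ?_
              rw [hγ] at i2 ⊢
              rw [add_assoc]
              gcongr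
          _ ≤ (1 + x) * ((1 + x) ^ i * (3 * ε + i * γ)) + (1 + x) ^ (i + 1) * γ := by
              linarith only [x3]
          _ = _ := by push_cast; ring
      · have t3 := norm_add_le_of_le (t1.trans (show _ ≤ μ by rw [hμ]; gcongr)) i3
        refine le_of_eq_of_le ?_ (t3.trans_eq (by push_cast; ring))
        congr 1
        push_cast
        ring
      · rw [Finset.sum_range_succ]
        push_cast
        linarith only [i4, iv]
  obtain ⟨i, rfl⟩ := Nat.exists_eq_add_of_le nj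
  obtain ⟨i1, i2, i3, i4⟩ := ind i le_rfl
  obtain ⟨d1, d2, -, d4⟩ := der i le_rfl i2 i3
  have δ0 : 0 ≤ δ := le_trans (by positivity) e2
  refine ⟨i1, d4, d1.trans e2, d2.trans (by gcongr; exact Q.o _ le_rfl), i4.trans ?_⟩
  have : i * (2 / m) ≤ 15 * (A * m) * (2 / m) := by gcongr; exact (cnt i le_rfl).1
  rw [show 15 * (A * m) * (2 / m) = 30 * A by field_simp; ring] at this
  linarith only [this]

end Vale.Agent.P097EE.Ap
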