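import Vale.Agent.P097EE.ApC

/-!
# P097EE: the approach
-/

set_option linter.all false

noncomputable section

namespace Vale.Agent.P097EE.Ap

open Filter Topology Set Metric Complex

variable {T Z : C2 → C2} {a C l L e η ν β ω ℓ R₀ ε A δ : ℝ} {f : ℂ}

theorem run (H : Dat T a C l L e η ν β ω ℓ R₀ ε f) (A2 : 2 ≤ A)
    (hδ : 1300 * (A ^ 2 * Real.exp (30 * C * A) * C) * ε ≤ δ) (hδ' : 152 * ε ≤ δ)
    (δ1 : δ ≤ 1 / 2) (δe : 8 * δ ≤ e) (k : ℕ) : ∀ (n : ℕ) (y R : ℝ), R ≤ k / 2 →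
    Inv T Z a C ν β ω ℓ R₀ ε f n y R → ∃ ξ : ℂ, ‖ξ + ph T Z a f n (cen y)‖ ≤ 12 * ε * R ∧
      ∀ q j m, n ≤ j → 6 * (A * m) ≤ R → Al a A ℓ m ξ q j →
        Co T Z a l L e δ (4 * Real.log R₀ + 30 * A) ξ q j := by
  induction k with
  | zero =>
    intro n y R hk J
    have n0 : (0 : ℝ) ≤ n := n.cast_nonneg
    obtain ⟨-, l6, -⟩ := H.nums J.R1 (by linarith [J.R0])
    simp only [Nat.cast_zero, zero_div] at hk
    linarith [J.R1]
  | succ k ih =>
    intro n y R hk J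
    have n0 : (0 : ℝ) ≤ n := n.cast_nonneg
    obtain ⟨e0, l6, -⟩ := H.nums J.R1 (by linarith [J.R0])
    have R1 := J.R1
    have am : ∀ m, ℓ ≤ m → 2 * ℓ ≤ A * m := fun m hm => by gcongr
    by_cases h : 10 * ℓ ≤ R
    · obtain ⟨y', R', J', d, r1, r2⟩ := J.step H h
      obtain ⟨ξ, hξ', K⟩ := ih (n + 1) y' R' (by push_cast at hk; linarith) J'
      have hξ : ‖ξ + ph T Z a f n (cen y)‖ ≤ 12 * ε * R := by
        have h1 := norm_sub_le_of_le hξ' d
        have h2 : 12 * ε * R' ≤ 12 * ε * (R - 1 / 2) := by gcongr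
        refine le_of_eq_of_le ?_ (h1.trans (by linarith))
        congr 1
        ring
      refine ⟨ξ, hξ, fun q j m nj hm Q => ?_⟩
      rcases nj.eq_or_lt with rfl | nj'
      · exact J.here H hξ Q A2 hm hδ'
      by_cases h' : 6 * (A * m) ≤ R'
      · exact K q j m nj' h' Q
      · exact J.stretch H hξ Q A2 hm (by linarith [am m Q.m1, not_le.1 h']) hδ δ1 δe nj
    · refine ⟨-ph T Z a f n (cen y), ?_, fun q j m _ hm Q => ?_⟩
      · rw [neg_add_cancel, norm_zero]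
        have : 0 ≤ R := by linarith
        positivity
      · linarith [am m Q.m1, not_le.1 h]

theorem start {ξ₀ : ℂ} {l₁ : ℝ} (ha : a = 1 ∨ a = -1) (l0 : 0 < l₁) (β0 : 0 ≤ β) (β1 : β ≤ 1 / 10)
    (c : |a * ξ₀.re - 8 * l₁| ≤ l₁)
    (G : ∀ q ∈ ball (cen ξ₀.im) (4 * l₁), AnalyticAt ℂ Z q ∧ ‖(Z q).2‖ ≤ β ∧
      ‖(Z q).1 ^ 2 - (q.1 - f * q.2 - ξ₀)‖ ≤ β * l₁) :
    ∃ y R₀ : ℝ, 6 * l₁ ≤ R₀ ∧ R₀ ≤ 10 * l₁ ∧ ‖ph T Z a f 0 (cen y) + ξ₀‖ ≤ β * l₁ ∧
      ∀ C ν ω ℓ ε : ℝ, 0 ≤ C → 0 ≤ ε → 9 * ℓ ≤ R₀ → Inv T Z a C ν β ω ℓ R₀ ε f 0 y R₀ := by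
  have b0 : 0 ≤ β * l₁ := by positivity
  have b1 : β * l₁ ≤ 1 / 10 * l₁ := by gcongr
  have dc : ∀ y y' : ℝ, dist (cen y) (cen y') = |y - y'| := fun y y' => by
    rw [dist_eq_norm, show cen y - cen y' = (((y - y' : ℝ) : ℂ) * I, 0) by simp [cen, sub_mul]]
    simp [← ofReal_sub]
  have mm : ∀ y ∈ Icc (ξ₀.im - β * l₁) (ξ₀.im + β * l₁), cen y ∈ ball (cen ξ₀.im) (4 * l₁) :=
    fun y hy => by
      rw [mem_ball, dc, abs_lt]
      constructor <;> linarith [hy.1, hy.2]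
  have im : ∀ y ∈ Icc (ξ₀.im - β * l₁) (ξ₀.im + β * l₁),
      |((Z (cen y)).1 ^ 2).im - (y - ξ₀.im)| ≤ β * l₁ := fun y hy => by
    simpa [cen] using (abs_im_le_norm _).trans (G _ (mm y hy)).2.2
  have cc : Continuous cen := by unfold cen; fun_prop
  have ct : ContinuousOn (fun y : ℝ => ((Z (cen y)).1 ^ 2).im)
      (Icc (ξ₀.im - β * l₁) (ξ₀.im + β * l₁)) := fun y hy =>
    (continuous_im.continuousAt.comp ((continuousAt_fst.comp
      ((G _ (mm y hy)).1.continuousAt.comp cc.continuousAt)).pow 2)).continuousWithinAt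
  obtain ⟨y, hy, y0⟩ := intermediate_value_Icc (by linarith) ct (show (0 : ℝ) ∈ _ from
    ⟨by linarith [(abs_le.1 (im _ (left_mem_Icc.2 (by linarith)))).2],
      by linarith [(abs_le.1 (im _ (right_mem_Icc.2 (by linarith)))).1]⟩)
  have p0 : ∀ q, ph T Z a f 0 q - -ξ₀ = (Z q).1 ^ 2 - (q.1 - f * q.2 - ξ₀) := fun q => by
    simp only [ph, W, Function.iterate_zero, id]
    push_cast
    ring
  obtain ⟨R, hR⟩ : ∃ R, R = -(a * ((Z (cen y)).1 ^ 2).re) := ⟨_, rfl⟩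
  have h1 := abs_le.1 ((re_le ha _).trans (G _ (mm y hy)).2.2)
  rw [show ((Z (cen y)).1 ^ 2 - ((cen y).1 - f * (cen y).2 - ξ₀)).re =
    ((Z (cen y)).1 ^ 2).re + ξ₀.re by simp [cen], mul_add] at h1
  have c' := abs_le.1 c
  have R0 : 0 < R := by linarith
  have sub : ball (cen y) (R / 3) ⊆ ball (cen ξ₀.im) (4 * l₁) := ball_subset_ball' (by
    rw [dc]
    have : |y - ξ₀.im| ≤ β * l₁ := abs_le.2 ⟨by linarith [hy.1], by linarith [hy.2]⟩
    linarith)
  refine ⟨y, R, by linarith, by linarith, ?_, fun C ν ω ℓ ε C0 e0 hl => ?_⟩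
  · rw [← sub_neg_eq_add, p0]
    exact (G _ (mm y hy)).2.2
  have L0 : 0 ≤ Lam C ω R R := by
    unfold Lam
    rw [sub_self, mul_zero, zero_add]
    positivity
  refine ⟨hR, ?_, by simp, hl, fun q hq => (G q (sub hq)).1, fun q hq => ?_, fun p hp q hq => ?_,
    fun q _ => by simp⟩
  · have : ((W T Z 0 (cen y)).1 ^ 2).im = 0 := y0
    rw [this, abs_zero]
    positivity
  · refine (G q (sub hq)).2.1.trans ?_
    have : 0 ≤ 8 * C / R := by positivity
    rw [Nat.cast_zero, mul_zero, add_zero]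
    nlinarith
  · refine (semi (w := -ξ₀) (M := β * l₁) (by positivity)
      (fun x hx => (ph_an (n := 0) (G x (sub hx)).1).differentiableAt.differentiableWithinAt)
      (fun x hx => (p0 x).symm ▸ (G x (sub hx)).2.2) (by rwa [show R / 3 / 2 = R / 6 by ring])
      hq).trans (mul_le_mul_of_nonneg_right ?_ (norm_nonneg _))
    have : 4 * (β * l₁) / (R / 3) ≤ 2 * β := by
      rw [div_le_iff₀ (by positivity)]
      nlinarith
    linarith

theorem app : S_APP := by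
  intro C e A δ C1 e0 A2 δ0
  obtain ⟨d, hd⟩ : ∃ d, d = min δ (min (1 / 2) (e / 8)) := ⟨_, rfl⟩
  have d0 : 0 < d := by rw [hd]; positivity
  have d1 : d ≤ δ := hd ▸ min_le_left _ _
  have d2 : d ≤ 1 / 2 := hd ▸ (min_le_right _ _).trans (min_le_left _ _)
  have d3 : d ≤ e / 8 := hd ▸ (min_le_right _ _).trans (min_le_right _ _)
  obtain ⟨E, hE⟩ : ∃ E, E = A ^ 2 * Real.exp (30 * C * A) * C := ⟨_, rfl⟩
  have E1 : 1 ≤ E := hE ▸ one_le_mul_of_one_le_of_one_le (one_le_mul_of_one_le_of_one_le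
    (one_le_pow₀ (by linarith)) (Real.one_le_exp (by positivity))) C1
  obtain ⟨ε, hε⟩ : ∃ ε, ε = d / (1300 * E) := ⟨_, rfl⟩
  have ε0 : 0 < ε := by rw [hε]; positivity
  have ε1 : 1300 * E * ε = d := by rw [hε]; field_simp
  have ε2 : 1300 * ε ≤ d := by nlinarith
  refine ⟨C ^ 2 / ε, ε / (200 * C), 30 * A + 12, by positivity, ?_⟩
  intro T Z a ℓ l₁ l L η ν β f ξ₀ hℓ ha S G η0 ν0 β0 l0 lℓ lL Al₁ sm
  rw [div_le_iff₀ ε0] at hℓ
  rw [le_div_iff₀ (by positivity)] at sm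
  have c2 : 1 ≤ C ^ 2 := one_le_pow₀ C1
  have ℓ0 : 0 < ℓ := by linarith
  have ℓ1 : 1 ≤ ℓ := by nlinarith
  have ℓ2 : 2 * ℓ ≤ l₁ := le_trans (by gcongr) Al₁
  have g0 : 0 ≤ Real.log l₁ := Real.log_nonneg (by linarith)
  have nl : 0 ≤ ν * l₁ := mul_nonneg ν0 (by linarith)
  obtain ⟨s, hs⟩ : ∃ s, s = β + η + ν * l₁ := ⟨_, rfl⟩
  rw [← hs] at sm
  have s0 : 0 ≤ s := by linarith
  have s1 : 200 * s ≤ ε := by
    have : s * 1 ≤ s * C := by gcongr
    have : 0 ≤ Real.log l₁ * (s * C) := by positivity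
    linarith
  let Z' : C2 → C2 := fun q => Z (q.1, q.2 / 4)
  have aS : ∀ q : C2, AnalyticAt ℂ (fun p : C2 => (p.1, p.2 / 4)) q := fun q =>
    analyticAt_fst.prod (analyticAt_snd.div analyticAt_const (by norm_num))
  obtain ⟨y, R₀, r1, r2, h0, J⟩ := start (T := T) (Z := Z') (f := f / 4) ha (by linarith) β0
    (by linarith) G.c fun q hq => by
      rw [mem_ball, Prod.dist_eq, max_lt_iff, dist_eq_norm, dist_eq_norm] at hq
      have h1 := (abs_re_le_norm _).trans hq.1.le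
      have h2 := abs_le.1 ((abs_im_le_norm _).trans hq.1.le)
      have h3 := hq.2
      simp [cen] at h1 h2 h3
      obtain ⟨g1, g2, g3⟩ := G.bx (q.1, q.2 / 4) ⟨h1, by linarith [h2.1], by linarith [h2.2], by
        rw [norm_div, show ‖(4 : ℂ)‖ = 4 by simp]; linarith⟩
      exact ⟨AnalyticAt.comp (f := fun p : C2 => (p.1, p.2 / 4)) g1 (aS q), g2,
         by rwa [show f / 4 * q.2 = f * (q.2 / 4) by ring]⟩
  have lg : Real.log R₀ ≤ 3 + Real.log l₁ := by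
    have h1 := Real.log_le_log (by linarith) r2
    rw [Real.log_mul (by norm_num) (by linarith)] at h1
    have h2 : Real.log 10 ≤ 3 := by
      rw [Real.log_le_iff_le_exp (by norm_num), show (3 : ℝ) = 1 + 1 + 1 by norm_num,
        Real.exp_add, Real.exp_add]
      have := Real.exp_one_gt_d9
      nlinarith
    linarith
  have H : Dat T a C l L e η ν β (40 * s) ℓ R₀ ε (f / 4) := by
    refine ⟨ha, S, C1, ?_, η0, ν0, β0, l0, lℓ, by linarith, ?_, ?_, by linarith, by linarith,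
      by linarith⟩
    · rw [norm_div, show ‖(4 : ℂ)‖ = 4 by simp]
      linarith [G.f1]
    · have : ν * R₀ ≤ ν * (10 * l₁) := by gcongr
      linarith
    · calc _ ≤ C * (40 * s) * (4 * (Real.log l₁ + 1)) := by gcongr; linarith
        _ ≤ _ := by
          have : 0 ≤ (Real.log l₁ + 1) * s * C := by positivity
          linarith
  obtain ⟨k, hk⟩ := exists_nat_ge (2 * R₀)
  obtain ⟨ξ, hξ, K⟩ := run H A2 (δ := d) (by rw [← hE, ε1]) (by linarith) d2 (by linarith) k 0 y R₀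
    (by linarith) (J C ν _ ℓ ε (by linarith) ε0.le (by linarith))
  refine ⟨ξ, ?_, fun q j Q => ?_⟩
  · have h1 := norm_sub_le_of_le hξ h0
    rw [show ξ + ph T Z' a (f / 4) 0 (cen y) - (ph T Z' a (f / 4) 0 (cen y) + ξ₀) = ξ - ξ₀ by
      ring] at h1
    calc _ ≤ 12 * ε * (10 * l₁) + ε * l₁ := h1.trans (by gcongr <;> linarith)
      _ = (121 * ε) * l₁ := by ring
      _ ≤ _ := by gcongr <;> linarith
  have Q' : Al a A ℓ (max ℓ |q.1.im - ξ.im|) ξ (q.1, 4 * q.2) j := by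
    refine ⟨?_, le_max_left _ _, le_max_right _ _, Q.x, Q.r, fun i hi => ?_⟩
    · rw [norm_mul, show ‖(4 : ℂ)‖ = 4 by simp]
      linarith [Q.z]
    have h1 : |q.1.im - ξ.im| ≤ ‖q.1 + a * i - ξ‖ := by
      simpa using abs_im_le_norm (q.1 + a * i - ξ)
    refine max_le ?_ h1
    rcases Q.o with o | o
    · have h2 := (abs_le.1 (re_le ha (q.1 + a * i - ξ))).1
      have h3 : a * (q.1 + a * i - ξ).re = a * (q.1.re - ξ.re) + i := by
        rw [sub_re, add_re, ← ofReal_natCast, ← ofReal_mul, ofReal_re]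
        linear_combination (i : ℝ) * (aa ha).1
      have : (i : ℝ) ≤ j := by exact_mod_cast hi
      linarith
    · exact o.trans h1
  obtain ⟨k1, k2, k3, k4, k5⟩ := K _ j _ (Nat.zero_le _) (by linarith [Q.d]) Q'
  have eW : ∀ (i : ℕ) (p : C2), W T Z' i (p.1, 4 * p.2) = T^[i] (Z p) := fun i p => by
    simp [W, Z']
  simp only [eW] at k2 k3 k4 k5
  refine ⟨?_, k2, k3.trans d1, k4.trans (by gcongr), k5.trans ?_⟩
  · rw [← funext (eW j)]
    exact AnalyticAt.comp (f := fun p : C2 => (p.1, 4 * p.2)) k1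
      (analyticAt_fst.prod (analyticAt_const.mul analyticAt_snd))
  · nlinarith

end Vale.Agent.P097EE.Ap
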