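import Vale.Agent.P097EE.App0

/-!
# P097EE: the approach (row 5805)
-/

set_option linter.all false

noncomputable section

namespace Vale.Agent.P097EE

open Filter Topology Set Metric Complex Vale.Agent.P097F.N

namespace Ap

/-- the linear part of the time -/
def lam (a : ℝ) (f : ℂ) : C2 →L[ℂ] ℂ :=
  (a : ℂ) • (ContinuousLinearMap.fst ℂ ℂ ℂ - f • ContinuousLinearMap.snd ℂ ℂ ℂ)

lemma lam_apply (a : ℝ) (f : ℂ) (q : C2) : lam a f q = a * (q.1 - f * q.2) := by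
  simp [lam]

/-- the domain of the labels -/
def Bq (ξ : ℂ) (l₁ : ℝ) : Set C2 := ball (ξ.im * I) (2 * l₁) ×ˢ ball 0 (l₁ / 2)

/-- the times -/
def WW (T Z : C2 → C2) (a : ℝ) (j : ℕ) (q : C2) : ℂ := tm a (T^[j] (Z q))

lemma bx_of {ξ : ℂ} {l₁ : ℝ} {q : C2} (h1 : ‖q.1 - ξ.im * I‖ ≤ 4 * l₁) (h2 : ‖q.2‖ ≤ l₁) :
    q ∈ Bx (4 * l₁) (ξ.im - 4 * l₁) (ξ.im + 4 * l₁) l₁ := by
  have a1 := (abs_re_le_norm _).trans h1
  have a2 := abs_le.1 ((abs_im_le_norm _).trans h1)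
  simp only [sub_re, sub_im, mul_re, mul_im, ofReal_re, ofReal_im, I_re, I_im, mul_zero, zero_mul,
    sub_zero, mul_one, add_zero] at a1 a2
  exact ⟨a1, by linarith, by linarith, h2⟩

section

variable {T Z : C2 → C2} {a C e lam' l₁ l L η ν β b μ : ℝ} {f ξ₀ : ℂ} (ha : a = 1 ∨ a = -1)
  (H : Stp T a C l L e η ν) (G : Gate Z a f ξ₀ l₁ β) (S : Sz C e lam' l₁ l L η ν β b μ)
include ha G

lemma w0 {q : C2} (h1 : ‖q.1 - ξ₀.im * I‖ ≤ 4 * l₁) (h2 : ‖q.2‖ ≤ l₁) :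
    ‖WW T Z a 0 q - a * (q.1 - f * q.2 - ξ₀)‖ ≤ β * l₁ := by
  have := (G.bx q (bx_of h1 h2)).2.2
  rw [← nmul ha, mul_sub] at this
  exact this

include S

lemma β1 : β ≤ 1 / 10 ^ 6 * μ := by
  have h1 := S.bb
  have h2 := S.hb
  have h3 : 0 ≤ ν * l₁ := mul_nonneg S.ν0 (by linarith [S.l1, S.l2])
  have h4 : b ≤ C * b := le_mul_of_one_le_left S.b0 S.C1
  linarith [S.η0]

lemma re0 : |ξ₀.re| ≤ 9 * l₁ := by
  have h1 := abs_le.1 G.c
  have := S.l1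
  have := S.l2
  rcases ha with h | h <;> rw [h] at h1 <;> exact abs_le.2 ⟨by linarith, by linarith⟩

lemma nw0 {q : C2} (hq : q ∈ Bq ξ₀ l₁) : ‖tm a (Z q)‖ ≤ 15 * l₁ := by
  obtain ⟨h1, h2⟩ := hq
  rw [mem_ball_iff_norm] at h1
  rw [mem_ball_zero_iff] at h2
  have l1 := S.l1.trans S.l2
  have h3 := w0 (T := id) ha G (q := q) (by linarith) (by linarith)
  have h4 := norm_le_norm_sub_add (WW id Z a 0 q) (a * (q.1 - f * q.2 - ξ₀))
  have e : q.1 - f * q.2 - ξ₀ = (q.1 - ξ₀.im * I) - f * q.2 - ξ₀.re := by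
    linear_combination re_add_im ξ₀
  have h5 : ‖q.1 - f * q.2 - ξ₀‖ ≤ 2 * l₁ + l₁ / 2 + 9 * l₁ := by
    rw [e]
    refine (norm_sub_le _ _).trans (add_le_add ((norm_sub_le _ _).trans (add_le_add h1.le ?_)) ?_)
    · rw [norm_mul]
      exact (mul_le_of_le_one_left (norm_nonneg _) G.f1).trans h2.le
    · rw [norm_real]
      exact re0 ha G S
  rw [nmul ha] at h4
  have h6 : β * l₁ ≤ 1 * l₁ :=
    mul_le_mul_of_nonneg_right (by linarith [β1 ha G S, S.μ1]) (by linarith)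
  exact le_trans (show ‖WW id Z a 0 q‖ ≤ _ from h4) (by linarith)

include H

lemma orb {q : C2} (hq : q ∈ Bq ξ₀ l₁) {j : ℕ} (hj : j ≤ ⌊12 * l₁⌋₊)
    (h : In (dL lam') (WW T Z a) j q) :
    T^[j] (Z q) ∈ An (4 * l) (L / 2) (e / 4) ∧
      ‖(T^[j] (Z q)).2‖ ≤ 24 * b + 4 * C / -(WW T Z a j q).re ∧
      ‖WW T Z a (j + 1) q - WW T Z a j q - 1‖ ≤ 5 * C ^ 2 / -(WW T Z a j q).re + 25 * C * b ∧
      ∑ i ∈ Finset.range j, 1 / ‖(T^[i] (Z q)).1‖ ^ 2 ≤ 6 * (Real.log l₁ + 1) := by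
  have l1 := S.l1.trans S.l2
  have h1 := mem_ball_iff_norm.1 hq.1
  have h2 := mem_ball_zero_iff.1 hq.2
  exact orbL ha H S (fun i => T^[i] (Z q)) (fun i => Function.iterate_succ_apply' _ _ _)
    (G.bx q (bx_of (by linarith) (by linarith))).2.1 (nw0 ha G S hq) j
    (le_trans (by exact_mod_cast hj) (Nat.floor_le (by linarith)))
    (fun i hi => by
      have := h i hi
      unfold dL WW at this
      linarith)

omit ha G H in
lemma sub_An {s : C2} (h : s ∈ An (4 * l) (L / 2) (e / 4)) : s ∈ An l L e := by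
  obtain ⟨h1, h2, h3⟩ := h
  have := S.l0
  have := norm_nonneg s.2
  exact ⟨by linarith, by linarith, by linarith⟩

lemma cf : Cf (dL lam') lam' (WW T Z a) (lam a f) (Bq ξ₀ l₁) ⌊12 * l₁⌋₊ (5 * C ^ 2 / 2)
    (25 * C * b) (4 * β) μ (l₁ / 4) := by
  have l0 := S.l1
  have l1 := S.l1.trans S.l2
  have C1 := S.C1
  have b0 := S.b0
  have bb := S.bb
  have μ1 := S.μ1
  have an0 : ∀ q : C2, ‖q.1 - ξ₀.im * I‖ ≤ 4 * l₁ → ‖q.2‖ ≤ l₁ →
      DifferentiableAt ℂ (WW T Z a 0) q := fun q h1 h2 =>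
    (((G.bx q (bx_of h1 h2)).1.differentiableAt.fst.pow 2).const_mul (a : ℂ))
  have anB : ∀ q ∈ Bq ξ₀ l₁, DifferentiableAt ℂ (WW T Z a 0) q := fun q hq =>
    an0 q (by linarith [mem_ball_iff_norm.1 hq.1]) (by linarith [mem_ball_zero_iff.1 hq.2])
  refine ⟨wd_dL, by linarith, by positivity, by positivity, by linarith, ?_, ?_, by linarith, ?_,
    anB, ?_, ?_⟩
  · have h1 := S.Cx le_rfl
    have e : 2 * (5 * C ^ 2 / 2) / lam' = 5 * (C ^ 2 / lam') := by ring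
    linarith
  · refine ContinuousLinearMap.opNorm_le_bound _ (by norm_num) fun q => ?_
    rw [lam_apply, nmul ha]
    refine (norm_sub_le _ _).trans ?_
    rw [norm_mul]
    linarith [norm_fst_le q, norm_snd_le q, mul_le_of_le_one_left (norm_nonneg q.2) G.f1]
  · refine (add_le_add_right (sum_trm (by positivity) (by positivity) (by linarith) (by linarith)
      _) _).trans ?_
    have s0 : 0 < √lam' := Real.sqrt_pos.2 (by linarith)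
    have s1 : √lam' ≤ √l₁ := Real.sqrt_le_sqrt S.l2
    have n1 : (⌊12 * l₁⌋₊ : ℝ) ≤ 12 * l₁ := Nat.floor_le (by linarith)
    have n2 : (0 : ℝ) < ⌊12 * l₁⌋₊ := by exact_mod_cast Nat.floor_pos.2 (by linarith)
    have lg := S.lg
    have n3 : 1 + Real.log ⌊12 * l₁⌋₊ ≤ 12 * (Real.log l₁ + 1) := by
      have h1 := Real.log_le_log n2 n1
      rw [Real.log_mul (by norm_num) (by linarith)] at h1
      have h2 := Real.log_le_sub_one_of_pos (show (0 : ℝ) < 12 by norm_num)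
      linarith
    have n4 : Real.log l₁ + 1 ≤ 2 * √l₁ := by
      have h1 := Real.log_le_sub_one_of_pos (s0.trans_le s1)
      rw [Real.log_sqrt (by linarith)] at h1
      linarith
    have t0 : 10 ^ 6 * (C ^ 2 / √lam') ≤ μ := by
      rw [← mul_div_assoc, div_le_iff₀ s0]; exact S.hC
    have t1 : 30000 * (5 * C ^ 2 / 2) / √lam' = 75000 * (C ^ 2 / √lam') := by ring
    have t2 : 160 * (5 * C ^ 2 / 2) / (l₁ / 4) * (1 + Real.log ⌊12 * l₁⌋₊) ≤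
        38400 * (C ^ 2 / √lam') := by
      have q1 : √l₁ * √l₁ = l₁ := Real.mul_self_sqrt (by linarith)
      have q2 : 0 < √l₁ := s0.trans_le s1
      calc _ ≤ 160 * (5 * C ^ 2 / 2) / (l₁ / 4) * (12 * (2 * √l₁)) := by
            gcongr; linarith
        _ = 38400 * (C ^ 2 * (√l₁ / l₁)) := by ring
        _ = 38400 * (C ^ 2 / √l₁) := by
            rw [Real.sqrt_div_self, div_eq_mul_inv]
        _ ≤ _ := by gcongr
    have t3 : 640 * (25 * C * b) * (1 + Real.log ⌊12 * l₁⌋₊) ≤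
        192000 * (C * (b * (Real.log l₁ + 1))) := by
      calc _ ≤ 640 * (25 * C * b) * (12 * (Real.log l₁ + 1)) := by gcongr
        _ = _ := by ring
    have t4 : 2 * (25 * C * b) * ⌊12 * l₁⌋₊ / (l₁ / 4) ≤ 2400 * (C * b) := by
      calc _ ≤ 2 * (25 * C * b) * (12 * l₁) / (l₁ / 4) := by gcongr
        _ = _ := by field_simp; ring
    have t5 := S.hβ
    have t6 := β1 ha G S
    have μ0 := S.μ0
    rw [add_mul]
    linarith
  · intro x hx x' hx'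
    have key : ∀ y ∈ Bq ξ₀ l₁, ‖fderiv ℂ (fun q => WW T Z a 0 q - lam a f q) y‖ ≤ 4 * β := by
      intro y hy
      have y1 := mem_ball_iff_norm.1 hy.1
      have y2 := mem_ball_zero_iff.1 hy.2
      have inb : ∀ q ∈ ball y (l₁ / 2), ‖q.1 - ξ₀.im * I‖ ≤ 4 * l₁ ∧ ‖q.2‖ ≤ l₁ := by
        intro q hq
        have q0 := mem_ball_iff_norm.1 hq
        have q1 := norm_fst_le (q - y)
        have q2 := norm_snd_le (q - y)
        rw [Prod.fst_sub] at q1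
        rw [Prod.snd_sub] at q2
        exact ⟨by linarith [norm_sub_le_norm_sub_add_norm_sub q.1 y.1 (ξ₀.im * I)],
          by linarith [norm_le_norm_sub_add q.2 y.2]⟩
      have bd : ∀ q ∈ ball y (l₁ / 2), ‖WW T Z a 0 q - lam a f q + a * ξ₀‖ ≤ β * l₁ := by
        intro q hq
        refine le_trans (le_of_eq ?_) (w0 (T := T) ha G (inb q hq).1 (inb q hq).2)
        rw [lam_apply]
        congr 1
        ring
      refine (Complex.norm_fderiv_le_div_of_mapsTo_ball (R₁ := l₁ / 2) (R₂ := 2 * (β * l₁))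
        (f := fun q => WW T Z a 0 q - lam a f q)
        (fun q hq => ((an0 q (inb q hq).1 (inb q hq).2).sub
          (lam a f).differentiableAt).differentiableWithinAt) (fun q hq => ?_)
        (by linarith)).trans_eq (by field_simp; ring)
      rw [mem_closedBall, dist_eq_norm]
      have e : WW T Z a 0 q - lam a f q - (WW T Z a 0 y - lam a f y) =
          (WW T Z a 0 q - lam a f q + a * ξ₀) - (WW T Z a 0 y - lam a f y + a * ξ₀) := by ring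
      rw [e]
      refine (norm_sub_le _ _).trans ?_
      linarith [bd q hq, bd y (mem_ball_self (by linarith))]
    have h1 := Convex.norm_image_sub_le_of_norm_fderiv_le (𝕜 := ℂ)
      (f := fun q => WW T Z a 0 q - lam a f q)
      (fun y hy => (anB y hy).sub (lam a f).differentiableAt) key
      ((convex_ball _ _).prod (convex_ball _ _)) hx' hx
    refine le_trans (le_of_eq ?_) h1
    rw [map_sub]
    congr 1
    ring
  · intro j hj x hx h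
    refine ⟨?_, (orb ha H G S hx hj.le h).2.2.1.trans_eq ?_⟩
    · have y1 := mem_ball_iff_norm.1 hx.1
      have y2 := mem_ball_zero_iff.1 hx.2
      have h1 := an_iter (T := T) (G.bx x (bx_of (by linarith) (by linarith))).1 (j + 1)
        fun i hi => H.an _ (sub_An S (orb ha H G S hx (by omega) (h.mono (by omega))).1)
      exact (h1.differentiableAt.fst.pow 2).const_mul (a : ℂ)
    · unfold dL
      congr 1
      rw [show lam' + (-(WW T Z a j x).re - lam') = -(WW T Z a j x).re by ring]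
      ring

end

/-- numerics -/
structure Nm (C ℓ l₁ β b μ δ ρ : ℝ) (N : ℕ) : Prop where
  m1 : 56 ≤ μ * ℓ
  ℓ1 : 5600 ≤ ℓ
  l2 : 2 * ℓ ≤ l₁
  μδ : 100 * μ ≤ δ
  hρ : ρ = 2 * (5 * C ^ 2 / 2) / (ℓ / 2) + 25 * C * b
  ρ0 : 0 ≤ ρ
  ρ1 : 1000 * ρ ≤ μ
  hN : N = ⌊12 * l₁⌋₊
  N1 : (N : ℝ) ≤ 12 * l₁
  N2 : 12 * l₁ < N + 1
  βl : β * l₁ ≤ 1 / 10 ^ 6 * (μ * l₁)
  βl0 : 0 ≤ β * l₁
  μl : μ * l₁ ≤ l₁ / 100
  μl0 : 0 ≤ μ * l₁
  ρN : ρ * N ≤ 12 / 1000 * (μ * l₁)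

lemma aabs {a : ℝ} (ha : a = 1 ∨ a = -1) : |a| = 1 := by
  rcases ha with h | h <;> rw [h] <;> simp

lemma ball_sub {ξ₀ : ℂ} {l₁ : ℝ} (hl : 100 ≤ l₁) (q : C2) (h1 : ‖q.1 - ξ₀.im * I‖ ≤ 7 / 4 * l₁)
    (h2 : ‖q.2‖ ≤ 3) : ball q (l₁ / 4) ⊆ Bq ξ₀ l₁ := by
  intro p hp
  have q0 := mem_ball_iff_norm.1 hp
  have q1 := norm_fst_le (p - q)
  have q2 := norm_snd_le (p - q)
  rw [Prod.fst_sub] at q1
  rw [Prod.snd_sub] at q2
  exact ⟨mem_ball_iff_norm.2 (by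
      linarith [norm_sub_le_norm_sub_add_norm_sub p.1 q.1 (ξ₀.im * I)]),
    mem_ball_zero_iff.2 (by linarith [norm_le_norm_sub_add p.2 q.2])⟩

section

variable {T Z : C2 → C2} {a C e ℓ l₁ l L η ν β b μ A δ ρ : ℝ} {f ξ₀ : ℂ} {N : ℕ}
  (ha : a = 1 ∨ a = -1) (H : Stp T a C l L e η ν) (G : Gate Z a f ξ₀ l₁ β)
  (S : Sz C e (ℓ / 2) l₁ l L η ν β b μ)
include ha G S

lemma nm (A2 : 2 ≤ A) (Al : A * ℓ ≤ l₁) (hμ : 50 * A * C * Real.exp (14 * A * C) * μ ≤ δ)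
    (h3 : 28 * A * C ≤ μ * ℓ) : ∃ ρ N, Nm C ℓ l₁ β b μ δ ρ N := by
  have C1 := S.C1
  have μ0 := S.μ0
  have μ1 := S.μ1
  have b0 := S.b0
  have bb := S.bb
  have β0 := S.β0
  have βμ := β1 ha G S
  have AC : 2 ≤ A * C := by nlinarith
  have m1 : 56 ≤ μ * ℓ := by linarith
  have ℓ0 : 0 < ℓ := by linarith [S.l1]
  have ℓ1 : 5600 ≤ ℓ := by nlinarith
  have l2 : 2 * ℓ ≤ l₁ := by nlinarith
  have l10 : 0 < l₁ := by linarith
  have μδ : 100 * μ ≤ δ := by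
    have := Real.one_le_exp (show 0 ≤ 14 * A * C by positivity)
    have h1 : 2 * 1 ≤ A * C * Real.exp (14 * A * C) := by gcongr
    nlinarith
  obtain ⟨ρ, hρ⟩ : ∃ ρ, ρ = 2 * (5 * C ^ 2 / 2) / (ℓ / 2) + 25 * C * b := ⟨_, rfl⟩
  have ρ0 : 0 ≤ ρ := by rw [hρ]; positivity
  have ρ1 : 1000 * ρ ≤ μ := by
    have h1 := S.Cx le_rfl
    have e : 2 * (5 * C ^ 2 / 2) / (ℓ / 2) = 5 * (C ^ 2 / (ℓ / 2)) := by ring
    rw [hρ]
    linarith
  obtain ⟨N, hN⟩ : ∃ N, N = ⌊12 * l₁⌋₊ := ⟨_, rfl⟩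
  have N1 : (N : ℝ) ≤ 12 * l₁ := hN ▸ Nat.floor_le (by linarith)
  have N2 : 12 * l₁ < N + 1 := hN ▸ Nat.lt_floor_add_one _
  refine ⟨ρ, N, m1, ℓ1, l2, μδ, hρ, ρ0, ρ1, hN, N1, N2, ?_, by positivity, ?_, by positivity, ?_⟩
  · exact (mul_le_mul_of_nonneg_right βμ l10.le).trans_eq (by ring)
  · exact (mul_le_mul_of_nonneg_right μ1 l10.le).trans_eq (by ring)
  · calc ρ * N ≤ μ / 1000 * (12 * l₁) := by gcongr; linarith
      _ = _ := by ring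

include H

/-- the anchor chain -/
lemma anc (M : Nm C ℓ l₁ β b μ δ ρ N) : ∃ (t₁ w : ℂ) (j₁ : ℕ), t₁.re = 0 ∧
    ‖t₁ - ξ₀.im * I‖ ≤ l₁ / 100 ∧ In (dL (ℓ / 2)) (WW T Z a) j₁ (t₁, 0) ∧ ‖w + ℓ‖ ≤ 4 ∧
    (∀ i ≤ j₁, ‖w - WW T Z a i (t₁, 0) - (j₁ - i : ℝ)‖ ≤ ρ * (j₁ - i : ℝ)) ∧ j₁ ≤ N ∧
    5 * l₁ ≤ j₁ ∧ ‖t₁ + a * j₁ - a * w - ξ₀‖ ≤ μ * l₁ := by
  have F := cf ha H G S
  have μ0 := S.μ0
  obtain ⟨m1, ℓ1, l2, μδ, hρ, ρ0, ρ1, hN, N1, N2, βl, βl0, μl, μl0, ρN⟩ := M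
  have pt : ∀ y : ℝ, (((ξ₀.im * I, 0) : C2) + ((y : ℂ) * I) • (((a : ℂ), 0) : C2)) =
      (ξ₀.im * I + y * I * a, 0) := fun y => by simp
  have nyi : ∀ y : ℝ, ‖(ξ₀.im * I + y * I * a : ℂ) - ξ₀.im * I‖ = |y| := fun y => by
    rw [add_sub_cancel_left, mul_comm, nmul ha, norm_mul, norm_I, mul_one, norm_real,
      Real.norm_eq_abs]
  have c0 := abs_le.1 G.c
  have z0 := w0 (T := T) ha G (q := (ξ₀.im * I, 0)) (by simp; linarith) (by simp; linarith)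
  have z1 : (a : ℂ) * (ξ₀.im * I - f * 0 - ξ₀) = (-(a * ξ₀.re) : ℝ) := by
    push_cast
    linear_combination (a : ℂ) * re_add_im ξ₀
  rw [z1] at z0
  have z2 := abs_le.1 ((abs_re_le_norm _).trans z0)
  have z3 := (abs_im_le_norm _).trans z0
  rw [sub_re, ofReal_re] at z2
  rw [sub_im, ofReal_im, sub_zero] at z3
  rw [← hN] at F
  obtain ⟨j₁, y, j1N, y1, I1, w1⟩ := walk F μ0.le (x₀ := (ξ₀.im * I, 0)) (e := ((a : ℂ), 0))
    (m := ℓ) (y₀ := β * l₁) (by rw [lam_apply]; simpa using aa ha)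
    (by rw [Prod.norm_mk, norm_real, norm_zero, Real.norm_eq_abs, aabs ha]; simp) (by linarith) z3
    (by linarith) (by rw [← hρ]; linarith)
    (fun y hy => by
      rw [← hρ] at hy
      rw [pt]
      exact ball_sub (by linarith) _ (by rw [nyi]; linarith) (by simp))
  rw [← hρ] at y1
  rw [pt] at I1 w1
  obtain ⟨t₁, ht₁⟩ : ∃ t, t = (ξ₀.im * I + y * I * a : ℂ) := ⟨_, rfl⟩
  have t1n : ‖t₁ - ξ₀.im * I‖ ≤ l₁ / 100 := by rw [ht₁, nyi]; linarith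
  have t1r : t₁.re = 0 := by rw [ht₁]; simp
  rw [← ht₁] at I1 w1
  have x1B : ((t₁, 0) : C2) ∈ Bq ξ₀ l₁ :=
    ball_sub (by linarith) _ (by show ‖t₁ - _‖ ≤ _; linarith) (by simp) (mem_ball_self (by linarith))
  obtain ⟨w, hw⟩ : ∃ w, w = WW T Z a j₁ (t₁, 0) := ⟨_, rfl⟩
  rw [← hw] at w1
  have w2 := abs_le.1 ((abs_re_le_norm _).trans w1)
  have w3 := (abs_im_le_norm _).trans w1
  rw [add_re, ofReal_re] at w2
  rw [add_im, ofReal_im, add_zero] at w3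
  have cr : ∀ i ≤ j₁, ‖w - WW T Z a i (t₁, 0) - (j₁ - i : ℝ)‖ ≤ ρ * (j₁ - i : ℝ) := by
    intro i hi
    have := F.crude2 x1B i (j₁ - i) (by omega) (by rwa [Nat.add_sub_cancel' hi])
    rw [Nat.add_sub_cancel' hi, ← hw, ← hρ, Nat.cast_sub hi, Nat.cast_sub hi] at this
    push_cast
    exact this
  have j1R : (j₁ : ℝ) ≤ N := by exact_mod_cast j1N
  have j10 : (0 : ℝ) ≤ j₁ := Nat.cast_nonneg _
  have ρj : ρ * j₁ ≤ 12 / 1000 * (μ * l₁) := (mul_le_mul_of_nonneg_left j1R ρ0).trans ρN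
  have v0 := w0 (T := T) ha G (q := (t₁, 0)) (by show ‖t₁ - _‖ ≤ _; linarith) (by simp; linarith)
  have v1 := cr 0 (Nat.zero_le _)
  rw [Nat.cast_zero, sub_zero] at v1
  obtain ⟨ξ, hξ⟩ : ∃ ξ : ℂ, ξ = t₁ + a * j₁ - a * w := ⟨_, rfl⟩
  have ξ1 : ‖ξ - ξ₀‖ ≤ μ * l₁ := by
    have e : (a : ℂ) * (ξ - ξ₀) = -(w - WW T Z a 0 (t₁, 0) - ((j₁ : ℝ) : ℂ)) -
        (WW T Z a 0 (t₁, 0) - a * (t₁ - f * 0 - ξ₀)) := by
      rw [hξ]
      push_cast
      linear_combination ((j₁ : ℂ) - w) * aa ha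
    rw [← nmul ha, e]
    refine (norm_sub_le _ _).trans ?_
    rw [norm_neg]
    linarith
  have j1L : 5 * l₁ ≤ j₁ := by
    have u1 := (abs_le.1 ((abs_re_le_norm _).trans v1)).2
    have u2 := (abs_le.1 ((abs_re_le_norm _).trans v0)).2
    simp only [sub_re, ofReal_re, re_ofReal_mul, mul_zero, zero_re, t1r, sub_zero] at u1 u2
    linarith
  exact ⟨t₁, w, j₁, t1r, t1n, I1, w1, cr, j1N, j1L, hξ ▸ ξ1⟩

/-- the chains near the anchor chain -/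
lemma left (M : Nm C ℓ l₁ β b μ δ ρ N) {t₁ w : ℂ} {j₁ : ℕ} {q : C2} {D : ℝ}
    (t1n : ‖t₁ - ξ₀.im * I‖ ≤ l₁ / 100) (I1 : In (dL (ℓ / 2)) (WW T Z a) j₁ (t₁, 0))
    (w1 : ‖w + ℓ‖ ≤ 4)
    (cr : ∀ i ≤ j₁, ‖w - WW T Z a i (t₁, 0) - (j₁ - i : ℝ)‖ ≤ ρ * (j₁ - i : ℝ)) (j1N : j₁ ≤ N)
    (W1 : ‖q.2‖ ≤ 3) (W2 : D ≤ l₁) (D2 : 2 * ℓ ≤ D) (tq : ‖q.1 - t₁‖ ≤ 3 / 2 * D + 4) :
    q ∈ Bq ξ₀ l₁ ∧ ∀ i : ℕ, i + 4 * D ≤ j₁ → In (dL (ℓ / 2)) (WW T Z a) i q ∧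
      ‖WW T Z a i q - (a * (q.1 - t₁) + w - j₁ + i)‖ ≤ 2 * (μ * D) + ρ * (j₁ - i) + 3 := by
  have F := cf ha H G S
  have μ0 := S.μ0
  have μ1 := S.μ1
  obtain ⟨m1, ℓ1, l2, μδ, hρ, ρ0, ρ1, hN, N1, N2, βl, βl0, μl, μl0, ρN⟩ := M
  rw [← hN] at F
  have w2 := abs_le.1 ((abs_re_le_norm _).trans w1)
  rw [add_re, ofReal_re] at w2
  obtain ⟨u, hu⟩ : ∃ u : C2, u = q - (t₁, 0) := ⟨_, rfl⟩
  have u1 : u.1 = q.1 - t₁ := by rw [hu]; rfl
  have u2 : u.2 = q.2 := by rw [hu]; simp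
  have un : ‖u‖ ≤ 2 * D := by
    rw [Prod.norm_def, u1, u2]
    exact max_le (by linarith) (by linarith)
  have fq : ‖f * q.2‖ ≤ 3 := by
    rw [norm_mul]
    exact (mul_le_of_le_one_left (norm_nonneg _) G.f1).trans W1
  have lu : ‖lam a f u‖ ≤ 2 * D := by
    rw [lam_apply, nmul ha, u1, u2]
    linarith [norm_sub_le (q.1 - t₁) (f * q.2)]
  have seg : ∀ s ∈ Icc (0 : ℝ) 1, ball (((t₁, 0) : C2) + s • u) (l₁ / 4) ⊆ Bq ξ₀ l₁ := by
    intro s hs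
    refine ball_sub (by linarith) _ ?_ ?_
    · have e : (((t₁, 0) : C2) + s • u).1 - ξ₀.im * I = (t₁ - ξ₀.im * I) + s • (q.1 - t₁) := by
        rw [Prod.fst_add, Prod.smul_fst, u1]; ring
      rw [e]
      refine (norm_add_le _ _).trans ?_
      rw [norm_smul, Real.norm_of_nonneg hs.1]
      linarith [mul_le_of_le_one_left (norm_nonneg (q.1 - t₁)) hs.2]
    · rw [Prod.snd_add, Prod.smul_snd, u2, zero_add, norm_smul, Real.norm_of_nonneg hs.1]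
      linarith [mul_le_of_le_one_left (norm_nonneg q.2) hs.2]
  have xq : ((t₁, 0) : C2) + u = q := by rw [hu]; abel
  have qB : q ∈ Bq ξ₀ l₁ := by
    have := seg 1 ⟨zero_le_one, le_rfl⟩
    rw [one_smul, xq] at this
    exact this (mem_ball_self (by linarith))
  refine ⟨qB, fun i iR => ?_⟩
  have ij : i ≤ j₁ := by exact_mod_cast (show (i : ℝ) ≤ j₁ by linarith)
  have c1 := cr i ij
  have c2 := (abs_le.1 ((abs_re_le_norm _).trans c1)).1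
  rw [sub_re, sub_re, ofReal_re] at c2
  have c3 : ρ * (j₁ - i : ℝ) ≤ 1 / 40 * (j₁ - i : ℝ) :=
    mul_le_mul_of_nonneg_right (by linarith) (by linarith)
  obtain ⟨d1, d2⟩ := F.cover (x₁ := (t₁, 0)) (e := u) (δ := 1) one_pos (j := i) (by omega)
    (I1.mono ij) seg (fun s hs => by
      have e1 : ‖(s : ℂ) * lam a f u‖ ≤ 2 * D := by
        rw [norm_mul, norm_real, Real.norm_of_nonneg hs.1]
        exact (mul_le_of_le_one_left (norm_nonneg _) hs.2).trans lu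
      have e2 := (abs_le.1 ((abs_re_le_norm _).trans e1)).2
      have e3 : μ * (s * ‖u‖) ≤ 1 / 100 * (2 * D) :=
        mul_le_mul μ1 ((mul_le_of_le_one_left (norm_nonneg _) hs.2).trans un)
          (mul_nonneg hs.1 (norm_nonneg _)) (by norm_num)
      unfold dL
      rw [add_re]
      linarith)
  rw [xq] at d1 d2
  refine ⟨d1, ?_⟩
  have e : WW T Z a i q - (a * (q.1 - t₁) + w - j₁ + i) =
       (WW T Z a i q - WW T Z a i (t₁, 0) - lam a f u) -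
      (w - WW T Z a i (t₁, 0) - (j₁ - i : ℝ)) - a * (f * q.2) := by
    rw [lam_apply, u1, u2]
    push_cast
    ring
  rw [e]
  refine (norm_sub_le _ _).trans (add_le_add ((norm_sub_le _ _).trans (add_le_add ?_ c1)) ?_)
  · exact d2.trans ((mul_le_mul_of_nonneg_left un μ0.le).trans_eq (by ring))
  · rw [nmul ha]; exact fq

lemma esm (M : Nm C ℓ l₁ β b μ δ ρ N) {q : C2} (qB : q ∈ Bq ξ₀ l₁) (i : ℕ) (hi : i ≤ N)
    (h : In (dL (ℓ / 2)) (WW T Z a) i q) : ‖(T^[i] (Z q)).2‖ ≤ μ := by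
  have C1 := S.C1
  have b0 := S.b0
  have bb := S.bb
  have ℓ1 := M.ℓ1
  refine (orb ha H G S qB (M.hN ▸ hi) h).2.1.trans ?_
  have x1 : ℓ / 2 ≤ -(WW T Z a i q).re := by
    have := h i le_rfl
    unfold dL at this
    linarith
  have x2 := S.Cx x1
  have x3 : 4 * C / -(WW T Z a i q).re ≤ 4 * (C ^ 2 / -(WW T Z a i q).re) := by
    rw [← mul_div_assoc]
    exact div_le_div_of_nonneg_right (by nlinarith) (by linarith)
  have x4 : b ≤ C * b := le_mul_of_one_le_left b0 C1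
  linarith [S.μ0]

/-- the orbits which pass the core -/
lemma pass (M : Nm C ℓ l₁ β b μ δ ρ N) (A2 : 2 ≤ A) (δ1 : δ ≤ 1 / 2) (δe : 8 * δ ≤ e)
    (hμ : 50 * A * C * Real.exp (14 * A * C) * μ ≤ δ) (h3 : 28 * A * C ≤ μ * ℓ) {q : C2}
    (qB : q ∈ Bq ξ₀ l₁) {p : ℂ} {m D : ℝ} {j₀ k : ℕ} (jN : j₀ ≤ N) (hm : m = max ℓ |p.im|)
    (Dm : D = A * m) (W2 : D ≤ l₁) (d1 : In (dL (ℓ / 2)) (WW T Z a) j₀ q)
    (d2 : ‖WW T Z a j₀ q - (p + j₀)‖ ≤ 8 * (μ * D)) (r0 : -(6 * D) ≤ p.re + j₀)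
    (W4 : p.re + j₀ + k ≤ D) (W5 : p.re + j₀ + k ≤ -ℓ ∨ ℓ ≤ |p.im|) :
    (∀ i ≤ j₀ + k, T^[i] (Z q) ∈ An (4 * l) (L / 2) (e / 4)) ∧ ‖(T^[j₀ + k] (Z q)).2‖ ≤ δ ∧
      ‖WW T Z a (j₀ + k) q - (p + j₀ + k)‖ ≤ δ * ‖p + j₀ + k‖ ∧
      ∑ i ∈ Finset.range (j₀ + k), 1 / ‖(T^[i] (Z q)).1‖ ^ 2 ≤
        (6 + 14 * A) * (Real.log l₁ + 1) := by
  have C1 := S.C1
  have μ0 := S.μ0
  have b0 := S.b0
  have bb := S.bb
  have lg := S.lg
  have β0 := S.β0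
  have ℓ1 := M.ℓ1
  have μδ := M.μδ
  have jN' : j₀ ≤ ⌊12 * l₁⌋₊ := M.hN ▸ jN
  have mℓ : ℓ ≤ m := hm ▸ le_max_left _ _
  have mi : |p.im| ≤ m := hm ▸ le_max_right _ _
  have D2 : 2 * m ≤ D := Dm ▸ mul_le_mul_of_nonneg_right A2 (by linarith)
  have pos : ∀ i ≤ k, m ≤ ‖p + j₀ + i‖ ∧ ‖p + j₀ + i‖ ≤ L / 4 := by
    intro i hi
    have iR : (i : ℝ) ≤ k := by exact_mod_cast hi
    have i0 : (0 : ℝ) ≤ i := Nat.cast_nonneg i
    have r1 := abs_re_le_norm (p + j₀ + i)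
    have r2 := abs_im_le_norm (p + j₀ + i)
    have r3 := norm_le_abs_re_add_abs_im (p + j₀ + i)
    simp only [add_re, add_im, natCast_re, natCast_im, add_zero] at r1 r2 r3
    refine ⟨?_, ?_⟩
    · rw [hm]
      refine max_le ?_ r2
      rcases W5 with h | h
      · linarith [neg_le_abs (p.re + j₀ + i)]
      · linarith
    · have : |p.re + j₀ + i| ≤ 7 * D := abs_le.2 ⟨by linarith, by linarith⟩
      linarith [S.L]
  have x4 : b ≤ C * b := le_mul_of_one_le_left b0 C1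
  have x2 := S.hb
  have x0 : 0 ≤ ν * l₁ := mul_nonneg S.ν0 (by linarith)
  have ν1 : 7 * A * m * ν ≤ μ := by
    have x1 : D * ν ≤ l₁ * ν := mul_le_mul_of_nonneg_right W2 S.ν0
    have x5 : 7 * A * m * ν = 7 * (D * ν) := by rw [Dm]; ring
    linarith [S.η0]
  have η1 : η ≤ μ := by linarith
  have st := stretch ha H C1 (A := A) (m := m) (μ := μ) (δ := δ) (by linarith) S.η0 S.ν0 S.l0
    (by linarith [S.ll]) μ0 δ1 δe hμ η1 ν1 (h3.trans (mul_le_mul_of_nonneg_left mℓ μ0.le))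
    (fun i => T^[j₀ + i] (Z q)) (fun i => Function.iterate_succ_apply' _ _ _) (p + j₀) k
    (by rw [mul_assoc, ← Dm]; linarith) pos (d2.trans_eq (by rw [Dm]; ring))
    (esm ha H G S M qB j₀ jN d1)
  obtain ⟨s1, s2, s3, -⟩ := st k le_rfl
  refine ⟨fun i hi => ?_, s2, ?_, ?_⟩
  · by_cases c : i ≤ j₀
    · exact (orb ha H G S qB (j := i) (by omega) (d1.mono c)).1
    · have := (st (i - j₀) (by omega)).1
      rwa [Nat.add_sub_cancel' (by omega)] at this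
  · exact s3.trans (mul_le_mul_of_nonneg_left (pos k le_rfl).1 (by linarith))
  · rw [Finset.sum_range_add]
    have q1 := (orb ha H G S qB jN' d1).2.2.2
    have q2 : ∑ i ∈ Finset.range k, 1 / ‖(T^[j₀ + i] (Z q)).1‖ ^ 2 ≤ k * (2 / m) := by
      refine (Finset.sum_le_card_nsmul _ _ (2 / m) fun i hi => ?_).trans_eq
        (by rw [Finset.card_range, nsmul_eq_mul])
      have := (st i (Finset.mem_range.1 hi).le).2.2.2
      rw [ntm ha] at this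
      rw [div_le_div_iff₀ (by nlinarith) (by linarith)]
      linarith
    have m0 : 0 < m := by linarith
    have q3 : k * (2 / m) ≤ 14 * A := by
      calc k * (2 / m) ≤ 7 * (A * m) * (2 / m) :=
            mul_le_mul_of_nonneg_right (by linarith) (by positivity)
        _ = _ := by field_simp; ring
    have q4 : 0 ≤ A * Real.log l₁ := mul_nonneg (by linarith) lg
    linarith

/-- the approach with explicit smallness conditions -/
theorem app0 (A2 : 2 ≤ A) (Al : A * ℓ ≤ l₁) (δ1 : δ ≤ 1 / 2) (δe : 8 * δ ≤ e)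
    (hμ : 50 * A * C * Real.exp (14 * A * C) * μ ≤ δ) (h3 : 28 * A * C ≤ μ * ℓ) :
    ∃ ξ : ℂ, ‖ξ - ξ₀‖ ≤ δ * l₁ ∧
      App T Z a A ℓ l₁ l L e δ ((6 + 14 * A) * (Real.log l₁ + 1)) ξ := by
  obtain ⟨ρ, N, M⟩ := nm ha G S A2 Al hμ h3
  obtain ⟨t₁, w, j₁, t1r, t1n, I1, w1, cr, j1N, j1L, ξ1⟩ := anc ha H G S M
  have μ0 := S.μ0
  have μ1 := S.μ1
  have lg := S.lg
  have m1 := M.m1
  have ℓ1 := M.ℓ1
  have l2 := M.l2
  have μδ := M.μδ
  have ρ0 := M.ρ0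
  have ρ1 := M.ρ1
  have hN := M.hN
  have w2 := abs_le.1 ((abs_re_le_norm _).trans w1)
  have w3 := (abs_im_le_norm _).trans w1
  rw [add_re, ofReal_re] at w2
  rw [add_im, ofReal_im, add_zero] at w3
  obtain ⟨ξ, hξ⟩ : ∃ ξ : ℂ, ξ = t₁ + a * j₁ - a * w := ⟨_, rfl⟩
  rw [← hξ] at ξ1
  refine ⟨ξ, ξ1.trans (mul_le_mul_of_nonneg_right (by linarith) (by linarith)), fun q j W => ?_⟩
  obtain ⟨D, hD⟩ : ∃ D, D = A * max ℓ |q.1.im - ξ.im| := ⟨_, rfl⟩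
  obtain ⟨m, hm⟩ : ∃ m, m = max ℓ |q.1.im - ξ.im| := ⟨_, rfl⟩
  have W1 := W.z
  have W2 := W.d
  have W3 := W.x
  have W4 := W.r
  have W5 := W.o
  rw [← hD] at W2 W3 W4
  have mℓ : ℓ ≤ m := hm ▸ le_max_left _ _
  have mi : |q.1.im - ξ.im| ≤ m := hm ▸ le_max_right _ _
  have Dm : D = A * m := by rw [hD, hm]
  have D2 : 2 * m ≤ D := Dm ▸ mul_le_mul_of_nonneg_right A2 (by linarith)
  have μD : 3 ≤ μ * D := by linarith [mul_le_mul_of_nonneg_left (show ℓ ≤ D by linarith) μ0.le]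
  have ti : |t₁.im - ξ.im| ≤ 4 := by
    have e : t₁.im - ξ.im = a * w.im := by rw [hξ]; simp
    rw [e, abs_mul, aabs ha, one_mul]
    exact w3
  have tq : ‖q.1 - t₁‖ ≤ 3 / 2 * D + 4 := by
    refine (norm_le_abs_re_add_abs_im _).trans ?_
    rw [sub_re, sub_im, t1r, sub_zero]
    linarith [abs_sub_le q.1.im ξ.im t₁.im, abs_sub_comm ξ.im t₁.im]
  obtain ⟨qB, left⟩ := left ha H G S M t1n I1 w1 cr j1N W1 W2 (by linarith) tq
  obtain ⟨p, hp⟩ : ∃ p : ℂ, p = a * (q.1 - ξ) := ⟨_, rfl⟩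
  have pe : p = a * (q.1 - t₁) + w - j₁ := by
    rw [hp, hξ]
    linear_combination (w - (j₁ : ℂ)) * aa ha
  rw [← pe] at left
  have pre : p.re = a * (q.1.re - ξ.re) := by rw [hp, re_ofReal_mul, sub_re]
  have pim : |p.im| = |q.1.im - ξ.im| := by
    rw [hp, im_ofReal_mul, sub_im, abs_mul, aabs ha, one_mul]
  have pr2 : |p.re - (w.re - j₁)| ≤ D := by
    rw [pe]
    simp only [sub_re, add_re, re_ofReal_mul, natCast_re, t1r, sub_zero]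
    rw [show a * q.1.re + w.re - j₁ - (w.re - j₁) = a * q.1.re by ring, abs_mul, aabs ha, one_mul]
    exact W3
  have pr3 := abs_le.1 pr2
  rw [← pre] at W4 W5
  rw [← pim] at W5 hm
  obtain ⟨k₀, hk₀⟩ : ∃ k, k = ⌈4 * D⌉₊ := ⟨_, rfl⟩
  have k1 : 4 * D ≤ k₀ := hk₀ ▸ Nat.le_ceil _
  have k2 : (k₀ : ℝ) < 4 * D + 1 := hk₀ ▸ Nat.ceil_lt_add_one (by linarith)
  have k3 : k₀ ≤ j₁ := by exact_mod_cast (show (k₀ : ℝ) ≤ j₁ by linarith)
  have conv : ∀ i : ℕ, ‖(T^[i] (Z q)).1 ^ 2 - (q.1 + a * i - ξ)‖ = ‖WW T Z a i q - (p + i)‖ ∧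
      ‖q.1 + a * i - ξ‖ = ‖p + i‖ := by
    intro i
    have e : (a : ℂ) * (q.1 + a * i - ξ) = p + i := by
      rw [hp]
      linear_combination (i : ℂ) * aa ha
    refine ⟨?_, by rw [← nmul ha, e]⟩
    rw [← nmul ha, mul_sub, e]
    rfl
  have anZ : AnalyticAt ℂ Z q := (G.bx q (bx_of (by linarith [mem_ball_iff_norm.1 qB.1])
    (by linarith [mem_ball_zero_iff.1 qB.2]))).1
  rw [(conv j).1, (conv j).2]
  by_cases hj : j + k₀ ≤ j₁
  · have jR : (j : ℝ) + k₀ ≤ j₁ := by exact_mod_cast hj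
    obtain ⟨d1, d2⟩ := left j (by linarith)
    have o := orb ha H G S qB (j := j) (by omega) d1
    have q4 : 0 ≤ A * (Real.log l₁ + 1) := mul_nonneg (by linarith) (by linarith)
    refine ⟨an_iter anZ j fun i hi => H.an _ (sub_An S
      (orb ha H G S qB (j := i) (by omega) (d1.mono hi.le)).1), o.1,
      (esm ha H G S M qB j (by omega) d1).trans (by linarith), d2.trans ?_,
      o.2.2.2.trans (by linarith)⟩
    have n1 : 3 / 4 * (j₁ - j : ℝ) ≤ ‖p + j‖ := by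
      have := (neg_le_abs _).trans (abs_re_le_norm (p + j))
      rw [add_re, natCast_re] at this
      linarith
    have n2 : ρ * (j₁ - j : ℝ) ≤ μ * (j₁ - j : ℝ) :=
      mul_le_mul_of_nonneg_right (by linarith) (by linarith)
    have n3 : μ * D ≤ μ * ((j₁ - j : ℝ) / 4) := mul_le_mul_of_nonneg_left (by linarith) μ0.le
    have n4 : 100 * μ * (3 / 4 * (j₁ - j : ℝ)) ≤ δ * ‖p + j‖ :=
      mul_le_mul μδ n1 (by linarith) (by linarith)
    have n5 : 0 ≤ μ * (j₁ - j : ℝ) := mul_nonneg μ0.le (by linarith)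
    linarith
  · obtain ⟨j₀, hj₀⟩ : ∃ j₀, j₀ + k₀ = j₁ := ⟨j₁ - k₀, by omega⟩
    obtain ⟨k, hk⟩ : ∃ k, j = j₀ + k := ⟨j - j₀, by omega⟩
    have jR : (j₀ : ℝ) + k₀ = j₁ := by exact_mod_cast hj₀
    have kR : (j : ℝ) = j₀ + k := by exact_mod_cast hk
    obtain ⟨d1, d2⟩ := left j₀ (by linarith)
    have n2 : ρ * (j₁ - j₀ : ℝ) ≤ μ * (5 * D) :=
      mul_le_mul (by linarith) (by linarith) (by linarith) μ0.le
    obtain ⟨s1, s2, s3, s4⟩ := pass ha H G S M A2 δ1 δe hμ h3 qB (k := k) (by omega) hm Dm W2 d1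
      (d2.trans (by linarith)) (by linarith) (by linarith)
      (W5.imp (fun h => by linarith) id)
    have ej : p + j₀ + k = p + j := by rw [hk]; push_cast; ring
    rw [ej, ← hk] at s3
    rw [← hk] at s1 s2 s4
    exact ⟨an_iter anZ j fun i hi => H.an _ (sub_An S (s1 i hi.le)), s1 j le_rfl, s2, s3, s4⟩

end

end Ap

/-- **5805** -/
theorem app : S_APP := by
  intro C e A δ C1 e0 A2 δ0
  obtain ⟨δ', hδ⟩ : ∃ d, d = min δ (min (1 / 2) (e / 8)) := ⟨_, rfl⟩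
  have d0 : 0 < δ' := by rw [hδ]; positivity
  have d1 : δ' ≤ δ := hδ ▸ min_le_left _ _
  have d2 : δ' ≤ 1 / 2 := hδ ▸ (min_le_right _ _).trans (min_le_left _ _)
  have d3 : δ' ≤ e / 8 := hδ ▸ (min_le_right _ _).trans (min_le_right _ _)
  obtain ⟨K, hK⟩ : ∃ K, K = 50 * A * C * Real.exp (14 * A * C) := ⟨_, rfl⟩
  have K1 : 100 ≤ K := by
    have := Real.one_le_exp (show 0 ≤ 14 * A * C by positivity)
    have h1 : 2 * 1 * 1 ≤ A * C * Real.exp (14 * A * C) := by gcongr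
    rw [hK]
    linarith
  obtain ⟨μ, hμ⟩ : ∃ μ, μ = δ' / K := ⟨_, rfl⟩
  have μ0 : 0 < μ := by rw [hμ]; positivity
  have μK : K * μ = δ' := by rw [hμ]; field_simp
  have μ1 : 100 * μ ≤ δ' := by nlinarith
  refine ⟨max (max 2 (28 * A * C / μ)) (2 * (10 ^ 6 * C ^ 2 / μ) ^ 2), μ / (10 ^ 6 * C),
    6 + 14 * A, by positivity, ?_⟩
  intro T Z a ℓ l₁ l L η ν β f ξ₀ hℓ ha H G η0 ν0 β0 l0 ll lL Al hβ
  have ℓ1 : 2 ≤ ℓ := ((le_max_left _ _).trans (le_max_left _ _)).trans hℓ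
  have ℓ2 : 28 * A * C / μ ≤ ℓ := ((le_max_right _ _).trans (le_max_left _ _)).trans hℓ
  have ℓ3 : 2 * (10 ^ 6 * C ^ 2 / μ) ^ 2 ≤ ℓ := (le_max_right _ _).trans hℓ
  have S : Ap.Sz C e (ℓ / 2) l₁ l L η ν β (β + η + ν * l₁) μ := by
    refine ⟨C1, η0, ν0, β0, rfl, l0, by linarith, by linarith, by nlinarith, lL, μ0, by linarith,
      by linarith, ?_, ?_⟩
    · have h1 : 10 ^ 6 * C ^ 2 / μ ≤ √(ℓ / 2) := Real.le_sqrt_of_sq_le (by linarith)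
      rwa [div_le_iff₀' μ0] at h1
    · rw [le_div_iff₀ (by positivity)] at hβ
      linarith
  obtain ⟨ξ, h1, h2⟩ := Ap.app0 ha H G S A2 Al d2 (by linarith) (by rw [← hK, μK])
    (by rwa [div_le_iff₀' μ0] at ℓ2)
  refine ⟨ξ, h1.trans (mul_le_mul_of_nonneg_right d1 (by nlinarith)), fun q j W => ?_⟩
  obtain ⟨a1, a2, a3, a4, a5⟩ := h2 q j W
  exact ⟨a1, a2, a3.trans d1, a4.trans (mul_le_mul_of_nonneg_right d1 (norm_nonneg _)), a5⟩

end Vale.Agent.P097EE
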