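import Vale.Agent.P097EE.Defs
import Vale.Agent.P097F.N.App

/-!
# P097EE: the approach, pointwise parts (orbits on the left of the core, the last stretch)
-/

set_option linter.all false

noncomputable section

namespace Vale.Agent.P097EE.Ap

open Filter Topology Set Metric Complex

/-- the time in the direction `a` -/
def tm (a : ℝ) (s : C2) : ℂ := a * s.1 ^ 2

lemma aa {a : ℝ} (ha : a = 1 ∨ a = -1) : (a : ℂ) * a = 1 := by
  rcases ha with h | h <;> rw [h] <;> simp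

lemma nmul {a : ℝ} (ha : a = 1 ∨ a = -1) (z : ℂ) : ‖(a : ℂ) * z‖ = ‖z‖ := by
  rcases ha with h | h <;> rw [h] <;> simp

lemma ntm {a : ℝ} (ha : a = 1 ∨ a = -1) (s : C2) : ‖tm a s‖ = ‖s.1‖ ^ 2 := by
  rw [tm, nmul ha, norm_pow]

lemma tm_step {T : C2 → C2} {a C l L e η ν : ℝ} (ha : a = 1 ∨ a = -1) (H : Stp T a C l L e η ν)
    {s : C2} (hs : s ∈ An l L e) :
    ‖tm a (T s) - tm a s - 1‖ ≤ C * (‖s.2‖ + η + 1 / ‖tm a s‖) := by
  have e1 : tm a (T s) - tm a s - 1 = a * ((T s).1 ^ 2 - s.1 ^ 2 - a) := by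
    unfold tm
    linear_combination aa ha
  rw [e1, nmul ha, ntm ha]
  exact H.th s hs

lemma mem_An {a l L e : ℝ} (ha : a = 1 ∨ a = -1) {s : C2} (h1 : l < ‖tm a s‖) (h2 : ‖tm a s‖ < L)
    (h3 : ‖s.2‖ < e) : s ∈ An l L e := by
  rw [ntm ha] at h1 h2
  exact ⟨h1, h2, h3⟩

lemma an_iter {T Z : C2 → C2} {q : C2} (hZ : AnalyticAt ℂ Z q) (j : ℕ)
    (h : ∀ i < j, AnalyticAt ℂ T (T^[i] (Z q))) : AnalyticAt ℂ (fun p => T^[j] (Z p)) q := by
  induction j with
  | zero => exact hZ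
  | succ j ih =>
    simp only [Function.iterate_succ_apply']
    exact AnalyticAt.comp (f := fun p => T^[j] (Z p)) (h j (Nat.lt_succ_self j))
      (ih fun i hi => h i (by omega))

/-- the sizes on the left of the core -/
structure Sz (C e lam l₁ l L η ν β b μ : ℝ) : Prop where
  C1 : 1 ≤ C
  η0 : 0 ≤ η
  ν0 : 0 ≤ ν
  β0 : 0 ≤ β
  hb : b = β + η + ν * l₁
  l0 : 0 < l
  ll : 5 * l ≤ lam
  l1 : 1 ≤ lam
  l2 : lam ≤ l₁
  L : 60 * l₁ ≤ L
  μ0 : 0 < μ
  μ1 : μ ≤ 1 / 100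
  μe : 8 * μ ≤ e
  hC : 10 ^ 6 * C ^ 2 ≤ μ * √lam
  hβ : 10 ^ 6 * C * (b * (Real.log l₁ + 1)) ≤ μ

namespace Sz

variable {C e lam l₁ l L η ν β b μ : ℝ} (S : Sz C e lam l₁ l L η ν β b μ)
include S

lemma b0 : 0 ≤ b := by
  have := S.η0; have := S.ν0; have := S.β0; have := S.l1; have := S.l2
  rw [S.hb]
  have : 0 ≤ ν * l₁ := mul_nonneg S.ν0 (by linarith)
  linarith

lemma lg : 0 ≤ Real.log l₁ := Real.log_nonneg (S.l1.trans S.l2)

lemma bb : 10 ^ 6 * C * b ≤ μ := by
  refine le_trans ?_ S.hβ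
  have := S.C1
  have := mul_nonneg S.b0 S.lg
  nlinarith

lemma sq : √lam ≤ lam := by
  have := S.l1
  rw [Real.sqrt_le_left (by linarith)]
  nlinarith

lemma CC : 10 ^ 6 * C ^ 2 ≤ μ * lam := S.hC.trans (mul_le_mul_of_nonneg_left S.sq S.μ0.le)

lemma Cx {x : ℝ} (hx : lam ≤ x) : 10 ^ 6 * (C ^ 2 / x) ≤ μ := by
  have := S.l1
  rw [← mul_div_assoc, div_le_iff₀ (by linarith)]
  exact S.CC.trans (mul_le_mul_of_nonneg_left hx S.μ0.le)

end Sz

/-- orbits on the left of the core -/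
theorem orbL {T : C2 → C2} {a C e lam l₁ l L η ν β b μ : ℝ} (ha : a = 1 ∨ a = -1)
    (H : Stp T a C l L e η ν) (S : Sz C e lam l₁ l L η ν β b μ) (s : ℕ → C2)
    (hs : ∀ i, s (i + 1) = T (s i)) (h0 : ‖(s 0).2‖ ≤ β) (h1 : ‖tm a (s 0)‖ ≤ 15 * l₁) (j : ℕ)
    (hj : (j : ℝ) ≤ 12 * l₁) (hl : ∀ i ≤ j, (tm a (s i)).re < -lam) :
    s j ∈ An (4 * l) (L / 2) (e / 4) ∧ ‖(s j).2‖ ≤ 24 * b + 4 * C / -(tm a (s j)).re ∧
      ‖tm a (s (j + 1)) - tm a (s j) - 1‖ ≤ 5 * C ^ 2 / -(tm a (s j)).re + 25 * C * b ∧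
      ∑ i ∈ Finset.range j, 1 / ‖(s i).1‖ ^ 2 ≤ 6 * (Real.log l₁ + 1) := by
  have C1 := S.C1
  have l1 := S.l1
  have l2 := S.l2
  have b0 := S.b0
  have bb := S.bb
  have μ1 := S.μ1
  have lg := S.lg
  obtain ⟨x, hx⟩ : ∃ x : ℕ → ℝ, ∀ i, x i = -(tm a (s i)).re := ⟨_, fun _ => rfl⟩
  have xn : ∀ i, x i ≤ ‖tm a (s i)‖ := fun i => by
    rw [hx]; exact (neg_le_abs _).trans (abs_re_le_norm _)
  have xl : ∀ i ≤ j, lam < x i := fun i hi => by rw [hx]; linarith [hl i hi]
  have x0 : Real.log (x 0) ≤ 3 + Real.log l₁ := by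
    have h2 : Real.log (x 0) ≤ Real.log (15 * l₁) :=
      Real.log_le_log (by linarith [xl 0 (Nat.zero_le _)]) ((xn 0).trans h1)
    rw [Real.log_mul (by norm_num) (by linarith)] at h2
    have h3 : Real.log 15 ≤ 3 := by
      rw [Real.log_le_iff_le_exp (by norm_num)]
      have h4 := Real.exp_one_gt_d9
      have h5 : Real.exp 3 = Real.exp 1 ^ 3 := by rw [← Real.exp_nat_mul]; norm_num
      rw [h5]
      exact le_trans (by norm_num) (pow_le_pow_left₀ (by norm_num) h4.le 3)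
    linarith
  -- consequences of the invariant
  have cons : ∀ i ≤ j, ∑ k ∈ Finset.range i, 1 / x k ≤ 2 * Real.log (x 0) - 2 * Real.log (x i) →
      ∑ k ∈ Finset.range i, 1 / x k ^ 2 ≤ 2 / x i →
      ‖(s i).2‖ ≤ Real.exp (25 * C * b * ∑ k ∈ Finset.range i, 1 / x k +
        5 * C ^ 2 * ∑ k ∈ Finset.range i, 1 / x k ^ 2) *
          (β + i * ν + C * ∑ k ∈ Finset.range i, 1 / x k ^ 2) →
      ‖tm a (s i) - tm a (s 0) - i‖ ≤ i / 40 →
      s i ∈ An (4 * l) (L / 2) (e / 4) ∧ s i ∈ An l L e ∧ ‖(s i).2‖ ≤ 24 * b + 4 * C / x i ∧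
        ‖tm a (s (i + 1)) - tm a (s i) - 1‖ ≤ 5 * C ^ 2 / x i + 25 * C * b ∧
        5 * C ^ 2 / x i + 25 * C * b ≤ 1 / 40 ∧
        ∑ k ∈ Finset.range i, 1 / x k ≤ 6 * (Real.log l₁ + 1) := by
    intro i hi i1 i2 i3 i4
    have xi := xl i hi
    have ij : (i : ℝ) ≤ 12 * l₁ := le_trans (by exact_mod_cast hi) hj
    have i0 : (0 : ℝ) ≤ i := Nat.cast_nonneg i
    have c1 := S.Cx xi.le
    have s1 : ∑ k ∈ Finset.range i, 1 / x k ≤ 6 * (Real.log l₁ + 1) := by
      have := Real.log_nonneg (l1.trans xi.le)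
      linarith
    have g1 : 25 * C * b * ∑ k ∈ Finset.range i, 1 / x k ≤ 1 / 4 := by
      have h2 := mul_le_mul_of_nonneg_left s1 (show 0 ≤ 25 * C * b by positivity)
      have h3 := S.hβ
      nlinarith
    have g2 : 5 * C ^ 2 * ∑ k ∈ Finset.range i, 1 / x k ^ 2 ≤ 1 / 4 := by
      have h2 := mul_le_mul_of_nonneg_left i2 (show 0 ≤ 5 * C ^ 2 by positivity)
      have h3 : 5 * C ^ 2 * (2 / x i) = 10 * (C ^ 2 / x i) := by ring
      linarith
    have g3 : Real.exp (25 * C * b * ∑ k ∈ Finset.range i, 1 / x k +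
        5 * C ^ 2 * ∑ k ∈ Finset.range i, 1 / x k ^ 2) ≤ 2 := by
      refine (Real.exp_le_exp.2 (show _ ≤ Real.log 2 by linarith [Real.log_two_gt_d9])).trans ?_
      rw [Real.exp_log (by norm_num)]
    have s2 : 0 ≤ ∑ k ∈ Finset.range i, 1 / x k ^ 2 := Finset.sum_nonneg fun k _ => by positivity
    have β0 := S.β0
    have ν0 := S.ν0
    have η0 := S.η0
    have g4 : ‖(s i).2‖ ≤ 24 * b + 4 * C / x i := by
      have h2 := i3.trans (mul_le_mul_of_nonneg_right g3 (by positivity))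
      have h3 := mul_le_mul_of_nonneg_left i2 (show 0 ≤ C by linarith)
      have h4 : C * (2 / x i) = 4 * C / x i / 2 := by ring
      have h5 := mul_le_mul_of_nonneg_right ij ν0
      have h6 := S.hb
      linarith
    have c2 : 4 * C / x i ≤ 4 * (C ^ 2 / x i) := by
      rw [← mul_div_assoc]
      exact div_le_div_of_nonneg_right (by nlinarith) (by linarith)
    have c3 : b ≤ C * b := le_mul_of_one_le_left b0 C1
    have g5 : ‖(s i).2‖ < e / 4 := by linarith [S.μe, S.μ0]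
    have u1 : ‖tm a (s i)‖ < L / 2 := by
      have h2 := norm_le_norm_sub_add (tm a (s i) - tm a (s 0)) (i : ℂ)
      have h3 := norm_le_norm_sub_add (tm a (s i)) (tm a (s 0))
      rw [norm_natCast] at h2
      linarith [S.L]
    have u2 := xn i
    have m2 : s i ∈ An l L e := mem_An ha (by linarith [S.ll, S.l0]) (by linarith [S.L])
      (by linarith [norm_nonneg (s i).2])
    refine ⟨mem_An ha (by linarith [S.ll, S.l0]) u1 g5, m2, g4, ?_, ?_, s1⟩
    · rw [hs]
      refine (tm_step ha H m2).trans ?_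
      have h2 : 1 / ‖tm a (s i)‖ ≤ 1 / x i := one_div_le_one_div_of_le (by linarith) u2
      have h3 : 1 / x i ≤ C / x i := div_le_div_of_nonneg_right C1 (by linarith)
      have h4 : ‖(s i).2‖ + η + 1 / ‖tm a (s i)‖ ≤ 25 * b + 5 * (C / x i) := by
        have h5 : 4 * C / x i = 4 * (C / x i) := by ring
        have h6 := S.hb
        have h7 : 0 ≤ ν * l₁ := mul_nonneg ν0 (by linarith)
        linarith
      refine (mul_le_mul_of_nonneg_left h4 (by linarith)).trans_eq ?_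
      ring
    · have h2 : 5 * C ^ 2 / x i = 5 * (C ^ 2 / x i) := by ring
      linarith
  have inv : ∀ i ≤ j, ∑ k ∈ Finset.range i, 1 / x k ≤ 2 * Real.log (x 0) - 2 * Real.log (x i) ∧
      ∑ k ∈ Finset.range i, 1 / x k ^ 2 ≤ 2 / x i ∧
      ‖(s i).2‖ ≤ Real.exp (25 * C * b * ∑ k ∈ Finset.range i, 1 / x k +
        5 * C ^ 2 * ∑ k ∈ Finset.range i, 1 / x k ^ 2) *
          (β + i * ν + C * ∑ k ∈ Finset.range i, 1 / x k ^ 2) ∧
      ‖tm a (s i) - tm a (s 0) - i‖ ≤ i / 40 := by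
    intro i
    induction i with
    | zero =>
      intro _
      have := xl 0 (Nat.zero_le _)
      refine ⟨by simp, ?_, by simpa using h0, by simp⟩
      rw [Finset.sum_range_zero]
      exact div_nonneg (by norm_num) (by linarith)
    | succ i ih =>
      intro hi
      obtain ⟨i1, i2, i3, i4⟩ := ih (by omega)
      obtain ⟨-, m2, g4, st, sm, -⟩ := cons i (by omega) i1 i2 i3 i4
      have xi := xl i (by omega)
      have xj := xl (i + 1) hi
      have p0 : 0 < x i := by linarith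
      have p1 : 0 < x (i + 1) := by linarith
      have d1 : x (i + 1) + 1 / 2 ≤ x i := by
        have h2 := (abs_le.1 ((abs_re_le_norm _).trans (st.trans sm))).1
        rw [sub_re, sub_re, one_re] at h2
        rw [hx, hx]
        linarith
      rw [Finset.sum_range_succ, Finset.sum_range_succ]
      refine ⟨?_, ?_, ?_, ?_⟩
      · have h2 := Real.log_le_sub_one_of_pos (div_pos p1 p0)
        rw [Real.log_div p1.ne' p0.ne'] at h2
        have h3 : x (i + 1) / x i - 1 ≤ -(1 / x i) / 2 := by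
          rw [div_sub_one p0.ne', div_le_iff₀ p0]
          field_simp
          linarith
        linarith
      · have h2 : 1 / x i ^ 2 ≤ 2 / x (i + 1) - 2 / x i := by
          rw [div_sub_div _ _ p1.ne' p0.ne', div_le_div_iff₀ (by positivity) (by positivity)]
          have h3 : x (i + 1) * x i ≤ x i ^ 2 := by nlinarith
          nlinarith [sq_nonneg (x i)]
        linarith
      · have h2 := H.e2 _ m2 (by
          have := hl i (by omega)
          rw [tm, re_ofReal_mul] at this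
          linarith)
        rw [← hs, ← ntm ha] at h2
        have e4 : ‖(s i).1‖ ^ 4 = ‖tm a (s i)‖ ^ 2 := by rw [ntm ha]; ring
        rw [e4] at h2
        have u2 := xn i
        have η0 := S.η0
        have ν0 := S.ν0
        have β0 := S.β0
        have n0 := norm_nonneg (s i).2
        have h3 : 1 / ‖tm a (s i)‖ ≤ C / x i :=
          (one_div_le_one_div_of_le p0 u2).trans (div_le_div_of_nonneg_right C1 p0.le)
        have h4 : ‖(s i).2‖ + η + 1 / ‖tm a (s i)‖ ≤ 25 * b + 5 * (C / x i) := by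
          have h5 : 4 * C / x i = 4 * (C / x i) := by ring
          have h6 := S.hb
          have h7 : 0 ≤ ν * l₁ := mul_nonneg ν0 (by linarith)
          linarith
        obtain ⟨c, hc⟩ : ∃ c, c = 25 * C * b * (1 / x i) + 5 * C ^ 2 * (1 / x i ^ 2) := ⟨_, rfl⟩
        have c0 : 0 ≤ c := by rw [hc]; positivity
        have h5 : C * (‖(s i).2‖ + η + 1 / ‖tm a (s i)‖) / ‖tm a (s i)‖ ≤ c := by
          calc _ ≤ C * (25 * b + 5 * (C / x i)) / x i := by gcongr
            _ = c := by rw [hc]; field_simp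
        have h6 : C / ‖tm a (s i)‖ ^ 2 ≤ C * (1 / x i ^ 2) := by
          rw [mul_one_div]
          gcongr
        obtain ⟨G, hG⟩ : ∃ G, G = 25 * C * b * ∑ k ∈ Finset.range i, 1 / x k +
          5 * C ^ 2 * ∑ k ∈ Finset.range i, 1 / x k ^ 2 := ⟨_, rfl⟩
        have s1 : 0 ≤ ∑ k ∈ Finset.range i, 1 / x k := Finset.sum_nonneg fun k hk => by
          have := xl k (by have := Finset.mem_range.1 hk; omega)
          exact div_nonneg zero_le_one (by linarith)
        have s2 : 0 ≤ ∑ k ∈ Finset.range i, 1 / x k ^ 2 :=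
          Finset.sum_nonneg fun k _ => by positivity
        have G0 : 0 ≤ G := by rw [hG]; positivity
        have e5 : 25 * C * b * (∑ k ∈ Finset.range i, 1 / x k + 1 / x i) +
            5 * C ^ 2 * (∑ k ∈ Finset.range i, 1 / x k ^ 2 + 1 / x i ^ 2) = c + G := by
          rw [hc, hG]; ring
        rw [← hG] at i3
        rw [e5, Real.exp_add]
        obtain ⟨u, hu⟩ : ∃ u, u = β + i * ν + C * ∑ k ∈ Finset.range i, 1 / x k ^ 2 := ⟨_, rfl⟩
        have u0 : 0 ≤ u := by rw [hu]; positivity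
        rw [← hu] at i3
        have e6 : β + ((i + 1 : ℕ) : ℝ) * ν +
            C * (∑ k ∈ Finset.range i, 1 / x k ^ 2 + 1 / x i ^ 2) = u + (C * (1 / x i ^ 2) + ν) := by
          rw [hu]; push_cast; ring
        rw [e6, mul_add]
        have k1 : (1 + C * (‖(s i).2‖ + η + 1 / ‖tm a (s i)‖) / ‖tm a (s i)‖) * ‖(s i).2‖ ≤
            Real.exp c * Real.exp G * u := by
          rw [mul_assoc]
          exact mul_le_mul (by linarith [Real.add_one_le_exp c]) i3 n0 (Real.exp_pos _).le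
        have k2 : C * (1 / x i ^ 2) + ν ≤ Real.exp c * Real.exp G * (C * (1 / x i ^ 2) + ν) :=
          le_mul_of_one_le_left (by positivity)
            (one_le_mul_of_one_le_of_one_le (Real.one_le_exp c0) (Real.one_le_exp G0))
        linarith
      · have e1 : tm a (s (i + 1)) - tm a (s 0) - ((i + 1 : ℕ) : ℂ) =
            (tm a (s (i + 1)) - tm a (s i) - 1) + (tm a (s i) - tm a (s 0) - i) := by
          push_cast; ring
        rw [e1]
        refine (norm_add_le _ _).trans ?_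
        push_cast
        linarith
  obtain ⟨i1, i2, i3, i4⟩ := inv j le_rfl
  obtain ⟨m1, -, g4, st, -, s1⟩ := cons j le_rfl i1 i2 i3 i4
  rw [hx] at g4 st
  refine ⟨m1, g4, st, le_trans (Finset.sum_le_sum fun k hk => ?_) s1⟩
  have := xl k (Finset.mem_range.1 hk).le
  rw [← ntm ha]
  exact one_div_le_one_div_of_le (by linarith) (xn k)

/-- the last stretch -/
theorem stretch {T : C2 → C2} {a C e l L η ν A m μ δ : ℝ} (ha : a = 1 ∨ a = -1)
    (H : Stp T a C l L e η ν) (C1 : 1 ≤ C) (A1 : 1 ≤ A) (η0 : 0 ≤ η) (ν0 : 0 ≤ ν) (l0 : 0 < l)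
    (lm : 10 * l ≤ m) (μ0 : 0 < μ) (δ1 : δ ≤ 1 / 2) (δe : 8 * δ ≤ e)
    (hμ : 50 * A * C * Real.exp (14 * A * C) * μ ≤ δ) (h1 : η ≤ μ) (h2 : 7 * A * m * ν ≤ μ)
    (h3 : 28 * A * C ≤ μ * m) (s : ℕ → C2) (hs : ∀ i, s (i + 1) = T (s i)) (p : ℂ) (k : ℕ)
    (hk : (k : ℝ) ≤ 7 * A * m) (hp : ∀ i ≤ k, m ≤ ‖p + i‖ ∧ ‖p + i‖ ≤ L / 4)
    (h4 : ‖tm a (s 0) - p‖ ≤ 8 * μ * A * m) (h5 : ‖(s 0).2‖ ≤ μ) :
    ∀ i ≤ k, s i ∈ An (4 * l) (L / 2) (e / 4) ∧ ‖(s i).2‖ ≤ δ ∧ ‖tm a (s i) - (p + i)‖ ≤ δ * m ∧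
      m / 2 ≤ ‖tm a (s i)‖ := by
  have m0 : 0 < m := by linarith
  obtain ⟨K, hK⟩ : ∃ K, K = Real.exp (14 * A * C) := ⟨_, rfl⟩
  have K1 : 1 ≤ K := by rw [hK]; exact Real.one_le_exp (by positivity)
  rw [← hK] at hμ
  have AC : 1 ≤ A * C := one_le_mul_of_one_le_of_one_le A1 C1
  have Kμ : μ ≤ K * μ := le_mul_of_one_le_left μ0.le K1
  have t1 : 50 * (K * μ) ≤ δ := by nlinarith
  have cons : ∀ i ≤ k, ‖tm a (s i) - (p + i)‖ ≤ 8 * μ * A * m + i * (5 * C * K * μ) →
      ‖(s i).2‖ ≤ Real.exp (2 * C / m * i) * (μ + i * (4 * C / m ^ 2 + ν)) →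
      (s i ∈ An (4 * l) (L / 2) (e / 4) ∧ ‖(s i).2‖ ≤ δ ∧ ‖tm a (s i) - (p + i)‖ ≤ δ * m ∧
        m / 2 ≤ ‖tm a (s i)‖) ∧ s i ∈ An l L e ∧ ‖(s i).2‖ ≤ 3 * K * μ := by
    intro i hi i1 i2
    have ik : (i : ℝ) ≤ 7 * A * m := le_trans (by exact_mod_cast hi) hk
    have i0 : (0 : ℝ) ≤ i := Nat.cast_nonneg i
    have g1 : Real.exp (2 * C / m * i) ≤ K := by
      rw [hK]
      refine Real.exp_le_exp.2 ?_
      calc 2 * C / m * i ≤ 2 * C / m * (7 * A * m) := by gcongr
        _ = _ := by field_simp; ring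
    have g2 : i * (4 * C / m ^ 2 + ν) ≤ 2 * μ := by
      have h6 : 7 * A * m * (4 * C / m ^ 2) ≤ μ := by
        calc _ = 28 * A * C / m := by field_simp; ring
          _ ≤ μ := by rwa [div_le_iff₀ m0]
      calc _ ≤ 7 * A * m * (4 * C / m ^ 2 + ν) := by gcongr
        _ ≤ _ := by rw [mul_add]; linarith
    have g3 : ‖(s i).2‖ ≤ 3 * K * μ := by
      refine i2.trans ((mul_le_mul g1 (show _ ≤ 3 * μ by linarith) (by positivity)
        (by linarith)).trans_eq (by ring))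
    have g4 : ‖tm a (s i) - (p + i)‖ ≤ δ * m := by
      refine i1.trans ?_
      have h6 : i * (5 * C * K * μ) ≤ 7 * A * m * (5 * C * K * μ) := by gcongr
      have h7 : 8 * μ * A * m ≤ 8 * (C * K * μ) * A * m := by
        have : μ ≤ C * K * μ := by nlinarith
        gcongr
      have h8 := mul_le_mul_of_nonneg_right hμ m0.le
      have h9 : 0 ≤ A * C * K * μ * m := by positivity
      nlinarith
    obtain ⟨q1, q2⟩ := hp i hi
    have g5 : δ * m ≤ m / 2 := by nlinarith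
    have g6 : m / 2 ≤ ‖tm a (s i)‖ := by
      have := norm_sub_norm_le (p + i) (tm a (s i))
      rw [norm_sub_rev] at this
      linarith
    have g7 : ‖tm a (s i)‖ < L / 2 := by
      have := norm_le_norm_sub_add (tm a (s i)) (p + i)
      linarith
    have n0 := norm_nonneg (s i).2
    exact ⟨⟨mem_An ha (by linarith) g7 (by linarith), by linarith, g4, g6⟩,
      mem_An ha (by linarith) (by linarith) (by linarith), g3⟩
  have inv : ∀ i ≤ k, ‖tm a (s i) - (p + i)‖ ≤ 8 * μ * A * m + i * (5 * C * K * μ) ∧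
      ‖(s i).2‖ ≤ Real.exp (2 * C / m * i) * (μ + i * (4 * C / m ^ 2 + ν)) := by
    intro i
    induction i with
    | zero => intro _; exact ⟨by simpa using h4, by simpa using h5⟩
    | succ i ih =>
      intro hi
      obtain ⟨i1, i2⟩ := ih (by omega)
      obtain ⟨⟨-, -, -, g6⟩, m2, g3⟩ := cons i (by omega) i1 i2
      have r1 : 1 / ‖tm a (s i)‖ ≤ 2 / m := by
        rw [div_le_div_iff₀ (by linarith) m0]; linarith
      have r2 : 2 / m ≤ μ := by rw [div_le_iff₀ m0]; nlinarith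
      refine ⟨?_, ?_⟩
      · have st := tm_step ha H m2
        rw [← hs] at st
        have e1 : tm a (s (i + 1)) - (p + ((i + 1 : ℕ) : ℂ)) =
            (tm a (s (i + 1)) - tm a (s i) - 1) + (tm a (s i) - (p + i)) := by push_cast; ring
        rw [e1]
        refine (norm_add_le _ _).trans ?_
        have st2 : C * (‖(s i).2‖ + η + 1 / ‖tm a (s i)‖) ≤ C * (5 * (K * μ)) :=
          mul_le_mul_of_nonneg_left (by linarith) (by linarith)
        push_cast
        linarith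
      · have st := H.e1 _ m2
        rw [← hs, ← ntm ha] at st
        have e4 : ‖(s i).1‖ ^ 4 = ‖tm a (s i)‖ ^ 2 := by rw [ntm ha]; ring
        rw [e4] at st
        have r3 : C / ‖tm a (s i)‖ ≤ 2 * C / m := by
          rw [div_le_div_iff₀ (by linarith) m0]; nlinarith
        have r4 : C / ‖tm a (s i)‖ ^ 2 ≤ 4 * C / m ^ 2 := by
          calc _ ≤ C / (m / 2) ^ 2 := by gcongr
            _ = _ := by field_simp; ring
        have e5 : 2 * C / m * ((i + 1 : ℕ) : ℝ) = 2 * C / m + 2 * C / m * i := by push_cast; ring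
        have e6 : μ + ((i + 1 : ℕ) : ℝ) * (4 * C / m ^ 2 + ν) =
            μ + i * (4 * C / m ^ 2 + ν) + (4 * C / m ^ 2 + ν) := by push_cast; ring
        rw [e5, Real.exp_add, e6, mul_add]
        have k1 : (1 + C / ‖tm a (s i)‖) * ‖(s i).2‖ ≤ Real.exp (2 * C / m) *
            Real.exp (2 * C / m * i) * (μ + i * (4 * C / m ^ 2 + ν)) := by
          rw [mul_assoc]
          exact mul_le_mul (by linarith [Real.add_one_le_exp (2 * C / m)]) i2 (norm_nonneg _)
            (Real.exp_pos _).le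
        have k2 : 4 * C / m ^ 2 + ν ≤ Real.exp (2 * C / m) * Real.exp (2 * C / m * i) *
            (4 * C / m ^ 2 + ν) :=
          le_mul_of_one_le_left (by positivity) (one_le_mul_of_one_le_of_one_le
            (Real.one_le_exp (by positivity)) (Real.one_le_exp (by positivity)))
        linarith
  exact fun i hi => (cons i hi (inv i hi).1 (inv i hi).2).1

end Vale.Agent.P097EE.Ap
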