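import Vale.Agent.P097EE.Ift

/-! True chains next to a compact family of nondegenerate model chains. -/

open Filter Metric Set Topology

namespace Vale.Agent.P097EE

variable {Q : Type} [NormedAddCommGroup Q] [NormedSpace ℂ Q]

/-- `persist` with a fixed radius of uniqueness -/
theorem persist2 {T : Type} [TopologicalSpace T] {Λ : Q × ℂ → ℂ} {O : Set (Q × ℂ)}
    (hO : IsOpen O) (hΛ : AnalyticOnNhd ℂ Λ O) {K : Set T} (hK : IsCompact K) {q : T → Q}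
    {ψ : T → ℂ} (hq : ContinuousOn q K) (hψ : ContinuousOn ψ K)
    (hm : ∀ t ∈ K, (q t, ψ t) ∈ O) (h0 : ∀ t ∈ K, Λ (q t, ψ t) = 0)
    (hd : ∀ t ∈ K, fderiv ℂ Λ (q t, ψ t) (0, 1) ≠ 0) :
    ∃ ρ > 0, ∀ τ > 0, ∃ η > 0, ∀ (Λ' : Q × ℂ → ℂ), AnalyticOnNhd ℂ Λ' O →
        (∀ x ∈ O, ‖Λ' x - Λ x‖ ≤ η) →
        ∀ (P : Type) [NormedAddCommGroup P] [NormedSpace ℂ P] [CompleteSpace P] (Ω : Set P)
          (s : P → Q) (k : P → T), IsOpen Ω → AnalyticOnNhd ℂ s Ω → ContinuousOn k Ω →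
          (∀ p ∈ Ω, k p ∈ K ∧ ‖s p - q (k p)‖ ≤ η) →
          ∃ c : P → ℂ, AnalyticOnNhd ℂ c Ω ∧ ∀ p ∈ Ω, Λ' (s p, c p) = 0 ∧
            ‖c p - ψ (k p)‖ ≤ τ ∧
            (∀ v, ‖v - ψ (k p)‖ < ρ → Λ' (s p, v) = 0 → v = c p) := by
  obtain ⟨τ0, hτ0, hb, h⟩ := persist hO hΛ hK hq hψ hm h0 hd
  refine ⟨τ0 / 2, by positivity, fun τ hτ => ?_⟩
  obtain ⟨η1, hη1, -, σ1, hσ1, h1⟩ := h τ0 hτ0 le_rfl
  obtain ⟨η2, hη2, -, σ2, hσ2, h2⟩ := h (min τ τ0) (lt_min hτ hτ0) (min_le_right _ _)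
  refine ⟨min (min η1 σ1) (min η2 σ2), by positivity,
    fun Λ' hA hΛ' P _ _ _ Ω s k hΩ hs hk hsk => ?_⟩
  have a1 : min (min η1 σ1) (min η2 σ2) ≤ η1 := (min_le_left _ _).trans (min_le_left _ _)
  have a2 : min (min η1 σ1) (min η2 σ2) ≤ σ1 := (min_le_left _ _).trans (min_le_right _ _)
  have a3 : min (min η1 σ1) (min η2 σ2) ≤ η2 := (min_le_right _ _).trans (min_le_left _ _)
  have a4 : min (min η1 σ1) (min η2 σ2) ≤ σ2 := (min_le_right _ _).trans (min_le_right _ _)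
  obtain ⟨c1, -, hc1⟩ := h1 Λ' (fun t ht x hx => ⟨hA x (hb t ht hx), (hΛ' x (hb t ht hx)).trans a2⟩)
    P Ω s k hΩ hs hk fun p hp => ⟨(hsk p hp).1, (hsk p hp).2.trans a1⟩
  obtain ⟨c2, hc, hc2⟩ := h2 Λ' (fun t ht x hx => ⟨hA x (hb t ht hx), (hΛ' x (hb t ht hx)).trans a4⟩)
    P Ω s k hΩ hs hk fun p hp => ⟨(hsk p hp).1, (hsk p hp).2.trans a3⟩
  refine ⟨c2, hc, fun p hp => ?_⟩
  obtain ⟨e1, e2, -⟩ := hc2 p hp
  have b1 := min_le_left τ τ0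
  have b2 := min_le_right τ τ0
  refine ⟨e1, by linarith, fun v hv h0 => ?_⟩
  rw [(hc1 p hp).2.2 v hv h0, (hc1 p hp).2.2 (c2 p) (by linarith) e1]

variable {X : Type} [NormedAddCommGroup X] [NormedSpace ℂ X]

/-- the argument of the law number `j` along the chain `c` with the extra parameter `x` -/
def st {T : Type} (x : T → X) (c : ℕ → T → ℂ) (j : ℕ) (t : T) : (X × ℂ × ℂ) × ℂ :=
  ((x t, c j t, c (j + 1) t), c (j + 2) t)

/-- **CHAINP.** `v 0, …, v (N+1)` is a compact family of nondegenerate chains of the laws `Λ j`.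
For laws `Λ' j` close to `Λ j` and analytic initial states close to `(v 0, v 1)` there is an
analytic chain close to `v`, and each step is unique in a tube of a fixed radius. -/
theorem chainP {T : Type} [TopologicalSpace T] {Λ : ℕ → (X × ℂ × ℂ) × ℂ → ℂ}
    {O : ℕ → Set ((X × ℂ × ℂ) × ℂ)} {K : Set T} (hK : IsCompact K) {x : T → X} {v : ℕ → T → ℂ}
    (hx : ContinuousOn x K) (N : ℕ) (hO : ∀ j < N, IsOpen (O j))
    (hΛ : ∀ j < N, AnalyticOnNhd ℂ (Λ j) (O j)) (hv : ∀ j < N + 2, ContinuousOn (v j) K)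
    (hm : ∀ j < N, ∀ t ∈ K, st x v j t ∈ O j ∧ Λ j (st x v j t) = 0 ∧
      fderiv ℂ (Λ j) (st x v j t) (0, 1) ≠ 0) :
    ∃ ρ > 0, ∀ τ > 0, ∃ η > 0, ∀ (Λ' : ℕ → (X × ℂ × ℂ) × ℂ → ℂ),
      (∀ j < N, AnalyticOnNhd ℂ (Λ' j) (O j) ∧ ∀ y ∈ O j, ‖Λ' j y - Λ j y‖ ≤ η) →
      ∀ (P : Type) [NormedAddCommGroup P] [NormedSpace ℂ P] [CompleteSpace P] (Ω : Set P)
        (ξ : P → X) (a b : P → ℂ) (k : P → T), IsOpen Ω → AnalyticOnNhd ℂ ξ Ω →
        AnalyticOnNhd ℂ a Ω → AnalyticOnNhd ℂ b Ω → ContinuousOn k Ω →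
        (∀ p ∈ Ω, k p ∈ K ∧ ‖ξ p - x (k p)‖ ≤ η ∧ ‖a p - v 0 (k p)‖ ≤ η ∧
          ‖b p - v 1 (k p)‖ ≤ η) →
        ∃ c : ℕ → P → ℂ, c 0 = a ∧ c 1 = b ∧
          (∀ j < N + 2, AnalyticOnNhd ℂ (c j) Ω ∧ ∀ p ∈ Ω, ‖c j p - v j (k p)‖ ≤ τ) ∧
          ∀ j < N, ∀ p ∈ Ω, Λ' j (st ξ c j p) = 0 ∧ ∀ w, ‖w - v (j + 2) (k p)‖ < ρ →
            Λ' j ((ξ p, c j p, c (j + 1) p), w) = 0 → w = c (j + 2) p := by
  induction N with
  | zero =>
    refine ⟨1, one_pos, fun τ hτ => ⟨τ, hτ, fun Λ' _ P _ _ _ Ω ξ a b k _ _ ha hb _ h =>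
      ⟨fun j => if j = 0 then a else b, by simp, by simp, fun j hj => ?_, by simp⟩⟩⟩
    obtain rfl | rfl : j = 0 ∨ j = 1 := by omega
    · exact ⟨by simpa using ha, fun p hp => by simpa using (h p hp).2.2.1⟩
    · exact ⟨by simpa using hb, fun p hp => by simpa using (h p hp).2.2.2⟩
  | succ N ih =>
    obtain ⟨ρ1, hρ1, h1⟩ := ih (fun j hj => hO j (by omega)) (fun j hj => hΛ j (by omega))
      (fun j hj => hv j (by omega)) (fun j hj => hm j (by omega))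
    obtain ⟨ρ2, hρ2, h2⟩ := persist2 (hO N (by omega)) (hΛ N (by omega)) hK
      (q := fun t => (x t, v N t, v (N + 1) t)) (ψ := v (N + 2))
      (hx.prodMk ((hv N (by omega)).prodMk (hv (N + 1) (by omega)))) (hv (N + 2) (by omega))
      (fun t ht => (hm N (by omega) t ht).1) (fun t ht => (hm N (by omega) t ht).2.1)
      (fun t ht => (hm N (by omega) t ht).2.2)
    refine ⟨min ρ1 ρ2, lt_min hρ1 hρ2, fun τ hτ => ?_⟩
    obtain ⟨η2, hη2, h2⟩ := h2 τ hτ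
    obtain ⟨η1, hη1, h1⟩ := h1 (min τ η2) (lt_min hτ hη2)
    refine ⟨min η1 η2, lt_min hη1 hη2,
      fun Λ' hΛ' P _ _ _ Ω ξ a b k hΩ hξ ha hb hk h => ?_⟩
    have l1 := min_le_left η1 η2
    have l2 := min_le_right η1 η2
    obtain ⟨c, c0, c1, c2, c3⟩ := h1 Λ' (fun j hj => ⟨(hΛ' j (by omega)).1,
      fun y hy => ((hΛ' j (by omega)).2 y hy).trans l1⟩) P Ω ξ a b k hΩ hξ ha hb hk
      fun p hp => ⟨(h p hp).1, (h p hp).2.1.trans l1, (h p hp).2.2.1.trans l1,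
        (h p hp).2.2.2.trans l1⟩
    obtain ⟨d, d1, d2⟩ := h2 (Λ' N) (hΛ' N (by omega)).1
      (fun y hy => ((hΛ' N (by omega)).2 y hy).trans l2) P Ω
      (fun p => (ξ p, c N p, c (N + 1) p)) k hΩ
      (hξ.prod ((c2 N (by omega)).1.prod (c2 (N + 1) (by omega)).1)) hk (fun p hp => ⟨(h p hp).1, by
        simp only [Prod.mk_sub_mk, Prod.norm_mk, max_le_iff]
        exact ⟨(h p hp).2.1.trans l2, ((c2 N (by omega)).2 p hp).trans (min_le_right _ _),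
          ((c2 (N + 1) (by omega)).2 p hp).trans (min_le_right _ _)⟩⟩)
    have u : ∀ j < N + 2, Function.update c (N + 2) d j = c j := fun j hj =>
      Function.update_of_ne (by omega) _ _
    refine ⟨Function.update c (N + 2) d, by rw [u 0 (by omega), c0], by rw [u 1 (by omega), c1],
      fun j hj => ?_, fun j hj p hp => ?_⟩
    · rcases Nat.lt_succ_iff_lt_or_eq.1 hj with hj | rfl
      · rw [u j hj]
        exact ⟨(c2 j hj).1, fun p hp => ((c2 j hj).2 p hp).trans (min_le_left _ _)⟩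
      · rw [Function.update_self]
        exact ⟨d1, fun p hp => (d2 p hp).2.1⟩
    · unfold st
      rcases Nat.lt_succ_iff_lt_or_eq.1 hj with hj | rfl
      · rw [u j (by omega), u (j + 1) (by omega), u (j + 2) (by omega)]
        exact ⟨(c3 j hj p hp).1, fun w hw => (c3 j hj p hp).2 w (hw.trans_le (min_le_left _ _))⟩
      · rw [u j (by omega), u (j + 1) (by omega), Function.update_self]
        exact ⟨(d2 p hp).1, fun w hw => (d2 p hp).2.2 w (hw.trans_le (min_le_right _ _))⟩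

end Vale.Agent.P097EE
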