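import Vale.Agent.P097EE.Disc
import Vale.Agent.P097EE.ChainP

/-! A model chain continues over one disc on the level line; a connected domain of
nondegeneracy. -/

open Filter Metric Set Topology

namespace Vale.Agent.P097EE

open Vale.Agent.P097T Vale.Agent.P097T.EndTop

theorem punct_preconn (t : ℂ) {r : ℝ} (hr : 0 < r) : IsPreconnected (ball t r \ {t}) := by
  have h : ball t r \ {t} = (fun w => t + Complex.exp w) '' {w | w.re < Real.log r} := by
    ext s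
    simp only [Set.mem_sdiff, mem_ball, dist_eq_norm, mem_singleton_iff, mem_image, mem_ofPred_eq]
    constructor
    · rintro ⟨h1, h2⟩
      have h3 : s - t ≠ 0 := sub_ne_zero.2 h2
      refine ⟨Complex.log (s - t), ?_, by rw [Complex.exp_log h3]; ring⟩
      rw [Complex.log_re]
      exact Real.log_lt_log (norm_pos_iff.2 h3) h1
    · rintro ⟨w, h1, rfl⟩
      refine ⟨?_, by simp⟩
      rw [add_sub_cancel_left, Complex.norm_exp, ← Real.lt_log_iff_exp_lt hr]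
      exact h1
  rw [h]
  exact (convex_halfSpace_re_lt _).isPreconnected.image _ (by fun_prop)

theorem preconn_diff {D E : Set ℂ} (hD : IsOpen D) (hD' : IsPreconnected D)
    (hE : ∀ t ∈ D, ∀ᶠ s in 𝓝[≠] t, s ∉ E) : IsPreconnected (D \ E) := by
  rintro u v hu hv huv ⟨a, ha, hau⟩ ⟨b, hb, hbv⟩
  by_contra hn
  have op : ∀ u : Set ℂ, IsOpen u → IsOpen {t : ℂ | ∀ᶠ s in 𝓝[≠] t, s ∈ u} := by
    intro u hu
    rw [isOpen_iff_mem_nhds]
    intro t ht
    obtain ⟨r, hr, h⟩ := Metric.mem_nhdsWithin_iff.1 ht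
    filter_upwards [ball_mem_nhds t hr] with s hs
    by_cases e : s = t
    · rw [e]; exact ht
    · exact mem_nhdsWithin_of_mem_nhds (hu.mem_nhds (h ⟨hs, e⟩))
  have loc : ∀ t ∈ D, ∀ᶠ s in 𝓝[≠] t, s ∈ D \ E := fun t ht =>
    Filter.Eventually.and (mem_nhdsWithin_of_mem_nhds (hD.mem_nhds ht)) (hE t ht)
  obtain ⟨t, ht, h1, h2⟩ := hD' _ _ (op u hu) (op v hv) (by
      intro t ht
      obtain ⟨r, hr, h⟩ := Metric.mem_nhdsWithin_iff.1 (loc t ht)
      have hs : ball t r \ {t} ⊆ D \ E := h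
      have hm : ball t r \ {t} ∈ 𝓝[≠] t := Metric.mem_nhdsWithin_iff.2 ⟨r, hr, Subset.rfl⟩
      have := (isPreconnected_iff_subset_of_disjoint.1 (punct_preconn t hr)) u v hu hv
        (hs.trans huv) (by
          rw [← not_nonempty_iff_eq_empty]
          exact fun ⟨x, x1, x2⟩ => hn ⟨x, hs x1, x2⟩)
      exact this.imp (fun h => mem_of_superset hm h) fun h => mem_of_superset hm h)
    ⟨a, ha.1, mem_nhdsWithin_of_mem_nhds (hu.mem_nhds hau)⟩
    ⟨b, hb.1, mem_nhdsWithin_of_mem_nhds (hv.mem_nhds hbv)⟩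
  obtain ⟨s, s1, s2, s3⟩ := ((loc t ht).and (Filter.Eventually.and h1 h2)).exists
  exact hn ⟨s, s1, s2, s3⟩

/-- a connected domain with compact closure which avoids the zeros of finitely many functions -/
theorem dom {D : Set ℂ} (hD : IsOpen D) (hD' : IsPreconnected D) {g : ℕ → ℂ → ℂ} {N : ℕ}
    (hg : ∀ j < N, AnalyticOnNhd ℂ (g j) D) {a b : ℂ} (ha : a ∈ D) (hb : b ∈ D)
    (ha' : ∀ j < N, g j a ≠ 0) (hb' : ∀ j < N, g j b ≠ 0) :
    ∃ V K : Set ℂ, IsOpen V ∧ IsPreconnected V ∧ IsCompact K ∧ a ∈ V ∧ b ∈ V ∧ V ⊆ K ∧ K ⊆ D ∧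
      ∀ j < N, ∀ t ∈ K, g j t ≠ 0 := by
  set G : ℂ → ℂ := fun t => ∏ j ∈ Finset.range N, g j t with hG
  have aG : AnalyticOnNhd ℂ G D := fun t ht =>
    Finset.analyticAt_fun_prod _ fun j hj => hg j (Finset.mem_range.1 hj) t ht
  have nG : ∀ t, G t ≠ 0 ↔ ∀ j < N, g j t ≠ 0 := fun t => by
    simp [hG, Finset.prod_ne_zero_iff]
  have hp := preconn_diff (E := {t | G t = 0}) hD hD' fun t ht =>
    (aG t ht).eventually_eq_zero_or_eventually_ne_zero.resolve_left fun h =>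
      (nG a).2 ha' (aG.eqOn_zero_of_preconnected_of_eventuallyEq_zero hD' ht h ha)
  have ho : IsOpen (D \ {t | G t = 0}) :=
    aG.continuousOn.isOpen_inter_preimage hD (isOpen_compl_singleton (x := (0 : ℂ)))
  have ma : a ∈ D \ {t | G t = 0} := ⟨ha, (nG a).2 ha'⟩
  have mb : b ∈ D \ {t | G t = 0} := ⟨hb, (nG b).2 hb'⟩
  obtain ⟨γ, hγ⟩ := (ho.isConnected_iff_isPathConnected.1 ⟨⟨a, ma⟩, hp⟩).joinedIn a ma b mb
  have hc : IsCompact (range γ) := isCompact_range γ.continuous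
  obtain ⟨e, he, hth⟩ := hc.exists_cthickening_subset_open ho (range_subset_iff.2 hγ)
  refine ⟨thickening e (range γ), cthickening e (range γ), isOpen_thickening, ?_,
    hc.cthickening, self_subset_thickening he _ ⟨0, γ.source⟩,
    self_subset_thickening he _ ⟨1, γ.target⟩, thickening_subset_cthickening _ _,
    hth.trans sdiff_subset, fun j hj t ht => (nG t).1 (hth ht).2 j hj⟩
  rw [← add_ball_zero, ← add_image_prod]
  exact ((isPreconnected_range γ.continuous).prod (convex_ball 0 e).isPreconnected).image _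
    continuous_add.continuousOn

theorem fd_snd {Λ : (ℂ × ℂ × ℂ) × ℂ → ℂ} {G : ℂ → ℂ × ℂ × ℂ} {t c : ℂ}
    (hΛ : DifferentiableAt ℂ Λ (G t, c)) (hG : DifferentiableAt ℂ G t) :
    fderiv ℂ (fun y : ℂ × ℂ => Λ (G y.1, y.2)) (t, c) (0, 1) = fderiv ℂ Λ (G t, c) (0, 1) := by
  have h1 : DifferentiableAt ℂ (fun y : ℂ × ℂ => Λ (G y.1, y.2)) (t, c) :=
    hΛ.comp (t, c) ((hG.comp (t, c) differentiableAt_fst).prodMk differentiableAt_snd)
  exact (hasDerivAt_snd h1).unique (hasDerivAt_snd hΛ)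

theorem an_fd {Λ : (ℂ × ℂ × ℂ) × ℂ → ℂ} {v : ℕ → ℂ → ℂ} {j : ℕ} {t : ℂ}
    (hΛ : AnalyticAt ℂ Λ (st id v j t)) (h0 : AnalyticAt ℂ (v j) t)
    (h1 : AnalyticAt ℂ (v (j + 1)) t) (h2 : AnalyticAt ℂ (v (j + 2)) t) :
    AnalyticAt ℂ (fun t => fderiv ℂ Λ (st id v j t) (0, 1)) t :=
  ((ContinuousLinearMap.apply ℂ ℂ ((0, 1) : (ℂ × ℂ × ℂ) × ℂ)).analyticAt _).fun_comp
    (hΛ.fderiv.fun_comp (f := st id v j) ((analyticAt_id.prod (h0.prod h1)).prod h2))

/-- **CHAIND**, local form. -/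
theorem chainD0 {Λ : ℕ → (ℂ × ℂ × ℂ) × ℂ → ℂ} {v : ℕ → ℂ → ℂ} {y : ℂ} {δ : ℝ} (hδ : 0 < δ)
    (N : ℕ) (hΛ : ∀ j < N, AnalyticOnNhd ℂ (Λ j) {q | q.1.1 ∈ ball y δ})
    (h01 : ∀ j < 2, DifferentiableOn ℂ (v j) (ball y δ))
    (hv : ∀ j < N + 2, DifferentiableOn ℂ (v j) (HD y δ))
    (h0 : ∀ j < N, ∀ t ∈ HD y δ, Λ j (st id v j t) = 0)
    (hnd : ∀ j < N, ∀ t ∈ HD y δ, ∀ᶠ s in 𝓝[≠] t, fderiv ℂ (Λ j) (st id v j s) (0, 1) ≠ 0) :
    ∃ z ∈ ball y δ, z.im = y.im ∧ ∃ e > 0, ball z e ⊆ ball y δ ∧ ∃ w : ℕ → ℂ → ℂ,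
      w 0 = v 0 ∧ w 1 = v 1 ∧
      (∀ j < N + 2, DifferentiableOn ℂ (w j) (ball z e) ∧ ∀ t ∈ HD z e, w j t = v j t) ∧
      ∀ j < N, ∀ t ∈ ball z e, Λ j (st id w j t) = 0 ∧
        fderiv ℂ (Λ j) (st id w j t) (0, 1) ≠ 0 := by
  induction N with
  | zero => exact ⟨y, mem_ball_self hδ, rfl, δ, hδ, Subset.rfl, v, rfl, rfl,
      fun j hj => ⟨h01 j hj, fun _ _ => rfl⟩, by simp⟩
  | succ N ih =>
    obtain ⟨z, hz, zi, e, he, hsub, w, w0, w1, w2, w3⟩ := ih (fun j hj => hΛ j (by omega))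
      (fun j hj => hv j (by omega)) (fun j hj => h0 j (by omega)) (fun j hj => hnd j (by omega))
    have hs : ∀ z' e', z'.im = z.im → ball z' e' ⊆ ball z e → HD z' e' ⊆ HD z e :=
      fun z' e' h1 h2 t ht => ⟨h2 ht.1, by rw [← h1]; exact ht.2⟩
    have hs0 : HD z e ⊆ HD y δ := fun t ht => ⟨hsub ht.1, by rw [← zi]; exact ht.2⟩
    have a1 := (w2 N (by omega)).1.analyticOnNhd isOpen_ball
    have b1 := (w2 (N + 1) (by omega)).1.analyticOnNhd isOpen_ball
    have aG : AnalyticOnNhd ℂ (fun t => (t, w N t, w (N + 1) t)) (ball z e) := fun t ht =>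
      analyticAt_id.prod ((a1 t ht).prod (b1 t ht))
    set F : ℂ × ℂ → ℂ := fun q => Λ N ((q.1, w N q.1, w (N + 1) q.1), q.2) with hFd
    have hF : AnalyticOnNhd ℂ F (ball z e ×ˢ univ) := fun q hq =>
      (hΛ N (by omega) _ (hsub hq.1)).fun_comp
        (f := fun q : ℂ × ℂ => ((q.1, w N q.1, w (N + 1) q.1), q.2))
        (((aG q.1 hq.1).fun_comp analyticAt_fst).prod analyticAt_snd)
    have es : ∀ t ∈ HD z e, ((t, w N t, w (N + 1) t), v (N + 2) t) = st id v N t := by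
      intro t ht
      rw [(w2 N (by omega)).2 t ht, (w2 (N + 1) (by omega)).2 t ht]; rfl
    have fd : ∀ t ∈ ball z e, ∀ c, fderiv ℂ F (t, c) (0, 1) =
        fderiv ℂ (Λ N) ((t, w N t, w (N + 1) t), c) (0, 1) := fun t ht c =>
      fd_snd (G := fun t => (t, w N t, w (N + 1) t))
        (hΛ N (by omega) _ (hsub ht)).differentiableAt (aG t ht).differentiableAt
    have nd : ∀ z' e', 0 < e' → z'.im = z.im → ball z' e' ⊆ ball z e →
        ∃ t ∈ HD z' e', fderiv ℂ F (t, v (N + 2) t) (0, 1) ≠ 0 := by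
      intro z' e' h1 h2 h3
      have ho : IsOpen (HD z' e') := isOpen_ball.inter (isOpen_lt (by fun_prop) (by fun_prop))
      have hm : z' - (e' / 2 : ℝ) * Complex.I ∈ HD z' e' := by
        refine ⟨?_, by simp [h1]⟩
        rw [mem_ball, dist_eq_norm, sub_sub_cancel_left, norm_neg, norm_mul, Complex.norm_I,
          Complex.norm_real, Real.norm_eq_abs, abs_of_pos (by positivity)]
        linarith
      obtain ⟨t, k1, k2⟩ := ((hnd N (by omega) _ (hs0 (hs z' e' h2 h3 hm))).and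
        (mem_nhdsWithin_of_mem_nhds (ho.mem_nhds hm))).exists
      refine ⟨t, k2, ?_⟩
      rw [fd t (h3 k2.1), es t (hs z' e' h2 h3 k2)]
      exact k1
    obtain ⟨t1, ht1, hd1⟩ := nd z e he rfl Subset.rfl
    obtain ⟨c0, hc0⟩ : ∃ c0, F (t1, c0) ≠ 0 := by
      by_contra hn
      push Not at hn
      have k := hasDerivAt_snd (hF (t1, v (N + 2) t1) ⟨ht1.1, mem_univ _⟩).differentiableAt
      rw [show (fun c => F (t1, c)) = fun _ => 0 from funext hn] at k
      exact hd1 (k.unique (hasDerivAt_const _ _))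
    have hg : AnalyticOnNhd ℂ (fun t => F (t, c0)) (ball z e) := fun t ht =>
      (hF (t, c0) ⟨ht, mem_univ _⟩).fun_comp (f := fun t : ℂ => (t, c0))
        (analyticAt_id.prod analyticAt_const)
    have iso : ∀ᶠ s in 𝓝[≠] z, F (s, c0) ≠ 0 :=
      (hg z (mem_ball_self he)).eventually_eq_zero_or_eventually_ne_zero.resolve_left fun h =>
        hc0 (hg.eqOn_zero_of_preconnected_of_eventuallyEq_zero (convex_ball z e).isPreconnected
          (mem_ball_self he) h ht1.1)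
    obtain ⟨r, hr, hr'⟩ := Metric.mem_nhdsWithin_iff.1 iso
    set m := min r e with hm
    have m0 : 0 < m := lt_min hr he
    have bs : ball (z + (m / 2 : ℝ)) (m / 2) ⊆ ball z m \ {z} := by
      intro t ht
      have d : dist (z + (m / 2 : ℝ)) z = m / 2 := by
        rw [dist_eq_norm, add_sub_cancel_left, Complex.norm_real, Real.norm_eq_abs,
          abs_of_pos (by positivity)]
      refine ⟨ball_subset_ball' (by rw [d]; linarith) ht, fun h => ?_⟩
      rw [mem_singleton_iff.1 h, mem_ball, dist_comm, d] at ht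
      exact lt_irrefl _ ht
    have b2 : ball (z + (m / 2 : ℝ)) (m / 2) ⊆ ball z e :=
      (bs.trans sdiff_subset).trans (ball_subset_ball (min_le_right _ _))
    have i2 : (z + (m / 2 : ℝ)).im = z.im := by simp
    have s2 := hs _ _ i2 b2
    obtain ⟨z', hz', zi', e', he', hsub', ψ, p1, p2, p3⟩ := disc (F := F) (v := v (N + 2))
      (y := z + (m / 2 : ℝ)) (δ := m / 2) (by positivity) (hF.mono (prod_mono b2 Subset.rfl))
      ((hv (N + 2) (by omega)).mono (s2.trans hs0))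
      (fun t ht => by
        show Λ N ((t, w N t, w (N + 1) t), v (N + 2) t) = 0
        rw [es t (s2 ht)]; exact h0 N (by omega) t (hs0 (s2 ht)))
      (fun t ht _ => ⟨c0, hr' ⟨ball_subset_ball (min_le_left _ _) (bs ht).1, (bs ht).2⟩⟩)
      (nd _ _ (by positivity) i2 b2)
    have b3 := hsub'.trans b2
    have s3 := hs z' e' (zi'.trans i2) b3
    have u : ∀ j < N + 2, Function.update w (N + 2) ψ j = w j := fun j hj =>
      Function.update_of_ne (by omega) _ _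
    refine ⟨z', hsub (b2 hz'), (zi'.trans i2).trans zi, e', he', b3.trans hsub,
      Function.update w (N + 2) ψ, by rw [u 0 (by omega), w0], by rw [u 1 (by omega), w1],
      fun j hj => ?_, fun j hj t ht => ?_⟩
    · rcases Nat.lt_succ_iff_lt_or_eq.1 hj with hj | rfl
      · rw [u j hj]; exact ⟨(w2 j hj).1.mono b3, fun t ht => (w2 j hj).2 t (s3 ht)⟩
      · rw [Function.update_self]; exact ⟨p1, p2⟩
    · unfold st
      rcases Nat.lt_succ_iff_lt_or_eq.1 hj with hj | rfl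
      · rw [u j (by omega), u (j + 1) (by omega), u (j + 2) (by omega)]
        exact w3 j hj t (b3 ht)
      · rw [u j (by omega), u (j + 1) (by omega), Function.update_self]
        exact ⟨(p3 t ht).1, fd t (b3 ht) _ ▸ (p3 t ht).2⟩

/-- **CHAIND.** A chain `v` on the domain `B` under the level of `y`, nondegenerate at `t0`, whose
first two vertices are holomorphic on `ball y δ` too, continues to a connected open set `V` which
contains `t0` and a point of the level line, and is nondegenerate on a compact set `K ⊇ V`. -/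
theorem chainD {Λ : ℕ → (ℂ × ℂ × ℂ) × ℂ → ℂ} {v : ℕ → ℂ → ℂ} {B : Set ℂ} {y t0 : ℂ} {δ : ℝ}
    (hδ : 0 < δ) (hB : IsOpen B) (hB' : IsPreconnected B) (hsub : HD y δ ⊆ B)
    (hlow : ∀ t ∈ B, t.im < y.im) (ht0 : t0 ∈ B) (N : ℕ)
    (hΛ : ∀ j < N, AnalyticOnNhd ℂ (Λ j) {q | q.1.1 ∈ B ∪ ball y δ})
    (h01 : ∀ j < 2, DifferentiableOn ℂ (v j) (ball y δ))
    (hv : ∀ j < N + 2, DifferentiableOn ℂ (v j) B)
    (h0 : ∀ j < N, ∀ t ∈ B, Λ j (st id v j t) = 0)
    (hnd : ∀ j < N, fderiv ℂ (Λ j) (st id v j t0) (0, 1) ≠ 0) :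
    ∃ (z : ℂ) (V K : Set ℂ) (w : ℕ → ℂ → ℂ), z ∈ ball y δ ∧ z.im = y.im ∧ IsOpen V ∧
      IsPreconnected V ∧ IsCompact K ∧ t0 ∈ V ∧ z ∈ V ∧ V ⊆ K ∧ K ⊆ B ∪ ball y δ ∧
      (∀ j < 2, EqOn (w j) (v j) K) ∧
      (∀ j < N + 2, AnalyticOnNhd ℂ (w j) K ∧ EqOn (w j) (v j) B) ∧
      ∀ j < N, ∀ t ∈ K, Λ j (st id w j t) = 0 ∧ fderiv ℂ (Λ j) (st id w j t) (0, 1) ≠ 0 := by
  classical
  have av : ∀ j < N + 2, AnalyticOnNhd ℂ (v j) B := fun j hj => (hv j hj).analyticOnNhd hB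
  have ag : ∀ j < N, AnalyticOnNhd ℂ (fun t => fderiv ℂ (Λ j) (st id v j t) (0, 1)) B :=
    fun j hj t ht => an_fd (hΛ j hj _ (Or.inl ht)) (av j (by omega) t ht)
      (av (j + 1) (by omega) t ht) (av (j + 2) (by omega) t ht)
  obtain ⟨z, hz, zi, e, he, hs, w, w0, w1, w2, w3⟩ := chainD0 hδ N
    (fun j hj => (hΛ j hj).mono fun q hq => Or.inr hq) h01 (fun j hj => (hv j hj).mono hsub)
    (fun j hj t ht => h0 j hj t (hsub ht)) (fun j hj t ht =>
      (ag j hj t (hsub ht)).eventually_eq_zero_or_eventually_ne_zero.resolve_left fun h =>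
        hnd j hj ((ag j hj).eqOn_zero_of_preconnected_of_eventuallyEq_zero hB' (hsub ht) h ht0))
  set W : ℕ → ℂ → ℂ := fun j t => if t ∈ ball z e then w j t else v j t with hW
  have e1 : ∀ j, EqOn (W j) (w j) (ball z e) := fun j t ht => if_pos ht
  have e2 : ∀ j < N + 2, EqOn (W j) (v j) B := fun j hj t ht => by
    by_cases h : t ∈ ball z e
    · rw [e1 j h]; exact (w2 j hj).2 t ⟨h, by rw [zi]; exact hlow t ht⟩
    · exact if_neg h
  have aW : ∀ j < N + 2, AnalyticOnNhd ℂ (W j) (B ∪ ball z e) := by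
    rintro j hj t (ht | ht)
    · exact (av j hj t ht).congr ((e2 j hj).eventuallyEq_of_mem (hB.mem_nhds ht)).symm
    · exact ((w2 j hj).1.analyticOnNhd isOpen_ball t ht).congr
        ((e1 j).eventuallyEq_of_mem (isOpen_ball.mem_nhds ht)).symm
  have s1 : ∀ j, ∀ t ∈ ball z e, st id W j t = st id w j t := fun j t ht => by
    unfold st; rw [e1 j ht, e1 _ ht, e1 _ ht]
  have s2 : ∀ j < N, ∀ t ∈ B, st id W j t = st id v j t := fun j hj t ht => by
    unfold st; rw [e2 j (by omega) ht, e2 _ (by omega) ht, e2 _ (by omega) ht]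
  have hm : z - (e / 2 : ℝ) * Complex.I ∈ HD z e := by
    refine ⟨?_, by simp [he]⟩
    rw [mem_ball, dist_eq_norm, sub_sub_cancel_left, norm_neg, norm_mul, Complex.norm_I,
      Complex.norm_real, Real.norm_eq_abs, abs_of_pos (by positivity)]
    linarith
  have hU : B ∪ ball z e ⊆ B ∪ ball y δ := union_subset_union_right _ hs
  obtain ⟨V, K, k1, k2, k3, k4, k5, k6, k7, k8⟩ := dom (hB.union isOpen_ball)
    (hB'.union _ (hsub ⟨hs hm.1, by rw [← zi]; exact hm.2⟩) hm.1 (convex_ball z e).isPreconnected)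
    (g := fun j t => fderiv ℂ (Λ j) (st id W j t) (0, 1)) (N := N)
    (fun j hj t ht => an_fd (hΛ j hj _ (hU ht)) (aW j (by omega) t ht)
      (aW (j + 1) (by omega) t ht) (aW (j + 2) (by omega) t ht))
    (Or.inl ht0) (Or.inr (mem_ball_self he))
    (fun j hj => by rw [s2 j hj t0 ht0]; exact hnd j hj)
    (fun j hj => by rw [s1 j z (mem_ball_self he)]; exact (w3 j hj z (mem_ball_self he)).2)
  refine ⟨z, V, K, W, hz, zi, k1, k2, k3, k4, k5, k6, k7.trans hU, fun j hj t ht => ?_,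
    fun j hj => ⟨(aW j hj).mono k7, e2 j hj⟩, fun j hj t ht => ⟨?_, k8 j hj t ht⟩⟩
  · rcases k7 ht with h | h
    · exact e2 j (by omega) h
    · rw [e1 j h]
      obtain rfl | rfl : j = 0 ∨ j = 1 := by omega
      · rw [w0]
      · rw [w1]
  · rcases k7 ht with h | h
    · rw [s2 j hj t h]; exact h0 j hj t h
    · rw [s1 j t h]; exact (w3 j hj t h).1

end Vale.Agent.P097EE
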