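import Vale.Agent.P097EE.Norm
import Vale.Agent.P097EE.ChainP

/-! Limits of true chains which are bounded at one point. -/

open Filter Metric Set Topology

namespace Vale.Agent.P097EE

open Vale.Agent.P299.H720

variable {ι : Type*}

theorem tlu_iff {α β : Type*} [TopologicalSpace α] [UniformSpace β] {F : ι → α → β} {f : α → β}
    {l : Filter ι} {s : Set α} (hs : IsOpen s) (hf : ContinuousOn f s) :
    TendstoLocallyUniformlyOn F f l s ↔
      ∀ x ∈ s, Tendsto (fun y : ι × α => F y.1 y.2) (l ×ˢ 𝓝 x) (𝓝 (f x)) := by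
  rw [tendstoLocallyUniformlyOn_iff_forall_tendsto]
  refine forall₂_congr fun x hx => ?_
  rw [hs.nhdsWithin_eq hx]
  have h1 : Tendsto (fun y : ι × α => f y.2) (l ×ˢ 𝓝 x) (𝓝 (f x)) :=
    (hf.continuousAt (hs.mem_nhds hx)).tendsto.comp tendsto_snd
  exact ⟨fun h => h1.congr_uniformity h,
    fun h => (h1.prodMk_nhds h).mono_right (nhds_le_uniformity (f x))⟩

/-- **CHAINN.** True chains `u n 0, …, u n (N+1)` of the laws `Λn n j → Λ j`, holomorphic on `B`;
the first two vertices are locally bounded, the others are bounded near one point `t0` where the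
limit laws are not trivial. Then all vertices converge on `B` to a chain of the limit laws. -/
theorem chainN (𝒰 : Ultrafilter ι) {Λ : ℕ → (ℂ × ℂ × ℂ) × ℂ → ℂ}
    {Λn : ι → ℕ → (ℂ × ℂ × ℂ) × ℂ → ℂ} {u : ι → ℕ → ℂ → ℂ} {B : Set ℂ} (hB : IsOpen B)
    (hB' : IsPreconnected B) {t0 : ℂ} (ht0 : t0 ∈ B) (N : ℕ)
    (hΛ : ∀ j < N, AnalyticOnNhd ℂ (Λ j) {y | y.1.1 ∈ B})
    (hl : ∀ j < N, TendstoLocallyUniformlyOn (fun n => Λn n j) (Λ j) 𝒰 {y | y.1.1 ∈ B})
    (hu : ∀ j < N + 2, ∀ t ∈ B, ∃ δ > 0, ∀ᶠ n in (𝒰 : Filter ι),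
      DifferentiableOn ℂ (u n j) (ball t δ))
    (hlaw : ∀ j < N, ∀ t ∈ B, ∃ δ > 0, ∀ᶠ n in (𝒰 : Filter ι),
      ∀ y ∈ ball t δ, Λn n j (st id (u n) j y) = 0)
    (h01 : ∀ j < 2, ∀ t ∈ B, BdAt (𝒰 : Filter ι) (fun n => u n j) t)
    (hb : ∀ j < N + 2, BdAt (𝒰 : Filter ι) (fun n => u n j) t0)
    (hnd : ∀ j < N, ∀ a b, Tendsto (fun n => u n j t0) 𝒰 (𝓝 a) →
      Tendsto (fun n => u n (j + 1) t0) 𝒰 (𝓝 b) → ∃ c, Λ j ((t0, a, b), c) ≠ 0) :
    ∃ v : ℕ → ℂ → ℂ, (∀ j < N + 2, DifferentiableOn ℂ (v j) B ∧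
      TendstoLocallyUniformlyOn (fun n => u n j) (v j) 𝒰 B) ∧
      ∀ j < N, ∀ t ∈ B, Λ j (st id v j t) = 0 := by
  induction N with
  | zero =>
    have H : ∀ j, ∃ w : ℂ → ℂ, j < 2 → DifferentiableOn ℂ w B ∧
        TendstoLocallyUniformlyOn (fun n => u n j) w 𝒰 B := by
      intro j
      by_cases hj : j < 2
      · have hb : LocBdd (𝒰 : Filter ι) (fun n => u n j) B := fun t ht => by
          obtain ⟨δ1, h1, k1⟩ := hu j hj t ht
          obtain ⟨δ2, h2, C, k2⟩ := h01 j hj t ht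
          exact ⟨min δ1 δ2, lt_min h1 h2, C, (k1.and k2).mono fun n hn =>
            ⟨hn.1.mono (ball_subset_ball (min_le_left _ _)), fun y hy =>
              hn.2 y (ball_subset_ball (min_le_right _ _) hy)⟩⟩
        obtain ⟨w, hw, hwl, -⟩ := montel_full 𝒰 hB hb
        exact ⟨w, fun _ => ⟨hw, hwl⟩⟩
      · exact ⟨0, fun h => absurd h hj⟩
    choose v hv using H
    exact ⟨v, hv, by simp⟩
  | succ N ih =>
    obtain ⟨v, hv, hv0⟩ := ih (fun j hj => hΛ j (by omega)) (fun j hj => hl j (by omega))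
      (fun j hj => hu j (by omega)) (fun j hj => hlaw j (by omega)) (fun j hj => hb j (by omega))
      (fun j hj => hnd j (by omega))
    obtain ⟨a1, a2⟩ := hv N (by omega)
    obtain ⟨b1, b2⟩ := hv (N + 1) (by omega)
    have hS : IsOpen {y : (ℂ × ℂ × ℂ) × ℂ | y.1.1 ∈ B} := hB.preimage (by fun_prop)
    have hop : IsOpen (B ×ˢ (univ : Set ℂ)) := hB.prod isOpen_univ
    have hG : AnalyticOnNhd ℂ (fun y : ℂ × ℂ => ((y.1, v N y.1, v (N + 1) y.1), y.2))
        (B ×ˢ univ) := fun y hy =>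
      (analyticAt_fst.prod (((a1.analyticOnNhd hB y.1 hy.1).fun_comp analyticAt_fst).prod
        ((b1.analyticOnNhd hB y.1 hy.1).fun_comp analyticAt_fst))).prod analyticAt_snd
    have hF : AnalyticOnNhd ℂ (fun y : ℂ × ℂ => Λ N ((y.1, v N y.1, v (N + 1) y.1), y.2))
        (B ×ˢ univ) := fun y hy => (hΛ N (by omega) _ hy.1).fun_comp (hG y hy)
    obtain ⟨c0, hc0⟩ := hnd N (by omega) _ _ (a2.tendsto_at ht0) (b2.tendsto_at ht0)
    have hg : AnalyticOnNhd ℂ (fun t : ℂ => Λ N ((t, v N t, v (N + 1) t), c0)) B := fun t ht =>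
      (hF (t, c0) ⟨ht, mem_univ _⟩).fun_comp (f := fun t : ℂ => (t, c0))
        (analyticAt_id.prod analyticAt_const)
    obtain ⟨-, w, w1, w2, w3⟩ := norm1 𝒰 (u := fun n => u n (N + 2))
      (Fn := fun n y => Λn n N ((y.1, u n N y.1, u n (N + 1) y.1), y.2))
      (E := {t | Λ N ((t, v N t, v (N + 1) t), c0) = 0}) hB hB'
      (fun t ht => (hg t ht).eventually_eq_zero_or_eventually_ne_zero.resolve_left fun h =>
        hc0 (hg.eqOn_zero_of_preconnected_of_eventuallyEq_zero hB' ht h ht0))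
      hF.continuousOn (by
        rw [tlu_iff hop hF.continuousOn]
        intro y hy
        have p1 : Tendsto (fun z : ι × ℂ × ℂ => (z.1, z.2.1)) ((𝒰 : Filter ι) ×ˢ 𝓝 y)
            ((𝒰 : Filter ι) ×ˢ 𝓝 y.1) :=
          tendsto_fst.prodMk ((continuous_fst.tendsto y).comp tendsto_snd)
        have k1 := ((tlu_iff hB a1.continuousOn).1 a2 y.1 hy.1).comp p1
        have k2 := ((tlu_iff hB b1.continuousOn).1 b2 y.1 hy.1).comp p1
        have k3 : Tendsto (fun z : ι × ℂ × ℂ => z.2.1) ((𝒰 : Filter ι) ×ˢ 𝓝 y) (𝓝 y.1) :=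
          (continuous_fst.tendsto y).comp tendsto_snd
        have k4 : Tendsto (fun z : ι × ℂ × ℂ => z.2.2) ((𝒰 : Filter ι) ×ˢ 𝓝 y) (𝓝 y.2) :=
          (continuous_snd.tendsto y).comp tendsto_snd
        exact ((tlu_iff hS (hΛ N (by omega)).continuousOn).1 (hl N (by omega))
          ((y.1, v N y.1, v (N + 1) y.1), y.2) hy.1).comp
          (tendsto_fst.prodMk ((k3.prodMk_nhds (k1.prodMk_nhds k2)).prodMk_nhds k4)))
      (fun t ht c => ((hF (t, c) ⟨ht, mem_univ _⟩).fun_comp (f := fun c : ℂ => (t, c))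
        (analyticAt_const.prod analyticAt_id)).differentiableAt)
      (fun t _ htE => ⟨c0, htE⟩) (fun t ht => by
        obtain ⟨δ1, h1, k1⟩ := hu (N + 2) (by omega) t ht
        obtain ⟨δ2, h2, k2⟩ := hlaw N (by omega) t ht
        refine ⟨min δ1 δ2, lt_min h1 h2, (k1.and k2).mono fun n hn =>
          ⟨hn.1.mono (ball_subset_ball (min_le_left _ _)), fun y hy =>
            hn.2 y (ball_subset_ball (min_le_right _ _) hy)⟩⟩) ht0 (hb (N + 2) (by omega))
    have e : ∀ j < N + 2, Function.update v (N + 2) w j = v j := fun j hj =>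
      Function.update_of_ne (by omega) _ _
    refine ⟨Function.update v (N + 2) w, fun j hj => ?_, fun j hj t ht => ?_⟩
    · rcases Nat.lt_succ_iff_lt_or_eq.1 hj with hj | rfl
      · rw [e j hj]; exact hv j hj
      · rw [Function.update_self]; exact ⟨w1, w2⟩
    · unfold st
      rcases Nat.lt_succ_iff_lt_or_eq.1 hj with hj | rfl
      · rw [e j (by omega), e (j + 1) (by omega), e (j + 2) (by omega)]
        exact hv0 j hj t ht
      · rw [e j (by omega), e (j + 1) (by omega), Function.update_self]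
        exact w3 t ht

end Vale.Agent.P097EE
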