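import Vale.Agent.P097EE.LFDefs

/-!
# P097EE.LF: the assembly of the local system at a fold
-/

set_option linter.all false

noncomputable section

namespace Vale.Agent.P097EE.LF

open Filter Topology Set Metric Complex Vale.Agent.P097N Vale.Agent.P097Mo

namespace All

variable {θ h Q : ℂ → ℂ} {c : ℂ} {U : Set ℂ} {ε r z δ : ℂ} {ρ K : ℝ}

theorem r_ne (H : Fd θ h Q c U ε r z δ ρ K) : r ≠ 0 := by
  rintro rfl
  have h1 := H.r1
  rw [norm_zero, zero_pow two_ne_zero, mul_zero] at h1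
  exact H.e0 (norm_le_zero_iff.1 h1)

theorem d_ne (H : Fd θ h Q c U ε r z δ ρ K) {y : ℂ} (hy : ‖y - z‖ < ρ) : deriv θ y ≠ 0 := by
  intro h0
  have h1 := (H.bd y (mem_ball_iff_norm.2 (by linarith [norm_nonneg (y - z)]))).1
  rw [h0, mul_zero, norm_zero, mul_zero] at h1
  exact absurd h1 (by norm_num)

theorem fa_ac (hr : r ≠ 0) {a b : ℂ} (hb : deriv θ b ≠ 0) :
    fa θ r z δ (acF θ r z δ (a, b)) = a := by
  simp only [fa, acF, add_sub_cancel]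
  field_simp
  ring

theorem fc_cu (hr : r ≠ 0) {p : C2} {b c : ℂ} (hp : z + p.2 = b) (hb : deriv θ b ≠ 0) :
    fc θ r z δ (p, cu θ r δ (b, c)) = c := by
  simp only [fc, cu, hp]
  field_simp
  ring

theorem cu_fc (hr : r ≠ 0) {p : C2} {b v : ℂ} (hp : z + p.2 = b) (hb : deriv θ b ≠ 0) :
    cu θ r δ (b, fc θ r z δ (p, v)) = v := by
  simp only [fc, cu, hp]
  field_simp
  ring

theorem ac_fa (hr : r ≠ 0) {p : C2} (hb : deriv θ (z + p.2) ≠ 0) :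
    acF θ r z δ (fa θ r z δ p, z + p.2) = p := by
  refine Prod.ext ?_ (add_sub_cancel_left _ _)
  simp only [fa, acF]
  field_simp
  ring

theorem z_ac (a b : ℂ) : z + (acF θ r z δ (a, b)).2 = b := add_sub_cancel _ _

theorem law (hr : r ≠ 0) {a b c' : ℂ} (hb : deriv θ b ≠ 0) (hE : EE θ h a b c' = 0) :
    FF θ h c r z δ (acF θ r z δ (a, b), cu θ r δ (b, c')) = 0 := by
  rw [FF, fc_cu hr (z_ac a b) hb, fa_ac hr hb, z_ac, hE, mul_zero]

theorem nxt (hr : r ≠ 0) {p : C2} {b c' : ℂ} (hp : z + p.2 = b) (hb : deriv θ b ≠ 0) :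
    GF θ r z δ (p, cu θ r δ (b, c')) = acF θ r z δ (b, c') := by
  rw [GF, fc_cu hr hp hb, hp]

theorem HF_ac (hr : r ≠ 0) {b c' : ℂ} (hc : deriv θ c' ≠ 0) :
    HF θ r z δ (acF θ r z δ (b, c')) = (cu θ r δ (b, c'), b - z) := by
  rw [HF, fa_ac hr hc, z_ac]

theorem An_sub {l L e : ℝ} (hl : 1 ≤ l) {p : C2} (hp : p ∈ An (2 * l) (L / 2) (e / 2)) :
    p ∈ An l L e := by
  obtain ⟨h1, h2, h3⟩ := hp
  exact ⟨by linarith, by linarith [sq_nonneg ‖p.1‖], by linarith [norm_nonneg p.2]⟩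

theorem an_d (H : Cv θ h Q c U) {y : ℂ} (hy : y ∈ U) : AnalyticAt ℂ (deriv θ) y :=
  (H.dθ.analyticAt (H.op.mem_nhds hy)).deriv

theorem an_ac (H : Cv θ h Q c U) {p : C2} (hp : p.2 ∈ U) : AnalyticAt ℂ (acF θ r z δ) p := by
  have h1 : AnalyticAt ℂ (fun q : C2 => deriv θ q.2) p := (an_d H hp).comp analyticAt_snd
  exact (((h1.mul (analyticAt_snd.sub analyticAt_fst)).sub analyticAt_const).div_const).prod
    (analyticAt_snd.sub analyticAt_const)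

theorem an_cu (H : Cv θ h Q c U) {p : C2} (hp : p.1 ∈ U) : AnalyticAt ℂ (cu θ r δ) p := by
  have h1 : AnalyticAt ℂ (fun q : C2 => deriv θ q.1) p := (an_d H hp).comp analyticAt_fst
  exact ((h1.mul (analyticAt_snd.sub analyticAt_fst)).sub analyticAt_const).div_const

end All

open All

theorem lfa : S_LFA := by
  intro hE hG hD hS hT 𝒰 ε θ h Q c U g Lw y₀ j z r L hseq hy hg hg' hj hz hr hεL hL
  have hδ : ((j : ℂ) * (Real.pi : ℂ)) ≠ 0 :=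
    mul_ne_zero (Int.cast_ne_zero.2 hj) (ofReal_ne_zero.2 Real.pi_ne_zero)
  obtain ⟨ρ, K, m, hρ, hρ1, hK, hm, hFd, hμ⟩ :=
    hD 𝒰 ε θ h Q c U g Lw y₀ _ z r hseq hy hg hg' hδ hz hr
  obtain ⟨C₁, ε₁, hC₁, hε₁, hE⟩ := hE j ρ K hj hρ hρ1 hK
  obtain ⟨C₂, ε₂, hC₂, hε₂, hG⟩ := hG ((j : ℂ) * (Real.pi : ℂ)) ρ K hρ hK
  obtain ⟨C, l, c₀, ε₀, hC, hl, hc₀, hε₀, hT⟩ := hT j ρ K hj hρ hρ1 hK
  generalize ((j : ℂ) * (Real.pi : ℂ)) = δ at *
  have hen : Tendsto (fun n => ‖ε n‖) 𝒰 (𝓝 0) := tendsto_zero_iff_norm_tendsto_zero.1 hseq.el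
  have hr0 : Tendsto r 𝒰 (𝓝 0) := by
    have h1 : Tendsto (fun n => √(K * ‖ε n‖)) 𝒰 (𝓝 0) := by
      simpa using (hen.const_mul K).sqrt
    refine squeeze_zero_norm' ?_ h1
    filter_upwards [hFd] with n hn
    exact Real.le_sqrt_of_sq_le hn.r2
  have hex : ∀ n, ∃ v x, Fd (θ n) (h n) (Q n) (c n) (U n) (ε n) (r n) (z n) δ ρ K → 1 ≤ L n →
      ‖ε n‖ * L n ≤ ε₀ →
      Two (θ n) (h n) (c n) (ε n) (r n) (z n) δ C l (L n) (ρ / 2) c₀ v x := by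
    intro n
    by_cases hn : Fd (θ n) (h n) (Q n) (c n) (U n) (ε n) (r n) (z n) δ ρ K ∧ 1 ≤ L n ∧
      ‖ε n‖ * L n ≤ ε₀
    · obtain ⟨v, x, hv⟩ := hT _ _ _ _ _ _ _ _ _ hn.1 hn.2.1 hn.2.2
      exact ⟨v, x, fun _ _ _ => hv⟩
    · exact ⟨0, 0, fun h1 h2 h3 => absurd ⟨h1, h2, h3⟩ hn⟩
  choose v x hvx using hex
  have hTwo : ∀ᶠ n in (𝒰 : Filter ℕ),
      Two (θ n) (h n) (c n) (ε n) (r n) (z n) δ C l (L n) (ρ / 2) c₀ (v n) (x n) := by
    filter_upwards [hFd, hL.eventually_ge_atTop 1, hεL.eventually_le_const hε₀] with n h1 h2 h3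
    exact hvx n h1 h2 h3
  have hsys := hS 𝒰 ε r (fun n e => mu (θ n) (r n) δ (z n + e)) m ρ (C₁ + C₂)
    (fun n => FF (θ n) (h n) (c n) (r n) (z n) δ) (fun n => GF (θ n) (r n) (z n) δ) hseq.el hr0 hm
    hμ (by
      filter_upwards [hFd, hen.eventually_le_const hε₁, hen.eventually_le_const hε₂]
        with n h1 h2 h3 s e w he hs hw
      obtain ⟨a1, a2⟩ := hE _ _ _ _ _ _ _ _ h1 h2 s e w he hs hw
      obtain ⟨b1, b2, b3⟩ := (hG _ _ _ _ _ _ _ _ h1 h3).1 s e w he hw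
      refine ⟨a1, b1, a2.trans ?_, b2.trans ?_, b3.trans ?_⟩ <;> gcongr <;> linarith)
  refine ⟨_, _, _, _, _, fun _ => id, fun _ => id,
    fun n p => GF (θ n) (r n) (z n) δ (p, v n p),
    fun n p => (x n p, (HF (θ n) (r n) (z n) δ p).2), v, C, l, ρ / 2,
    fun n => acF (θ n) (r n) (z n) δ, fun n => cu (θ n) (r n) δ,
    ⟨hsys, hC, hl, half_pos hρ, fun s _ => ⟨1, ‖s‖ + 1, one_pos, Eventually.of_forall fun n =>
      ⟨analyticOnNhd_id, fun y hy => ?_⟩⟩, ?_, ?_, fun R => ?_⟩,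
    ⟨fun n p hp => ⟨an_ac (hseq.cv n) hp.2, an_ac (hseq.cv n) hp.2, an_cu (hseq.cv n) hp.1⟩, ?_,
      c₀, hc₀, ?_⟩⟩
  · have h1 := norm_sub_norm_le y s
    have h2 := mem_ball_iff_norm.1 hy
    change ‖y‖ ≤ _
    linarith
  · filter_upwards [hFd, hTwo] with n h1 h2
    refine ⟨h2.s1, h2.s2, fun p hp => ?_⟩
    obtain ⟨i1, i2, i3⟩ := h2.iv p hp
    have e1 := (h2.u1 _ i1 p (An_sub hl hp) i2 rfl i3).1
    have hb : deriv (θ n) (z n + p.2) ≠ 0 := d_ne h1 (by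
      rw [add_sub_cancel_left]
      linarith [hp.2.2])
    have ha : deriv (θ n) (fa (θ n) (r n) (z n) δ p) ≠ 0 := d_ne h1 (by
      have : ‖fa (θ n) (r n) (z n) δ p - z n‖ < ρ / 2 := i1.2.2
      linarith)
    beta_reduce
    rw [← e1]
    exact (nxt (r_ne h1) (add_sub_cancel _ _) ha).trans (ac_fa (r_ne h1) hb)
  · filter_upwards [hTwo] with n h2 s hs
    exact ⟨analyticAt_id, (h2.r1 s hs).1, rfl, (h2.r1 s hs).2.1, fun _ => rfl⟩
  · have hp : 0 < 2 * √|R| + 1 := by positivity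
    refine ⟨closedBall 0 √|R| ×ˢ closedBall 0 (ρ / 2), 1 / (2 * √|R| + 1),
      (isCompact_closedBall _ _).prod (isCompact_closedBall _ _),
      prod_mono (subset_univ _) (closedBall_subset_ball (half_lt_self hρ)), by positivity, ?_⟩
    filter_upwards [hTwo, hL.eventually_ge_atTop R] with n h2 h3 s hs
    obtain ⟨-, -, a1, a2⟩ := h2.r1 s ⟨hs.1, hs.2.1.trans_le h3, hs.2.2⟩
    have b1 : ‖s.1‖ ≤ √|R| := Real.le_sqrt_of_sq_le (hs.2.1.le.trans (le_abs_self R))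
    refine ⟨⟨mem_closedBall_zero_iff.2 b1, mem_closedBall_zero_iff.2 hs.2.2.le⟩, ?_,
      le_trans ?_ a2⟩
    · rw [one_div_one_div]
      linarith
    · rw [div_le_one hp]
      linarith [Real.sqrt_nonneg |R|]
  · filter_upwards [hFd] with n h1 a b c'
    refine ⟨fun hO hE => ?_, fun hA => ⟨rfl, fun e => ?_⟩⟩
    · have hb : deriv (θ n) b ≠ 0 := d_ne h1 (mem_ball_zero_iff.1 hO.2)
      exact ⟨law (r_ne h1) hb hE, (nxt (r_ne h1) (z_ac a b) hb).symm⟩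
    · have hb : deriv (θ n) b ≠ 0 := d_ne h1 (by
        have : ‖b - z n‖ < ρ / 2 := hA.2.2
        linarith)
      have e1 : c' = fc (θ n) (r n) (z n) δ (acF (θ n) (r n) (z n) δ (a, b),
          v n (acF (θ n) (r n) (z n) δ (a, b))) := sub_left_injective (congrArg Prod.snd e)
      beta_reduce
      rw [e1]
      exact cu_fc (r_ne h1) (z_ac a b) hb
  · filter_upwards [hFd, hTwo] with n h1 h2 a b c' hA hB hn hE
    have hb : deriv (θ n) b ≠ 0 := d_ne h1 (by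
      have : ‖b - z n‖ < ρ / 2 / 2 := hA.2.2
      linarith)
    have hc : deriv (θ n) c' ≠ 0 := d_ne h1 (by
      have : ‖c' - z n‖ < ρ / 2 / 2 := hB.2.2
      linarith)
    have e0 := HF_ac (z := z n) (δ := δ) (b := b) (r_ne h1) hc
    obtain ⟨e1, e2⟩ := h2.u1 _ (An_sub hl hA) _ (An_sub hl hB) hn (by rw [e0]; rfl)
      (by rw [e0]; exact law (r_ne h1) hb hE)
    beta_reduce
    refine ⟨?_, Prod.ext e2 (by rw [e0]; rfl)⟩
    rw [← e1, e0]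
    exact (nxt (r_ne h1) (z_ac a b) hb).symm

end Vale.Agent.P097EE.LF
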