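import Vale.Agent.P097EE.LFDefs
import Vale.Agent.P097Mo.Cc

/-!
# P097EE.LF: the data at a fold along the sequence
-/

set_option linter.all false

noncomputable section

namespace Vale.Agent.P097EE.LF

open Filter Topology Set Metric Complex Vale.Agent.P097N Vale.Agent.P097Mo

namespace Dat

variable {θ h Q : ℂ → ℂ} {c ε r z δ : ℂ} {U : Set ℂ} {ρ P : ℝ}

lemma mu_eq (e0 : ε ≠ 0) (δ0 : δ ≠ 0) (h0 : ε * deriv θ z ≠ 0)
    (hr : r ^ 2 * deriv θ z ^ 2 = -48 * δ * deriv (deriv θ) z) (y : ℂ) :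
    mu θ r δ y = ε * deriv (deriv θ) y * (ε * deriv θ z) ^ 2 /
      (ε * deriv (deriv θ) z * (ε * deriv θ y) ^ 2) := by
  have n := right_ne_zero_of_mul h0
  rw [mu, eq_div_of_mul_eq (pow_ne_zero 2 n) hr]
  by_cases a : deriv (deriv θ) z = 0
  · simp [a]
  by_cases b : deriv θ y = 0
  · simp [b]
  field_simp

lemma fd (cv : Cv θ h Q c U) (sub : ball z (2 * ρ) ⊆ U) (e0 : ε ≠ 0) (ρ0 : 0 < ρ) (P1 : 1 ≤ P)
    (d1 : ‖δ‖ ≤ P) (d2 : 1 ≤ P * ‖δ‖) (d3 : 1 ≤ P * ‖ε * deriv (deriv θ) z‖)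
    (hr : r ^ 2 * deriv θ z ^ 2 = -48 * δ * deriv (deriv θ) z)
    (bd : ∀ y ∈ ball z (2 * ρ), 1 ≤ P * ‖ε * deriv θ y‖ ∧ ‖ε * deriv θ y‖ ≤ P ∧
      ‖ε * deriv (deriv θ) y‖ ≤ P ∧ ‖ε * deriv (deriv (deriv θ)) y‖ ≤ P) :
    Fd θ h Q c U ε r z δ ρ (max (48 * P ^ 4) ((P ^ 6 + 1) / (2 * ρ))) := by
  have P0 : 0 < P := by linarith
  have zm : z ∈ ball z (2 * ρ) := mem_ball_self (by linarith)
  have ne : ∀ w : ℂ, 1 ≤ P * ‖w‖ → w ≠ 0 := fun w h e => by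
    rw [e, norm_zero, mul_zero] at h
    linarith
  obtain ⟨z1, z2, z3, -⟩ := bd z zm
  have k1 : 48 * P ^ 4 ≤ max (48 * P ^ 4) ((P ^ 6 + 1) / (2 * ρ)) := le_max_left _ _
  have k2 : (P ^ 6 + 1) / (2 * ρ) ≤ max (48 * P ^ 4) ((P ^ 6 + 1) / (2 * ρ)) := le_max_right _ _
  generalize max (48 * P ^ 4) ((P ^ 6 + 1) / (2 * ρ)) = K at k1 k2 ⊢
  have p2 : P ≤ P ^ 2 := le_self_pow₀ P1 two_ne_zero
  have p4 : P ^ 2 ≤ P ^ 4 := pow_le_pow_right₀ P1 (by norm_num)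
  have e : ‖r‖ ^ 2 * ‖ε * deriv θ z‖ ^ 2 = 48 * ‖δ‖ * ‖ε‖ * ‖ε * deriv (deriv θ) z‖ := by
    have : r ^ 2 * (ε * deriv θ z) ^ 2 = -(48 * δ * ε * (ε * deriv (deriv θ) z)) := by
      linear_combination ε ^ 2 * hr
    have := congrArg norm this
    rwa [norm_neg, norm_mul (r ^ 2), norm_pow, norm_pow, norm_mul (48 * δ * ε), norm_mul (48 * δ),
      norm_mul 48, Complex.norm_ofNat] at this
  have me := mu_eq e0 (ne _ d2) (ne _ z1) hr
  have dm : DifferentiableOn ℂ (mu θ r δ) (ball z (2 * ρ)) := by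
    have a1 := (cv.dθ.mono sub).deriv isOpen_ball
    refine ((((a1.deriv isOpen_ball).const_mul ε).mul_const _).div
      (((a1.const_mul ε).pow 2).const_mul _) fun y hy => ?_).congr fun y _ => me y
    exact mul_ne_zero (ne _ d3) (pow_ne_zero 2 (ne _ (bd y hy).1))
  have m1 : mu θ r δ z = 1 := by
    rw [me, div_self (mul_ne_zero (ne _ d3) (pow_ne_zero 2 (ne _ z1)))]
  have bm : ∀ y ∈ ball z (2 * ρ), ‖mu θ r δ y‖ ≤ P ^ 6 := fun y hy => by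
    obtain ⟨y1, -, y3, -⟩ := bd y hy
    have n1 := norm_pos_iff.2 (ne _ d3)
    have n2 := norm_pos_iff.2 (ne _ y1)
    rw [me, norm_div, norm_mul (ε * _), norm_mul (ε * _), norm_pow, norm_pow,
      div_le_iff₀ (by positivity)]
    calc _ ≤ P * P ^ 2 * (1 * 1 ^ 2) := by rw [one_pow, mul_one, mul_one]; gcongr
      _ ≤ P * P ^ 2 * (P * ‖ε * deriv (deriv θ) z‖ * (P * ‖ε * deriv θ y‖) ^ 2) := by gcongr
      _ = _ := by ring
  refine ⟨cv, sub, e0, ?_, ?_, fun y hy => ?_⟩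
  · calc ‖ε‖ = ‖ε‖ * (1 * 1) := by ring
      _ ≤ ‖ε‖ * (P * ‖δ‖ * (P * ‖ε * deriv (deriv θ) z‖)) := by gcongr
      _ = P ^ 2 / 48 * (‖r‖ ^ 2 * ‖ε * deriv θ z‖ ^ 2) := by rw [e]; ring
      _ ≤ P ^ 2 / 48 * (‖r‖ ^ 2 * P ^ 2) := by gcongr
      _ = P ^ 4 / 48 * ‖r‖ ^ 2 := by ring
      _ ≤ _ := by gcongr; nlinarith
  · calc ‖r‖ ^ 2 = ‖r‖ ^ 2 * 1 ^ 2 := by ring
      _ ≤ ‖r‖ ^ 2 * (P * ‖ε * deriv θ z‖) ^ 2 := by gcongr
      _ = P ^ 2 * (48 * ‖δ‖ * ‖ε‖ * ‖ε * deriv (deriv θ) z‖) := by rw [← e]; ring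
      _ ≤ P ^ 2 * (48 * P * ‖ε‖ * P) := by gcongr
      _ = 48 * P ^ 4 * ‖ε‖ := by ring
      _ ≤ _ := by gcongr
  obtain ⟨y1, y2, y3, y4⟩ := bd y hy
  have PK : P ^ 2 ≤ K := by nlinarith
  refine ⟨y1.trans (by gcongr; linarith), by linarith, by linarith, ?_, ?_⟩
  · rw [cv.hq y (sub hy), mul_left_comm, norm_mul] at y4
    calc ‖Q y‖ = ‖Q y‖ * 1 := by ring
      _ ≤ ‖Q y‖ * (P * ‖ε * deriv θ y‖) := by gcongr
      _ = P * (‖Q y‖ * ‖ε * deriv θ y‖) := by ring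
      _ ≤ P * P := by gcongr
      _ ≤ K := by linarith
  · have := dist_le_div_mul_dist_of_mapsTo_ball (R₂ := P ^ 6 + 1) dm (fun w hw => by
      rw [m1, mem_closedBall_iff_norm]
      exact (norm_sub_le _ _).trans (by simpa using bm w hw)) hy
    rw [m1, dist_eq_norm, dist_eq_norm] at this
    exact this.trans (by gcongr)

end Dat

open Dat

theorem lfd : S_LFD := by
  intro 𝒰 ε θ h Q c U g Lw y₀ δ z r S y0 g0 g1 δ0 hz hr
  have hE : EH 𝒰 (fun j y => ε j * deriv (θ j) y) Lw := fun x hx =>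
    (S.ex x hx).imp fun ρ h => ⟨h.1, h.2.mono fun j hj =>
      (((S.cv j).dθ.mono hj).deriv isOpen_ball).const_mul _⟩
  have c0 := S.cc
  have c1 := cc_deriv 𝒰 S.op hE S.dg c0
  have c2 := cc_deriv 𝒰 S.op hE.deriv (S.dg.deriv S.op) c1
  simp only [deriv_const_mul_field'] at c1 c2
  have ag := S.dg.analyticOnNhd S.op
  have n0 := norm_pos_iff.2 g0
  have n1 := norm_pos_iff.2 g1
  have n2 := norm_pos_iff.2 δ0
  obtain ⟨R, R0, hR⟩ := Metric.eventually_nhds_iff_ball.1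
    (((ag y₀ y0).continuousAt.norm.eventually (lt_mem_nhds (half_lt_self n0))).and
      (S.op.mem_nhds y0))
  obtain ⟨R', R'0, hR'⟩ := S.ex y₀ y0
  obtain ⟨ρ, ρ0, ρ1, ρ2, ρ3⟩ : ∃ ρ : ℝ, 0 < ρ ∧ ρ ≤ 1 ∧ 3 * ρ < R ∧ 3 * ρ < R' :=
    ⟨min 1 (min R R' / 4), lt_min one_pos (by positivity), min_le_left _ _,
      by linarith [min_le_right 1 (min R R' / 4), min_le_left R R'],
      by linarith [min_le_right 1 (min R R' / 4), min_le_right R R']⟩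
  have cK := isCompact_closedBall y₀ (3 * ρ)
  have sK : closedBall y₀ (3 * ρ) ⊆ Lw := fun y hy => (hR y (closedBall_subset_ball ρ2 hy)).2
  have a0 := (ag.mono sK).continuousOn
  have a1 := (ag.deriv.mono sK).continuousOn
  have a2 := (ag.deriv.deriv.mono sK).continuousOn
  obtain ⟨B0, hB0⟩ := cK.exists_bound_of_continuousOn a0
  obtain ⟨B1, hB1⟩ := cK.exists_bound_of_continuousOn a1
  obtain ⟨B2, hB2⟩ := cK.exists_bound_of_continuousOn a2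
  obtain ⟨P, P1, p1, p2, p3, p4, p5, p6, p7⟩ : ∃ P : ℝ, 1 ≤ P ∧ B0 + ‖g y₀‖ / 4 ≤ P ∧ B1 + 1 ≤ P ∧
      B2 + 1 ≤ P ∧ ‖δ‖ ≤ P ∧ 1 / ‖δ‖ ≤ P ∧ 4 / ‖g y₀‖ ≤ P ∧ 2 / ‖deriv g y₀‖ ≤ P :=
    ((eventually_ge_atTop _).and ((eventually_ge_atTop _).and ((eventually_ge_atTop _).and
      ((eventually_ge_atTop _).and ((eventually_ge_atTop _).and ((eventually_ge_atTop _).and
        ((eventually_ge_atTop _).and (eventually_ge_atTop _)))))))).exists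
  rw [div_le_iff₀ n2] at p5
  rw [div_le_iff₀ n0] at p6
  rw [div_le_iff₀ n1] at p7
  have mem : ∀ e ∈ closedBall (0 : ℂ) ρ, y₀ + e ∈ closedBall y₀ (3 * ρ) := fun e he => by
    rw [mem_closedBall_zero_iff] at he
    rw [mem_closedBall_iff_norm, add_sub_cancel_left]
    linarith
  have ne : ∀ y ∈ closedBall y₀ (3 * ρ), g y ≠ 0 := fun y hy =>
    norm_pos_iff.1 ((half_pos n0).trans (hR y (closedBall_subset_ball ρ2 hy)).1)
  have am : AnalyticOnNhd ℂ (fun e => deriv g (y₀ + e) * g y₀ ^ 2 / (deriv g y₀ * g (y₀ + e) ^ 2))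
      (closedBall 0 ρ) := fun e he => by
    have s : AnalyticAt ℂ (fun e => y₀ + e) e := analyticAt_const.add analyticAt_id
    exact (((ag.deriv _ (sK (mem e he))).comp s).mul analyticAt_const).div
      (analyticAt_const.mul (((ag _ (sK (mem e he))).comp s).pow 2))
      (mul_ne_zero g1 (pow_ne_zero 2 (ne _ (mem e he))))
  have t0 := c0 y₀ y0 z hz
  have t1 := c1 y₀ y0 z hz
  refine ⟨ρ, max (48 * P ^ 4) ((P ^ 6 + 1) / (2 * ρ)), _, ρ0, ρ1,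
    le_max_of_le_left (by linarith [one_le_pow₀ (n := 4) P1]), am.mono ball_subset_closedBall,
    ?_, fun σ σ0 => ?_⟩
  · filter_upwards [hr, hR', hz (ball_mem_nhds y₀ ρ0),
      cc_unif 𝒰 c0 cK sK a0 (show 0 < ‖g y₀‖ / 4 by positivity), cc_unif 𝒰 c1 cK sK a1 one_pos,
      cc_unif 𝒰 c2 cK sK a2 one_pos, t1.norm.eventually (lt_mem_nhds (half_lt_self n1))]
      with n k1 k2 k3 k4 k5 k6 k7
    have sub : ball (z n) (2 * ρ) ⊆ closedBall y₀ (3 * ρ) :=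
      (ball_subset_ball' (by linarith [mem_ball.1 k3])).trans ball_subset_closedBall
    refine fd (S.cv n) (sub.trans ((closedBall_subset_ball ρ3).trans k2)) (S.e0 n) ρ0 P1 p4 p5
      (by nlinarith) k1 fun y hy => ?_
    have m := sub hy
    have l1 := (hR y (closedBall_subset_ball ρ2 m)).1
    have l2 := norm_sub_norm_le (g y) (ε n * deriv (θ n) y)
    rw [norm_sub_rev] at l2
    refine ⟨by nlinarith [k4 y m], ?_, ?_, ?_⟩
    · linarith [norm_le_norm_add_norm_sub' (ε n * deriv (θ n) y) (g y), k4 y m, hB0 y m]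
    · linarith [norm_le_norm_add_norm_sub' (ε n * deriv (deriv (θ n)) y) (deriv g y), k5 y m,
        hB1 y m]
    · linarith [norm_le_norm_add_norm_sub' (ε n * deriv (deriv (deriv (θ n))) y)
        (deriv (deriv g) y), k6 y m, hB2 y m]
  · have cm : CC 𝒰 (fun n e => ε n * deriv (deriv (θ n)) (z n + e) * (ε n * deriv (θ n) (z n)) ^ 2 /
        (ε n * deriv (deriv (θ n)) (z n) * (ε n * deriv (θ n) (z n + e)) ^ 2)) _ (closedBall 0 ρ) :=
      fun e he u hu => ((c1 _ (sK (mem e he)) _ (hz.add hu)).mul (t0.pow 2)).div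
        (t1.mul ((c0 _ (sK (mem e he)) _ (hz.add hu)).pow 2))
        (mul_ne_zero g1 (pow_ne_zero 2 (ne _ (mem e he))))
    filter_upwards [hr, t0.eventually_ne g0,
      cc_unif 𝒰 cm (isCompact_closedBall 0 ρ) subset_rfl am.continuousOn σ0] with n k1 k2 k3 e he
    rw [mu_eq (S.e0 n) δ0 k2 k1]
    exact k3 e (ball_subset_closedBall he)

end Vale.Agent.P097EE.LF
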