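import Vale.Agent.P097EE.LFDefs

/-! # P097EE.LF: the changes of the base point at a fold -/

set_option linter.all false

noncomputable section

namespace Vale.Agent.P097EE.LF

open Filter Topology Set Metric Complex Vale.Agent.P097N Vale.Agent.P097Mo

namespace Geo

variable {θ h Q : ℂ → ℂ} {c : ℂ} {U : Set ℂ} {ε r z δ : ℂ} {ρ K : ℝ}

theorem an (H : Fd θ h Q c U ε r z δ ρ K) {y : ℂ} (hy : y ∈ ball z (2 * ρ)) :
    AnalyticAt ℂ (deriv θ) y := (H.cv.dθ.analyticOnNhd H.cv.op).deriv y (H.sub hy)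

theorem r0 (H : Fd θ h Q c U ε r z δ ρ K) : r ≠ 0 := by
  intro e
  have h1 := H.r1
  rw [e, norm_zero] at h1
  exact H.e0 (norm_le_zero_iff.1 (by simpa using h1))

theorem disp (H : Fd θ h Q c U ε r z δ ρ K) (hK : 1 ≤ K) {D : ℝ} (hD : 1 ≤ D)
    (hε : D * K * ‖ε‖ ≤ ρ) {e u : ℂ} (he : ‖e‖ < ρ) (hu : ‖u‖ ≤ D) :
    z + e ∈ ball z (2 * ρ) ∧ deriv θ (z + e) ≠ 0 ∧ z + e + u / deriv θ (z + e) ∈ ball z (2 * ρ) ∧
      ‖u / deriv θ (z + e)‖ ≤ D ^ 2 * K ^ 4 * ‖ε‖ ∧
      ‖(deriv θ (z + e + u / deriv θ (z + e)) - deriv θ (z + e)) * (u / deriv θ (z + e)) / r‖ ≤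
        D ^ 2 * K ^ 4 * ‖r‖ := by
  have e0 : 0 < ‖ε‖ := norm_pos_iff.2 H.e0
  have hr : 0 < ‖r‖ := norm_pos_iff.2 (r0 H)
  have hb : z + e ∈ ball z (2 * ρ) := by
    rw [mem_ball, dist_eq_norm, add_sub_cancel_left]
    linarith [norm_nonneg e]
  have h1 := (H.bd _ hb).1
  rw [norm_mul] at h1
  have h0 : deriv θ (z + e) ≠ 0 := by
    intro e1
    rw [e1, norm_zero, mul_zero, mul_zero] at h1
    linarith
  have h0' : 0 < ‖deriv θ (z + e)‖ := norm_pos_iff.2 h0
  obtain ⟨t, ht⟩ : ∃ t, t = u / deriv θ (z + e) := ⟨_, rfl⟩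
  rw [← ht]
  have t1 : ‖t‖ ≤ D * K * ‖ε‖ := by
    rw [ht, norm_div, div_le_iff₀ h0']
    calc ‖u‖ ≤ D * 1 := by linarith
      _ ≤ D * (K * (‖ε‖ * ‖deriv θ (z + e)‖)) := mul_le_mul_of_nonneg_left h1 (by linarith)
      _ = D * K * ‖ε‖ * ‖deriv θ (z + e)‖ := by ring
  have hc : z + e + t ∈ ball z (2 * ρ) := by
    rw [mem_ball, dist_eq_norm, add_assoc, add_sub_cancel_left]
    linarith [norm_add_le e t]
  have l1 : ‖deriv θ (z + e + t) - deriv θ (z + e)‖ ≤ K / ‖ε‖ * ‖z + e + t - (z + e)‖ := by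
    refine (convex_ball z (2 * ρ)).norm_image_sub_le_of_norm_deriv_le (𝕜 := ℂ)
      (fun y hy => (an H hy).differentiableAt) (fun y hy => ?_) hb hc
    have h2 := (H.bd _ hy).2.2.1
    rw [norm_mul] at h2
    rw [le_div_iff₀ e0]
    linarith
  rw [add_sub_cancel_left] at l1
  have l2 : ‖deriv θ (z + e + t) - deriv θ (z + e)‖ ≤ D * K ^ 2 := by
    refine l1.trans ?_
    rw [div_mul_eq_mul_div, div_le_iff₀ e0]
    calc K * ‖t‖ ≤ K * (D * K * ‖ε‖) := mul_le_mul_of_nonneg_left t1 (by linarith)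
      _ = D * K ^ 2 * ‖ε‖ := by ring
  have k1 : D * K ≤ D ^ 2 * K ^ 4 :=
    mul_le_mul (le_self_pow₀ hD two_ne_zero) (le_self_pow₀ hK (by norm_num)) (by linarith)
      (by positivity)
  refine ⟨hb, h0, hc, t1.trans (mul_le_mul_of_nonneg_right k1 e0.le), ?_⟩
  rw [norm_div, norm_mul, div_le_iff₀ hr]
  have hDK : 0 ≤ D * K := by positivity
  calc ‖deriv θ (z + e + t) - deriv θ (z + e)‖ * ‖t‖ ≤ D * K ^ 2 * (D * K * ‖ε‖) :=
        mul_le_mul l2 t1 (norm_nonneg _) (by positivity)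
    _ ≤ D * K ^ 2 * (D * K * (K * ‖r‖ ^ 2)) :=
        mul_le_mul_of_nonneg_left (mul_le_mul_of_nonneg_left H.r1 hDK) (by positivity)
    _ = D ^ 2 * K ^ 4 * ‖r‖ * ‖r‖ := by ring

theorem nu {r v δ : ℂ} (hv : ‖r * v‖ ≤ 1) : ‖r * v + 2 * δ‖ ≤ 2 * ‖δ‖ + 1 := by
  have h1 := norm_add_le (r * v) (2 * δ)
  rw [norm_mul 2, Complex.norm_ofNat] at h1
  linarith

end Geo

theorem lfg : S_LFG := by
  intro δ ρ K hρ hK
  have hD : 1 ≤ 2 * ‖δ‖ + 1 := by linarith [norm_nonneg δ]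
  have hDK : 0 < (2 * ‖δ‖ + 1) * K := by positivity
  refine ⟨(2 * ‖δ‖ + 1) ^ 2 * K ^ 4, ρ / ((2 * ‖δ‖ + 1) * K),
    one_le_mul_of_one_le_of_one_le (one_le_pow₀ hD) (one_le_pow₀ hK), by positivity,
    fun θ h Q c U ε r z H hε => ?_⟩
  have hε' : (2 * ‖δ‖ + 1) * K * ‖ε‖ ≤ ρ := by
    rw [le_div_iff₀ hDK] at hε
    linarith
  have hr := Geo.r0 H
  refine ⟨fun s e v he hv => ?_, fun s e he hs => ?_⟩
  · obtain ⟨hb, h0, hc, k1, k2⟩ := Geo.disp H hK hD hε' he (Geo.nu hv)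
    refine ⟨?_, ?_, ?_⟩
    · have a0 : AnalyticAt ℂ (fun x : C2 × ℂ => z + x.1.2) ((s, e), v) :=
        analyticAt_const.add (analyticAt_snd.comp analyticAt_fst)
      have a1 : AnalyticAt ℂ (fun x : C2 × ℂ => deriv θ (z + x.1.2)) ((s, e), v) :=
        (Geo.an H hb).comp_of_eq a0 rfl
      have a2 : AnalyticAt ℂ (fc θ r z δ) ((s, e), v) :=
        a0.add (AnalyticAt.div (f := fun x : C2 × ℂ => r * x.2 + 2 * δ)
          ((analyticAt_const.mul analyticAt_snd).add analyticAt_const) a1 h0)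
      have a3 : AnalyticAt ℂ (fun x : C2 × ℂ => deriv θ (fc θ r z δ x)) ((s, e), v) :=
        (Geo.an H hc).comp_of_eq a2 rfl
      exact (((a3.mul (a2.sub a0)).sub analyticAt_const).div analyticAt_const hr).prod
        (a2.sub analyticAt_const)
    · have e1 : (GF θ r z δ ((s, e), v)).1 - v =
          (deriv θ (z + e + (r * v + 2 * δ) / deriv θ (z + e)) - deriv θ (z + e)) *
            ((r * v + 2 * δ) / deriv θ (z + e)) / r := by
        simp only [GF, acF, fc]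
        generalize deriv θ (z + e + (r * v + 2 * δ) / deriv θ (z + e)) = w
        field_simp
        ring
      rw [e1]
      exact k2
    · have e2 : (GF θ r z δ ((s, e), v)).2 - e = (r * v + 2 * δ) / deriv θ (z + e) := by
        simp only [GF, acF, fc]
        ring
      rw [e2]
      exact k1
  · obtain ⟨hb, h0, hc, k1, k2⟩ := Geo.disp H hK hD hε' (u := -(r * s + 2 * δ)) he
      (by rw [norm_neg]; exact Geo.nu hs)
    have ea : fa θ r z δ (s, e) = z + e + -(r * s + 2 * δ) / deriv θ (z + e) := by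
      simp only [fa]
      ring
    refine ⟨?_, ?_, ?_⟩
    · have a0 : AnalyticAt ℂ (fun x : C2 => z + x.2) (s, e) := analyticAt_const.add analyticAt_snd
      have a1 : AnalyticAt ℂ (fun x : C2 => deriv θ (z + x.2)) (s, e) :=
        (Geo.an H hb).comp_of_eq a0 rfl
      have a2 : AnalyticAt ℂ (fa θ r z δ) (s, e) :=
        a0.sub (AnalyticAt.div (f := fun x : C2 => r * x.1 + 2 * δ)
          ((analyticAt_const.mul analyticAt_fst).add analyticAt_const) a1 h0)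
      have a3 : AnalyticAt ℂ (fun x : C2 => deriv θ (fa θ r z δ x)) (s, e) :=
        (Geo.an H hc).comp_of_eq a2 ea
      exact (((a3.mul (a0.sub a2)).sub analyticAt_const).div analyticAt_const hr).prod
        (a2.sub analyticAt_const)
    · have e1 : (HF θ r z δ (s, e)).1 - s =
          -((deriv θ (z + e + -(r * s + 2 * δ) / deriv θ (z + e)) - deriv θ (z + e)) *
            (-(r * s + 2 * δ) / deriv θ (z + e)) / r) := by
        simp only [HF, cu, ea]
        generalize deriv θ (z + e + -(r * s + 2 * δ) / deriv θ (z + e)) = w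
        field_simp
        ring
      rw [e1, norm_neg]
      exact k2
    · have e2 : (HF θ r z δ (s, e)).2 - e = -(r * s + 2 * δ) / deriv θ (z + e) := by
        simp only [HF, ea]
        ring
      rw [e2]
      exact k1

end Vale.Agent.P097EE.LF
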