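import Vale.Agent.P097N.Root

/-! Quantitative holomorphic roots with parameters, and persistence of simple roots. -/

open Filter Metric Set Topology

namespace Vale.Agent.P097EE

open Vale.Agent.P097N

variable {P : Type} [NormedAddCommGroup P] [NormedSpace ℂ P] [CompleteSpace P]

theorem impP {f : P × ℂ → ℂ} {p : P} {x : ℂ} (hf : AnalyticAt ℂ f (p, x))
    (h : fderiv ℂ f (p, x) (0, 1) ≠ 0) :
    ∃ ψ : P → ℂ, AnalyticAt ℂ ψ p ∧ ψ p = x ∧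
      ∀ᶠ v in 𝓝 (p, x), f v = f (p, x) ↔ ψ v.1 = v.2 := by
  have c : ContDiffAt ℂ ⊤ f (p, x) := hf.contDiffAt
  have i : (fderiv ℂ f (p, x) ∘L .inr ℂ P ℂ).IsInvertible :=
    ⟨ContinuousLinearEquiv.unitsEquivAut ℂ (Units.mk0 _ h), by ext; simp⟩
  exact ⟨c.implicitFunction (by simp) i,
    (c.contDiffAt_implicitFunction (by simp) i).analyticAt,
    c.implicitFunction_apply_self (by simp) i,
    c.eventually_apply_eq_iff_implicitFunction (by simp) i⟩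

omit [CompleteSpace P] in
theorem hasDerivAt_snd {f : P × ℂ → ℂ} {p : P} {x : ℂ} (hf : DifferentiableAt ℂ f (p, x)) :
    HasDerivAt (fun v => f (p, v)) (fderiv ℂ f (p, x) (0, 1)) x :=
  hf.hasFDerivAt.comp_hasDerivAt x ((hasDerivAt_const x p).prodMk (hasDerivAt_id x))

/-- **ROOT.** the holomorphic root of a perturbed linear equation, any parameter space -/
theorem root {G : P × ℂ → ℂ} {Ω : Set P} (hΩ : IsOpen Ω) {m a : P → ℂ} {τ : ℝ} (hτ : 0 < τ)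
    (hm : ContinuousOn m Ω) (ha : ∀ p ∈ Ω, a p ≠ 0)
    (hG : ∀ p ∈ Ω, ∀ v ∈ ball (m p) τ, AnalyticAt ℂ G (p, v) ∧
      ‖G (p, v) - a p * (v - m p)‖ ≤ ‖a p‖ * (τ / 8)) :
    ∃ c : P → ℂ, AnalyticOnNhd ℂ c Ω ∧ ∀ p ∈ Ω, G (p, c p) = 0 ∧ ‖c p - m p‖ ≤ τ / 8 ∧
      ‖c p - m p‖ ≤ 2 * (‖G (p, m p)‖ / ‖a p‖) ∧
      (∀ v, ‖v - m p‖ < τ / 2 → G (p, v) = 0 → v = c p) ∧
      ‖fderiv ℂ G (p, c p) (0, 1) - a p‖ ≤ ‖a p‖ / 4 := by
  have dψ : ∀ p ∈ Ω, DifferentiableOn ℂ (fun v => G (p, v) / a p - (v - m p)) (ball (m p) τ) :=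
    fun p hp v hv => (((hasDerivAt_snd (hG p hp v hv).1.differentiableAt).differentiableAt.div_const
      _).sub (differentiableAt_id.sub_const _)).differentiableWithinAt
  have bψ : ∀ p ∈ Ω, ∀ v ∈ ball (m p) τ, ‖G (p, v) / a p - (v - m p)‖ ≤ τ / 8 := by
    intro p hp v hv
    have h1 := ha p hp
    have : G (p, v) / a p - (v - m p) = (G (p, v) - a p * (v - m p)) / a p := by field_simp
    rw [this, norm_div, div_le_iff₀ (norm_pos_iff.2 h1), mul_comm (τ / 8)]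
    exact (hG p hp v hv).2
  have H : ∀ p, ∃ c, p ∈ Ω → G (p, c) = 0 ∧ ‖c - m p‖ ≤ τ / 8 ∧
      ‖c - m p‖ ≤ 2 * (‖G (p, m p)‖ / ‖a p‖) ∧
      (∀ v, ‖v - m p‖ < τ / 2 → G (p, v) = 0 → v = c) ∧
      ‖fderiv ℂ G (p, c) (0, 1) - a p‖ ≤ ‖a p‖ / 4 := by
    intro p
    by_cases hp : p ∈ Ω
    · have h1 := ha p hp
      obtain ⟨c, e1, e2, e3, e4⟩ := Root.fix hτ (dψ p hp) (bψ p hp)
      have m1 : c ∈ ball (m p) (τ / 2) := by rw [mem_ball, dist_eq_norm]; linarith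
      refine ⟨c, fun _ => ⟨by simpa [h1] using e1, e2, by simpa using e3,
        fun v k1 k2 => e4 v k1 (by simp [k2]), ?_⟩⟩
      have k1 := hasDerivAt_snd
        (hG p hp c (ball_subset_ball (by linarith) m1)).1.differentiableAt
      have k2 := ((k1.div_const (a p)).sub ((hasDerivAt_id c).sub_const (m p))).deriv
      have k3 := Root.der hτ (dψ p hp) (bψ p hp) m1
      have k4 : deriv (fun v => G (p, v) / a p - (v - m p)) c
          = fderiv ℂ G (p, c) (0, 1) / a p - 1 := k2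
      rw [k4, div_sub_one h1, norm_div, div_le_iff₀ (norm_pos_iff.2 h1)] at k3
      linarith
    · exact ⟨0, fun h => absurd h hp⟩
  choose c hc using H
  refine ⟨c, fun p hp => ?_, hc⟩
  obtain ⟨e1, e2, -, -, e5⟩ := hc p hp
  have m2 : c p ∈ ball (m p) τ := by rw [mem_ball, dist_eq_norm]; linarith
  have hne : fderiv ℂ G (p, c p) (0, 1) ≠ 0 := by
    intro h0
    rw [h0, zero_sub, norm_neg] at e5
    have := norm_pos_iff.2 (ha p hp)
    linarith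
  obtain ⟨ψ, aψ, ψ0, hψ⟩ := impP (hG p hp _ m2).1 hne
  have t1 : Tendsto (fun y => (y, ψ y)) (𝓝 p) (𝓝 (p, c p)) :=
    tendsto_id.prodMk_nhds (ψ0 ▸ aψ.continuousAt.tendsto)
  have t2 : ContinuousAt (fun y => ‖ψ y - m y‖) p :=
    (aψ.continuousAt.sub (hm.continuousAt (hΩ.mem_nhds hp))).norm
  have t3 : ∀ᶠ y in 𝓝 p, ‖ψ y - m y‖ < τ / 2 :=
    t2.eventually_lt continuousAt_const (by rw [ψ0]; linarith)
  refine aψ.congr ?_
  filter_upwards [t1.eventually hψ, t3, hΩ.mem_nhds hp] with y h1 h2 h3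
  exact (hc y h3).2.2.2.1 _ h2 (by rw [← e1]; exact h1.2 rfl)

variable {Q : Type} [NormedAddCommGroup Q] [NormedSpace ℂ Q] [CompleteSpace Q]

omit [CompleteSpace Q] in
/-- uniform linearisation along a compact family of simple roots -/
theorem lin_unif {T : Type} [TopologicalSpace T] {Λ : Q × ℂ → ℂ} {O : Set (Q × ℂ)}
    (hO : IsOpen O) (hΛ : AnalyticOnNhd ℂ Λ O) {K : Set T} (hK : IsCompact K) {q : T → Q}
    {ψ : T → ℂ} (hq : ContinuousOn q K) (hψ : ContinuousOn ψ K)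
    (hm : ∀ t ∈ K, (q t, ψ t) ∈ O) (h0 : ∀ t ∈ K, Λ (q t, ψ t) = 0)
    (hd : ∀ t ∈ K, fderiv ℂ Λ (q t, ψ t) (0, 1) ≠ 0) :
    ∃ μ > 0, (∀ t ∈ K, μ ≤ ‖fderiv ℂ Λ (q t, ψ t) (0, 1)‖) ∧ ∃ τ0 > 0,
      (∀ t ∈ K, closedBall (q t, ψ t) τ0 ⊆ O) ∧ ∀ τ, 0 < τ → τ ≤ τ0 → ∃ η > 0, η ≤ τ ∧
        ∀ t ∈ K, ∀ s v, ‖s - q t‖ ≤ η → ‖v - ψ t‖ ≤ τ →
          ‖Λ (s, v) - fderiv ℂ Λ (q t, ψ t) (0, 1) * (v - ψ t)‖ ≤ μ * (τ / 16) := by
  have hc : ContinuousOn (fun t => (q t, ψ t)) K := hq.prodMk hψ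
  set Z := (fun t => (q t, ψ t)) '' K with hZ
  have hZc : IsCompact Z := hK.image_of_continuousOn hc
  have hZO : Z ⊆ O := by rintro _ ⟨t, ht, rfl⟩; exact hm t ht
  have hD : ContinuousOn (fderiv ℂ Λ) O := hΛ.fderiv.continuousOn
  obtain ⟨μ, hμ, hμ'⟩ : ∃ μ > 0, ∀ t ∈ K, μ ≤ ‖fderiv ℂ Λ (q t, ψ t) (0, 1)‖ := by
    rcases K.eq_empty_or_nonempty with rfl | hne
    · exact ⟨1, one_pos, by simp⟩
    obtain ⟨t0, ht0, hmin⟩ := hK.exists_isMinOn hne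
      (f := fun t => ‖fderiv ℂ Λ (q t, ψ t) (0, 1)‖)
      (((hD.comp hc hm).clm_apply continuousOn_const).norm)
    exact ⟨_, norm_pos_iff.2 (hd t0 ht0), fun t ht => hmin ht⟩
  obtain ⟨B, hB⟩ := hZc.exists_bound_of_continuousOn (hD.mono hZO)
  have hu : {x : (Q × ℂ) × (Q × ℂ) | x.1 ∈ Z →
      dist (fderiv ℂ Λ x.1) (fderiv ℂ Λ x.2) < μ / 64} ∈ uniformity (Q × ℂ) :=
    hZc.uniformContinuousAt_of_continuousAt (fderiv ℂ Λ)
      (fun x hx => hD.continuousAt (hO.mem_nhds (hZO hx))) (dist_mem_uniformity (by positivity))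
  obtain ⟨e1, he1, hu'⟩ := Metric.mem_uniformity_dist.1 hu
  obtain ⟨e2, he2, hth⟩ := hZc.exists_cthickening_subset_open hO hZO
  have hball : ∀ t ∈ K, closedBall (q t, ψ t) (min (e1 / 2) e2) ⊆ O := fun t ht =>
    ((closedBall_subset_closedBall (min_le_right _ _)).trans
      (closedBall_subset_cthickening (mem_image_of_mem _ ht) e2)).trans hth
  refine ⟨μ, hμ, hμ', min (e1 / 2) e2, by positivity, hball, fun τ hτ hτ0 => ?_⟩
  refine ⟨min τ (μ * τ / (64 * (|B| + 1))), by positivity, min_le_left _ _,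
    fun t ht s v hs hv => ?_⟩
  have hx : (s, v) ∈ closedBall (q t, ψ t) τ := by
    rw [mem_closedBall, Prod.dist_eq, dist_eq_norm, dist_eq_norm]
    exact max_le (hs.trans (min_le_left _ _)) hv
  have hsub : closedBall (q t, ψ t) τ ⊆ O := (closedBall_subset_closedBall hτ0).trans (hball t ht)
  have h1 := (convex_closedBall (q t, ψ t) τ).norm_image_sub_le_of_norm_fderiv_le'
    (f := Λ) (φ := fderiv ℂ Λ (q t, ψ t)) (C := μ / 64)
    (fun x hx => (hΛ x (hsub hx)).differentiableAt)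
    (fun x hx => by
      have h2 : dist (q t, ψ t) x < e1 := by
        rw [dist_comm]
        have := (mem_closedBall.1 hx).trans (hτ0.trans (min_le_left _ _))
        linarith
      have h3 := hu' h2 (mem_image_of_mem _ ht)
      rw [dist_comm, dist_eq_norm] at h3
      exact h3.le) (mem_closedBall_self hτ.le) hx
  have h2 : ‖(s, v) - (q t, ψ t)‖ ≤ τ := by rwa [mem_closedBall, dist_eq_norm] at hx
  have h3 : fderiv ℂ Λ (q t, ψ t) ((s, v) - (q t, ψ t)) = fderiv ℂ Λ (q t, ψ t) (s - q t, 0)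
      + fderiv ℂ Λ (q t, ψ t) (0, 1) * (v - ψ t) := by
    rw [show (s, v) - (q t, ψ t) = (s - q t, 0) + (v - ψ t) • ((0 : Q), (1 : ℂ)) by simp,
      map_add, map_smul, smul_eq_mul, mul_comm]
  have h4 : ‖fderiv ℂ Λ (q t, ψ t) (s - q t, 0)‖ ≤ μ * τ / 64 := by
    refine (ContinuousLinearMap.le_opNorm _ _).trans ?_
    have h5 : ‖((s - q t, 0) : Q × ℂ)‖ ≤ μ * τ / (64 * (|B| + 1)) := by
      simpa using hs.trans (min_le_right _ _)
    have h6 : ‖fderiv ℂ Λ (q t, ψ t)‖ ≤ |B| + 1 := by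
      have := hB _ (mem_image_of_mem _ ht)
      have := le_abs_self B
      linarith
    calc _ ≤ (|B| + 1) * (μ * τ / (64 * (|B| + 1))) :=
          mul_le_mul h6 h5 (norm_nonneg _) (by positivity)
      _ = μ * τ / 64 := by field_simp
  rw [h0 t ht, h3, sub_zero] at h1
  have h5 := norm_add_le (Λ (s, v) - (fderiv ℂ Λ (q t, ψ t) (s - q t, 0)
    + fderiv ℂ Λ (q t, ψ t) (0, 1) * (v - ψ t))) (fderiv ℂ Λ (q t, ψ t) (s - q t, 0))
  rw [show Λ (s, v) - (fderiv ℂ Λ (q t, ψ t) (s - q t, 0)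
    + fderiv ℂ Λ (q t, ψ t) (0, 1) * (v - ψ t)) + fderiv ℂ Λ (q t, ψ t) (s - q t, 0)
    = Λ (s, v) - fderiv ℂ Λ (q t, ψ t) (0, 1) * (v - ψ t) by ring] at h5
  nlinarith [mul_le_mul_of_nonneg_left h2 (show 0 ≤ μ / 64 by positivity), mul_pos hμ hτ]

omit [CompleteSpace Q] in
/-- **PERSIST.** Along a compact family `(q t, ψ t)` of simple roots of `Λ`: every `Λ'` which is
analytic and `σ`-close to `Λ` on the `τ0`-tube has, for every analytic family of states `s p`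
that is `η`-close to `q (k p)`, an analytic root `c p` near `ψ (k p)`, locally unique. -/
theorem persist {T : Type} [TopologicalSpace T] {Λ : Q × ℂ → ℂ} {O : Set (Q × ℂ)}
    (hO : IsOpen O) (hΛ : AnalyticOnNhd ℂ Λ O) {K : Set T} (hK : IsCompact K) {q : T → Q}
    {ψ : T → ℂ} (hq : ContinuousOn q K) (hψ : ContinuousOn ψ K)
    (hm : ∀ t ∈ K, (q t, ψ t) ∈ O) (h0 : ∀ t ∈ K, Λ (q t, ψ t) = 0)
    (hd : ∀ t ∈ K, fderiv ℂ Λ (q t, ψ t) (0, 1) ≠ 0) :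
    ∃ τ0 > 0, (∀ t ∈ K, closedBall (q t, ψ t) τ0 ⊆ O) ∧ ∀ τ, 0 < τ → τ ≤ τ0 →
      ∃ η > 0, η ≤ τ ∧ ∃ σ > 0, ∀ (Λ' : Q × ℂ → ℂ),
        (∀ t ∈ K, ∀ x ∈ closedBall (q t, ψ t) τ0, AnalyticAt ℂ Λ' x ∧ ‖Λ' x - Λ x‖ ≤ σ) →
        ∀ (P : Type) [NormedAddCommGroup P] [NormedSpace ℂ P] [CompleteSpace P] (Ω : Set P)
          (s : P → Q) (k : P → T), IsOpen Ω → AnalyticOnNhd ℂ s Ω → ContinuousOn k Ω →
          (∀ p ∈ Ω, k p ∈ K ∧ ‖s p - q (k p)‖ ≤ η) →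
          ∃ c : P → ℂ, AnalyticOnNhd ℂ c Ω ∧ ∀ p ∈ Ω, Λ' (s p, c p) = 0 ∧
            ‖c p - ψ (k p)‖ ≤ τ / 8 ∧
            (∀ v, ‖v - ψ (k p)‖ < τ / 2 → Λ' (s p, v) = 0 → v = c p) := by
  obtain ⟨μ, hμ, hμ', τ0, hτ0, hb, h⟩ := lin_unif hO hΛ hK hq hψ hm h0 hd
  refine ⟨τ0, hτ0, hb, fun τ hτ hτ' => ?_⟩
  obtain ⟨η, hη, hητ, hl⟩ := h τ hτ hτ'
  refine ⟨η, hη, hητ, μ * (τ / 16), by positivity, fun Λ' hΛ' P _ _ _ Ω s k hΩ hs hk hsk => ?_⟩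
  obtain ⟨c, hc, hc'⟩ := root (G := fun x : P × ℂ => Λ' (s x.1, x.2)) hΩ
    (m := fun p => ψ (k p)) (a := fun p => fderiv ℂ Λ (q (k p), ψ (k p)) (0, 1)) hτ
    (hψ.comp hk fun p hp => (hsk p hp).1) (fun p hp => hd _ (hsk p hp).1) (by
      intro p hp v hv
      obtain ⟨h1, h2⟩ := hsk p hp
      rw [mem_ball, dist_eq_norm] at hv
      have hx : (s p, v) ∈ closedBall (q (k p), ψ (k p)) τ0 := by
        rw [mem_closedBall, Prod.dist_eq, dist_eq_norm, dist_eq_norm]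
        exact max_le (by linarith) (by linarith)
      obtain ⟨h3, h4⟩ := hΛ' _ h1 _ hx
      refine ⟨h3.comp₂ ((hs p hp).fun_comp (f := Prod.fst) (x := (p, v)) analyticAt_fst)
        analyticAt_snd, ?_⟩
      have h5 := hl _ h1 (s p) v h2 hv.le
      have h6 := norm_add_le (Λ' (s p, v) - Λ (s p, v))
        (Λ (s p, v) - fderiv ℂ Λ (q (k p), ψ (k p)) (0, 1) * (v - ψ (k p)))
      rw [sub_add_sub_cancel] at h6
      have h7 := mul_le_mul_of_nonneg_right (hμ' _ h1) (show 0 ≤ τ / 8 by positivity)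
      show ‖Λ' (s p, v) - _ * (v - ψ (k p))‖ ≤ _
      linarith)
  exact ⟨c, hc, fun p hp => ⟨(hc' p hp).1, (hc' p hp).2.1, (hc' p hp).2.2.2.1⟩⟩

end Vale.Agent.P097EE
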