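import Vale.Agent.P097EE.LFDefs
import Vale.Agent.P097EE.Ift

/-!
# P097EE.LF: the root of a perturbed model law
-/

set_option linter.all false

noncomputable section

namespace Vale.Agent.P097EE.LF

open Filter Topology Set Metric Complex

theorem lfr_open (l L e : ℝ) : IsOpen (An l L e) :=
  (isOpen_lt continuous_const (continuous_fst.norm.pow 2)).inter
    ((isOpen_lt (continuous_fst.norm.pow 2) continuous_const).inter
      (isOpen_lt continuous_snd.norm continuous_const))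

theorem lfr_sub (s w : ℂ) : ‖s * (1 + w) - s‖ = ‖s‖ * ‖w‖ := by
  rw [← norm_mul]
  congr 1
  ring

/-- the linear approximation of the law -/
theorem lfr_lin {C η : ℝ} {s w μ φ : ℂ} (C1 : 1 ≤ C) (η1 : C * η ≤ 1 / 8)
    (hs : 128 * (7 * C + 1) ≤ ‖s‖ ^ 2) (hμ : ‖μ‖ ≤ 3 * C) (hw : ‖w‖ ≤ 1 / 32)
    (h : ‖φ - md μ s (s * (1 + w))‖ ≤ C * η * (‖s‖ + ‖s‖ ^ 2 * (‖s‖ * ‖w‖))) :
    ‖φ - 4 * s ^ 3 * (w - 0)‖ ≤ ‖4 * s ^ 3‖ * (1 / 32 / 8) := by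
  have e : φ - 4 * s ^ 3 * (w - 0) = (φ - md μ s (s * (1 + w))) +
      (4 * s ^ 3 * w ^ 2 - μ * (s * (2 + w))) := by
    unfold md
    ring
  have s0 := norm_nonneg s
  have w0 := norm_nonneg w
  have n4 : ‖4 * s ^ 3‖ = 4 * ‖s‖ ^ 3 := by simp
  have h1 : ‖4 * s ^ 3 * w ^ 2‖ ≤ 4 * ‖s‖ ^ 3 * (1 / 32) ^ 2 := by
    rw [norm_mul, n4, norm_pow]
    gcongr
  have h2 : ‖μ * (s * (2 + w))‖ ≤ 3 * C * (‖s‖ * (2 + 1 / 32)) := by
    rw [norm_mul, norm_mul]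
    have : ‖2 + w‖ ≤ 2 + 1 / 32 := (norm_add_le _ _).trans (by simp only [norm_ofNat]; linarith)
    gcongr
  have h3 : C * η * (‖s‖ + ‖s‖ ^ 2 * (‖s‖ * ‖w‖)) ≤ 1 / 8 * (‖s‖ + ‖s‖ ^ 2 * (‖s‖ * (1 / 32))) :=
    (mul_le_mul_of_nonneg_right η1 (by positivity)).trans (by gcongr)
  have h4 := mul_le_mul_of_nonneg_left hs s0
  have h5 := mul_nonneg (by linarith : 0 ≤ C) s0
  rw [e, n4]
  refine (norm_add_le _ _).trans ((add_le_add (h.trans h3) ((norm_sub_le _ _).trans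
    (add_le_add h1 h2))).trans ?_)
  nlinarith

/-- the increment of the square -/
theorem lfr_th {C η E : ℝ} {a : ℝ} {s c m u : ℂ} (C1 : 1 ≤ C) (η0 : 0 ≤ η) (η1 : C * η ≤ 1 / 8)
    (ha : a = 1 ∨ a = -1) (s1 : 1 ≤ ‖s‖) (E0 : 0 ≤ E) (hm : ‖m - 1‖ ≤ C * (E + η))
    (hm' : ‖m‖ ≤ 3 * C) (c1 : ‖c‖ ≤ 1 / 256) (c2 : ‖c‖ * ‖s‖ ^ 2 ≤ 4 * C)
    (h : ‖0 - md (a * m) s (s * (1 + c))‖ ≤ C * η * (‖s‖ + ‖s‖ ^ 2 * (‖s‖ * ‖c‖)))
    (hu : ‖u - s * (1 + c)‖ * ‖s‖ ≤ C * η) :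
    ‖u ^ 2 - s ^ 2 - a‖ ≤ 16 * C ^ 2 * (E + η + 1 / ‖s‖ ^ 2) := by
  have s0 : 0 < ‖s‖ := by linarith
  have na : ‖(a : ℂ)‖ = 1 := by rcases ha with h | h <;> simp [h]
  have c0 := norm_nonneg c
  have Cη : 0 ≤ C * η := mul_nonneg (by linarith) η0
  obtain ⟨Y, hY⟩ : ∃ Y, Y = (s * (1 + c)) ^ 2 - s ^ 2 - a - a * (m - 1) := ⟨_, rfl⟩
  obtain ⟨R, hR⟩ : ∃ R, R = 0 - md (a * m) s (s * (1 + c)) := ⟨_, rfl⟩
  obtain ⟨d, hd⟩ : ∃ d, d = u - s * (1 + c) := ⟨_, rfl⟩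
  rw [← hR] at h
  rw [← hd] at hu
  have e1 : 4 * (1 + c) * s * Y = a * m * c ^ 2 * s - R * (2 + c) := by
    rw [hY, hR]
    unfold md
    ring
  have n1 : 255 / 256 ≤ ‖1 + c‖ := by
    have := norm_sub_norm_le (1 : ℂ) (-c)
    rw [norm_one, norm_neg, sub_neg_eq_add] at this
    linarith
  have n2 : ‖1 + c‖ ≤ 2 := (norm_add_le _ _).trans (by rw [norm_one]; linarith)
  have n3 : ‖2 + c‖ ≤ 3 := (norm_add_le _ _).trans (by simp only [norm_ofNat]; linarith)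
  have r1 : ‖R‖ ≤ 5 * C ^ 2 * η * ‖s‖ := by
    have a1 : ‖s‖ + ‖s‖ ^ 2 * (‖s‖ * ‖c‖) ≤ 5 * C * ‖s‖ := by
      nlinarith [mul_le_mul_of_nonneg_left c2 s0.le, mul_le_mul_of_nonneg_right C1 s0.le]
    exact h.trans ((mul_le_mul_of_nonneg_left a1 Cη).trans_eq (by ring))
  have c3 : ‖c‖ ^ 2 ≤ 4 * C * (1 / ‖s‖ ^ 2) := by
    rw [mul_one_div, le_div_iff₀ (by positivity)]
    nlinarith [mul_le_mul_of_nonneg_left c2 c0]
  have y1 : ‖Y‖ ≤ C * ‖c‖ ^ 2 + 5 * C ^ 2 * η := by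
    have a1 : 3 * ‖s‖ * ‖Y‖ ≤ ‖4 * (1 + c) * s * Y‖ := by
      simp only [norm_mul, norm_ofNat]
      gcongr
      linarith
    have a2 : ‖a * m * c ^ 2 * s‖ ≤ 3 * C * ‖c‖ ^ 2 * ‖s‖ := by
      simp only [norm_mul, norm_pow, na, one_mul]
      gcongr
    have a3 : ‖R * (2 + c)‖ ≤ 5 * C ^ 2 * η * ‖s‖ * 3 := by
      rw [norm_mul]
      exact mul_le_mul r1 n3 (norm_nonneg _) (by positivity)
    rw [e1] at a1
    have a4 := a1.trans ((norm_sub_le _ _).trans (add_le_add a2 a3))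
    refine le_of_mul_le_mul_left (a := 3 * ‖s‖) ?_ (by positivity)
    linarith
  have d1 : ‖d‖ ≤ C * η := le_trans (le_mul_of_one_le_right (norm_nonneg _) s1) hu
  have d2 : ‖2 * (s * (1 + c)) * d‖ ≤ 4 * (C * η) := by
    simp only [norm_mul, norm_ofNat]
    have := mul_le_mul n2 hu (by positivity) (by norm_num)
    linarith
  have d3 : ‖d ^ 2‖ ≤ C * η := by
    rw [norm_pow]
    nlinarith [norm_nonneg d]
  have e2 : u ^ 2 - s ^ 2 - a = Y + a * (m - 1) + (2 * (s * (1 + c)) * d + d ^ 2) := by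
    rw [hY, hd]
    ring
  have m1 : ‖a * (m - 1)‖ ≤ C * (E + η) := by rwa [norm_mul, na, one_mul]
  rw [e2]
  refine (norm_add_le _ _).trans ((add_le_add ((norm_add_le _ _).trans (add_le_add y1 m1))
    ((norm_add_le _ _).trans (add_le_add d2 d3))).trans ?_)
  have q0 : 0 ≤ 1 / ‖s‖ ^ 2 := by positivity
  have CC : C ≤ C ^ 2 := by nlinarith
  have b1 := mul_le_mul_of_nonneg_left c3 (by linarith : 0 ≤ C)
  have b2 := mul_le_mul_of_nonneg_right CC E0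
  have b3 := mul_le_mul_of_nonneg_right CC η0
  have b4 := mul_nonneg (sq_nonneg C) E0
  have b5 := mul_nonneg (sq_nonneg C) η0
  have b6 := mul_nonneg (sq_nonneg C) q0
  linarith

theorem lfr : S_LFR := by
  intro C C1
  have C0 : 0 < C := by linarith
  have CC : C ≤ C ^ 2 := by nlinarith
  refine ⟨128 * (7 * C + 1) + 1024 * (16 * C ^ 2), 16 * C ^ 2, 1 / 128, 1 / (8 * C), by nlinarith,
    by linarith, by norm_num, by norm_num, by positivity, by linarith, ?_⟩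
  obtain ⟨l, hl⟩ : ∃ l, l = 128 * (7 * C + 1) + 1024 * (16 * C ^ 2) := ⟨_, rfl⟩
  rw [← hl]
  intro Φ G m a L e η ν ha e1 η0 η1 ν0 νL H
  have η2 : C * η ≤ 1 / 8 := by
    rw [le_div_iff₀ (by positivity)] at η1
    linarith
  have η3 : η ≤ 1 := by nlinarith
  have na : ‖(a : ℂ)‖ = 1 := by rcases ha with h | h <;> simp [h]
  have hs : ∀ p ∈ An l L e, 128 * (7 * C + 1) ≤ ‖p.1‖ ^ 2 := fun p hp => by
    have := hp.1
    linarith [sq_nonneg C]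
  have s1 : ∀ p ∈ An l L e, 1 ≤ ‖p.1‖ := fun p hp => by
    by_contra hc
    have := hs p hp
    nlinarith [norm_nonneg p.1]
  have sne : ∀ p ∈ An l L e, p.1 ≠ 0 := fun p hp => norm_pos_iff.1 (by linarith [s1 p hp])
  have hm : ∀ p ∈ An l L e, ‖m p‖ ≤ 3 * C := fun p hp => by
    have h1 := (H p hp).1
    have h2 := norm_add_le (m p - 1) 1
    rw [sub_add_cancel, norm_one] at h2
    have h3 : C * (‖p.2‖ + η) ≤ C * 2 :=
      mul_le_mul_of_nonneg_left (by linarith [hp.2.2]) C0.le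
    linarith
  have hμ : ∀ p ∈ An l L e, ‖a * m p‖ ≤ 3 * C := fun p hp => by
    rw [norm_mul, na, one_mul]
    exact hm p hp
  have hx : ∀ p : C2, ∀ w : ℂ, ‖w‖ ≤ 1 / 32 → ‖p.1 * (1 + w) - p.1‖ ≤ ‖p.1‖ / 4 := fun p w hw => by
    rw [lfr_sub]
    nlinarith [norm_nonneg p.1]
  have aι : ∀ x : C2 × ℂ, AnalyticAt ℂ (fun x : C2 × ℂ => (x.1, x.1.1 * (1 + x.2))) x := fun x =>
    analyticAt_fst.prod ((analyticAt_fst.comp analyticAt_fst).mul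
      (analyticAt_const.add analyticAt_snd))
  obtain ⟨c, ac, hc⟩ := root (G := fun x : C2 × ℂ => Φ (x.1, x.1.1 * (1 + x.2)))
    (lfr_open l L e) (m := fun _ => 0) (a := fun p => 4 * p.1 ^ 3) (τ := 1 / 32) (by norm_num)
    continuousOn_const (fun p hp => mul_ne_zero (by norm_num) (pow_ne_zero _ (sne p hp)))
    (fun p hp v hv => by
      have hv' : ‖v‖ ≤ 1 / 32 := (mem_ball_zero_iff.1 hv).le
      obtain ⟨k1, -, k3, -⟩ := (H p hp).2 _ (hx p v hv')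
      rw [lfr_sub] at k3
      exact ⟨AnalyticAt.comp (g := Φ) (f := fun x : C2 × ℂ => (x.1, x.1.1 * (1 + x.2))) k1
        (aι (p, v)), lfr_lin C1 η2 (hs p hp) (hμ p hp) hv' k3⟩)
  simp only [sub_zero, add_zero, mul_one] at hc
  have c1 : ∀ p ∈ An l L e, ‖c p‖ ≤ 1 / 256 := fun p hp => (hc p hp).2.1.trans (by norm_num)
  have c1' : ∀ p ∈ An l L e, ‖c p‖ ≤ 1 / 32 := fun p hp => (c1 p hp).trans (by norm_num)
  have c2 : ∀ p ∈ An l L e, ‖c p‖ * ‖p.1‖ ^ 2 ≤ 4 * C := fun p hp => by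
    have s0 : 0 < ‖p.1‖ := by linarith [s1 p hp]
    obtain ⟨-, -, k3, -⟩ := (H p hp).2 p.1 (by rw [sub_self, norm_zero]; positivity)
    rw [sub_self, norm_zero, mul_zero, add_zero] at k3
    have k4 : ‖md (a * m p) p.1 p.1‖ ≤ 3 * C * (2 * ‖p.1‖) := by
      have : md (a * m p) p.1 p.1 = -(a * m p * (2 * p.1)) := by
        unfold md
        ring
      rw [this, norm_neg, norm_mul, norm_mul 2, norm_ofNat]
      exact mul_le_mul_of_nonneg_right (hμ p hp) (by positivity)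
    have k5 := norm_add_le (Φ (p, p.1) - md (a * m p) p.1 p.1) (md (a * m p) p.1 p.1)
    rw [sub_add_cancel] at k5
    have k6 := (hc p hp).2.2.1
    have n4 : ‖4 * p.1 ^ 3‖ = 4 * ‖p.1‖ ^ 3 := by simp
    rw [n4, ← mul_div_assoc, le_div_iff₀ (by positivity)] at k6
    have k7 := mul_le_mul_of_nonneg_right η2 s0.le
    have k8 := mul_le_mul_of_nonneg_right C1 s0.le
    refine le_of_mul_le_mul_left (a := 4 * ‖p.1‖) ?_ (by positivity)
    linarith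
  have aw : ∀ p ∈ An l L e, AnalyticAt ℂ (fun p : C2 => p.1 * (1 + c p)) p := fun p hp =>
    analyticAt_fst.mul (analyticAt_const.add (ac p hp))
  have w1 : ∀ p ∈ An l L e, ‖p.1 * (1 + c p) - p.1‖ * ‖p.1‖ ≤ 4 * C := fun p hp => by
    rw [lfr_sub]
    linarith [c2 p hp]
  have g2 : ∀ p ∈ An l L e, ‖(G (p, p.1 * (1 + c p))).2‖ ≤ ‖p.2‖ + ν := fun p hp => by
    have k1 := ((H p hp).2 _ (hx p _ (c1' p hp))).2.2.2.2
    have k2 := norm_add_le ((G (p, p.1 * (1 + c p))).2 - p.2) p.2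
    rw [sub_add_cancel] at k2
    linarith
  refine ⟨fun p => p.1 * (1 + c p), ⟨fun p hp => ?_, fun p hp => ?_, fun p hp => ?_,
    fun p hp _ => ?_, fun p hp => ⟨?_, ?_⟩⟩, fun p hp => ⟨aw p hp, (hc p hp).1,
    (w1 p hp).trans (by linarith), ?_, fun x h1 h2 => ?_⟩⟩
  · exact AnalyticAt.comp (g := G) (f := fun p : C2 => (p, p.1 * (1 + c p)))
      ((H p hp).2 _ (hx p _ (c1' p hp))).2.1 (analyticAt_id.prod (aw p hp))
  · obtain ⟨-, -, k3, k4, -⟩ := (H p hp).2 _ (hx p _ (c1' p hp))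
    rw [lfr_sub, (hc p hp).1] at k3
    exact lfr_th C1 η0 η2 ha (s1 p hp) (norm_nonneg _) (H p hp).1 (hm p hp) (c1 p hp) (c2 p hp)
      k3 k4
  · have a1 : 0 ≤ 16 * C ^ 2 / ‖p.1‖ ^ 2 * ‖p.2‖ := by positivity
    have a2 : 0 ≤ 16 * C ^ 2 / ‖p.1‖ ^ 4 := by positivity
    linarith [g2 p hp]
  · have a1 : 0 ≤ 16 * C ^ 2 * (‖p.2‖ + η + 1 / ‖p.1‖ ^ 2) / ‖p.1‖ ^ 2 * ‖p.2‖ := by positivity
    have a2 : 0 ≤ 16 * C ^ 2 / ‖p.1‖ ^ 4 := by positivity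
    linarith [g2 p hp]
  · have k1 := ((H p hp).2 _ (hx p _ (c1' p hp))).2.2.2.1
    have k2 := norm_add_le ((G (p, p.1 * (1 + c p))).1 - p.1 * (1 + c p)) (p.1 * (1 + c p) - p.1)
    rw [sub_add_sub_cancel] at k2
    have k3 := mul_le_mul_of_nonneg_right k2 (norm_nonneg p.1)
    show ‖(G (p, p.1 * (1 + c p))).1 - p.1‖ * ‖p.1‖ ≤ _
    linarith [w1 p hp]
  · have k1 := ((H p hp).2 _ (hx p _ (c1' p hp))).2.2.2.2
    have k2 := mul_le_mul k1 hp.2.1.le (sq_nonneg _) ν0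
    show ‖(G (p, p.1 * (1 + c p))).2 - p.2‖ * ‖p.1‖ ^ 2 ≤ _
    linarith
  · have k0 := ((H p hp).2 _ (hx p _ (c1' p hp))).1
    have k1 := hasDerivAt_snd (f := fun x : C2 × ℂ => Φ (x.1, x.1.1 * (1 + x.2))) (p := p)
      (x := c p) (AnalyticAt.comp (g := Φ) (f := fun x : C2 × ℂ => (x.1, x.1.1 * (1 + x.2))) k0
        (aι (p, c p))).differentiableAt
    have k2 := HasDerivAt.comp (h₂ := fun v => Φ (p, v)) (h := fun v => p.1 * (1 + v)) (c p)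
      (hasDerivAt_snd k0.differentiableAt) (((hasDerivAt_id (c p)).const_add 1).const_mul p.1)
    have k3 := k1.unique k2
    have k4 := (hc p hp).2.2.2.2
    have n4 : ‖4 * p.1 ^ 3‖ = 4 * ‖p.1‖ ^ 3 := by simp
    have k5 := norm_sub_norm_le (4 * p.1 ^ 3) (fderiv ℂ (fun x : C2 × ℂ =>
      Φ (x.1, x.1.1 * (1 + x.2))) (p, c p) (0, 1))
    rw [norm_sub_rev] at k5
    have k6 := k5.trans k4
    rw [k3, n4, mul_one, norm_mul] at k6
    have s1' := s1 p hp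
    have k7 : ‖p.1‖ ≤ ‖p.1‖ ^ 3 := le_self_pow₀ s1' (by norm_num)
    refine le_of_mul_le_mul_right (a := ‖p.1‖) ?_ (by linarith)
    linarith
  · have s0 : 0 < ‖p.1‖ := by linarith [s1 p hp]
    have e0 : p.1 * (1 + (x - p.1) / p.1) = x := by
      field_simp [sne p hp]
      ring
    have k1 := (hc p hp).2.2.2.1 ((x - p.1) / p.1) (by
      rw [norm_div, div_lt_iff₀ s0]
      linarith) (by rw [e0]; exact h2)
    show x = p.1 * (1 + c p)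
    rw [← k1, e0]

end Vale.Agent.P097EE.LF
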