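import Vale.Agent.P097EE.LFDefs

/-! # P097EE.LF: the inner system at a fold -/

set_option linter.all false

noncomputable section

namespace Vale.Agent.P097EE.LF

open Filter Topology Set Metric Complex

theorem lfs_loc {ρ : ℝ} {x : C2 × ℂ} (hx : ‖x.1.2‖ < ρ) : ∃ ρ' > 0, ∀ y ∈ ball x ρ',
    ‖y.1.2‖ < ρ ∧ ‖y.1.1‖ ≤ ‖x‖ + 1 ∧ ‖y.2‖ ≤ ‖x‖ + 1 := by
  refine ⟨min 1 (ρ - ‖x.1.2‖), lt_min one_pos (sub_pos.2 hx), fun y hy => ?_⟩
  rw [mem_ball, dist_eq_norm, lt_min_iff] at hy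
  have h1 : ‖y‖ ≤ ‖x‖ + 1 := by linarith [norm_sub_norm_le y x, hy.1]
  have h2 : ‖y.1.2 - x.1.2‖ ≤ ‖y - x‖ := (norm_snd_le (y - x).1).trans (norm_fst_le (y - x))
  exact ⟨by linarith [norm_sub_norm_le y.1.2 x.1.2, hy.2],
    ((norm_fst_le y.1).trans (norm_fst_le y)).trans h1, (norm_snd_le y).trans h1⟩

theorem lfs_ev {𝒰 : Filter ℕ} {r : ℕ → ℂ} (h : Tendsto r 𝒰 (𝓝 0)) (A : ℝ) {η : ℝ} (hη : 0 < η) :
    ∀ᶠ n in 𝒰, A * ‖r n‖ < η := by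
  have := h.norm.const_mul A
  rw [norm_zero, mul_zero] at this
  exact this.eventually (gt_mem_nhds hη)

theorem lfs : S_LFS := by
  intro 𝒰 ε r μ m ρ C Fn Gn hε hr hm hμ H
  have mem : ∀ {x : C2 × ℂ}, x ∈ (univ ×ˢ ball (0 : ℂ) ρ : Set C2) ×ˢ (univ : Set ℂ) →
      ‖x.1.2‖ < ρ := fun hx => mem_ball_zero_iff.1 hx.1.2
  have sm : ∀ {R : ℝ} {a s : ℂ}, R * ‖a‖ < 1 → ‖s‖ ≤ R → ‖a * s‖ ≤ 1 := fun h1 h2 => by
    rw [norm_mul, mul_comm]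
    exact (mul_le_mul_of_nonneg_right h2 (norm_nonneg _)).trans h1.le
  have p12 : ∀ x : C2 × ℂ, AnalyticAt ℂ (fun x : C2 × ℂ => x.1.2) x := fun x =>
    analyticAt_snd.comp analyticAt_fst
  have p11 : ∀ x : C2 × ℂ, AnalyticAt ℂ (fun x : C2 × ℂ => x.1.1) x := fun x =>
    analyticAt_fst.comp analyticAt_fst
  refine ⟨isOpen_univ.prod isOpen_ball, fun x hx => ?_, fun x _ => analyticAt_snd.prod (p12 x),
    fun x hx => ⟨trivial, hx.1.2⟩, Metric.tendstoLocallyUniformlyOn_iff.2 fun η hη x hx => ?_,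
    Metric.tendstoLocallyUniformlyOn_iff.2 fun η hη x hx => ?_, fun x hx => ?_⟩
  · have a : AnalyticAt ℂ (fun x : C2 × ℂ => m x.1.2) x := (hm _ hx.1.2).comp_of_eq (p12 x) rfl
    exact (((analyticAt_const.mul (p11 x)).mul analyticAt_snd).mul
      (analyticAt_snd.sub (p11 x))).sub (a.mul ((p11 x).add analyticAt_snd))
  · obtain ⟨ρ', h0, hb⟩ := lfs_loc (mem hx)
    set R := ‖x‖ + 1 with hR
    have R0 : 0 < R := by positivity
    refine ⟨ball x ρ', mem_nhdsWithin_of_mem_nhds (ball_mem_nhds x h0), ?_⟩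
    filter_upwards [H, lfs_ev hr R one_pos, hμ (η / (4 * R)) (by positivity),
      lfs_ev hr (|C| * ((1 + R + R) ^ 2 + R * R * (R + R) * (R + R))) (half_pos hη)]
      with n h1 h2 h3 h4 y hy
    obtain ⟨b1, b2, b3⟩ := hb y hy
    have e1 := (h1 y.1.1 y.1.2 y.2 b1 (sm h2 b2) (sm h2 b3)).2.2.1
    have e2 := h3 y.1.2 (mem_ball_zero_iff.2 b1)
    have e3 : ‖y.2 - y.1.1‖ ≤ R + R := (norm_sub_le _ _).trans (add_le_add b3 b2)
    have e4 : C * ‖r n‖ * ((1 + ‖y.1.1‖ + ‖y.2‖) ^ 2 +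
        ‖y.1.1‖ * ‖y.2‖ * ‖y.2 - y.1.1‖ * (‖y.1.1‖ + ‖y.2‖)) ≤
        |C| * ‖r n‖ * ((1 + R + R) ^ 2 + R * R * (R + R) * (R + R)) := by
      gcongr
      exact le_abs_self C
    have e5 : ‖(μ n y.1.2 - m y.1.2) * (y.1.1 + y.2)‖ ≤ η / (4 * R) * (R + R) := by
      rw [norm_mul]
      exact mul_le_mul e2 ((norm_add_le _ _).trans (add_le_add b2 b3)) (norm_nonneg _)
        (by positivity)
    have e6 : η / (4 * R) * (R + R) = η / 2 := by field_simp; ring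
    rw [dist_comm, dist_eq_norm, show Fn n y - md (m y.1.2) y.1.1 y.2 =
      (Fn n ((y.1.1, y.1.2), y.2) - md (μ n y.1.2) y.1.1 y.2) -
        (μ n y.1.2 - m y.1.2) * (y.1.1 + y.2) by simp only [md]; ring]
    refine (norm_sub_le _ _).trans_lt ?_
    linarith
  · obtain ⟨ρ', h0, hb⟩ := lfs_loc (mem hx)
    refine ⟨ball x ρ', mem_nhdsWithin_of_mem_nhds (ball_mem_nhds x h0), ?_⟩
    filter_upwards [H, lfs_ev hr (‖x‖ + 1) one_pos, lfs_ev hr C hη, lfs_ev hε C hη]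
      with n h1 h2 h3 h4 y hy
    obtain ⟨b1, b2, b3⟩ := hb y hy
    have e1 := (h1 y.1.1 y.1.2 y.2 b1 (sm h2 b2) (sm h2 b3)).2.2.2
    rw [dist_comm, Prod.dist_eq, dist_eq_norm, dist_eq_norm]
    exact max_lt (e1.1.trans_lt h3) (e1.2.trans_lt h4)
  · obtain ⟨ρ', h0, hb⟩ := lfs_loc (mem hx)
    refine ⟨ρ', h0, ?_⟩
    filter_upwards [H, lfs_ev hr (‖x‖ + 1) one_pos] with n h1 h2
    have e := fun y hy => h1 y.1.1 y.1.2 y.2 (hb y hy).1 (sm h2 (hb y hy).2.1) (sm h2 (hb y hy).2.2)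
    exact ⟨fun y hy => (e y hy).1, fun y hy => (e y hy).2.1⟩

end Vale.Agent.P097EE.LF
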