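import Vale.Agent.P097EE.LFDefs

/-! # P097EE.LF: the two steps at a fold -/

set_option linter.all false

noncomputable section

namespace Vale.Agent.P097EE.LF

open Filter Topology Set Metric Complex Vale.Agent.P097N Vale.Agent.P097Mo

theorem n1 {C R N X D t : ℝ} (C0 : 0 ≤ C) (R0 : 0 ≤ R) (N1 : 1 ≤ N) (X0 : 0 ≤ X) (D0 : 0 ≤ D)
    (hX : X ≤ 5 / 4 * N) (ht : R * N ≤ t) :
    C * R * ((1 + N + X) ^ 2 + N * X * D * (N + X)) ≤ 14 * C * t * (N + N ^ 2 * D) := by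
  have a1 : (1 + N + X) ^ 2 ≤ 14 * N ^ 2 := by nlinarith
  have a2 : X * (N + X) ≤ 14 * N ^ 2 := by nlinarith
  have a3 := mul_le_mul_of_nonneg_left a2 (show 0 ≤ N * D by positivity)
  calc _ ≤ C * R * (14 * N ^ 2 + N * D * (14 * N ^ 2)) :=
        mul_le_mul_of_nonneg_left (by nlinarith) (by positivity)
    _ = 14 * C * (R * N) * (N + N ^ 2 * D) := by ring
    _ ≤ _ := by gcongr

theorem n2 {C R N X V D W d t : ℝ} (C0 : 0 ≤ C) (R0 : 0 ≤ R) (N1 : 1 ≤ N) (X0 : 0 ≤ X) (V0 : 0 ≤ V)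
    (D0 : 0 ≤ D) (d0 : 0 ≤ d) (W0 : 0 ≤ W) (hX : X ≤ 5 / 4 * N) (hV : V ≤ 5 / 4 * N)
    (hW : W ≤ D + d) (hd : d * N ≤ 1 / 4) (ht : R * N ≤ t) :
    C * R * ((1 + X + V) ^ 2 + X * V * W * (X + V)) ≤ 14 * C * t * (N + N ^ 2 * D) := by
  have a1 : (1 + X + V) ^ 2 ≤ 13 * N ^ 2 := by nlinarith
  have a2 : X * V * (X + V) ≤ 4 * N ^ 3 := by
    calc _ ≤ 5 / 4 * N * (5 / 4 * N) * (5 / 4 * N + 5 / 4 * N) := by gcongr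
      _ ≤ _ := by nlinarith [pow_pos (show 0 < N by linarith) 3]
  have a3 : X * V * (X + V) * W ≤ 4 * N ^ 3 * (D + d) := by gcongr
  have a4 := mul_le_mul_of_nonneg_left hd (show 0 ≤ 4 * N ^ 2 by positivity)
  have a5 : 0 ≤ N ^ 3 * D := by positivity
  calc _ ≤ C * R * (14 * N ^ 2 + 14 * N ^ 3 * D) :=
        mul_le_mul_of_nonneg_left (by nlinarith) (by positivity)
    _ = 14 * C * (R * N) * (N + N ^ 2 * D) := by ring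
    _ ≤ _ := by gcongr

theorem n3 {m s x v : ℂ} {K : ℝ} (K1 : 1 ≤ K) (N1 : 1 ≤ ‖s‖) (hm : ‖m‖ ≤ 2 * K)
    (hx : ‖x - s‖ ≤ ‖s‖ / 4) (hv : ‖v - s‖ ≤ ‖s‖ / 4) :
    ‖-md m x v - md (-m) s x‖ ≤ 10 * K * ‖s‖ * (‖v - s‖ * ‖s‖) := by
  have e : -md m x v - md (-m) s x = (4 * x * ((x - s) - s - (v - s)) + m) * (v - s) := by
    unfold md; ring
  have a1 : ‖x‖ ≤ 5 / 4 * ‖s‖ := by linarith [norm_le_norm_add_norm_sub' x s]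
  have a2 : ‖(x - s) - s - (v - s)‖ ≤ 3 / 2 * ‖s‖ := by
    linarith [norm_sub_le ((x - s) - s) (v - s), norm_sub_le (x - s) s]
  have a3 : ‖4 * x * ((x - s) - s - (v - s))‖ ≤ 4 * (5 / 4 * ‖s‖) * (3 / 2 * ‖s‖) := by
    rw [norm_mul, norm_mul, Complex.norm_ofNat]; gcongr
  have a4 : 1 ≤ ‖s‖ ^ 2 := by nlinarith
  have a5 : ‖4 * x * ((x - s) - s - (v - s)) + m‖ ≤ 10 * K * ‖s‖ ^ 2 := by
    nlinarith [norm_add_le (4 * x * ((x - s) - s - (v - s))) m]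
  rw [e, norm_mul]
  nlinarith [mul_le_mul_of_nonneg_right a5 (norm_nonneg (v - s))]

theorem An.mono2 {l L e : ℝ} (l0 : 0 ≤ l) (e0 : 0 ≤ e) {p : C2} (h : p ∈ An (2 * l) (L / 2) (e / 2)) :
    p ∈ An l L e := by
  obtain ⟨h1, h2, h3⟩ := h
  exact ⟨by linarith, by linarith [sq_nonneg ‖p.1‖], by linarith⟩

/-- the facts which are used for the two steps -/
structure Cx (F : C2 × ℂ → ℂ) (G : C2 × ℂ → C2) (H : C2 → C2) (m : ℂ → ℂ) (r : ℂ)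
    (ρ K C₁ C₂ η ν c₀ l L : ℝ) : Prop where
  hE : ∀ s e v : ℂ, ‖e‖ < ρ → ‖r * s‖ ≤ 1 → ‖r * v‖ ≤ 1 → AnalyticAt ℂ F ((s, e), v) ∧
    ‖F ((s, e), v) - md (m e) s v‖ ≤
      C₁ * ‖r‖ * ((1 + ‖s‖ + ‖v‖) ^ 2 + ‖s‖ * ‖v‖ * ‖v - s‖ * (‖s‖ + ‖v‖))
  hG : ∀ s e v : ℂ, ‖e‖ < ρ → ‖r * v‖ ≤ 1 → AnalyticAt ℂ G ((s, e), v) ∧
    ‖(G ((s, e), v)).1 - v‖ ≤ C₂ * ‖r‖ ∧ ‖(G ((s, e), v)).2 - e‖ ≤ ν
  hH : ∀ s e : ℂ, ‖e‖ < ρ → ‖r * s‖ ≤ 1 → AnalyticAt ℂ H (s, e) ∧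
    ‖(H (s, e)).1 - s‖ ≤ C₂ * ‖r‖ ∧ ‖(H (s, e)).2 - e‖ ≤ ν
  hM : ∀ e : ℂ, ‖e‖ < ρ → ‖m e - 1‖ ≤ K * ‖e‖
  hr : ∀ p ∈ An l L (ρ / 2), ‖r‖ * ‖p.1‖ ≤ K * η
  ρ0 : 0 < ρ
  ρ1 : ρ ≤ 1
  K1 : 1 ≤ K
  C1 : 1 ≤ C₁
  D1 : 1 ≤ C₂
  η0 : 0 ≤ η
  ν1 : ν ≤ C₂ * η
  ν2 : ν ≤ ρ / 4
  η1 : K * C₂ * η ≤ c₀ / 4
  c1 : c₀ ≤ 1 / 8
  l1 : 1 ≤ l

namespace Cx

variable {F : C2 × ℂ → ℂ} {G : C2 × ℂ → C2} {H : C2 → C2} {m : ℂ → ℂ} {r : ℂ}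
  {ρ K C₁ C₂ η ν c₀ l L : ℝ} (X : Cx F G H m r ρ K C₁ C₂ η ν c₀ l L) {p : C2}
  (hp : p ∈ An l L (ρ / 2))

include X

theorem kc : 1 ≤ K * C₂ ∧ K * C₂ ≤ 14 * C₁ * K + 10 * K ^ 2 * C₂ ∧ K ≤ K * C₂ ∧ C₂ ≤ K * C₂ := by
  have := X.K1
  have := X.C1
  have := X.D1
  have a1 : 1 ≤ K * C₂ := by nlinarith
  have a2 : 0 ≤ 14 * C₁ * K := by positivity
  exact ⟨a1, by nlinarith, by nlinarith, by nlinarith⟩

theorem sc {t N : ℝ} (N0 : 0 ≤ N) (h1 : t ≤ C₂ * ‖r‖) (h2 : ‖r‖ * N ≤ K * η) :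
    t * N ≤ K * C₂ * η :=
  calc _ ≤ C₂ * ‖r‖ * N := mul_le_mul_of_nonneg_right h1 N0
    _ = C₂ * (‖r‖ * N) := by ring
    _ ≤ C₂ * (K * η) := mul_le_mul_of_nonneg_left h2 (by linarith [X.D1])
    _ = _ := by ring

include hp

theorem one : 1 ≤ ‖p.1‖ := by nlinarith [norm_nonneg p.1, hp.1, X.l1]

theorem near {x : ℂ} (hx : ‖x - p.1‖ ≤ ‖p.1‖ / 4) : ‖x‖ ≤ 5 / 4 * ‖p.1‖ ∧ ‖r * x‖ ≤ 1 := by
  have a4 : ‖x‖ ≤ 5 / 4 * ‖p.1‖ := by linarith [norm_le_norm_add_norm_sub' x p.1]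
  have a5 := mul_le_mul_of_nonneg_right X.kc.2.2.1 X.η0
  refine ⟨a4, ?_⟩
  rw [norm_mul]
  linarith [mul_le_mul_of_nonneg_left a4 (norm_nonneg r), X.hr p hp, X.η1, X.c1]

theorem self : ‖r * p.1‖ ≤ 1 := (X.near hp (by simp; positivity)).2

theorem lt : ‖p.2‖ < ρ := by linarith [hp.2.2, X.ρ0]

theorem hh : AnalyticAt ℂ H p ∧ ‖(H p).1 - p.1‖ * ‖p.1‖ ≤ K * C₂ * η ∧ ‖(H p).2 - p.2‖ ≤ ν ∧
    ‖(H p).1 - p.1‖ ≤ c₀ / 4 := by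
  obtain ⟨a4, a5, a6⟩ := X.hH p.1 p.2 (X.lt hp) (X.self hp)
  have a7 := X.sc (norm_nonneg p.1) a5 (X.hr p hp)
  exact ⟨a4, a7, a6, by nlinarith [norm_nonneg ((H p).1 - p.1), X.one hp, X.η1]⟩

theorem fwd : ‖m p.2 - 1‖ ≤ (14 * C₁ * K + 10 * K ^ 2 * C₂) * (‖p.2‖ + η) ∧
    ∀ x : ℂ, ‖x - p.1‖ ≤ ‖p.1‖ / 4 → AnalyticAt ℂ F (p, x) ∧ AnalyticAt ℂ G (p, x) ∧
      ‖F (p, x) - md ((1 : ℝ) * m p.2) p.1 x‖ ≤
        (14 * C₁ * K + 10 * K ^ 2 * C₂) * η * (‖p.1‖ + ‖p.1‖ ^ 2 * ‖x - p.1‖) ∧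
      ‖(G (p, x)).1 - x‖ * ‖p.1‖ ≤ (14 * C₁ * K + 10 * K ^ 2 * C₂) * η ∧
      ‖(G (p, x)).2 - p.2‖ ≤ ν := by
  obtain ⟨k1, k2, k3, k4⟩ := X.kc
  have η0 := X.η0
  have K1 := X.K1
  have D1 := X.D1
  refine ⟨(X.hM _ (X.lt hp)).trans (mul_le_mul (by linarith) (by linarith) (norm_nonneg _)
    (by linarith)), fun x hx => ?_⟩
  obtain ⟨a5, a6⟩ := X.near hp hx
  obtain ⟨a7, a8⟩ := X.hE p.1 p.2 x (X.lt hp) (X.self hp) a6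
  obtain ⟨a9, a10, a11⟩ := X.hG p.1 p.2 x (X.lt hp) a6
  refine ⟨a7, a9, ?_, (X.sc (norm_nonneg _) a10 (X.hr p hp)).trans
    (mul_le_mul_of_nonneg_right k2 η0), a11⟩
  simp only [ofReal_one, one_mul]
  refine a8.trans ((n1 (by linarith [X.C1]) (norm_nonneg _) (X.one hp) (norm_nonneg _)
    (norm_nonneg _) a5 (X.hr p hp)).trans (mul_le_mul_of_nonneg_right ?_ (by positivity)))
  linarith [mul_nonneg (show 0 ≤ 10 * K ^ 2 * C₂ by positivity) η0]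

theorem bwd : ‖m (H p).2 - 1‖ ≤ (14 * C₁ * K + 10 * K ^ 2 * C₂) * (‖p.2‖ + η) ∧
    ∀ x : ℂ, ‖x - p.1‖ ≤ ‖p.1‖ / 4 →
      AnalyticAt ℂ (fun y : C2 × ℂ => -F ((y.2, (H y.1).2), (H y.1).1)) (p, x) ∧
      AnalyticAt ℂ (fun y : C2 × ℂ => (y.2, (H y.1).2)) (p, x) ∧
      ‖-F ((x, (H p).2), (H p).1) - md ((-1 : ℝ) * m (H p).2) p.1 x‖ ≤
        (14 * C₁ * K + 10 * K ^ 2 * C₂) * η * (‖p.1‖ + ‖p.1‖ ^ 2 * ‖x - p.1‖) ∧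
      ‖x - x‖ * ‖p.1‖ ≤ (14 * C₁ * K + 10 * K ^ 2 * C₂) * η ∧ ‖(H p).2 - p.2‖ ≤ ν := by
  obtain ⟨k1, k2, k3, k4⟩ := X.kc
  have η0 := X.η0
  have K1 := X.K1
  have D1 := X.D1
  have a1 := X.one hp
  obtain ⟨d1, d2, d3, d4⟩ := X.hh hp
  have d5 := norm_le_norm_add_norm_sub' (H p).2 p.2
  have a4 : ‖(H p).2‖ < ρ := by linarith [hp.2.2, X.ν2, X.ρ0]
  have d6 := X.hM _ a4
  refine ⟨d6.trans ?_, fun x hx => ?_⟩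
  · calc _ ≤ K * (C₂ * (‖p.2‖ + η)) :=
          mul_le_mul_of_nonneg_left (by nlinarith [norm_nonneg p.2, X.ν1]) (by linarith)
      _ = K * C₂ * (‖p.2‖ + η) := by ring
      _ ≤ _ := mul_le_mul_of_nonneg_right k2 (by positivity)
  obtain ⟨a5, a6⟩ := X.near hp hx
  have d7 : ‖(H p).1 - p.1‖ ≤ ‖p.1‖ / 4 := by linarith [X.c1]
  obtain ⟨a9, a10⟩ := X.near hp d7
  obtain ⟨a7, a8⟩ := X.hE x (H p).2 (H p).1 a4 a6 a10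
  have d8 : AnalyticAt ℂ (fun y : C2 × ℂ => H y.1) (p, x) :=
    d1.fun_comp (f := Prod.fst) (x := (p, x)) analyticAt_fst
  have d9 : AnalyticAt ℂ (fun y : C2 × ℂ => (y.2, (H y.1).2)) (p, x) :=
    analyticAt_snd.prod (analyticAt_snd.fun_comp (f := fun y : C2 × ℂ => H y.1) d8)
  refine ⟨(a7.fun_comp (f := fun y : C2 × ℂ => ((y.2, (H y.1).2), (H y.1).1)) (x := (p, x))
    (d9.prod (analyticAt_fst.fun_comp (f := fun y : C2 × ℂ => H y.1) d8))).fun_neg, d9, ?_,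
    by rw [sub_self, norm_zero, zero_mul]; exact mul_nonneg (by linarith) η0, d3⟩
  have d10 : ‖m (H p).2‖ ≤ 2 * K := by
    have := norm_le_norm_add_norm_sub' (m (H p).2) 1
    rw [norm_one] at this
    linarith [mul_le_mul_of_nonneg_left (a4.le.trans X.ρ1) (show 0 ≤ K by linarith)]
  have d11 := n3 K1 a1 d10 hx d7
  have d12 := a8.trans (n2 (D := ‖x - p.1‖) (d := ‖(H p).1 - p.1‖) (by linarith [X.C1])
    (norm_nonneg _) a1 (norm_nonneg _) (norm_nonneg _) (norm_nonneg _) (norm_nonneg _)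
    (norm_nonneg _) a5 a9 (by
      rw [add_comm, norm_sub_rev x]; exact norm_sub_le_norm_sub_add_norm_sub _ _ _)
    (by linarith [X.η1, X.c1]) (X.hr p hp))
  simp only [ofReal_neg, ofReal_one, neg_mul, one_mul]
  have d13 := norm_sub_le (-md (m (H p).2) x (H p).1 - md (-m (H p).2) p.1 x)
    (F ((x, (H p).2), (H p).1) - md (m (H p).2) x (H p).1)
  rw [show ∀ A B B' : ℂ, -B - B' - (A - B) = -A - B' from fun _ _ _ => by ring] at d13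
  have d14 : 10 * K * ‖p.1‖ * (‖(H p).1 - p.1‖ * ‖p.1‖) ≤
      10 * K * (‖p.1‖ + ‖p.1‖ ^ 2 * ‖x - p.1‖) * (K * C₂ * η) := by
    gcongr
    linarith [mul_nonneg (sq_nonneg ‖p.1‖) (norm_nonneg (x - p.1))]
  linarith

theorem cl {C : ℝ} {w : ℂ} (c0 : 0 < c₀) (hl : 8 * C ≤ c₀ * l) (hw : ‖w - p.1‖ * ‖p.1‖ ≤ C) :
    ‖w - p.1‖ ≤ c₀ / 8 * ‖p.1‖ := by
  refine le_of_mul_le_mul_right (hw.trans ?_) (show 0 < ‖p.1‖ by linarith [X.one hp])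
  nlinarith [hp.1]

theorem un {p' : C2} (hp' : p' ∈ An l L (ρ / 2)) (c0 : 0 < c₀)
    (h : ‖p'.1 - p.1‖ ≤ c₀ / 4 * ‖p.1‖) :
    ‖(H p').1 - p.1‖ ≤ c₀ * ‖p.1‖ ∧ ‖p.1 - p'.1‖ ≤ c₀ * ‖p'.1‖ := by
  have a4 := X.one hp
  have a5 := (X.hh hp').2.2.2
  have a6 := norm_sub_le_norm_sub_add_norm_sub (H p').1 p'.1 p.1
  have a7 := norm_le_norm_add_norm_sub' p.1 p'.1
  have c1 := X.c1
  rw [norm_sub_rev p.1] at a7 ⊢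
  have a8 : ‖p.1‖ ≤ 2 * ‖p'.1‖ := by nlinarith
  exact ⟨by nlinarith, by nlinarith⟩

omit hp in
theorem iv (hp : p ∈ An (2 * l) (L / 2) (ρ / 2 / 2)) {w : ℂ} (c0 : 0 < c₀)
    (a4 : ‖w - p.1‖ ≤ c₀ / 8 * ‖p.1‖) :
    (w, (H p).2) ∈ An l L (ρ / 2) ∧ ‖p.1 - w‖ ≤ c₀ / 4 * ‖w‖ := by
  have hp' := An.mono2 (by linarith [X.l1]) (by linarith [X.ρ0]) hp
  have a5 := (X.hh hp').2.2.1
  have a6 := norm_le_norm_add_norm_sub' w p.1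
  have a7 := norm_le_norm_add_norm_sub' p.1 w
  have a8 := norm_le_norm_add_norm_sub' (H p).2 p.2
  have a9 := X.one hp'
  obtain ⟨d1, d2, d3⟩ := hp
  rw [norm_sub_rev p.1] at a7 ⊢
  have d4 : ‖w - p.1‖ ≤ ‖p.1‖ / 64 := by nlinarith [X.c1]
  have d5 : 63 / 64 * ‖p.1‖ ≤ ‖w‖ := by linarith
  have d6 : ‖w‖ ≤ 65 / 64 * ‖p.1‖ := by linarith
  refine ⟨⟨?_, ?_, ?_⟩, by nlinarith⟩
  · show l < ‖w‖ ^ 2
    nlinarith [pow_le_pow_left₀ (by positivity) d5 2, X.l1]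
  · show ‖w‖ ^ 2 < L
    nlinarith [pow_le_pow_left₀ (by positivity) d6 2]
  · show ‖(H p).2‖ < ρ / 2
    linarith [X.ν2]

end Cx

theorem lft (hE : S_LFE) (hG : S_LFG) (hR : S_LFR) : S_LFT := by
  intro j ρ K j0 ρ0 ρ1 K1
  obtain ⟨C₁, ε₁, C1, e1, hE⟩ := hE j ρ K j0 ρ0 ρ1 K1
  obtain ⟨C₂, ε₂, C2', e2, hG⟩ := hG (j * Real.pi) ρ K ρ0 K1
  have kc : 1 ≤ K * C₂ := by nlinarith
  have b1 : 0 ≤ 14 * C₁ * K := by positivity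
  have b2 : K * C₂ ≤ 10 * K ^ 2 * C₂ := by nlinarith
  have b3 : C₂ ≤ K * C₂ := by nlinarith
  obtain ⟨l, C, c₀, η₀, l1, hC, c0, c1, h0, hl, hR⟩ :=
    hR (14 * C₁ * K + 10 * K ^ 2 * C₂) (by linarith)
  have Cp : 1 ≤ C := by linarith
  refine ⟨C, l, c₀ / 4, min (min ε₁ ε₂) (min (min η₀ (c₀ / (4 * (K * C₂))) ^ 2)
    (min (1 / C) (ρ / (4 * C₂)))), Cp, l1, by positivity, by positivity, ?_⟩
  intro θ h Q c U ε r z L D L1 hε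
  simp only [le_min_iff] at hε
  obtain ⟨⟨k1, k2⟩, k3, k4, k5⟩ := hε
  have εL : ‖ε‖ ≤ ‖ε‖ * L := le_mul_of_one_le_right (norm_nonneg _) L1
  obtain ⟨hG, hH⟩ := hG θ h Q c U ε r z D (εL.trans k2)
  replace hE := hE θ h Q c U ε r z D (εL.trans k1)
  generalize (j * Real.pi : ℂ) = δ at *
  have η0 : 0 ≤ √(‖ε‖ * L) := Real.sqrt_nonneg _
  have η3 : √(‖ε‖ * L) ≤ min η₀ (c₀ / (4 * (K * C₂))) := Real.sqrt_le_iff.2 ⟨by positivity, k3⟩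
  have ν1 : C * ‖ε‖ * L ≤ 1 := by rw [le_div_iff₀ (by linarith)] at k4; linarith
  have ν3 : C₂ * ‖ε‖ ≤ C * ‖ε‖ := mul_le_mul_of_nonneg_right (by linarith) (norm_nonneg _)
  have X : Cx (FF θ h c r z δ) (GF θ r z δ) (HF θ r z δ) (fun e => mu θ r δ (z + e)) r ρ K C₁ C₂
      √(‖ε‖ * L) (C₂ * ‖ε‖) c₀ l L := by
    refine ⟨hE, hG, hH, fun e he => ?_, fun p hp => ?_, ρ0, ρ1, K1, C1, C2', η0,
      mul_le_mul_of_nonneg_left ?_ (by linarith), ?_, ?_, c1, l1⟩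
    · simpa using (D.bd (z + e) (by rw [mem_ball, dist_eq_norm]; simp; linarith)).2.2.2.2
    · refine (pow_le_pow_iff_left₀ (by positivity) (by positivity) two_ne_zero).1 ?_
      rw [mul_pow, mul_pow, Real.sq_sqrt (by positivity)]
      calc _ ≤ K * ‖ε‖ * L := mul_le_mul D.r2 hp.2.1.le (by positivity) (by positivity)
        _ = K * (‖ε‖ * L) := by ring
        _ ≤ _ := mul_le_mul_of_nonneg_right (by nlinarith) (by positivity)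
    · have : ‖ε‖ ≤ 1 := εL.trans (k4.trans (by rw [div_le_one (by linarith)]; exact Cp))
      exact Real.le_sqrt_of_sq_le (by nlinarith [norm_nonneg ε])
    · have := εL.trans k5
      rw [le_div_iff₀ (by positivity)] at this; linarith
    · have := η3.trans (min_le_right _ _)
      rw [le_div_iff₀ (by positivity)] at this; linarith
  obtain ⟨v, s1, hv⟩ := hR (FF θ h c r z δ) (GF θ r z δ) (fun p => mu θ r δ (z + p.2)) 1 L (ρ / 2)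
    _ (C * ‖ε‖) (Or.inl rfl) (by linarith) η0 (η3.trans (min_le_left _ _)) (by positivity) ν1
    fun p hp => ⟨(X.fwd hp).1, fun x hx => by
      obtain ⟨a1, a2, a3, a4, a5⟩ := (X.fwd hp).2 x hx
      exact ⟨a1, a2, a3, a4, a5.trans ν3⟩⟩
  obtain ⟨x, s2, hx⟩ := hR
    (fun y => -FF θ h c r z δ ((y.2, (HF θ r z δ y.1).2), (HF θ r z δ y.1).1))
    (fun y => (y.2, (HF θ r z δ y.1).2)) (fun p => mu θ r δ (z + (HF θ r z δ p).2)) (-1) L (ρ / 2)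
    _ (C * ‖ε‖) (Or.inr rfl) (by linarith) η0 (η3.trans (min_le_left _ _)) (by positivity) ν1
    fun p hp => ⟨(X.bwd hp).1, fun x hx => by
      obtain ⟨a1, a2, a3, a4, a5⟩ := (X.bwd hp).2 x hx
      exact ⟨a1, a2, a3, a4, a5.trans ν3⟩⟩
  refine ⟨v, x, s1, s2, fun p hp => ?_, fun p hp p' hp' a1 a2 a3 => ?_, fun p hp => ?_⟩
  · obtain ⟨a1, a2, a3, a4, -⟩ := hv p hp
    refine ⟨a1, a2, ?_, a4⟩
    nlinarith [X.cl hp c0 hl a3, norm_le_norm_add_norm_sub' (v p) p.1, norm_nonneg p.1]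
  · obtain ⟨a4, a5⟩ := X.un hp hp' c0 a1
    exact ⟨(hv p hp).2.2.2.2 _ a4 a3, (hx p' hp').2.2.2.2 _ a5 (by rw [a2]; exact neg_eq_zero.2 a3)⟩
  · have hp' := An.mono2 (by linarith) (by linarith) hp
    obtain ⟨-, a2, a3, -⟩ := hx p hp'
    obtain ⟨a4, a5⟩ := X.iv hp c0 (X.cl hp' c0 hl a3)
    exact ⟨a4, a5, neg_eq_zero.1 a2⟩

end Vale.Agent.P097EE.LF
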