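import Vale.Agent.P097EE.LFe
import Vale.Agent.P097EE.LFGeo
import Vale.Agent.P097EE.LFRoot
import Vale.Agent.P097EE.LFDat
import Vale.Agent.P097EE.LFSys
import Vale.Agent.P097EE.LFTwo
import Vale.Agent.P097EE.LFAll

/-! # P097EE: the local system at a fold (closed form) -/

namespace Vale.Agent.P097EE

theorem locF : S_LOCF := LF.lfa LF.lfe LF.lfg LF.lfd LF.lfs (LF.lft LF.lfe LF.lfg LF.lfr)

end Vale.Agent.P097EE
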