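import Vale.Agent.P097EE.LZDefs

/-!
# P097EE.LZ, 5823: the growth of `e`
-/

set_option linter.all false

noncomputable section

namespace Vale.Agent.P097EE.LZ

open Filter Topology Set Metric Complex Vale.Agent.P097N Vale.Agent.P097Mo
open Vale.Agent.P097F.N (nx ps)

namespace Fn

theorem lin {f : ℂ → ℂ} (hf : DifferentiableAt ℂ f 0) :
    ∃ K : ℝ, 0 ≤ K ∧ ∀ᶠ e in 𝓝 (0 : ℂ), ‖f e - f 0‖ ≤ K * ‖e‖ := by
  obtain ⟨K, K0, h⟩ := hf.isBigO_sub.exists_nonneg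
  refine ⟨K, K0, h.bound.mono fun e he => ?_⟩
  rwa [sub_zero] at he

theorem quad {f : ℂ → ℂ} {b : ℂ} (hf : AnalyticAt ℂ f 0) (h0 : f 0 = 0) (h1 : HasDerivAt f b 0) :
    ∃ K : ℝ, 0 ≤ K ∧ ∀ᶠ e in 𝓝 (0 : ℂ), ‖f e - b * e‖ ≤ K * ‖e‖ ^ 2 := by
  obtain ⟨p, hp⟩ := hf
  obtain ⟨K, K0, h⟩ := lin hp.has_fpower_series_dslope_fslope.analyticAt.differentiableAt
  refine ⟨K, K0, h.mono fun e he => ?_⟩
  have e1 := sub_smul_dslope f 0 e
  rw [sub_zero, h0, sub_zero, smul_eq_mul] at e1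
  rw [dslope_same, h1.deriv] at he
  have e2 : f e - b * e = e * (dslope f 0 e - b) := by
    rw [← e1]
    ring
  rw [e2, norm_mul]
  have := mul_le_mul_of_nonneg_left he (norm_nonneg e)
  nlinarith

theorem one_add {w : ℂ} (h : w.re ≤ 0) : ‖1 + w‖ ≤ 1 + ‖w‖ ^ 2 / 2 := by
  have e : ‖1 + w‖ ^ 2 = 1 + 2 * w.re + ‖w‖ ^ 2 := by
    rw [Complex.sq_norm, Complex.sq_norm, normSq_apply, normSq_apply]
    simp
    ring
  refine (pow_le_pow_iff_left₀ (norm_nonneg _) (by positivity) two_ne_zero).1 ?_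
  rw [e]
  nlinarith [sq_nonneg (‖w‖ ^ 2)]

theorem loc {δ : ℂ} (h0 : δ ≠ 0) (hS : Sf δ = 0) : ∃ e₂ K : ℝ, 0 < e₂ ∧ e₂ ≤ 1 ∧ 0 ≤ K ∧
    ∀ e : ℂ, ‖e‖ ≤ e₂ → ∃ ρ ψ : ℂ, ‖ρ‖ ≤ K * ‖e‖ ^ 2 ∧ ‖ψ‖ ≤ K * ‖e‖ ∧
      1 + (2 * δ + e) * ps (δ + e / 2) = δ * ψ ∧ (δ + e / 2) ^ 2 * ψ = 3 / 2 * e + ρ := by
  have s0 : sin δ ≠ 0 := by
    intro h
    rw [Sf, h, zero_sub, neg_eq_zero] at hS
    have c := (mul_eq_zero.1 hS).resolve_left h0
    have := sin_sq_add_cos_sq δ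
    rw [h, c] at this
    simp at this
  let φ : ℂ → ℂ := fun e => 3 * (sin (δ + e / 2) - (δ + e / 2) * cos (δ + e / 2)) /
    (δ * sin (δ + e / 2))
  let ψ : ℂ → ℂ := fun e => φ e / (δ + e / 2) ^ 2
  have z0 : δ + (0 : ℂ) / 2 = δ := by simp
  have φ0 : φ 0 = 0 := by
    have : sin δ - δ * cos δ = 0 := hS
    show 3 * (sin (δ + 0 / 2) - (δ + 0 / 2) * cos (δ + 0 / 2)) / _ = 0
    rw [z0, this, mul_zero, zero_div]
  have aφ : AnalyticAt ℂ φ 0 :=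
    AnalyticAt.div (by fun_prop) (by fun_prop) (by rw [z0]; exact mul_ne_zero h0 s0)
  have dφ : HasDerivAt φ (3 / 2) 0 := by
    have d0 : HasDerivAt (fun e : ℂ => δ + e / 2) (1 / 2) 0 :=
      ((hasDerivAt_id (0 : ℂ)).div_const 2).const_add δ
    have d1 := ((d0.csin.sub (d0.mul d0.ccos)).const_mul 3).div (d0.csin.const_mul δ)
      (by rw [z0]; exact mul_ne_zero h0 s0)
    refine d1.congr_deriv ?_
    have : sin δ - δ * cos δ = 0 := hS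
    simp only [z0, Pi.sub_apply, Pi.mul_apply, this]
    field_simp
    ring
  have dψ : DifferentiableAt ℂ ψ 0 :=
    aφ.differentiableAt.div (by fun_prop) (by rw [z0]; exact pow_ne_zero 2 h0)
  obtain ⟨K₁, p1, k1⟩ := quad aφ φ0 dφ
  obtain ⟨K₂, p2, k2⟩ := lin dψ
  have k3 : ∀ᶠ e in 𝓝 (0 : ℂ), δ + e / 2 ≠ 0 :=
    ContinuousAt.eventually_ne (by fun_prop) (by rw [z0]; exact h0)
  have k4 : ∀ᶠ e in 𝓝 (0 : ℂ), sin (δ + e / 2) ≠ 0 :=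
    ContinuousAt.eventually_ne (g := fun e : ℂ => sin (δ + e / 2)) (by fun_prop)
      (by rw [z0]; exact s0)
  obtain ⟨r, r0, hr⟩ := Metric.eventually_nhds_iff.1 (k1.and (k2.and (k3.and k4)))
  refine ⟨min (r / 2) 1, K₁ + K₂, lt_min (by positivity) one_pos, min_le_right _ _,
    by positivity, fun e he => ?_⟩
  obtain ⟨a1, a2, a3, a4⟩ := hr (y := e) (by
    rw [dist_zero_right]
    linarith [min_le_left (r / 2) 1])
  have ψ0 : ψ 0 = 0 := by simp only [ψ, φ0, zero_div]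
  rw [ψ0, sub_zero] at a2
  refine ⟨φ e - 3 / 2 * e, ψ e, a1.trans (by gcongr; linarith), a2.trans (by gcongr; linarith),
    ?_, ?_⟩
  · have e1 : 2 * δ + e = 2 * (δ + e / 2) := by ring
    rw [e1]
    simp only [ψ, φ, ps]
    generalize δ + e / 2 = d at a3 a4
    field_simp
    ring
  · simp only [ψ]
    rw [mul_div_cancel₀ _ (pow_ne_zero 2 a3)]
    ring

end Fn

theorem fin : S_FIN := by
  intro δ h0 hS
  obtain ⟨e₂, K, e0, e1, K0, H⟩ := Fn.loc h0 hS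
  refine ⟨e₂, e0, fun A hA => ⟨2 + 2 * (A * K) + 2 * A, by nlinarith, ?_⟩⟩
  intro a η e e' m ν ω ha hη he ω0 ω1 hν h1 h2
  obtain ⟨ρ, ψ, b1, b2, b3, b4⟩ := H e he
  have η0 : η ≠ 0 := by
    rintro rfl
    simp at hη
    linarith
  have e4 : ‖η‖ ^ 4 = (‖η‖ ^ 2) ^ 2 := by ring
  have nη : ‖η ^ 2‖ = ‖η‖ ^ 2 := norm_pow _ _
  have na : ‖(a : ℂ)‖ = 1 := by rcases ha with rfl | rfl <;> simp
  rw [e4] at h1 ⊢
  rw [b3] at h1
  obtain ⟨μ, hμ⟩ : ∃ μ, μ = m * η ^ 2 * δ - (δ + e / 2) ^ 2 := ⟨_, rfl⟩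
  obtain ⟨r, hr⟩ : ∃ r, r = e' - e - a * m * (δ * ψ) := ⟨_, rfl⟩
  rw [← hμ] at h2
  rw [← hr] at h1
  obtain ⟨w, hw⟩ : ∃ w : ℂ, w = 3 / 2 * a * (η ^ 2)⁻¹ := ⟨_, rfl⟩
  obtain ⟨u, hu⟩ : ∃ u : ℂ, u = a * (ρ + μ * ψ) * (η ^ 2)⁻¹ := ⟨_, rfl⟩
  have key : e' = (1 + w) * e + u + r := by
    rw [hw, hu, hr, hμ, sub_mul, b4]
    field_simp
    ring
  have wre : a * (η ^ 2).re ≤ 0 → w.re ≤ 0 := by
    intro h
    have e5 : w = ((3 / 2 * a : ℝ) : ℂ) * (η ^ 2)⁻¹ := by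
      rw [hw]
      push_cast
      ring
    rw [e5, re_ofReal_mul, inv_re, ← mul_div_assoc]
    exact div_nonpos_of_nonpos_of_nonneg (by linarith) (normSq_nonneg _)
  have nw : ‖w‖ = 3 / 2 * (‖η‖ ^ 2)⁻¹ := by
    rw [hw, norm_mul, norm_mul, na, norm_inv, nη]
    simp
  have n0 := norm_nonneg e
  have n1 : ‖e‖ ≤ 1 := he.trans e1
  have AK : 0 ≤ A * K := by positivity
  have nu : ‖u‖ ≤ A * K * (‖e‖ + ω) * ‖e‖ * (‖η‖ ^ 2)⁻¹ := by
    rw [hu, norm_mul, norm_mul, na, norm_inv, nη, one_mul]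
    refine mul_le_mul_of_nonneg_right ((norm_add_le _ _).trans ?_) (by positivity)
    rw [norm_mul]
    have c1 : ‖μ‖ * ‖ψ‖ ≤ A * ω * (K * ‖e‖) :=
      mul_le_mul h2 b2 (norm_nonneg _) (by positivity)
    have c2 : K * ‖e‖ ^ 2 ≤ A * (K * ‖e‖ ^ 2) := le_mul_of_one_le_left (by positivity) hA
    linarith
  generalize ‖η‖ ^ 2 = N at *
  have N0 : 0 < N := by linarith
  obtain ⟨x, hx⟩ : ∃ x, x = N⁻¹ := ⟨_, rfl⟩
  have x0 : 0 < x := by rw [hx]; positivity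
  have x1 : x ≤ 1 := by rw [hx]; exact inv_le_one_of_one_le₀ hη
  have xN : x * N = 1 := by rw [hx]; exact inv_mul_cancel₀ N0.ne'
  simp only [div_eq_mul_inv, ← inv_pow, one_mul] at h1 ⊢
  rw [← hx] at h1 nw nu ⊢
  have t1 : ‖e'‖ ≤ ‖1 + w‖ * ‖e‖ + ‖u‖ + ‖r‖ := by
    rw [key, ← norm_mul]
    exact norm_add₃_le
  have ex : 0 ≤ ‖e‖ * x := by positivity
  have xx : 0 ≤ x ^ 2 := by positivity
  have nu2 : ‖u‖ ≤ 2 * (A * K) * (‖e‖ * x) := by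
    refine nu.trans ?_
    have : A * K * (‖e‖ + ω) ≤ A * K * 2 := mul_le_mul_of_nonneg_left (by linarith) AK
    linarith [mul_le_mul_of_nonneg_right this ex]
  refine ⟨?_, fun h => ?_, ?_⟩
  · have c1 : ‖1 + w‖ ≤ 1 + 3 / 2 * x := by
      have := norm_add_le 1 w
      rwa [norm_one, nw] at this
    have c2 := mul_le_mul_of_nonneg_right c1 n0
    have c3 : 0 ≤ A * (‖e‖ * x) := by positivity
    have c4 : 0 ≤ A * x ^ 2 := by positivity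
    have c5 : 0 ≤ A * K * x ^ 2 := by positivity
    linarith
  · have c1 := Fn.one_add (wre h)
    rw [nw] at c1
    have c2 := mul_le_mul_of_nonneg_right c1 n0
    have c3 : 0 ≤ (2 + A * K + 2 * A) * ((‖e‖ + ω) * (‖e‖ * x)) := by positivity
    have c4 : 0 ≤ A * x ^ 2 := by positivity
    have c5 : 0 ≤ A * K * x ^ 2 := by positivity
    have c6 : 0 ≤ (7 / 8 + 2 * (A * K) + 2 * A) * (x ^ 2 * ‖e‖) := by positivity
    linarith
  · have t2 : ‖e' - e‖ ≤ ‖w‖ * ‖e‖ + ‖u‖ + ‖r‖ := by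
      have e5 : e' - e = w * e + u + r := by
        rw [key]
        ring
      rw [e5, ← norm_mul]
      exact norm_add₃_le
    have c1 : ‖e' - e‖ ≤ 3 / 2 * x + 2 * (A * K) * x + (A * x + ν) := by
      have d1 : ‖e‖ * x ≤ x := mul_le_of_le_one_left x0.le n1
      have d2 : x ^ 2 ≤ x := pow_le_of_le_one x0.le x1 two_ne_zero
      have d3 := mul_le_mul_of_nonneg_left d1 (show 0 ≤ 2 * (A * K) by positivity)
      have d4 := mul_le_mul_of_nonneg_left d2 (show 0 ≤ A by positivity)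
      rw [nw] at t2
      linarith
    have c2 := mul_le_mul_of_nonneg_right c1 N0.le
    have c3 : (3 / 2 * x + 2 * (A * K) * x + (A * x + ν)) * N =
        (3 / 2 + 2 * (A * K) + A) * (x * N) + ν * N := by ring
    rw [c3, xN] at c2
    linarith

end Vale.Agent.P097EE.LZ
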