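import Vale.Agent.P097EE.LZDefs
import Vale.Agent.P097N.K

/-!
# P097EE.LZ: the scaled local system (row 5828)
-/

set_option linter.all false

noncomputable section

namespace Vale.Agent.P097EE.LZ

open Filter Topology Set Metric Complex Vale.Agent.P097N Vale.Agent.P097Mo
open Vale.Agent.P097F.N (nx ps)

variable {δ : ℂ} {ν R : ℝ} {θ h Q : ℂ → ℂ} {c : ℂ} {U : Set ℂ}

theorem LocA.ne (hO : S_ODE) (Z : ZS δ ν R θ h Q c U) (d0 : δ ≠ 0) (hν : ν * R ^ 2 ≤ 1 / 100)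
    {y : ℂ} (y0 : y ≠ 0) (hy : ‖y‖ ≤ R) : deriv θ y ≠ 0 := by
  intro e
  have k := ((hO δ ν R θ h Q c U Z (by linarith)).1 y hy).1
  have ν0 : 0 ≤ ν := (norm_nonneg _).trans (Z.q y (by simpa using hy))
  rw [e, zero_sub, norm_neg, norm_mul, norm_mul] at k
  have a : ν * ‖y‖ ^ 2 ≤ 1 / 100 :=
    (mul_le_mul_of_nonneg_left (pow_le_pow_left₀ (norm_nonneg y) hy 2) ν0).trans hν
  have b : 0 < ‖δ‖ * ‖y‖ := mul_pos (norm_pos_iff.2 d0) (norm_pos_iff.2 y0)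
  have e4 : ‖(4 : ℂ)‖ = 4 := by simp
  rw [e4] at k
  nlinarith [mul_le_mul_of_nonneg_left a b.le]

theorem LocA.anF (C : Cv θ h Q c U) {x : C2 × ℂ} (h1 : x.1.1 ∈ U) (h2 : x.1.2 ∈ U)
    (h3 : x.2 ∈ U) : AnalyticAt ℂ (FZ θ h c) x := by
  have k := (sk θ h Q c U C).1
  have q1 : AnalyticAt ℂ (fun x : C2 × ℂ => x.1.1) x :=
    AnalyticAt.comp (g := Prod.fst) (f := Prod.fst) analyticAt_fst analyticAt_fst
  have q2 : AnalyticAt ℂ (fun x : C2 × ℂ => x.1.2) x :=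
    AnalyticAt.comp (g := Prod.snd) (f := Prod.fst) analyticAt_snd analyticAt_fst
  have p1 : AnalyticAt ℂ (fun x : C2 × ℂ => (x.1.2, x.1.1)) x := q2.prod q1
  have p2 : AnalyticAt ℂ (fun x : C2 × ℂ => (x.1.2, x.2)) x := q2.prod analyticAt_snd
  have a1 := (k _ h2 _ h1).1.comp (f := fun x : C2 × ℂ => (x.1.2, x.1.1)) p1
  have a2 := (k _ h2 _ h1).2.1.comp (f := fun x : C2 × ℂ => (x.1.2, x.1.1)) p1
  have a3 := (k _ h2 _ h3).1.comp (f := fun x : C2 × ℂ => (x.1.2, x.2)) p2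
  have a4 := (k _ h2 _ h3).2.1.comp (f := fun x : C2 × ℂ => (x.1.2, x.2)) p2
  exact ((a3.mul a2).add (a1.mul a4)).div_const (c := c ^ 2)

/-- the facts at one state -/
theorem LocA.st {c₁ C₁ : ℝ} {s : C2} (Z : ZS δ ν R θ h Q c U) (c1 : c₁ ≤ 1 / 4) (C1 : 1 ≤ C₁)
    (P : Pt θ h c c₁ C₁ s.1 (sZ θ δ s)) (h1 : C₁ ≤ ‖s.1‖ ^ 2) (h2 : 4 * ‖s.1‖ ≤ R) :
    AnalyticAt ℂ (iZ θ δ) s ∧ AnalyticAt ℂ (vZ θ h δ) s ∧ kZ θ δ (iZ θ δ s) = s ∧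
    FZ θ h c (iZ θ δ s, vZ θ h δ s) = 0 ∧ ‖iZ θ δ s‖ ≤ 2 * ‖s.1‖ ∧ ‖vZ θ h δ s‖ ≤ 3 * ‖s.1‖ ∧
    1 ≤ C₁ ^ 3 * ‖s.1‖ ^ 2 * ‖fderiv ℂ (FZ θ h c) (iZ θ δ s, vZ θ h δ s) (0, 1)‖ := by
  have y0 : 0 < ‖s.1‖ := by
    rcases (norm_nonneg s.1).eq_or_lt with e | e
    · rw [← e] at h1; linarith
    · exact e
  have mem : ∀ z : ℂ, ‖z‖ ≤ 3 * ‖s.1‖ → z ∈ U := fun z hz => Z.sub (by
    rw [mem_closedBall_zero_iff]; linarith)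
  have a1 : AnalyticAt ℂ (fun s : C2 => deriv θ s.1) s :=
    AnalyticAt.comp (g := deriv θ) (f := Prod.fst)
      ((Z.cv.dθ.analyticOnNhd Z.cv.op).deriv _ (mem _ (by linarith))) analyticAt_fst
  have a2 : AnalyticAt ℂ (sZ θ δ) s := (analyticAt_const.add analyticAt_snd).div a1 P.g0
  have s1 : ‖sZ θ δ s‖ ≤ ‖s.1‖ := le_of_mul_le_mul_right (P.s1.trans (by linarith)) y0
  have n1 : ‖s.1 - sZ θ δ s‖ ≤ 2 * ‖s.1‖ := (norm_sub_le _ _).trans (by linarith)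
  have n2 : ‖vZ θ h δ s‖ ≤ 3 * ‖s.1‖ := by
    have a := norm_le_norm_sub_add (nx θ h s.1 (sZ θ δ s)) (sZ θ δ s)
    have b := P.e0.trans (mul_le_mul_of_nonneg_right (by linarith : c₁ / 2 ≤ 1) (norm_nonneg _))
    exact (norm_add_le _ _).trans (by linarith)
  refine ⟨(analyticAt_fst.sub a2).prod analyticAt_fst, analyticAt_fst.add
    (AnalyticAt.comp (g := fun p : ℂ × ℂ => nx θ h p.1 p.2) (f := fun s : C2 => (s.1, sZ θ δ s))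
      P.an (analyticAt_fst.prod a2)), ?_, by simp [FZ, iZ, vZ, P.law],
    norm_prod_le_iff.2 ⟨n1, by simp only [iZ]; linarith⟩, n2, ?_⟩
  · have := P.g0
    refine Prod.ext rfl ?_
    simp only [kZ, iZ, sZ]
    field_simp
    ring
  have aF := LocA.anF Z.cv (x := (iZ θ δ s, vZ θ h δ s)) (mem _ (n1.trans (by linarith)))
    (mem _ (by simp only [iZ]; linarith)) (mem _ n2)
  have d := aF.differentiableAt.hasFDerivAt.comp_hasDerivAt (nx θ h s.1 (sZ θ δ s))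
    (f := fun t => (iZ θ δ s, s.1 + t))
    ((hasDerivAt_const _ _).prodMk ((hasDerivAt_id _).const_add s.1))
  have c0 := Z.cv.c0
  have d2 : HasDerivAt (fun t => EE θ h (s.1 - sZ θ δ s) s.1 (s.1 + t))
      (c ^ 2 * fderiv ℂ (FZ θ h c) (iZ θ δ s, vZ θ h δ s) (0, 1)) (nx θ h s.1 (sZ θ δ s)) := by
    refine (d.const_mul (c ^ 2)).congr_of_eventuallyEq (Eventually.of_forall fun t => ?_)
    simp only [Function.comp, FZ, iZ]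
    field_simp
  have k := P.nd
  rw [d2.deriv, norm_mul, norm_pow] at k
  have cp : 0 < ‖c‖ ^ 2 := pow_pos (norm_pos_iff.2 c0) 2
  have k2 : ‖sZ θ δ s‖ ^ 2 ≤ C₁ * ‖fderiv ℂ (FZ θ h c) (iZ θ δ s, vZ θ h δ s) (0, 1)‖ :=
    le_of_mul_le_mul_left (by linarith) cp
  have k3 := pow_le_pow_left₀ zero_le_one P.s0 2
  calc (1 : ℝ) ≤ C₁ ^ 2 * ‖s.1‖ ^ 2 * ‖sZ θ δ s‖ ^ 2 := by linarith
    _ ≤ C₁ ^ 2 * ‖s.1‖ ^ 2 * (C₁ * ‖fderiv ℂ (FZ θ h c) (iZ θ δ s, vZ θ h δ s) (0, 1)‖) := by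
      gcongr
    _ = _ := by ring

/-- from the estimates to the step structure -/
theorem LocA.stp {T : C2 → C2} {a A B C₂ C l L e w : ℝ} (ha : a = 1 ∨ a = -1) (A1 : 1 ≤ A)
    (B1 : 1 ≤ B) (C1 : 1 ≤ C₂) (hC : C = (A + C₂) * B) (l1 : 1 ≤ l) (w0 : 0 ≤ w)
    (wL : B * (w * L) ≤ 1)
    (F : ∀ (a : ℝ) (η e₀ e' m : ℂ) (ν ω : ℝ), (a = 1 ∨ a = -1) → 1 ≤ ‖η‖ ^ 2 →
      ‖e₀‖ ≤ e → 0 ≤ ω → ω ≤ 1 → ν * ‖η‖ ^ 2 ≤ A →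
      ‖e' - e₀ - a * m * (1 + (2 * δ + e₀) * ps (δ + e₀ / 2))‖ ≤ A / ‖η‖ ^ 4 + ν →
      ‖m * η ^ 2 * δ - (δ + e₀ / 2) ^ 2‖ ≤ A * ω →
      ‖e'‖ ≤ (1 + C₂ / ‖η‖ ^ 2) * ‖e₀‖ + C₂ / ‖η‖ ^ 4 + ν ∧
      (a * (η ^ 2).re ≤ 0 →
        ‖e'‖ ≤ (1 + C₂ * (‖e₀‖ + ω + 1 / ‖η‖ ^ 2) / ‖η‖ ^ 2) * ‖e₀‖ + C₂ / ‖η‖ ^ 4 + ν) ∧
      ‖e' - e₀‖ * ‖η‖ ^ 2 ≤ C₂)
    (E : ∀ s ∈ An l L e, Est θ δ T a A (B * w) s) : Stp T a C l L e (√(w * L)) (C * w) := by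
  have AC : A * B ≤ C := by nlinarith
  have CC : C₂ * B ≤ C := by nlinarith
  have AC' : A ≤ C := by nlinarith
  have CC' : C₂ ≤ C := by nlinarith
  have om : ∀ s ∈ An l L e, 0 ≤ B * w * ‖s.1‖ ^ 2 ∧ B * w * ‖s.1‖ ^ 2 ≤ 1 ∧
      ‖s.2‖ + B * w * ‖s.1‖ ^ 2 + 1 / ‖s.1‖ ^ 2 ≤ B * (‖s.2‖ + √(w * L) + 1 / ‖s.1‖ ^ 2) := by
    intro s hs
    have L0 : 0 ≤ w * L := mul_nonneg w0 (by linarith [hs.1, hs.2.1])
    have a1 : B * w * ‖s.1‖ ^ 2 ≤ B * (w * L) := by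
      rw [mul_assoc]
      gcongr
      exact hs.2.1.le
    have a2 : w * L ≤ √(w * L) := by
      refine Real.le_sqrt_of_sq_le ?_
      nlinarith
    have a3 := mul_le_mul_of_nonneg_left a2 (by linarith : 0 ≤ B)
    have a4 : 0 ≤ ‖s.2‖ + 1 / ‖s.1‖ ^ 2 := by positivity
    refine ⟨by positivity, by linarith, by nlinarith⟩
  have fin := fun s (hs : s ∈ An l L e) => F a s.1 s.2 (T s).2 (mZ θ δ s) (A * (B * w))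
    (B * w * ‖s.1‖ ^ 2) ha (by linarith [hs.1]) hs.2.2.le (om s hs).1 (om s hs).2.1
    (by nlinarith [(om s hs).2.1]) (E s hs).e (E s hs).m
  have nu : A * (B * w) ≤ C * w := by nlinarith
  refine ⟨fun s hs => (E s hs).an, fun s hs => (E s hs).th.trans ?_,
    fun s hs => (fin s hs).1.trans (by gcongr), fun s hs k => ((fin s hs).2.1 k).trans ?_,
    fun s hs => ⟨(E s hs).cr.trans AC', (fin s hs).2.2.trans CC'⟩⟩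
  · calc _ ≤ A * (B * (‖s.2‖ + √(w * L) + 1 / ‖s.1‖ ^ 2)) :=
          mul_le_mul_of_nonneg_left (om s hs).2.2 (by linarith)
      _ = A * B * (‖s.2‖ + √(w * L) + 1 / ‖s.1‖ ^ 2) := by ring
      _ ≤ _ := by gcongr
  · have : C₂ * (‖s.2‖ + B * w * ‖s.1‖ ^ 2 + 1 / ‖s.1‖ ^ 2) ≤
        C * (‖s.2‖ + √(w * L) + 1 / ‖s.1‖ ^ 2) :=
      calc _ ≤ C₂ * (B * (‖s.2‖ + √(w * L) + 1 / ‖s.1‖ ^ 2)) :=
            mul_le_mul_of_nonneg_left (om s hs).2.2 (by linarith)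
        _ = C₂ * B * (‖s.2‖ + √(w * L) + 1 / ‖s.1‖ ^ 2) := by ring
        _ ≤ _ := by gcongr
    gcongr

theorem LocA.mono {T : C2 → C2} {a A A' : ℝ} {s : C2} (E : Est θ δ T a A ν s) (hA : A ≤ A')
    (ν0 : 0 ≤ ν) : Est θ δ T a A' ν s :=
  ⟨E.an, E.th.trans (by gcongr), E.cr.trans hA, E.e.trans (by gcongr), E.m.trans (by gcongr)⟩

/-- the backward step stays in the larger annulus -/
theorem LocA.back {s s' : C2} {C l L e c₀ : ℝ} (c0 : 0 < c₀) (C1 : 1 ≤ C) (h1 : 4 * C ≤ l)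
    (h2 : C ≤ e * l) (h3 : C ≤ c₀ * l) (hs : s ∈ An (2 * l) (L / 2) (e / 2))
    (k1 : ‖s'.1 - s.1‖ * ‖s.1‖ ≤ C) (k2 : ‖s'.2 - s.2‖ * ‖s.1‖ ^ 2 ≤ C) :
    s' ∈ An l L e ∧ ‖s.1 - s'.1‖ ≤ c₀ * ‖s'.1‖ := by
  obtain ⟨a1, a2, a3⟩ := hs
  have y0 : 0 < ‖s.1‖ := by
    rcases (norm_nonneg s.1).eq_or_lt with e | e
    · rw [← e] at a1; linarith
    · exact e
  have e0 : 0 < e := by linarith [norm_nonneg s.2]
  have b1 : ‖s'.1 - s.1‖ ≤ ‖s.1‖ / 4 := le_of_mul_le_mul_right (k1.trans (by linarith)) y0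
  have b2 := abs_le.1 ((abs_norm_sub_norm_le s'.1 s.1).trans b1)
  have b3 := pow_le_pow_left₀ (by positivity) (by linarith : 3 / 4 * ‖s.1‖ ≤ ‖s'.1‖) 2
  have b4 := pow_le_pow_left₀ (norm_nonneg _) (by linarith : ‖s'.1‖ ≤ 5 / 4 * ‖s.1‖) 2
  have b5 : ‖s'.2 - s.2‖ ≤ e / 2 := le_of_mul_le_mul_right (k2.trans (by nlinarith))
    (pow_pos y0 2)
  have b6 : ‖s'.1 - s.1‖ ≤ c₀ * (‖s.1‖ / 2) :=
    le_of_mul_le_mul_right (k1.trans (by nlinarith)) y0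
  refine ⟨⟨by nlinarith, by nlinarith, by linarith [norm_le_norm_sub_add s'.2 s.2]⟩, ?_⟩
  rw [norm_sub_rev]
  exact b6.trans (mul_le_mul_of_nonneg_left (by linarith) c0.le)

theorem LocA.num {C y R D : ℝ} (C1 : 1 ≤ C) (y0 : 0 ≤ y) (D0 : 0 ≤ D) (h : y ^ 2 < R)
    (k : 1 ≤ C ^ 3 * y ^ 2 * D) : 2 * y ≤ 2 * (|R| + 1) ∧
    3 * y ≤ 1 / (1 / (3 * C ^ 3 * (|R| + 1) ^ 2)) ∧ 1 / (3 * C ^ 3 * (|R| + 1) ^ 2) ≤ D := by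
  have ρ1 : 1 ≤ |R| + 1 := by linarith [abs_nonneg R]
  have b1 : y ≤ |R| + 1 := by nlinarith [le_abs_self R, sq_nonneg (y - 1)]
  have b2 : 1 ≤ C ^ 3 := one_le_pow₀ C1
  have b3 := pow_le_pow_left₀ y0 b1 2
  refine ⟨by linarith, ?_, ?_⟩
  · rw [one_div_one_div]
    nlinarith
  · rw [div_le_iff₀ (by positivity)]
    refine k.trans ?_
    rw [mul_comm]
    gcongr
    linarith

theorem loc0 (hO : S_ODE) (hP : S_PT) (hF : S_FIN) (hT : S_TF) (hB : S_TB) (hU : S_UN)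
    (hS : S_SYS) : S_LOC0 := by
  intro 𝒰 δ B w L θ h Q c U d0 S0 B1 w0 hZ wl lL
  obtain ⟨e₁, l₁, ν₁, c₁, C₁, e1, -, l1, ν1, ν1', -, c1, C1, HP⟩ := hP δ d0 S0
  obtain ⟨e₂, e2, HF⟩ := hF δ d0 S0
  obtain ⟨e₃, l₃, ν₃, A₃, e3, ν3, A3, HT⟩ := hT δ d0 S0
  obtain ⟨e₄, l₄, ν₄, A₄, e4, ν4, A4, HB⟩ := hB δ d0 S0
  obtain ⟨e₅, l₅, ν₅, c₀, e5, ν5, c0, HU⟩ := hU δ d0 S0
  obtain ⟨C₂, C2, HF⟩ := HF (A₃ + A₄) (by linarith)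
  obtain ⟨e, e0, k1, k2, k3, k4, k5⟩ : ∃ e : ℝ, 0 < e ∧ e ≤ e₁ ∧ e ≤ e₂ ∧ e ≤ e₃ ∧ e ≤ e₄ ∧
      e ≤ e₅ := ⟨min (min e₁ e₂) (min e₃ (min e₄ e₅)), by positivity, by simp, by simp, by simp,
    by simp, by simp⟩
  obtain ⟨ν₀, ν0, n1, n3, n4, n5⟩ : ∃ ν₀ : ℝ, 0 < ν₀ ∧ ν₀ ≤ ν₁ ∧ ν₀ ≤ ν₃ ∧ ν₀ ≤ ν₄ ∧ ν₀ ≤ ν₅ :=
    ⟨min (min ν₁ ν₃) (min ν₄ ν₅), by positivity, by simp, by simp, by simp, by simp⟩
  obtain ⟨C, hC⟩ : ∃ C : ℝ, C = (A₃ + A₄ + C₂) * B := ⟨_, rfl⟩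
  have C0 : 1 ≤ C := hC ▸ one_le_mul_of_one_le_of_one_le (by linarith) B1
  obtain ⟨l, m1, m3, m4, m5, m6, m7, m8, m9⟩ : ∃ l : ℝ, l₁ ≤ l ∧ l₃ ≤ l ∧ l₄ ≤ l ∧ l₅ ≤ l ∧
      C₁ ≤ l ∧ 4 * C ≤ l ∧ C / e ≤ l ∧ C / c₀ ≤ l :=
    ⟨max (max (max l₁ l₃) (max l₄ l₅)) (max (max C₁ (4 * C)) (max (C / e) (C / c₀))),
      by simp, by simp, by simp, by simp, by simp, by simp, by simp, by simp⟩
  rw [div_le_iff₀' e0] at m8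
  rw [div_le_iff₀' c0] at m9
  have ev : ∀ᶠ n in (𝒰 : Filter ℕ), ZS δ (B * w n) (4 * √(L n)) (θ n) (h n) (Q n) (c n) (U n) ∧
      B * w n * (4 * √(L n)) ^ 2 ≤ ν₀ ∧ B * (w n * L n) ≤ 1 := by
    have t : Tendsto (fun n => 16 * (B * (w n * L n))) 𝒰 (𝓝 0) := by
      simpa using (wl.const_mul B).const_mul 16
    filter_upwards [hZ, t.eventually (ge_mem_nhds ν0), lL.eventually_ge_atTop 0] with n a b d
    rw [mul_pow, Real.sq_sqrt d]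
    exact ⟨a, by linarith, by linarith⟩
  have r4 : ∀ {n : ℕ} {y : ℂ}, ‖y‖ ^ 2 < L n → 4 * ‖y‖ ≤ 4 * √(L n) := fun k => by
    linarith [Real.le_sqrt_of_sq_le k.le]
  have y0 : ∀ {y : ℂ}, l < ‖y‖ ^ 2 → y ≠ 0 := fun k e => by
    rw [e, norm_zero] at k
    linarith
  have ne : ∀ᶠ n in (𝒰 : Filter ℕ), ∀ s ∈ An l (L n) e, deriv (θ n) s.1 ≠ 0 :=
    ev.mono fun n k s hs => LocA.ne hO k.1 d0 (by linarith [k.2.1]) (y0 hs.1)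
      (by linarith [r4 hs.2.1, norm_nonneg s.1])
  have un : ∀ᶠ n in (𝒰 : Filter ℕ), ∀ x y z : ℂ, kZ (θ n) δ (x, y) ∈ An l (L n) e →
      kZ (θ n) δ (y, z) ∈ An l (L n) e → ‖z - y‖ ≤ c₀ * ‖y‖ → EE (θ n) (h n) x y z = 0 →
      kZ (θ n) δ (y, z) = TZ (θ n) (h n) δ (kZ (θ n) δ (x, y)) ∧
        kZ (θ n) δ (x, y) = TmZ (θ n) (h n) δ (kZ (θ n) δ (y, z)) :=
    ev.mono fun n k x y z a b d f => HU _ _ _ _ _ _ _ x y z k.1 (k.2.1.trans n5)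
      (m5.trans a.1.le) (r4 a.2.1) (a.2.2.le.trans k5) (b.2.2.le.trans k5) d f
  have st := (ev.and ne).mono fun n k s (hs : s ∈ An l (L n) e) => LocA.st k.1.1 c1 C1
    (HP _ _ _ _ _ _ _ s.1 (sZ (θ n) δ s) k.1.1 (k.1.2.1.trans n1) (m1.trans hs.1.le)
      (by linarith [r4 hs.2.1, norm_nonneg s.1]) (Or.inl (by
        rw [sZ, div_mul_cancel₀ _ (k.2 s hs), add_sub_cancel_left]
        exact hs.2.2.le.trans k1))) (m6.trans hs.1.le) (r4 hs.2.1)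
  obtain ⟨⟨F, sys⟩, aκ⟩ := hS 𝒰 δ (fun n => B * w n) (fun n => 4 * √(L n)) θ h Q c U
    (ev.mono fun n k => ⟨k.1, by linarith [k.2.1]⟩)
    ((Real.tendsto_sqrt_atTop.comp lL).const_mul_atTop (by norm_num))
  refine ⟨F, C, l, e, ⟨sys, C0, by linarith, e0, fun s _ => aκ s, ?_, ?_, fun R' => ?_⟩,
    c₀, c0, ne.and un⟩
  · filter_upwards [ev, st, un] with n k j1 j2
    have ν0' : 0 ≤ B * w n := mul_nonneg (by linarith) (w0 n)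
    have HF' := fun a η e₀ e' m ν ω i1 i2 (i3 : ‖e₀‖ ≤ e) => HF a η e₀ e' m ν ω i1 i2 (i3.trans k2)
    have EB := fun s (hs : s ∈ An l (L n) e) => HB _ _ _ _ _ _ _ s k.1 (k.2.1.trans n4)
      (m4.trans hs.1.le) (r4 hs.2.1) (hs.2.2.le.trans k4)
    have sB := LocA.stp (Or.inr rfl) (by linarith) B1 C2 hC (by linarith) (w0 n) k.2.2 HF'
      fun s hs => LocA.mono (EB s hs).1 (by linarith) ν0'
    refine ⟨LocA.stp (Or.inl rfl) (by linarith) B1 C2 hC (by linarith) (w0 n) k.2.2 HF'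
      fun s hs => LocA.mono (HT _ _ _ _ _ _ _ s k.1 (k.2.1.trans n3) (m3.trans hs.1.le)
        (r4 hs.2.1) (hs.2.2.le.trans k3)) (by linarith) ν0', sB, fun s hs => ?_⟩
    have hs' : s ∈ An l (L n) e :=
      ⟨by linarith [hs.1], by linarith [hs.1, hs.2.1], by linarith [hs.2.2]⟩
    obtain ⟨b1, b2⟩ := LocA.back c0 C0 m7 m8 m9 hs (sB.cr s hs').1 (sB.cr s hs').2
    have e1 : kZ (θ n) δ (s.1 - sZ (θ n) δ s, s.1) = s := (j1 s hs').2.2.1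
    have := (j2 _ _ s.1 b1 (by rwa [e1]) b2 (EB s hs').2).1
    rw [e1] at this
    exact this.symm
  · filter_upwards [st, ne] with n j1 j2 s hs
    obtain ⟨a1, a2, a3, a4, -⟩ := j1 s hs
    refine ⟨a1, a2, a3, a4, fun k => Prod.ext ?_ rfl⟩
    have := j2 _ k
    simp only [TZ, kZ] at this
    simp only [GZ, iZ, TZ, kZ, sZ]
    field_simp
    ring
  · have ρ1 : 1 ≤ |R'| + 1 := by linarith [abs_nonneg R']
    refine ⟨closedBall 0 (2 * (|R'| + 1)), 1 / (3 * C₁ ^ 3 * (|R'| + 1) ^ 2),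
      isCompact_closedBall _ _, subset_univ _, by positivity, ?_⟩
    filter_upwards [st, lL.eventually_ge_atTop R'] with n j1 j2 s hs
    obtain ⟨-, -, -, -, a1, a2, a3⟩ := j1 s ⟨hs.1, hs.2.1.trans_le j2, hs.2.2⟩
    obtain ⟨b1, b2, b3⟩ := LocA.num C1 (norm_nonneg _) (norm_nonneg _) hs.2.1 a3
    exact ⟨mem_closedBall_zero_iff.2 (a1.trans b1), a2.trans b2, b3⟩

end Vale.Agent.P097EE.LZ
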