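import Vale.Agent.P097F.N.StepAll

/-!
# P097EE: the sharp normal form of the law
-/

set_option linter.all false

noncomputable section

namespace Vale.Agent.P097EE.Nf

open Filter Topology Set Metric Complex Vale.Agent.P097N Vale.Agent.P097F.N
open Vale.Agent.P097F.N.StepA

theorem cos_bd (R : ℝ) : ∃ M : ℝ, 1 ≤ M ∧ ∀ z : ℂ, ‖z‖ ≤ R → ‖snc z‖ ≤ M ∧ ‖cos z‖ ≤ M := by
  obtain ⟨M, M1, hM⟩ := snc_bd R
  obtain ⟨N, hN⟩ := (isCompact_closedBall (0 : ℂ) R).exists_bound_of_continuousOn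
    Complex.continuous_cos.continuousOn
  exact ⟨max M N, le_max_of_le_left M1, fun z hz => ⟨le_max_of_le_left (hM z hz),
    le_max_of_le_right (hN z (by simpa using hz))⟩⟩

theorem er {A B co x y : ℂ} {a M η : ℝ} (h1 : ‖A‖ ≤ a) (h2 : ‖A‖ ≤ M) (h3 : ‖B‖ ≤ a)
    (h4 : ‖co‖ ≤ M) (hx : ‖x‖ ≤ η) (hy : ‖y‖ ≤ η) :
    ‖(A ^ 2 / 2 + x) * (B * co + y) - A ^ 2 / 2 * (B * co)‖ ≤ η * (2 * a * M + η) := by
  rw [show (A ^ 2 / 2 + x) * (B * co + y) - A ^ 2 / 2 * (B * co) =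
    A * A * y / 2 + x * (B * co) + x * y by ring]
  have η0 := (norm_nonneg _).trans hx
  have a0 := (norm_nonneg _).trans h1
  have M0 := (norm_nonneg _).trans h2
  have e1 : ‖A * A * y / 2‖ ≤ a * M * η := by
    rw [norm_div, Complex.norm_two]
    have := norm_mul_le_of_le (norm_mul_le_of_le h1 h2) hy
    have : 0 ≤ a * M * η := by positivity
    linarith
  have e2 := norm_mul_le_of_le hx (norm_mul_le_of_le h3 h4)
  have e3 := norm_mul_le_of_le hx hy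
  linarith [norm_add₃_le (a := A * A * y / 2) (b := x * (B * co)) (c := x * y)]

/-- the law is the circle law up to `κ (a + κ)`, `a` a bound of the two half angle factors -/
theorem nf0 (Λ : ℝ) : ∃ C : ℝ, 1 ≤ C ∧ ∀ (θ h Q : ℂ → ℂ) (c : ℂ) (U : Set ℂ) (y s τ : ℂ)
    (κ a : ℝ), Cv θ h Q c U → s ≠ 0 → Sc θ Q U y (2 * ‖s‖) Λ κ → τ ∈ ball (1 : ℂ) 1 →
    ‖snc (s * deriv θ y / 2)‖ ≤ a → ‖snc (s * deriv θ y / 2 * τ)‖ ≤ a →
    ‖EE θ h (y - s) y (y + s * τ) / (c ^ 2 * s ^ 3) - τ * snc (s * deriv θ y / 2) *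
      snc (s * deriv θ y / 2 * τ) * ((τ - 1) * snc (s * deriv θ y / 2 * (τ - 1))) / 2‖ ≤
      C * κ * (a + κ) := by
  obtain ⟨C, C1, hC⟩ := sexp Λ
  obtain ⟨M, M1, hM⟩ := cos_bd Λ
  refine ⟨24 * C * (M + C), by nlinarith, ?_⟩
  intro θ h Q c U y s τ κ a Cu s0 S hτ ha hb
  obtain ⟨t1, t2, t0, t3⟩ := b2 s hτ
  have sp := norm_pos_iff.2 s0
  have c0 := Cu.c0
  have hm : ∀ t : ℂ, ‖t‖ ≤ 2 * ‖s‖ → ‖t ^ 2 * deriv (deriv θ) y‖ ≤ κ := fun t ht => by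
    refine le_trans ?_ (S.g1 y (mem_closedBall_self (by positivity)))
    rw [norm_mul, norm_pow]; gcongr
  have κ0 : 0 ≤ κ := (norm_nonneg _).trans (hm 0 (by simp))
  have NF := fun t (t0 : t ≠ 0) (ht : ‖t‖ ≤ 2 * ‖s‖) =>
    have e := hC θ h Q c U y t _ κ Cu S ht
    nf c0 t0 (hm t ht) S.k1 e.1 e.2.1 e.2.2.1 e.2.2.2
  obtain ⟨δ, hδ⟩ : ∃ δ, δ = s * deriv θ y / 2 := ⟨_, rfl⟩
  have hδ2 : s * deriv θ y = 2 * δ := by rw [hδ]; ring
  have bδ : 4 * ‖δ‖ ≤ Λ := by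
    have := S.g0
    rw [mul_assoc, ← norm_mul, hδ2, norm_mul, Complex.norm_two] at this
    linarith
  have δ0 := norm_nonneg δ
  have b1 := hM δ (by linarith)
  have b2 := hM (δ * τ) (by rw [norm_mul]; nlinarith)
  rw [← hδ] at ha hb ⊢
  obtain ⟨e₃, e₄, -, -, g3, g4, k3, k4⟩ := NF (-s) (neg_ne_zero.2 s0) (by rw [norm_neg]; linarith)
  obtain ⟨e₁, e₂, -, -, g1, g2, k1', k2⟩ := NF (s * τ) (mul_ne_zero s0 t0) t3
  have hτ2 : s * τ * deriv θ y = 2 * (δ * τ) := by rw [hδ]; ring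
  rw [← sub_eq_add_neg, neg_mul, hδ2] at k3 k4
  rw [neg_mul, hδ2] at g3 g4
  rw [show -(2 * δ) / 2 = -δ by ring, snc_neg] at k3
  rw [snc_neg, snc_two] at k4
  rw [hτ2] at k1' k2 g1 g2
  rw [show 2 * (δ * τ) / 2 = δ * τ by ring] at k1'
  rw [snc_two] at k2
  generalize (-s) ^ 2 * deriv (deriv θ) y * VV (-(2 * δ)) + e₃ = x₃ at g3 k3
  generalize (-s) ^ 2 * deriv (deriv θ) y * UU (-(2 * δ)) + e₄ = x₄ at g4 k4
  generalize (s * τ) ^ 2 * deriv (deriv θ) y * VV (2 * (δ * τ)) + e₁ = x₁ at g1 k1'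
  generalize (s * τ) ^ 2 * deriv (deriv θ) y * UU (2 * (δ * τ)) + e₂ = x₂ at g2 k2
  have r1 := er hb b2.1 ha b1.2 g1 (y := -x₄) (by rwa [norm_neg])
  have r2 := er ha b1.1 hb b2.2 g3 (y := -x₂) (by rwa [norm_neg])
  rw [EE, k1', k2, k3, k4, ← snc_sub]
  rw [show (c * (s * τ) ^ 2 * (snc (δ * τ) ^ 2 / 2 + x₁) * (c * -s * (-(snc δ * cos δ) + x₄)) +
      c * (-s) ^ 2 * (snc δ ^ 2 / 2 + x₃) * (c * (s * τ) * (-(snc (δ * τ) * cos (δ * τ)) + x₂))) /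
      (c ^ 2 * s ^ 3) - τ * snc δ * snc (δ * τ) *
      (τ * snc (δ * τ) * cos δ - snc δ * cos (δ * τ)) / 2 =
    τ * τ * ((snc (δ * τ) ^ 2 / 2 + x₁) * (snc δ * cos δ + -x₄) -
      snc (δ * τ) ^ 2 / 2 * (snc δ * cos δ)) -
    τ * ((snc δ ^ 2 / 2 + x₃) * (snc (δ * τ) * cos (δ * τ) + -x₂) -
      snc δ ^ 2 / 2 * (snc (δ * τ) * cos (δ * τ))) by field_simp; ring]
  refine (norm_sub_le _ _).trans ?_
  have u1 := norm_mul_le_of_le (norm_mul_le_of_le t2 t2) r1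
  have u2 := norm_mul_le_of_le t2 r2
  have a0 := (norm_nonneg _).trans ha
  have w1 : 0 ≤ C * κ * (a * C) := by positivity
  have w2 : 0 ≤ C * κ * (κ * M) := by positivity
  nlinarith

/-- the sharp normal form: valid for `κ ≤ c₀ ^ 2 σ ^ 2` -/
theorem nf1 (Λ : ℝ) : ∃ c₀ C : ℝ, 0 < c₀ ∧ 1 ≤ C ∧ ∀ (θ h Q : ℂ → ℂ) (c : ℂ) (U : Set ℂ)
    (y s : ℂ) (κ σ : ℝ), Cv θ h Q c U → s ≠ 0 → Sc θ Q U y (2 * ‖s‖) Λ κ →
    σ = ‖snc (s * deriv θ y / 2)‖ → κ ≤ c₀ ^ 2 * σ ^ 2 → c₀ * σ ≤ 1 / 4 ∧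
    ‖EE θ h (y - s) y (y + s) / (c ^ 2 * s ^ 3)‖ ≤ C * κ * σ ∧ ∀ τ : ℂ, ‖τ - 1‖ ≤ 2 * c₀ * σ →
    ‖EE θ h (y - s) y (y + s * τ) / (c ^ 2 * s ^ 3) -
      (τ - 1) * snc (s * deriv θ y / 2) ^ 2 / 2‖ ≤ c₀ * σ ^ 3 / 8 := by
  obtain ⟨C, C1, hC⟩ := nf0 Λ
  obtain ⟨M, M1, hM⟩ := snc_bd (|Λ| + 1)
  obtain ⟨D, hD⟩ : ∃ D : ℝ, D = |Λ| + 1 := ⟨_, rfl⟩
  have D1 : 1 ≤ D := by rw [hD]; linarith [abs_nonneg Λ]
  have MD : 1 ≤ M * D := one_le_mul_of_one_le_of_one_le M1 D1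
  have K1 : 1 ≤ M * (M * D) := one_le_mul_of_one_le_of_one_le M1 MD
  obtain ⟨K, hK⟩ : ∃ K : ℝ, K = M * (M * D) := ⟨_, rfl⟩
  have KM : M ≤ K := by rw [hK]; nlinarith
  have KD : M * D ≤ K := by rw [hK]; nlinarith
  have KM2 : M * M ≤ K := by rw [hK]; nlinarith
  obtain ⟨c₀, hc₀⟩ : ∃ c₀ : ℝ, c₀ = 1 / (8 * (6 * K + 3 * C)) := ⟨_, rfl⟩
  rw [← hK] at K1
  have c1 : c₀ * (8 * (6 * K + 3 * C)) = 1 := by rw [hc₀]; field_simp
  have c2 : 0 < c₀ := by rw [hc₀]; positivity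
  have c3 : 48 * (c₀ * K) ≤ 1 := by nlinarith
  refine ⟨c₀, 2 * C, c2, by linarith, ?_⟩
  intro θ h Q c U y s κ σ Cu s0 S hσ hκ
  have H := fun τ a => hC θ h Q c U y s τ κ a Cu s0 S
  obtain ⟨δ, hδ⟩ : ∃ δ, δ = s * deriv θ y / 2 := ⟨_, rfl⟩
  have bδ : 4 * ‖δ‖ ≤ D := by
    have := S.g0
    rw [mul_assoc, ← norm_mul, show s * deriv θ y = 2 * δ by rw [hδ]; ring, norm_mul,
      Complex.norm_two] at this
    linarith [le_abs_self Λ]
  have bδ' : ‖δ‖ ≤ |Λ| := by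
    have := S.g0
    rw [mul_assoc, ← norm_mul, show s * deriv θ y = 2 * δ by rw [hδ]; ring, norm_mul,
      Complex.norm_two] at this
    linarith [le_abs_self Λ, norm_nonneg δ]
  rw [← hδ] at hσ H ⊢
  have δ0 := norm_nonneg δ
  have σ0 : 0 ≤ σ := hσ ▸ norm_nonneg _
  have σM : σ ≤ M := hσ ▸ hM δ (by linarith)
  have κ0 : 0 ≤ κ := (by positivity : (0 : ℝ) ≤ _).trans
    (S.g1 y (mem_closedBall_self (by positivity)))
  obtain ⟨u, hu⟩ : ∃ u : ℝ, u = c₀ * σ := ⟨_, rfl⟩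
  have u0 : 0 ≤ u := hu ▸ mul_nonneg c2.le σ0
  have cK : c₀ ≤ c₀ * K := le_mul_of_one_le_right c2.le K1
  have uK : u ≤ c₀ * K := hu ▸ mul_le_mul_of_nonneg_left (σM.trans KM) c2.le
  have x2 : D * u ≤ c₀ * K := by
    have := mul_le_mul_of_nonneg_left (mul_le_mul_of_nonneg_right σM (by linarith : 0 ≤ D)) c2.le
    have h2 := mul_le_mul_of_nonneg_left KD c2.le
    rw [hu]; linarith only [this, h2]
  have Ku : K * u ≤ σ := by
    have := mul_le_mul_of_nonneg_right c3 σ0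
    rw [hu]; linarith only [this, σ0]
  have κσ : κ ≤ σ := by
    have h1 : c₀ * u ≤ 1 := mul_le_one₀ (by linarith only [cK, c3]) u0 (by linarith only [uK, c3])
    have h2 := mul_le_mul_of_nonneg_right h1 σ0
    rw [hu] at h2
    linarith only [h2, hκ]
  rw [← hu]
  refine ⟨by linarith only [uK, c3], ?_, fun τ hτ => ?_⟩
  · have := H 1 σ (mem_ball_self one_pos) hσ.ge (by rw [mul_one]; exact hσ.ge)
    simp only [mul_one, sub_self, zero_mul, mul_zero, zero_div, sub_zero] at this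
    have w := mul_le_mul_of_nonneg_left κσ (show 0 ≤ C * κ by positivity)
    linarith only [this, w]
  rw [mul_assoc, ← hu] at hτ
  have ρ0 := norm_nonneg (τ - 1)
  have ρ1 : ‖τ - 1‖ ≤ 1 / 24 := by linarith only [hτ, uK, c3]
  have x1 : ‖δ * (τ - 1)‖ ≤ D * u / 2 := by
    have := norm_mul_le_of_le (show ‖δ‖ ≤ D / 4 by linarith only [bδ]) hτ
    linarith only [this]
  have x3 : ‖δ * (τ - 1)‖ < 1 := by linarith only [x1, x2, c3]
  have L : ∀ w : ℂ, ‖w‖ ≤ |Λ| → ‖snc (w + δ * (τ - 1)) - snc w‖ ≤ M * D * u := fun w hw => by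
    have := sch (c := w) (z := w + δ * (τ - 1)) (M := M) snc_d.differentiableOn (fun x hx => hM x (by
      have := norm_sub_norm_le x w
      rw [mem_ball, dist_eq_norm] at hx
      linarith only [this, hx, hw])) (by rwa [mem_ball, dist_eq_norm, add_sub_cancel_left])
    rw [add_sub_cancel_left] at this
    have h2 := mul_le_mul_of_nonneg_left x1 (show 0 ≤ 2 * M by linarith only [M1])
    linarith only [this, h2]
  have L1 := L δ bδ'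
  have L2 := L 0 (by simp)
  rw [show δ + δ * (τ - 1) = δ * τ by ring] at L1
  rw [zero_add, snc_zero] at L2
  have y1 := mul_le_mul_of_nonneg_right KD u0
  have y2 := mul_le_mul_of_nonneg_right KM2 u0
  have bA : ‖snc (δ * τ)‖ ≤ 2 * σ := by
    have := norm_sub_norm_le (snc (δ * τ)) (snc δ)
    linarith only [this, L1, y1, Ku, hσ]
  have bB := hM (δ * (τ - 1)) (by linarith only [abs_nonneg Λ, x3])
  have E := H τ (2 * σ) (by rw [mem_ball, dist_eq_norm]; linarith only [ρ1])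
    (by linarith only [hσ, σ0]) bA
  have F : ‖τ * snc (δ * τ) * snc (δ * (τ - 1)) - snc δ‖ ≤ 6 * K * u := by
    rw [show τ * snc (δ * τ) * snc (δ * (τ - 1)) - snc δ = (τ - 1) * (snc (δ * τ) *
      snc (δ * (τ - 1))) + snc (δ * τ) * (snc (δ * (τ - 1)) - 1) + (snc (δ * τ) - snc δ) by ring]
    have bA' := hM (δ * τ) (by
      rw [show δ * τ = δ + δ * (τ - 1) by ring]
      linarith only [norm_add_le δ (δ * (τ - 1)), x3, bδ'])
    have e1 := norm_mul_le_of_le hτ (norm_mul_le_of_le bA' bB)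
    have e2 := norm_mul_le_of_le bA' L2
    have e3 : M * (M * D * u) = K * u := by rw [hK]; ring
    have e4 : 0 ≤ K * u := by positivity
    refine (norm_add₃_le).trans ?_
    linarith only [e1, e2, e3, e4, L1, y1, y2]
  have G : ‖τ * snc δ * snc (δ * τ) * ((τ - 1) * snc (δ * (τ - 1))) / 2 -
      (τ - 1) * snc δ ^ 2 / 2‖ ≤ u * σ * (6 * K * u) := by
    rw [show τ * snc δ * snc (δ * τ) * ((τ - 1) * snc (δ * (τ - 1))) / 2 - (τ - 1) * snc δ ^ 2 / 2 =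
      (τ - 1) * snc δ * (τ * snc (δ * τ) * snc (δ * (τ - 1)) - snc δ) / 2 by ring, norm_div,
      Complex.norm_two]
    linarith only [norm_mul_le_of_le (norm_mul_le_of_le hτ hσ.ge) F]
  have T := norm_add_le (EE θ h (y - s) y (y + s * τ) / (c ^ 2 * s ^ 3) -
    τ * snc δ * snc (δ * τ) * ((τ - 1) * snc (δ * (τ - 1))) / 2)
    (τ * snc δ * snc (δ * τ) * ((τ - 1) * snc (δ * (τ - 1))) / 2 - (τ - 1) * snc δ ^ 2 / 2)
  rw [sub_add_sub_cancel] at T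
  have E2 : C * κ * (2 * σ + κ) ≤ C * (c₀ ^ 2 * σ ^ 2) * (3 * σ) := by
    gcongr; linarith only [κσ]
  have E3 : u * σ * (6 * K * u) + C * (c₀ ^ 2 * σ ^ 2) * (3 * σ) =
      c₀ * σ ^ 3 / 8 * (c₀ * (8 * (6 * K + 3 * C))) := by rw [hu]; ring
  rw [c1] at E3
  linarith only [E, E2, E3, G, T]

/-- the derivative of the law in the next vertex -/
theorem ndg (Λ : ℝ) : ∃ c₀ : ℝ, 0 < c₀ ∧ ∀ (θ h Q : ℂ → ℂ) (c : ℂ) (U : Set ℂ)
    (y s t : ℂ) (κ σ : ℝ), Cv θ h Q c U → s ≠ 0 → Sc θ Q U y (2 * ‖s‖) Λ κ →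
    σ = ‖snc (s * deriv θ y / 2)‖ → κ ≤ c₀ ^ 2 * σ ^ 2 → ‖t - s‖ ≤ c₀ * σ * ‖s‖ →
    σ ^ 2 * ‖c‖ ^ 2 * ‖s‖ ^ 2 / 4 ≤ ‖deriv (fun t => EE θ h (y - s) y (y + t)) t‖ := by
  obtain ⟨c₀, C, c0, -, H⟩ := nf1 Λ
  refine ⟨c₀, c0, fun θ h Q c U y s t κ σ Cu s0 S hσ hκ ht => ?_⟩
  obtain ⟨h1, -, h2⟩ := H θ h Q c U y s κ σ Cu s0 S hσ hκ
  have sp := norm_pos_iff.2 s0
  have cp := norm_pos_iff.2 Cu.c0
  rcases (hσ ▸ norm_nonneg _ : 0 ≤ σ).eq_or_lt with e | σ0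
  · rw [← e]; simpa using norm_nonneg _
  have mU : ∀ t : ℂ, ‖t‖ ≤ 2 * ‖s‖ → y + t ∈ U := fun t ht =>
    S.sub (by simpa [mem_closedBall, dist_eq_norm] using ht)
  have R0 : 0 < c₀ * σ * ‖s‖ := by positivity
  have nb : ∀ z ∈ closedBall t (c₀ * σ * ‖s‖), ‖z - s‖ ≤ 2 * c₀ * σ * ‖s‖ := fun z hz => by
    rw [mem_closedBall, dist_eq_norm] at hz
    linarith [norm_sub_le_norm_sub_add_norm_sub z t s]
  have dE : ∀ z ∈ closedBall t (c₀ * σ * ‖s‖),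
      DifferentiableAt ℂ (fun t => EE θ h (y - s) y (y + t)) z := fun z hz => by
    have := aE Cu (y := y) (s := s) (t := z) (by simpa using mU 0 (by simp)) (mU z (by
      have := norm_sub_norm_le z s
      nlinarith [nb z hz])) (by simpa [sub_eq_add_neg] using mU (-s) (by rw [norm_neg]; linarith))
    exact (this.comp_of_eq (f := fun z : ℂ => ((y, s), z))
      (analyticAt_const.prod analyticAt_id) rfl).differentiableAt
  obtain ⟨A, hA⟩ : ∃ A, A = c ^ 2 * s ^ 2 * snc (s * deriv θ y / 2) ^ 2 / 2 := ⟨_, rfl⟩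
  have nA : ‖A‖ = σ ^ 2 * ‖c‖ ^ 2 * ‖s‖ ^ 2 / 2 := by
    rw [hA, hσ, norm_div, norm_mul, norm_mul, norm_pow, norm_pow, norm_pow, Complex.norm_two]; ring
  have key := Complex.norm_deriv_le_of_forall_mem_sphere_norm_le (c := t)
    (f := fun t => EE θ h (y - s) y (y + t) - (t - s) * A)
    (C := c₀ * σ ^ 3 / 8 * (‖c‖ ^ 2 * ‖s‖ ^ 3)) R0
    (DifferentiableOn.diffContOnCl fun z hz => by
      rw [closure_ball _ R0.ne'] at hz
      exact ((dE z hz).sub (by fun_prop)).differentiableWithinAt)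
    (fun z hz => by
      have := h2 (z / s) (by
        rw [show z / s - 1 = (z - s) / s by field_simp, norm_div, div_le_iff₀ sp]
        exact nb z (sphere_subset_closedBall hz))
      rw [mul_div_cancel₀ _ s0] at this
      have c0 := Cu.c0
      rw [show EE θ h (y - s) y (y + z) - (z - s) * A = (EE θ h (y - s) y (y + z) / (c ^ 2 * s ^ 3) -
        (z / s - 1) * snc (s * deriv θ y / 2) ^ 2 / 2) * (c ^ 2 * s ^ 3) by
          rw [hA]; field_simp, norm_mul, norm_mul, norm_pow, norm_pow]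
      gcongr)
  have d1 : HasDerivAt (fun t => EE θ h (y - s) y (y + t) - (t - s) * A)
      (deriv (fun t => EE θ h (y - s) y (y + t)) t - A) t :=
    (dE t (mem_closedBall_self R0.le)).hasDerivAt.sub
      ((((hasDerivAt_id' t).sub_const s).mul_const A).congr_deriv (one_mul _))
  rw [d1.deriv, show c₀ * σ ^ 3 / 8 * (‖c‖ ^ 2 * ‖s‖ ^ 3) / (c₀ * σ * ‖s‖) =
    σ ^ 2 * ‖c‖ ^ 2 * ‖s‖ ^ 2 / 8 by field_simp, norm_sub_rev] at key
  have := norm_sub_norm_le A (deriv (fun t => EE θ h (y - s) y (y + t)) t)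
  have w : 0 ≤ σ ^ 2 * ‖c‖ ^ 2 * ‖s‖ ^ 2 := by positivity
  linarith

end Vale.Agent.P097EE.Nf
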