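import Vale.Agent.P097F.N.Step
import Vale.Agent.P097F.N.Exp

/-!
# The step lemma with sharp exponents (valid down to `O(1)` steps from a fold)
-/

set_option linter.all false

noncomputable section

namespace Vale.Agent.P097EE

open Filter Topology Set Metric Complex Vale.Agent.P097N Vale.Agent.P097F.N
  Vale.Agent.P097F.N.StepA

/-- the step with sharp exponents -/
def S_STEP2 : Prop := ∀ Λ : ℝ, ∃ c₀ C : ℝ, 0 < c₀ ∧ c₀ ≤ 1 / 4 ∧ 1 ≤ C ∧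
  ∀ (θ h Q : ℂ → ℂ) (c : ℂ) (U : Set ℂ) (y s : ℂ) (κ σ : ℝ), Cv θ h Q c U → s ≠ 0 →
  Sc θ Q U y (2 * ‖s‖) Λ κ → 0 < σ → σ ≤ 1 → σ ≤ ‖snc (s * deriv θ y / 2)‖ → κ ≤ c₀ ^ 2 * σ ^ 2 →
  EE θ h (y - s) y (y + nx θ h y s) = 0 ∧
  (∀ t, EE θ h (y - s) y (y + t) = 0 → ‖t - s‖ < c₀ * σ * ‖s‖ → t = nx θ h y s) ∧
  AnalyticAt ℂ (fun p : ℂ × ℂ => nx θ h p.1 p.2) (y, s) ∧
  ‖nx θ h y s - s‖ ≤ C * κ / σ * ‖s‖ ∧ ‖nx θ h y s - s‖ ≤ c₀ * σ / 2 * ‖s‖ ∧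
  ‖nx θ h y s - s - s * (s ^ 2 * deriv (deriv θ) y * ps (s * deriv θ y / 2))‖ ≤
    C * κ ^ 2 / σ ^ 3 * ‖s‖

theorem sch2 {f : ℂ → ℂ} {c z : ℂ} {M ρ : ℝ} (hd : DifferentiableOn ℂ f (ball c ρ))
    (hb : ∀ x ∈ ball c ρ, ‖f x‖ ≤ M) (hz : z ∈ ball c ρ) :
    ‖f z - f c‖ ≤ 2 * M / ρ * ‖z - c‖ := by
  have := Complex.dist_le_div_mul_dist_of_mapsTo_ball (R₂ := 2 * M) hd (fun x hx => by
    rw [mem_closedBall, dist_eq_norm]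
    have := hb c (mem_ball_self (pos_of_mem_ball hz))
    linarith [norm_sub_le (f x) (f c), hb x hx]) hz
  simpa [dist_eq_norm] using this

/-- the root of `S (τ - 1) H τ / 2 + D τ` near `1` -/
theorem rt2 {H D E : ℂ → ℂ} {M η σ ρ : ℝ} (dH : DifferentiableOn ℂ H (ball 1 1))
    (dD : DifferentiableOn ℂ D (ball 1 ρ)) (bH : ∀ x ∈ ball (1 : ℂ) 1, ‖H x‖ ≤ M)
    (bD : ∀ x ∈ ball (1 : ℂ) ρ, ‖D x‖ ≤ η) (hE : ∀ x, E x = H 1 * (x - 1) * H x / 2 + D x)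
    (σ0 : 0 < σ) (hσ : σ ≤ ‖H 1‖) (ρ0 : 0 < ρ) (ρ1 : ρ ≤ 1) (h1 : 32 * M * ρ ≤ σ)
    (h2 : 32 * η ≤ ρ * σ ^ 2) :
    ∃ t, E t = 0 ∧ ‖t - 1‖ ≤ ρ / 8 ∧ ‖t - 1‖ ≤ 4 * η / σ ^ 2 ∧
      (∀ t', ‖t' - 1‖ < ρ / 2 → E t' = 0 → t' = t) ∧ ¬ HasDerivAt E 0 t ∧
      ‖t - 1 + 2 * D 1 / H 1 ^ 2‖ ≤ 32 * M * η ^ 2 / σ ^ 5 + 16 * η ^ 2 / (ρ * σ ^ 4) := by
  have S0 : 0 < ‖H 1‖ := σ0.trans_le hσ
  have S1 : H 1 ≠ 0 := norm_pos_iff.1 S0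
  have M0 : 0 ≤ M := (norm_nonneg _).trans (bH 1 (mem_ball_self one_pos))
  have η0 : 0 ≤ η := (norm_nonneg _).trans (bD 1 (mem_ball_self ρ0))
  have sb : ball (1 : ℂ) ρ ⊆ ball 1 1 := ball_subset_ball ρ1
  have q1 : ∀ x ∈ ball (1 : ℂ) 1, ‖(x - 1) * (H x - H 1) / H 1‖ ≤ 2 * M * ‖x - 1‖ ^ 2 / σ :=
    fun x hx => by
      rw [norm_div, norm_mul]
      refine div_le_div₀ (by positivity) ?_ σ0 hσ
      nlinarith [mul_le_mul_of_nonneg_left (sch dH bH hx) (norm_nonneg (x - 1))]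
  have q2 : ∀ (u : ℂ) (b : ℝ), ‖u‖ ≤ b → ‖2 * u / H 1 ^ 2‖ ≤ 2 * b / σ ^ 2 := fun u b hb => by
    rw [norm_div, norm_mul, norm_pow, Complex.norm_two]
    exact div_le_div₀ (by linarith [norm_nonneg u]) (by linarith) (by positivity)
      (pow_le_pow_left₀ σ0.le hσ 2)
  set ψ : ℂ → ℂ := fun x => (x - 1) * (H x - H 1) / H 1 + 2 * D x / H 1 ^ 2 with hψ
  have dψ : DifferentiableOn ℂ ψ (ball 1 ρ) :=
    ((((differentiableOn_id.sub_const 1).mul (dH.sub_const _)).div_const _).mono sb).add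
      ((dD.const_mul 2).div_const _)
  have bψ : ∀ x ∈ ball (1 : ℂ) ρ, ‖ψ x‖ ≤ ρ / 8 := fun x hx => by
    have a1 := q1 x (sb hx)
    have a2 := q2 _ _ (bD x hx)
    have a3 : ‖x - 1‖ ^ 2 ≤ ρ ^ 2 :=
      pow_le_pow_left₀ (norm_nonneg _) (by simpa [dist_eq_norm] using (mem_ball.1 hx).le) 2
    have a4 : 2 * M * ‖x - 1‖ ^ 2 / σ ≤ ρ / 16 := by
      rw [div_le_iff₀ σ0]; nlinarith [mul_le_mul_of_nonneg_left a3 M0]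
    have a5 : 2 * η / σ ^ 2 ≤ ρ / 16 := by
      rw [div_le_iff₀ (by positivity)]; linarith
    exact (norm_add_le _ _).trans (by linarith)
  have eψ : ∀ x, ψ x + (x - 1) = 2 * E x / H 1 ^ 2 := fun x => by
    rw [hE, hψ]; field_simp; ring
  obtain ⟨t, e1, e2, e3, e4⟩ := P097N.Root.fix ρ0 dψ bψ
  have e5 : ‖t - 1‖ ≤ 4 * η / σ ^ 2 := by
    have a2 := q2 _ _ (bD 1 (mem_ball_self ρ0))
    have : ψ 1 = 2 * D 1 / H 1 ^ 2 := by simp [hψ]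
    rw [this] at e3
    have : 4 * η / σ ^ 2 = 2 * (2 * η / σ ^ 2) := by ring
    linarith
  have tm : t ∈ ball (1 : ℂ) (ρ / 2) := by rw [mem_ball, dist_eq_norm]; linarith
  have tm1 : t ∈ ball (1 : ℂ) 1 := ball_subset_ball (by linarith) tm
  refine ⟨t, ?_, e2, e5, fun t' a1 a2 => e4 t' a1 (by rw [eψ, a2]; simp), fun hd => ?_, ?_⟩
  · rw [eψ] at e1
    simpa [S1] using e1
  · have k := P097N.Root.der ρ0 dψ bψ tm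
    have k1 : HasDerivAt ψ (-1) t := by
      have : ψ = fun x => 2 * E x / H 1 ^ 2 - (x - 1) := funext fun x => by rw [← eψ]; ring
      rw [this]
      exact (((hd.const_mul 2).div_const _).sub ((hasDerivAt_id' t).sub_const 1)).congr_deriv
        (by simp)
    rw [k1.deriv] at k
    norm_num at k
  · have : t - 1 + 2 * D 1 / H 1 ^ 2 =
        -((t - 1) * (H t - H 1) / H 1 + 2 * (D t - D 1) / H 1 ^ 2) := by
      simp only [hψ] at e1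
      linear_combination e1
    rw [this, norm_neg]
    have a1 := q1 t tm1
    have a2 := q2 _ _ ((sch2 dD bD (ball_subset_ball (by linarith) tm)).trans
      (mul_le_mul_of_nonneg_left e5 (by positivity)))
    have a3 : 2 * M * ‖t - 1‖ ^ 2 / σ ≤ 2 * M * (4 * η / σ ^ 2) ^ 2 / σ := by gcongr
    have a5 : 32 * M * η ^ 2 / σ ^ 5 + 16 * η ^ 2 / (ρ * σ ^ 4) =
        2 * M * (4 * η / σ ^ 2) ^ 2 / σ + 2 * (2 * η / ρ * (4 * η / σ ^ 2)) / σ ^ 2 := by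
      field_simp; ring
    exact (norm_add_le _ _).trans (by linarith)

theorem nm2 {M B c₀ κ σ : ℝ} (M1 : 1 ≤ M) (B1 : 1 ≤ B) (c2 : 0 < c₀) (c4 : 16 * B * c₀ ≤ 1)
    (c5 : 128 * M ^ 2 * c₀ ≤ 1) (σ0 : 0 < σ) (σ1 : σ ≤ 1) (hκ : κ ≤ c₀ ^ 2 * σ ^ 2) :
    2 * c₀ * σ ≤ 1 ∧ 32 * (2 * M ^ 2) * (2 * c₀ * σ) ≤ σ ∧
      32 * (B * κ * σ) ≤ 2 * c₀ * σ * σ ^ 2 ∧ c₀ * σ ≤ 1 ∧ κ ≤ σ ∧ 2 * M * (2 * c₀ * σ) ≤ σ := by
  have c3 : c₀ ≤ 1 / 4 := by nlinarith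
  have n4 : c₀ * σ ≤ 1 := by nlinarith
  have a2 := mul_le_mul_of_nonneg_left hκ (show 0 ≤ 32 * B * σ by positivity)
  have a3 := mul_le_mul_of_nonneg_left c4 (show 0 ≤ 2 * c₀ * σ ^ 3 by positivity)
  have a4 : 4 * M * c₀ ≤ 1 := by nlinarith
  have a5 : c₀ * σ ≤ σ := by nlinarith
  refine ⟨by nlinarith, by nlinarith, by nlinarith, n4, ?_, by nlinarith⟩
  nlinarith [mul_pos c2 σ0]

theorem nm3 {x M N σ : ℝ} (x0 : 0 ≤ x) (h : x ≤ (M + 1) * σ) (N1 : (M + 1) ^ 2 ≤ N) (σ0 : 0 < σ)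
    (σ1 : σ ≤ 1) : x ^ 2 / 2 ≤ N * σ := by
  have a1 := pow_le_pow_left₀ x0 h 2
  have a2 : σ ^ 2 ≤ σ := by nlinarith
  have a3 := mul_le_mul N1 a2 (by positivity) (by nlinarith)
  rw [mul_pow] at a1
  nlinarith [sq_nonneg x]

theorem key {Λ C M Mc N B c₀ : ℝ} (C1 : 1 ≤ C) (M1 : 1 ≤ M)
    (hC : ∀ (θ h Q : ℂ → ℂ) (c : ℂ) (U : Set ℂ) (y s : ℂ)
      (a κ : ℝ), Cv θ h Q c U → Sc θ Q U y a Λ κ → ‖s‖ ≤ a →
      ‖VV (s * deriv θ y)‖ ≤ C ∧ ‖UU (s * deriv θ y)‖ ≤ C ∧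
      ‖kk θ h y (y + s) / c - s ^ 2 * (snc (s * deriv θ y / 2) ^ 2 / 2 +
        s ^ 2 * deriv (deriv θ) y * VV (s * deriv θ y))‖ ≤ C * κ ^ 2 * ‖s‖ ^ 2 ∧
      ‖k1 θ h y (y + s) / c - s * (-snc (s * deriv θ y) +
        s ^ 2 * deriv (deriv θ) y * UU (s * deriv θ y))‖ ≤ C * κ ^ 2 * ‖s‖)
    (hM : ∀ z : ℂ, ‖z‖ ≤ Λ → ‖snc z‖ ≤ M) (hMc : ∀ z : ℂ, ‖z‖ ≤ Λ → ‖cos z‖ ≤ Mc)
    (N1 : (M + 1) ^ 2 ≤ N) (N2 : (M + 1) * Mc ≤ N) (hB : B = 24 * C * (N + C)) (B1 : 1 ≤ B)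
    (N3 : 0 ≤ 24 * N - 2 * M ^ 2 - 2 * M + 16 * C)
    (c2 : 0 < c₀) (c4 : 16 * B * c₀ ≤ 1) (c5 : 128 * M ^ 2 * c₀ ≤ 1)
    {θ h Q : ℂ → ℂ} {c : ℂ} {U : Set ℂ} {y s : ℂ} {κ : ℝ} (Cu : Cv θ h Q c U) (s0 : s ≠ 0)
    (S : Sc θ Q U y (2 * ‖s‖) Λ κ) (σ : ℝ) (σ0 : 0 < σ) (σ1 : σ ≤ 1)
    (hσ : σ ≤ ‖snc (s * deriv θ y / 2)‖)
    (hσM : ‖snc (s * deriv θ y / 2)‖ ≤ M → ‖snc (s * deriv θ y / 2)‖ ≤ M * σ)
    (hκ : κ ≤ c₀ ^ 2 * σ ^ 2) :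
      0 ≤ κ ∧ EE θ h (y - s) y (y + nx θ h y s) = 0 ∧
      (∀ t, EE θ h (y - s) y (y + t) = 0 → ‖t - s‖ < c₀ * σ * ‖s‖ → t = nx θ h y s) ∧
      AnalyticAt ℂ (fun p : ℂ × ℂ => nx θ h p.1 p.2) (y, s) ∧
      ‖nx θ h y s - s‖ ≤ 4 * B * κ / σ * ‖s‖ ∧
      ‖nx θ h y s - s - s * (s ^ 2 * deriv (deriv θ) y * ps (s * deriv θ y / 2))‖ ≤
        ((64 * M ^ 2 + 8 / c₀) * B ^ 2 + 4 * B) * κ ^ 2 / σ ^ 3 * ‖s‖ := by
  obtain ⟨n1, n2, n3, n4, n5, n6⟩ := nm2 M1 B1 c2 c4 c5 σ0 σ1 hκ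
  have M2 : 1 ≤ M ^ 2 := one_le_pow₀ M1
  have sp := norm_pos_iff.2 s0
  have c0 := Cu.c0
  have cs : c ^ 2 * s ^ 3 ≠ 0 := mul_ne_zero (pow_ne_zero _ c0) (pow_ne_zero _ s0)
  have yU : y ∈ U := S.sub (mem_closedBall_self (by positivity))
  have mU : ∀ t : ℂ, ‖t‖ ≤ 2 * ‖s‖ → y + t ∈ U := fun t ht =>
    S.sub (by simpa [mem_closedBall, dist_eq_norm] using ht)
  have hm : ∀ t : ℂ, ‖t‖ ≤ 2 * ‖s‖ → ‖t ^ 2 * deriv (deriv θ) y‖ ≤ κ := fun t ht => by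
    refine le_trans ?_ (S.g1 y (mem_closedBall_self (by positivity)))
    rw [norm_mul, norm_pow]; gcongr
  have κ0 : 0 ≤ κ := (norm_nonneg _).trans (hm 0 (by simp))
  have κ1 := S.k1
  have NF := fun t (t0 : t ≠ 0) (ht : ‖t‖ ≤ 2 * ‖s‖) =>
    have e := hC θ h Q c U y t _ κ Cu S ht
    nf c0 t0 (hm t ht) κ1 e.1 e.2.1 e.2.2.1 e.2.2.2
  obtain ⟨δ, hδ⟩ : ∃ δ, δ = s * deriv θ y / 2 := ⟨_, rfl⟩
  have hδ2 : s * deriv θ y = 2 * δ := by rw [hδ]; ring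
  have bδ : 4 * ‖δ‖ ≤ Λ := by
    have := S.g0
    rw [mul_assoc, ← norm_mul, hδ2, norm_mul, Complex.norm_two] at this
    linarith
  have δ0 := norm_nonneg δ
  have bs : ∀ τ : ℂ, ‖τ‖ ≤ 4 → ‖snc (δ * τ)‖ ≤ M := fun τ hτ => hM _ (by
    rw [norm_mul]; linarith [mul_le_mul_of_nonneg_left hτ δ0])
  have bA : ∀ τ : ℂ, ‖τ‖ ≤ 4 → ‖snc (δ * τ) ^ 2 / 2‖ ≤ M ^ 2 := fun τ hτ => by
    rw [norm_div, norm_pow, Complex.norm_two]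
    have := pow_le_pow_left₀ (norm_nonneg _) (bs τ hτ) 2
    linarith
  rw [← hδ] at hσ hσM ⊢
  have S1 : snc δ ≠ 0 := norm_pos_iff.1 (σ0.trans_le hσ)
  obtain ⟨e₃, e₄, f3, f4, g3, g4, k3, k4⟩ := NF (-s) (neg_ne_zero.2 s0) (by rw [norm_neg]; linarith)
  rw [← sub_eq_add_neg, neg_mul, hδ2] at k3 k4
  rw [neg_mul, hδ2] at g3 g4
  rw [show -(2 * δ) / 2 = -δ by ring, snc_neg] at k3
  rw [snc_neg] at k4
  rw [neg_sq] at k3 k4 g3 g4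
  obtain ⟨F, hF⟩ : ∃ F : (ℂ × ℂ) × ℂ → ℂ,
      F = fun q => EE θ h (q.1.1 - q.1.2) q.1.1 (q.1.1 + q.2) := ⟨_, rfl⟩
  have aF : ∀ t : ℂ, ‖t‖ ≤ 2 * ‖s‖ → AnalyticAt ℂ F ((y, s), t) := fun t ht => hF ▸
    aE Cu yU (mU t ht) (by simpa [sub_eq_add_neg] using mU (-s) (by rw [norm_neg]; linarith))
  obtain ⟨H, hH⟩ : ∃ H : ℂ → ℂ, H = fun τ => τ * snc (δ * τ) * snc (δ * (τ - 1)) := ⟨_, rfl⟩
  have H1 : H 1 = snc δ := by simp [hH, snc_zero]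
  have dH : Differentiable ℂ H := by
    have := snc_d
    rw [hH]; fun_prop
  obtain ⟨E, hE⟩ : ∃ E : ℂ → ℂ, E = fun τ => F ((y, s), s * τ) / (c ^ 2 * s ^ 3) := ⟨_, rfl⟩
  have dE : DifferentiableOn ℂ E (ball 1 1) := fun τ hτ => by
    rw [hE]
    exact (((aF _ (b2 s hτ).2.2.2).comp_of_eq (f := fun τ : ℂ => ((y, s), s * τ)) (by fun_prop)
      rfl).differentiableAt.div_const _).differentiableWithinAt
  have η1 : 2 * C * κ ≤ 2 * C * σ := by gcongr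
  have ρ0 : 0 < 2 * c₀ * σ := by positivity
  have sb : ball (1 : ℂ) (2 * c₀ * σ) ⊆ ball 1 1 := ball_subset_ball n1
  have bs' : ∀ τ ∈ ball (1 : ℂ) (2 * c₀ * σ), ‖snc (δ * τ)‖ ≤ (M + 1) * σ := fun τ hτ => by
    have a1 := sch (f := fun τ => snc (δ * τ)) (c := 1) (M := M) (by
      have := snc_d
      fun_prop) (fun x hx => bs x (by linarith [(b2 s hx).2.1])) (sb hτ)
    have a2 := hσM (by simpa using bs 1 (by norm_num))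
    have a3 := norm_sub_norm_le (snc (δ * τ)) (snc (δ * 1))
    rw [mem_ball, dist_eq_norm] at hτ
    simp only [mul_one] at a1 a3
    have a4 := mul_le_mul_of_nonneg_left hτ.le (show 0 ≤ 2 * M by linarith)
    linarith
  have bA' : ∀ τ ∈ ball (1 : ℂ) (2 * c₀ * σ), ‖snc (δ * τ) ^ 2 / 2‖ ≤ N * σ := fun τ hτ => by
    rw [norm_div, norm_pow, Complex.norm_two]
    exact nm3 (norm_nonneg _) (bs' τ hτ) N1 σ0 σ1
  have bn' : ∀ τ ∈ ball (1 : ℂ) (2 * c₀ * σ), ‖snc (δ * (2 * τ))‖ ≤ N * σ := fun τ hτ => by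
    rw [show δ * (2 * τ) = 2 * (δ * τ) by ring, snc_two]
    have a1 := hMc (δ * τ) (by
      rw [norm_mul]; linarith [mul_le_mul_of_nonneg_left (b2 s (sb hτ)).2.1 δ0])
    refine (norm_mul_le_of_le (bs' τ hτ) a1).trans ?_
    linarith [mul_le_mul_of_nonneg_right N2 σ0.le]
  have bD : ∀ τ ∈ ball (1 : ℂ) (2 * c₀ * σ), ‖E τ - H 1 * (τ - 1) * H τ / 2‖ ≤ B * κ * σ :=
      fun τ hτ => by
    obtain ⟨a1, a2, a3, a4⟩ := b2 s (sb hτ)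
    obtain ⟨e₁, e₂, -, -, g1, g2, k1, k2⟩ := NF (s * τ) (mul_ne_zero s0 a3) a4
    rw [show s * τ * deriv θ y = 2 * (δ * τ) by rw [hδ]; ring] at k1 k2 g1 g2
    rw [mul_div_cancel_left₀ _ two_ne_zero] at k1
    have p1 := pr (bA' τ hτ) (show ‖snc (δ * 2)‖ ≤ N * σ by
      simpa using bn' 1 (mem_ball_self ρ0)) g1 ((norm_neg _).trans_le g4) η1
    have p2 := pr (bA' 1 (mem_ball_self ρ0)) ((norm_neg _).trans_le (bn' τ hτ)) g3 g2 η1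
    have p3 := norm_mul_le_of_le (show ‖τ ^ 2‖ ≤ 2 ^ 2 by rw [norm_pow]; gcongr) p1
    have p4 := norm_mul_le_of_le a2 p2
    refine le_trans (le_of_eq (congrArg _ ?_)) ((norm_add_le_of_le p3 p4).trans
      (le_of_eq (by rw [hB]; ring)))
    rw [H1, hE, hF, hH]
    simp only [EE]
    rw [k1, k2, k3, k4, mul_one, mul_comm δ 2, show δ * (2 * τ) = 2 * (δ * τ) by ring, snc_two,
      snc_two]
    rw [sub_eq_iff_eq_add, div_eq_iff cs]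
    linear_combination (c ^ 2 * s ^ 3 * τ * snc δ * snc (δ * τ) / 2) * snc_sub δ τ
  obtain ⟨τ, r1, r2, r3, r4, r5, r6⟩ := rt2 (H := H) (E := E) (M := 2 * M ^ 2) (ρ := 2 * c₀ * σ)
    (D := fun τ => E τ - H 1 * (τ - 1) * H τ / 2)
    dH.differentiableOn ((dE.mono sb).sub (by fun_prop)) (fun τ hτ => by
      obtain ⟨a1, a2, -, -⟩ := b2 s hτ
      rw [hH]
      exact (norm_mul_le_of_le (norm_mul_le_of_le a2 (bs τ (by linarith)))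
        (bs (τ - 1) (by linarith))).trans (le_of_eq (by ring))) bD (fun x => by ring) σ0
    (by rwa [H1]) ρ0 n1 n2 n3
  have ns : ∀ x : ℂ, ‖s * x - s‖ = ‖x - 1‖ * ‖s‖ := fun x => by
    rw [← norm_mul]; congr 1; ring
  have u0 : F ((y, s), s * τ) = 0 := by simpa [hE, cs, c0, s0] using r1
  have u1 : ∀ t, F ((y, s), t) = 0 → ‖t - s‖ < c₀ * σ * ‖s‖ → t = s * τ := fun t a1 a2 => by
    have e : s * (t / s) = t := by field_simp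
    rw [← e] at a1 a2 ⊢
    rw [ns] at a2
    rw [r4 (t / s) (by linarith [lt_of_mul_lt_mul_right a2 sp.le]) (by rw [hE]; simp only [a1]; simp)]
  have u2 : ‖s * τ - s‖ ≤ c₀ * σ * ‖s‖ / 4 := by
    rw [ns]; linarith [mul_le_mul_of_nonneg_right r2 sp.le]
  have u3 : 0 < c₀ * σ * ‖s‖ := by positivity
  have u4 : c₀ * σ * ‖s‖ ≤ ‖s‖ := mul_le_of_le_one_left sp.le n4
  have ex : nx θ h y s = s * τ := nx_eq ⟨by simpa [hF] using u0, fun t a1 a2 =>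
    u1 t (by simpa [hF] using a1) (by linarith)⟩
  have aF' : ∀ t ∈ ball s (c₀ * σ * ‖s‖), AnalyticAt ℂ F ((y, s), t) := fun t ht => aF t (by
    rw [mem_ball, dist_eq_norm] at ht
    linarith [norm_sub_norm_le t s])
  refine ⟨κ0, by simpa [hF, ex] using u0, fun t a1 a2 => ex ▸ u1 t (by simpa [hF] using a1) a2,
    ana (F := F) (m := Prod.snd) (p := (y, s)) continuousAt_snd u3 aF' u0 (by simp only; linarith)
      u1 (fun hd => r5 ?_) (fun q x a1 a2 => nx_eq ⟨by simpa [hF] using a1, fun t b1 b2 =>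
        a2 t (by simpa [hF] using b1) b2⟩), ?_, ?_⟩
  · rw [hE]
    exact ((hd.comp τ ((hasDerivAt_id' τ).const_mul s)).div_const _).congr_deriv (by simp)
  · rw [ex, ns]
    refine mul_le_mul_of_nonneg_right (r3.trans (le_of_eq ?_)) sp.le
    field_simp
  obtain ⟨e₁, e₂, f1, f2, g1, g2, k1, k2⟩ := NF s s0 (by linarith)
  rw [hδ2] at k1 k2 g1 g2
  rw [mul_div_cancel_left₀ _ two_ne_zero] at k1
  obtain ⟨μ, hμ⟩ : ∃ μ, μ = s ^ 2 * deriv (deriv θ) y := ⟨_, rfl⟩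
  rw [← hμ] at k1 k2 k3 k4 g1 g2 g3 g4 ⊢
  have v1 : E 1 + snc δ ^ 2 / 2 * (μ * ps δ) = snc (δ * 1) ^ 2 / 2 * e₂ - snc (δ * 1) ^ 2 / 2 * e₄ +
      (snc (δ * 2) * e₁ - snc (δ * 2) * e₃) + ((μ * VV (-(2 * δ)) + e₃) * (μ * UU (2 * δ) + e₂) -
      (μ * VV (2 * δ) + e₁) * (μ * UU (-(2 * δ)) + e₄)) := by
    rw [hE, hF]
    simp only [EE]
    rw [mul_one, k1, k2, k3, k4, mul_one, mul_comm δ 2, VV_neg, UU_neg]
    rw [← eq_sub_iff_add_eq, div_eq_iff cs]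
    linear_combination (c ^ 2 * s ^ 3 * μ) * ps_eq S1
  have v2 : ‖E 1 + snc δ ^ 2 / 2 * (μ * ps δ)‖ ≤ B * κ ^ 2 := by
    have a1 := bA 1 (by norm_num)
    have a2 := bs 2 (by norm_num)
    rw [v1]
    refine (norm_add_le_of_le (norm_add_le_of_le (norm_sub_le_of_le (norm_mul_le_of_le a1 f2)
      (norm_mul_le_of_le a1 f4)) (norm_sub_le_of_le (norm_mul_le_of_le a2 f1)
      (norm_mul_le_of_le a2 f3))) (norm_sub_le_of_le (norm_mul_le_of_le g3 g2)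
      (norm_mul_le_of_le g1 g4))).trans ?_
    rw [hB]
    have : 0 ≤ C * κ ^ 2 * (24 * N - 2 * M ^ 2 - 2 * M + 16 * C) :=
      mul_nonneg (by positivity) N3
    linarith
  have v3 : ‖2 * (E 1 + snc δ ^ 2 / 2 * (μ * ps δ)) / snc δ ^ 2‖ ≤ 4 * B * κ ^ 2 / σ ^ 3 := by
    rw [norm_div, norm_mul, norm_pow, Complex.norm_two]
    refine div_le_div₀ (by positivity) (by linarith [mul_nonneg (zero_le_one.trans B1) (sq_nonneg κ)])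
      (by positivity) ?_
    exact (pow_le_pow_of_le_one σ0.le σ1 (by norm_num)).trans (pow_le_pow_left₀ σ0.le hσ 2)
  rw [ex, show s * τ - s - s * (μ * ps δ) = (τ - 1 + 2 * (E 1 - H 1 * (1 - 1) * H 1 / 2) / H 1 ^ 2 -
    2 * (E 1 + snc δ ^ 2 / 2 * (μ * ps δ)) / snc δ ^ 2) * s by rw [H1]; field_simp; ring, norm_mul]
  refine mul_le_mul_of_nonneg_right ((norm_sub_le_of_le r6 v3).trans (le_of_eq ?_)) sp.le
  field_simp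
  ring

theorem step2 : S_STEP2 := fun Λ => by
  obtain ⟨C, C1, hC⟩ := sexp Λ
  obtain ⟨M, M1, hM⟩ := snc_bd Λ
  obtain ⟨Mc, Mc1, hMc⟩ : ∃ M : ℝ, 1 ≤ M ∧ ∀ z : ℂ, ‖z‖ ≤ Λ → ‖cos z‖ ≤ M := by
    obtain ⟨M, hM⟩ := (isCompact_closedBall (0 : ℂ) Λ).exists_bound_of_continuousOn
      Complex.continuous_cos.continuousOn
    exact ⟨max M 1, le_max_right _ _, fun z hz =>
      (hM z (by simpa using hz)).trans (le_max_left _ _)⟩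
  obtain ⟨N, hN⟩ : ∃ N : ℝ, N = (M + 1) ^ 2 * Mc := ⟨_, rfl⟩
  have N1 : (M + 1) ^ 2 ≤ N := by rw [hN]; exact le_mul_of_one_le_right (by positivity) Mc1
  have N2 : (M + 1) * Mc ≤ N := by
    rw [hN]; exact mul_le_mul_of_nonneg_right (by nlinarith) (by linarith)
  obtain ⟨B, hB⟩ : ∃ B : ℝ, B = 24 * C * (N + C) := ⟨_, rfl⟩
  have M2 : 1 ≤ M ^ 2 := one_le_pow₀ M1
  have B1 : 1 ≤ B := by nlinarith
  obtain ⟨c₀, hc₀⟩ : ∃ c₀ : ℝ, c₀ = 1 / (128 * M ^ 2 + 16 * B) := ⟨_, rfl⟩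
  have c1 : c₀ * (128 * M ^ 2 + 16 * B) = 1 := by rw [hc₀]; field_simp
  have c2 : 0 < c₀ := by rw [hc₀]; positivity
  have c3 : c₀ ≤ 1 / 4 := by nlinarith
  have c4 : 16 * B * c₀ ≤ 1 := by nlinarith
  have c5 : 128 * M ^ 2 * c₀ ≤ 1 := by nlinarith
  have K0 : 0 ≤ (64 * M ^ 2 + 8 / c₀) * B ^ 2 := by positivity
  refine ⟨c₀, (64 * M ^ 2 + 8 / c₀) * B ^ 2 + 4 * B, c2, c3, by linarith, ?_⟩
  intro θ h Q c U y s κ σ' Cu s0 S σ0' σ1' hσ' hκ'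
  have l : σ' ≤ min ‖snc (s * deriv θ y / 2)‖ 1 := le_min hσ' σ1'
  obtain ⟨κ0, k1, k2, k3, k4, k5⟩ := key C1 M1 hC hM hMc N1 N2 hB B1 (by nlinarith) c2 c4 c5 Cu s0 S
    (min ‖snc (s * deriv θ y / 2)‖ 1) (σ0'.trans_le l)
    (min_le_right _ _) (min_le_left _ _) (fun hm => by
      rcases min_cases ‖snc (s * deriv θ y / 2)‖ 1 with ⟨e, -⟩ | ⟨e, -⟩ <;> rw [e]
      · exact le_mul_of_one_le_left (norm_nonneg _) M1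
      · linarith) (hκ'.trans (by gcongr))
  have k6 : ‖nx θ h y s - s‖ ≤ 4 * B * κ / σ' * ‖s‖ := k4.trans (by gcongr)
  refine ⟨k1, fun t a1 a2 => k2 t a1 (a2.trans_le (by gcongr)), k3, k6.trans (by
    gcongr; linarith), k6.trans ?_, k5.trans (by gcongr)⟩
  refine mul_le_mul_of_nonneg_right ?_ (norm_nonneg _)
  rw [div_le_iff₀ σ0']
  have a2 := mul_le_mul_of_nonneg_left hκ' (show 0 ≤ 4 * B by linarith)
  have a3 := mul_le_mul_of_nonneg_left c4 (show 0 ≤ c₀ * σ' ^ 2 by positivity)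
  nlinarith [mul_pos c2 (pow_pos σ0' 2)]

end Vale.Agent.P097EE
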