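import Vale.Agent.P097EE.LZDefs
import Vale.Agent.P097EE.Step2
import Vale.Agent.P097EE.Nf

/-!
# P097EE.LZ: one step near a zero of the curve
-/

set_option linter.all false

noncomputable section

namespace Vale.Agent.P097EE.LZ

open Filter Topology Set Metric Complex Vale.Agent.P097N Vale.Agent.P097Mo
open Vale.Agent.P097F.N Vale.Agent.P097F.N.StepA

theorem snc_lo {δ : ℂ} (h0 : δ ≠ 0) (h1 : Sf δ = 0) : ∃ e σ : ℝ, 0 < e ∧ e ≤ 1 ∧ e ≤ ‖δ‖ ∧ 0 < σ ∧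
    σ ≤ 1 ∧ ∀ x : ℂ, (‖x - 2 * δ‖ ≤ e ∨ ‖x + 2 * δ‖ ≤ e) → σ ≤ ‖snc (x / 2)‖ := by
  have h2 : snc δ ≠ 0 := fun h => by
    have k := mul_snc δ
    rw [h, mul_zero] at k
    rw [Sf, ← k, zero_sub, neg_eq_zero, mul_eq_zero, or_iff_right h0] at h1
    have := Complex.sin_sq_add_cos_sq δ
    rw [← k, h1] at this
    norm_num at this
  have h3 := norm_pos_iff.2 h2
  have h4 := norm_pos_iff.2 h0
  obtain ⟨r, r0, hr⟩ := Metric.continuousAt_iff.1 (snc_d.continuous.continuousAt (x := δ)) _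
    (half_pos h3)
  have key : ∀ x : ℂ, ‖x - 2 * δ‖ ≤ min r (min 1 ‖δ‖) → min (‖snc δ‖ / 2) 1 ≤ ‖snc (x / 2)‖ :=
    fun x hx => by
      have e : x / 2 - δ = (x - 2 * δ) / 2 := by ring
      have := hr (x := x / 2) (by
        rw [dist_eq_norm, e, norm_div, Complex.norm_two]
        linarith [min_le_left r (min 1 ‖δ‖)])
      rw [dist_eq_norm] at this
      linarith [min_le_left (‖snc δ‖ / 2) 1, norm_sub_norm_le (snc δ) (snc (x / 2)),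
        norm_sub_rev (snc δ) (snc (x / 2))]
  refine ⟨min r (min 1 ‖δ‖), min (‖snc δ‖ / 2) 1, by positivity,
    (min_le_right _ _).trans (min_le_left _ _), (min_le_right _ _).trans (min_le_right _ _),
    by positivity, min_le_right _ _, fun x hx => hx.elim (key x) fun hx => ?_⟩
  rw [← snc_neg (x / 2), ← neg_div]
  refine key _ ?_
  rwa [← norm_neg, neg_sub, sub_neg_eq_add, add_comm]

theorem siz (hO : S_ODE) {δ : ℂ} {d e a b k ν R κ : ℝ} {θ h Q : ℂ → ℂ} {c : ℂ} {U : Set ℂ}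
    {y s : ℂ} (hd : d = ‖δ‖) (d0 : 0 < d) (e1 : e ≤ 1) (e2 : e ≤ d) (a0 : 0 < a)
    (ha : 3 * d * a = 2 * d + 1) (hb : b = 32 * d * a ^ 2) (k0 : 0 < k) (k1 : k ≤ 1)
    (Z : ZS δ ν R θ h Q c U) (hν : ν * R ^ 2 ≤ min (1 / 100) (16 * d ^ 2))
    (hl : 1 + 2 * a + b / k ≤ ‖y‖ ^ 2) (hR : 2 * ‖y‖ ≤ R)
    (hs : ‖s * deriv θ y - 2 * δ‖ ≤ e ∨ ‖s * deriv θ y + 2 * δ‖ ≤ e)
    (hκ : κ = 32 * d * ‖s‖ ^ 2) : 0 < ‖y‖ ∧ deriv θ y ≠ 0 ∧ ‖s‖ * ‖y‖ ≤ a ∧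
      1 ≤ 8 * (‖s‖ * ‖y‖) ∧ κ ≤ b / ‖y‖ ^ 2 ∧ κ ≤ k ∧ Sc θ Q U y (2 * ‖s‖) (4 * d + 2) κ := by
  have p1 : 0 < b / k := by rw [hb]; positivity
  obtain ⟨n1, n2⟩ := le_min_iff.1 hν
  have Y0 : 0 < ‖y‖ := by
    rcases (norm_nonneg y).eq_or_lt with h | h
    · rw [← h] at hl
      linarith
    · exact h
  have ν0 : 0 ≤ ν := (norm_nonneg _).trans (Z.q 0 (mem_closedBall_self (by linarith)))
  have n3 : ν * (2 * ‖y‖) ^ 2 ≤ ν * R ^ 2 := by gcongr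
  obtain ⟨O1, -⟩ := hO δ ν R θ h Q c U Z (by linarith)
  rw [← hd] at O1
  obtain ⟨o1, -, o2, -⟩ := O1 y (by linarith)
  have G1 : 3 * d * ‖y‖ ≤ ‖deriv θ y‖ := by
    have t1 := norm_sub_norm_le (4 * δ * y) (deriv θ y)
    rw [norm_sub_rev, norm_mul, norm_mul, ← hd, Complex.norm_ofNat] at t1
    have t2 : d * ‖y‖ * (ν * (2 * ‖y‖) ^ 2) ≤ d * ‖y‖ * (1 / 100) :=
      mul_le_mul_of_nonneg_left (n3.trans n1) (by positivity)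
    have t3 : 0 < d * ‖y‖ := by positivity
    linarith
  have W : d ≤ ‖s‖ * ‖deriv θ y‖ ∧ ‖s‖ * ‖deriv θ y‖ ≤ 2 * d + 1 := by
    have t0 : ‖2 * δ‖ = 2 * d := by rw [norm_mul, Complex.norm_two, hd]
    rw [← norm_mul]
    rcases hs with hs | hs
    · have := abs_le.1 (abs_norm_sub_norm_le (s * deriv θ y) (2 * δ))
      constructor <;> linarith [this.1, this.2]
    · have := abs_le.1 (abs_norm_sub_norm_le (s * deriv θ y) (-(2 * δ)))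
      rw [norm_neg, sub_neg_eq_add] at this
      constructor <;> linarith [this.1, this.2]
  have S0 : 0 ≤ ‖s‖ := norm_nonneg s
  have s1 : ‖s‖ * ‖y‖ ≤ a := by
    have := mul_le_mul_of_nonneg_left G1 S0
    exact le_of_mul_le_mul_left (by linarith [W.2]) (by positivity : 0 < 3 * d)
  have s0 : 1 ≤ 8 * (‖s‖ * ‖y‖) := by
    have := mul_le_mul_of_nonneg_left o2 S0
    exact le_of_mul_le_mul_left (by linarith [W.1]) d0
  have s2 : 2 * ‖s‖ ≤ ‖y‖ := le_of_mul_le_mul_right (by linarith) Y0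
  have κ1 : κ ≤ b / ‖y‖ ^ 2 := by
    rw [le_div_iff₀ (by positivity), hκ, hb, mul_assoc, ← mul_pow]
    gcongr
  have κ2 : κ ≤ k := by
    refine κ1.trans ?_
    rw [div_le_iff₀ (by positivity), mul_comm, ← div_le_iff₀ k0]
    linarith
  have bl : ∀ z ∈ closedBall y (2 * ‖s‖), ‖z‖ ≤ R := fun z hz => by
    rw [mem_closedBall, dist_eq_norm] at hz
    linarith [norm_sub_norm_le z y]
  have Sc' : Sc θ Q U y (2 * ‖s‖) (4 * d + 2) κ := by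
    refine ⟨fun z hz => Z.sub (mem_closedBall_zero_iff.2 (bl z hz)), by linarith [W.2],
      fun z hz => ?_, fun z hz => ?_, by linarith⟩
    · refine (mul_le_mul_of_nonneg_left (O1 z (bl z hz)).2.2.2 (sq_nonneg _)).trans (le_of_eq ?_)
      rw [hκ]
      ring
    · refine (mul_le_mul_of_nonneg_left (Z.q z (mem_closedBall_zero_iff.2 (bl z hz)))
        (sq_nonneg _)).trans ?_
      have t1 : 1 ≤ (8 * (‖s‖ * ‖y‖)) ^ 2 := one_le_pow₀ s0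
      have t2 : ν * 1 ≤ ν * (8 * (‖s‖ * ‖y‖)) ^ 2 := mul_le_mul_of_nonneg_left t1 ν0
      have t3 : ‖s‖ ^ 2 * (ν * (2 * ‖y‖) ^ 2) ≤ ‖s‖ ^ 2 * (16 * d ^ 2) :=
        mul_le_mul_of_nonneg_left (n3.trans n2) (sq_nonneg _)
      have t4 : ‖s‖ ^ 2 * ν ≤ ‖s‖ ^ 2 * (256 * d ^ 2 * ‖s‖ ^ 2) :=
        mul_le_mul_of_nonneg_left (by linarith) (sq_nonneg _)
      rw [hκ]
      linarith
  exact ⟨Y0, fun h => by rw [h, norm_zero] at G1; linarith [mul_pos d0 Y0], s1, s0, κ1, κ2, Sc'⟩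

theorem pt (hO : S_ODE) : S_PT := by
  intro δ h0 h1
  obtain ⟨e, σ, e0, e1, e2, σ0, σ1, hσ⟩ := snc_lo h0 h1
  obtain ⟨d, hd⟩ : ∃ d, d = ‖δ‖ := ⟨_, rfl⟩
  have d0 : 0 < d := hd ▸ norm_pos_iff.2 h0
  obtain ⟨c₀, C, c0, c1, C1, hS⟩ := step2 (4 * d + 2)
  obtain ⟨c₂, c2, hN⟩ := Nf.ndg (4 * d + 2)
  obtain ⟨a, a0, ha⟩ : ∃ a > (0 : ℝ), 3 * d * a = 2 * d + 1 :=
    ⟨(2 * d + 1) / (3 * d), by positivity, by field_simp⟩
  obtain ⟨b, hb⟩ : ∃ b, b = 32 * d * a ^ 2 := ⟨_, rfl⟩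
  have b0 : 0 < b := by rw [hb]; positivity
  obtain ⟨k, k0, k1, k2, k3, k4⟩ : ∃ k > (0 : ℝ), k ≤ 1 ∧ k ≤ c₀ ^ 2 * σ ^ 2 ∧ k ≤ c₂ ^ 2 * σ ^ 2 ∧
      k * C ≤ c₂ * σ ^ 2 :=
    ⟨min (min 1 (c₀ ^ 2 * σ ^ 2)) (min (c₂ ^ 2 * σ ^ 2) (c₂ * σ ^ 2 / C)), by positivity,
      (min_le_left _ _).trans (min_le_left _ _), (min_le_left _ _).trans (min_le_right _ _),
      (min_le_right _ _).trans (min_le_left _ _),
      (le_div_iff₀ (by linarith)).1 ((min_le_right _ _).trans (min_le_right _ _))⟩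
  have p1 : 0 < b / k := by positivity
  have p2 : 0 < 1 / σ := by positivity
  have p3 : 0 < C * b / σ := by positivity
  have p4 : 0 < C * b ^ 2 / σ ^ 3 := by positivity
  have p5 : 0 < 4 / σ ^ 2 := by positivity
  obtain ⟨C₁, hC₁⟩ : ∃ C₁, C₁ = a + 8 + 1 / σ + C * b / σ + C * b ^ 2 / σ ^ 3 + 4 / σ ^ 2 :=
    ⟨_, rfl⟩
  refine ⟨e, 1 + 2 * a + b / k, min (1 / 100) (16 * d ^ 2), c₀ * σ, C₁, e0, e1, by linarith,
    by positivity, min_le_left _ _, by positivity,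
    (mul_le_of_le_one_right c0.le σ1).trans c1, by linarith,
    fun ν R θ h Q c U y s Z hν hl hR hs => ?_⟩
  obtain ⟨κ, hκ⟩ : ∃ κ, κ = 32 * d * ‖s‖ ^ 2 := ⟨_, rfl⟩
  have κ0 : 0 ≤ κ := by rw [hκ]; positivity
  obtain ⟨Y0, G1, s1, s0, κ1, κ2, Sc'⟩ := siz hO hd d0 e1 (hd ▸ e2) a0 ha hb k0 k1 Z hν hl hR hs hκ
  have S0 : 0 ≤ ‖s‖ := norm_nonneg s
  have sn : s ≠ 0 := fun h => by
    rw [h, norm_zero] at s0
    linarith
  have σ2 := hσ _ hs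
  obtain ⟨r1, r2, r3, r4, r5, r6⟩ := hS θ h Q c U y s κ σ Z.cv sn Sc' σ0 σ1 σ2 (κ2.trans k2)
  have r7 := hN θ h Q c U y s (nx θ h y s) κ _ Z.cv sn Sc' rfl
    ((κ2.trans k3).trans (by gcongr)) (r4.trans (mul_le_mul_of_nonneg_right (by
      rw [div_le_iff₀ σ0]
      have t1 : c₂ * σ * σ ≤ c₂ * ‖snc (s * deriv θ y / 2)‖ * σ := by gcongr
      have t2 : κ * C ≤ k * C := by gcongr
      linarith) S0))
  clear hS hN hσ
  refine ⟨G1, by linarith,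
    s0.trans (by gcongr; linarith), ?_, r1, r2, r3, r5, r4.trans ?_, r6.trans ?_, ?_⟩
  · calc (1 : ℝ) = 1 / σ * σ := by field_simp
      _ ≤ _ := mul_le_mul (by linarith) σ2 σ0.le (by linarith)
  · refine mul_le_mul_of_nonneg_right ?_ S0
    calc C * κ / σ ≤ C * (b / ‖y‖ ^ 2) / σ := by gcongr
      _ = C * b / σ / ‖y‖ ^ 2 := by ring
      _ ≤ _ := by gcongr; linarith
  · refine mul_le_mul_of_nonneg_right ?_ S0
    calc C * κ ^ 2 / σ ^ 3 ≤ C * (b / ‖y‖ ^ 2) ^ 2 / σ ^ 3 := by gcongr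
      _ = C * b ^ 2 / σ ^ 3 / ‖y‖ ^ 4 := by ring
      _ ≤ _ := by gcongr; linarith
  · calc ‖c‖ ^ 2 * ‖s‖ ^ 2 = 4 / σ ^ 2 * (σ ^ 2 * ‖c‖ ^ 2 * ‖s‖ ^ 2 / 4) := by field_simp
      _ ≤ 4 / σ ^ 2 * (‖snc (s * deriv θ y / 2)‖ ^ 2 * ‖c‖ ^ 2 * ‖s‖ ^ 2 / 4) := by gcongr
      _ ≤ _ := mul_le_mul (by linarith) r7 (by positivity) (by linarith)

end Vale.Agent.P097EE.LZ
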