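import Vale.Agent.P097EE.LZDefs
import Vale.Agent.P097Mo.Win
import Vale.Agent.P097Mo.Bridge

/-!
# P097EE.LZ: the scaling (row 5829)
-/

set_option linter.all false

noncomputable section

namespace Vale.Agent.P097EE.LZ

open Filter Topology Set Metric Complex Vale.Agent.P097N Vale.Agent.P097Mo

theorem ScA.ac (θ : ℂ → ℂ) {k : ℂ} (k0 : k ≠ 0) (z δ a b : ℂ) : acZ θ k z δ (a, b) =
    kZ (fun X => θ (z + k⁻¹ * X)) δ (k * (a - z), k * (b - z)) := by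
  have e : z + k⁻¹ * (k * (b - z)) = b := by field_simp; ring
  refine Prod.ext rfl ?_
  simp only [acZ, kZ, deriv_aff, e]
  field_simp
  ring

theorem ScA.ee {θ h : ℂ → ℂ} {k : ℂ} (k0 : k ≠ 0) (z : ℂ) {a b c : ℂ} (H : EE θ h a b c = 0) :
    EE (fun X => θ (z + k⁻¹ * X)) (fun X => h (z + k⁻¹ * X)) (k * (a - z)) (k * (b - z))
      (k * (c - z)) = 0 := by
  have e : ∀ b, z + k⁻¹ * (k * (b - z)) = b := fun b => by field_simp; ring
  rw [ee_aff, e, e, e, H, mul_zero]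

theorem ScA.ik {θ : ℂ → ℂ} {δ a b : ℂ} (H : deriv θ b ≠ 0) : iZ θ δ (kZ θ δ (a, b)) = (a, b) := by
  refine Prod.ext ?_ rfl
  simp only [iZ, kZ, sZ]
  field_simp
  ring

theorem ScA.zs {θ h Q : ℂ → ℂ} {c δ k z y₀ : ℂ} {U : Set ℂ} {ρ B D w L : ℝ} (C : Cv θ h Q c U)
    (k0 : k ≠ 0) (sub : ball y₀ ρ ⊆ U) (hQ : ∀ x ∈ ball y₀ ρ, ‖Q x‖ ≤ B) (hz : ‖z - y₀‖ < ρ / 2)
    (d1 : deriv θ z = 0) (d2 : 4 * δ * k ^ 2 = deriv (deriv θ) z) (w0 : 0 ≤ w) (L0 : 0 ≤ L)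
    (hk : ‖k⁻¹‖ ^ 2 ≤ D * w) (hL : 16 * (D * (w * L)) ≤ (ρ / 2) ^ 2) :
    ZS δ ((1 + D * |B|) * w) (4 * √L) (fun X => θ (z + k⁻¹ * X)) (fun X => h (z + k⁻¹ * X))
      (fun X => k⁻¹ ^ 2 * Q (z + k⁻¹ * X)) (k⁻¹ ^ 3 * c) ((fun X => z + k⁻¹ * X) ⁻¹' U) := by
  have m : ∀ X ∈ closedBall (0 : ℂ) (4 * √L), z + k⁻¹ * X ∈ ball y₀ ρ := by
    intro X hX
    rw [mem_closedBall_zero_iff] at hX
    have a := pow_le_pow_left₀ (norm_nonneg X) hX 2
    rw [mul_pow, Real.sq_sqrt L0] at a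
    have b : ‖k⁻¹ * X‖ ^ 2 ≤ (ρ / 2) ^ 2 := by
      rw [norm_mul, mul_pow]
      have := mul_le_mul hk a (by positivity) ((sq_nonneg _).trans hk)
      linarith
    have d := (pow_le_pow_iff_left₀ (norm_nonneg _) (by linarith [norm_nonneg (z - y₀)])
      two_ne_zero).1 b
    rw [mem_ball_iff_norm, add_sub_right_comm]
    linarith [norm_add_le (z - y₀) (k⁻¹ * X)]
  refine ⟨cv_aff C z (inv_ne_zero k0), fun X hX => sub (m X hX), by simp [deriv_aff, d1], ?_,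
    fun X hX => ?_⟩
  · rw [deriv_aff2]
    simp only [mul_zero, add_zero, ← d2]
    field_simp
  · rw [norm_mul, norm_pow]
    have := mul_le_mul hk ((hQ _ (m X hX)).trans (le_abs_self B)) (norm_nonneg _)
      ((sq_nonneg _).trans hk)
    linarith

theorem locZ_of (H : S_LOC0) : S_LOCZ := by
  intro 𝒰 ε θ h Q c U g Lw y₀ δ z k L s m g0 g1 d0 S0 lz hz wl lL
  obtain ⟨ρ₀, ρ0, sub⟩ := Metric.isOpen_iff.1 s.op y₀ m
  have s' : Seq 𝒰 ε θ h Q c U g (ball y₀ ρ₀) := ⟨s.e0, s.el, s.cv, isOpen_ball,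
    fun y hy => s.ex y (sub hy), s.dg.mono sub, fun x hx => s.cc x (sub hx)⟩
  obtain ⟨y₁, m₁, n₁⟩ : ∃ y ∈ ball y₀ ρ₀, g y ≠ 0 := by
    by_contra hn
    refine g1 ?_
    have e : g =ᶠ[𝓝 y₀] fun _ => 0 := by
      filter_upwards [ball_mem_nhds y₀ ρ0] with y hy
      by_contra k
      exact hn ⟨y, hy, k⟩
    rw [e.deriv_eq, deriv_const]
  obtain ⟨ρ, ρ1, B, -, hB⟩ := s'.qb
    (nz_of isOpen_ball (convex_ball y₀ ρ₀).isPreconnected s'.dg m₁ n₁) y₀ (mem_ball_self ρ0)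
  have n1 := norm_pos_iff.2 g1
  have n2 := norm_pos_iff.2 d0
  set D : ℝ := 8 * ‖δ‖ / ‖deriv g y₀‖ with hD
  have D0 : 0 < D := by positivity
  have hk : ∀ᶠ n in (𝒰 : Filter ℕ), k n ≠ 0 ∧ ‖(k n)⁻¹‖ ^ 2 ≤ D * ‖ε n‖ := by
    filter_upwards [hz, (s.cc1 y₀ m z lz).norm.eventually (lt_mem_nhds (half_lt_self n1))]
      with n a b
    rw [← a.2, norm_mul, norm_mul, norm_mul, norm_pow] at b
    have e4 : ‖(4 : ℂ)‖ = 4 := by simp
    rw [e4] at b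
    have k0 : k n ≠ 0 := fun e => by
      rw [e] at b
      simp at b
      linarith
    have k1 := norm_pos_iff.2 k0
    refine ⟨k0, ?_⟩
    rw [norm_inv, inv_pow, hD, div_mul_eq_mul_div, le_div_iff₀ n1, inv_mul_le_iff₀ (by positivity)]
    linarith
  have t : Tendsto (fun n => 16 * (D * (‖ε n‖ * L n))) 𝒰 (𝓝 0) := by
    simpa using (wl.const_mul D).const_mul 16
  obtain ⟨F, C, l, e, lc, c₀, c0, un⟩ := H 𝒰 δ (1 + D * |B|) (fun n => ‖ε n‖) L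
    (fun n X => θ n (z n + (k n)⁻¹ * X)) (fun n X => h n (z n + (k n)⁻¹ * X))
    (fun n X => (k n)⁻¹ ^ 2 * Q n (z n + (k n)⁻¹ * X)) (fun n => (k n)⁻¹ ^ 3 * c n)
    (fun n => (fun X => z n + (k n)⁻¹ * X) ⁻¹' U n) d0 S0
    (le_add_of_nonneg_right (by positivity)) (fun n => norm_nonneg _) (by
      filter_upwards [hB, hk, hz, lz.eventually (ball_mem_nhds y₀ (half_pos ρ1)),
        lL.eventually_ge_atTop 0, t.eventually (ge_mem_nhds (by positivity : 0 < (ρ / 2) ^ 2))]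
        with n a1 a2 a3 a4 a5 a6
      exact ScA.zs (s.cv n) a2.1 a1.1 a1.2 (mem_ball_iff_norm.1 a4) a3.1 a3.2 (norm_nonneg _) a5
        a2.2 a6) wl lL
  refine ⟨univ, F, GZ, _, _, _, _, _, _, _, C, l, e,
    fun n p => (k n * (p.1 - z n), k n * (p.2 - z n)), fun n p => k n * (p.2 - z n), lc,
    fun n p hp => ?_, ?_, c₀, c0, ?_⟩
  · have a2 : AnalyticAt ℂ (fun p : C2 => k n * (p.2 - z n)) p :=
      analyticAt_const.mul (analyticAt_snd.sub analyticAt_const)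
    have a3 : AnalyticAt ℂ (fun p : C2 => deriv (θ n) p.2) p :=
      AnalyticAt.comp (g := deriv (θ n)) (f := Prod.snd)
        (((s.cv n).dθ.analyticOnNhd (s.cv n).op).deriv _ hp.2) analyticAt_snd
    exact ⟨a2.prod ((a3.mul (analyticAt_snd.sub analyticAt_fst)).sub analyticAt_const),
      (analyticAt_const.mul (analyticAt_fst.sub analyticAt_const)).prod a2, a2⟩
  · filter_upwards [hk, un] with n a1 a2 a b d
    refine ⟨fun _ E => ⟨?_, rfl⟩, fun hs => ⟨?_, fun E => congrArg Prod.fst E⟩⟩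
    · simp only [FZ, ScA.ee a1.1 (z n) E, zero_div]
    · rw [ScA.ac _ a1.1] at hs ⊢
      exact (ScA.ik (a2.1 _ hs)).symm
  · have l0 := lc.l1
    have e0 := lc.e0
    have mono : ∀ {x : ℝ} {s : C2}, s ∈ An (2 * l) (x / 2) (e / 2) → s ∈ An l x e := fun hs =>
      ⟨by linarith [hs.1], by linarith [hs.1, hs.2.1], by linarith [hs.2.2]⟩
    filter_upwards [hk, un] with n a1 a2 a b d h1 h2 h3 E
    simp only [ScA.ac _ a1.1] at h1 h2 h3 ⊢
    exact a2.2 _ _ _ (mono h1) (mono h2) h3 (ScA.ee a1.1 (z n) E)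

end Vale.Agent.P097EE.LZ
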