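import Vale.Agent.P097EE.LZDefs
import Vale.Agent.P097F.N.Exp
import Vale.Agent.P299.H720.Montel
import Vale.Agent.P097.H407.Hol

/-!
# P097EE.LZ: the limit law (row SYS)
-/

set_option linter.all false

namespace Vale.Agent.P097EE.LZ

open Filter Topology Set Metric Complex Vale.Agent.P097N

namespace SysL

variable {δ c : ℂ} {ν R ρ : ℝ} {θ h Q : ℂ → ℂ} {U : Set ℂ}

/-- a bound for the two kernels -/
theorem bd (hO : S_ODE) (Z : ZS δ ν R θ h Q c U) (hν : ν * R ^ 2 ≤ 1 / 2) (ρ1 : 1 ≤ ρ)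
    (ρR : ρ ≤ R) {a b : ℂ} (ha : ‖a‖ ≤ ρ) (hb : ‖b‖ ≤ ρ) :
    ‖kk θ h a b / c‖ ≤ Real.exp (2 * ρ * (1 + 256 * ‖δ‖ ^ 2 * ρ ^ 2)) ∧
      ‖k1 θ h a b / c‖ ≤ Real.exp (2 * ρ * (1 + 256 * ‖δ‖ ^ 2 * ρ ^ 2)) := by
  have mem : ∀ t : ℝ, t ∈ Icc (0 : ℝ) 1 → ‖b + t * (a - b)‖ ≤ ρ := fun t ht => by
    have := (convex_closedBall (0 : ℂ) ρ).add_smul_sub_mem (mem_closedBall_zero_iff.2 hb)
      (mem_closedBall_zero_iff.2 ha) ht
    rwa [mem_closedBall_zero_iff, Complex.real_smul] at this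
  have inU : ∀ z : ℂ, ‖z‖ ≤ ρ → z ∈ U := fun z hz =>
    Z.sub (mem_closedBall_zero_iff.2 (hz.trans ρR))
  obtain ⟨v, v1, dv⟩ := P097F.N.Exp.ker Z.cv (inU b hb)
  have ν0 : 0 ≤ ν := (norm_nonneg _).trans (Z.q 0 (mem_closedBall_self (by linarith)))
  have ν1 : ν ≤ 1 := by nlinarith [mul_nonneg ν0 (show 0 ≤ R ^ 2 - 1 by nlinarith)]
  have ab : ‖a - b‖ ≤ 2 * ρ := by linarith [norm_sub_le a b]
  set A := 1 + 256 * ‖δ‖ ^ 2 * ρ ^ 2 with hA
  have A1 : 1 ≤ A := le_add_of_nonneg_right (by positivity)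
  let z : ℝ → ℂ := fun t => b + t * (a - b)
  have hd : ∀ t : ℝ, t ∈ Icc (0 : ℝ) 1 → HasDerivAt
      (fun t : ℝ => (kk θ h (z t) b / c, k1 θ h (z t) b / c, v (z t)))
      ((a - b) • (k1 θ h (z t) b / c, v (z t), (Q (z t) - deriv θ (z t) ^ 2) * (k1 θ h (z t) b / c) -
        3 * deriv θ (z t) * deriv (deriv θ) (z t) * (kk θ h (z t) b / c))) t := fun t ht => by
    obtain ⟨d0, d1, d2⟩ := dv _ (inU _ (mem t ht))
    have dz : HasDerivAt (fun w : ℂ => b + w * (a - b)) (a - b) t :=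
      (((hasDerivAt_id' (t : ℂ)).mul_const (a - b)).const_add b).congr_deriv (one_mul _)
    have k := (d0.comp (t : ℂ) dz).comp_ofReal.prodMk ((d1.comp (t : ℂ) dz).comp_ofReal.prodMk
      (d2.comp (t : ℂ) dz).comp_ofReal)
    simp only [z, Prod.smul_mk, smul_eq_mul, mul_comm (a - b)]
    exact k
  have key := norm_le_gronwallBound_of_norm_deriv_right_le (δ := 1) (K := 2 * ρ * A) (ε := 0)
    (fun x hx => (hd x hx).continuousAt.continuousWithinAt)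
    (fun x hx => (hd x (Ico_subset_Icc_self hx)).hasDerivWithinAt)
    (by simp [z, v1, kk, k1, mul_comm])
    (fun x hx => by
      have hz := mem x (Ico_subset_Icc_self hx)
      obtain ⟨-, -, g1, g2⟩ := (hO δ ν R θ h Q c U Z hν).1 (z x) (hz.trans ρR)
      have q1 := (Z.q (z x) (mem_closedBall_zero_iff.2 (hz.trans ρR))).trans ν1
      have g3 : ‖deriv θ (z x)‖ ≤ 8 * ‖δ‖ * ρ := g1.trans (by gcongr)
      have g4 : ‖deriv (deriv θ) (z x)‖ ≤ 8 * ‖δ‖ * ρ :=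
        g2.trans (le_mul_of_one_le_right (by positivity) ρ1)
      set e0 := kk θ h (z x) b / c
      set e1 := k1 θ h (z x) b / c
      set e2 := v (z x)
      set m := ‖(e0, e1, e2)‖ with hm
      have m0 : 0 ≤ m := norm_nonneg _
      have a0 : ‖e0‖ ≤ m := norm_fst_le (e0, e1, e2)
      have a1 : ‖e1‖ ≤ m := (norm_fst_le (e1, e2)).trans (norm_snd_le (e0, e1, e2))
      have a2 : ‖e2‖ ≤ m := (norm_snd_le (e1, e2)).trans (norm_snd_le (e0, e1, e2))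
      have a3 : m ≤ A * m := le_mul_of_one_le_left m0 A1
      rw [norm_smul, add_zero, mul_assoc (2 * ρ)]
      refine mul_le_mul ab ?_ (norm_nonneg _) (by positivity)
      simp only [Prod.norm_def]
      refine max_le (a1.trans a3) (max_le (a2.trans a3) ((norm_sub_le _ _).trans ?_))
      have p1 : ‖Q (z x) - deriv θ (z x) ^ 2‖ ≤ 1 + (8 * ‖δ‖ * ρ) ^ 2 :=
        (norm_sub_le _ _).trans (by rw [norm_pow]; gcongr)
      simp only [norm_mul, Complex.norm_ofNat]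
      calc _ ≤ (1 + (8 * ‖δ‖ * ρ) ^ 2) * m + 3 * (8 * ‖δ‖ * ρ) * (8 * ‖δ‖ * ρ) * m := by gcongr
        _ = A * m := by rw [hA]; ring) 1 (right_mem_Icc.2 zero_le_one)
  rw [gronwallBound_ε0, one_mul, sub_zero, mul_one] at key
  simp only [z, ofReal_one, one_mul, add_sub_cancel] at key
  exact ⟨(norm_fst_le _).trans key, ((norm_fst_le _).trans (norm_snd_le (_, _, _))).trans key⟩

theorem anF (C : Cv θ h Q c U) {x : C2 × ℂ} (h1 : x.1.1 ∈ U) (h2 : x.1.2 ∈ U) (h3 : x.2 ∈ U) :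
    AnalyticAt ℂ (FZ θ h c) x := by
  have k := (sk θ h Q c U C).1
  have a1 : AnalyticAt ℂ (fun x : C2 × ℂ => (x.1.2, x.2)) x :=
    (analyticAt_snd.comp analyticAt_fst).prod analyticAt_snd
  have a2 : AnalyticAt ℂ (fun x : C2 × ℂ => (x.1.2, x.1.1)) x :=
    (analyticAt_snd.comp analyticAt_fst).prod (analyticAt_fst.comp analyticAt_fst)
  exact ((((k _ h2 _ h3).1.comp_of_eq a1 rfl).mul ((k _ h2 _ h1).2.1.comp_of_eq a2 rfl)).add
    (((k _ h2 _ h1).1.comp_of_eq a2 rfl).mul ((k _ h2 _ h3).2.1.comp_of_eq a1 rfl))).div_const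

theorem nb {E : Type*} [NormedAddCommGroup E] {x y : E} (h : y ∈ ball x 1) : ‖y‖ ≤ ‖x‖ + 1 := by
  linarith [norm_sub_norm_le y x, mem_ball_iff_norm.1 h]

end SysL

open SysL in
theorem sys (hO : S_ODE) : S_SYS := by
  intro 𝒰 δ ν R θ h Q c U H hR
  have aG : ∀ x, AnalyticAt ℂ GZ x := fun x =>
    (analyticAt_snd.comp analyticAt_fst).prod analyticAt_snd
  have loc : ∀ x : C2 × ℂ, ∃ M : ℝ, ∀ᶠ n in (𝒰 : Filter ℕ), ∀ y ∈ ball x 1,
      AnalyticAt ℂ (FZ (θ n) (h n) (c n)) y ∧ ‖FZ (θ n) (h n) (c n) y‖ ≤ M := fun x => by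
    set M := Real.exp (2 * (‖x‖ + 1) * (1 + 256 * ‖δ‖ ^ 2 * (‖x‖ + 1) ^ 2))
    refine ⟨M * M + M * M, ?_⟩
    filter_upwards [H, hR.eventually_ge_atTop (‖x‖ + 1)] with n ⟨Z, hν⟩ hn y hy
    have n1 := ((norm_fst_le y.1).trans (norm_fst_le y)).trans (nb hy)
    have n2 := ((norm_snd_le y.1).trans (norm_fst_le y)).trans (nb hy)
    have n3 := (norm_snd_le y).trans (nb hy)
    have inU : ∀ z : ℂ, ‖z‖ ≤ ‖x‖ + 1 → z ∈ U n := fun z hz =>
      Z.sub (mem_closedBall_zero_iff.2 (hz.trans hn))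
    have b1 := bd hO Z hν (le_add_of_nonneg_left (norm_nonneg x)) hn n2 n1
    have b3 := bd hO Z hν (le_add_of_nonneg_left (norm_nonneg x)) hn n2 n3
    refine ⟨anF Z.cv (inU _ n1) (inU _ n2) (inU _ n3), ?_⟩
    have e : FZ (θ n) (h n) (c n) y =
        kk (θ n) (h n) y.1.2 y.2 / c n * (k1 (θ n) (h n) y.1.2 y.1.1 / c n) +
        kk (θ n) (h n) y.1.2 y.1.1 / c n * (k1 (θ n) (h n) y.1.2 y.2 / c n) := by
      simp only [FZ, EE]; ring
    rw [e]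
    refine (norm_add_le _ _).trans ?_
    rw [norm_mul, norm_mul]
    exact add_le_add (mul_le_mul b3.1 b1.2 (norm_nonneg _) (Real.exp_pos _).le)
      (mul_le_mul b1.1 b3.2 (norm_nonneg _) (Real.exp_pos _).le)
  obtain ⟨F, dF, cF, -⟩ := P299.H720.montel_full 𝒰 (f := fun n => FZ (θ n) (h n) (c n))
    isOpen_univ fun x _ => let ⟨M, hM⟩ := loc x; ⟨1, one_pos, M, hM.mono fun n k =>
      ⟨fun y hy => (k y hy).1.differentiableAt.differentiableWithinAt, fun y hy => (k y hy).2⟩⟩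
  refine ⟨⟨F, isOpen_univ, (P097.Hol.analyticOnNhd_of_differentiableOn isOpen_univ dF).mono
    (subset_univ _), fun x _ => aG x, fun _ _ => mem_univ _, cF.mono (subset_univ _),
    Metric.tendstoLocallyUniformlyOn_iff.2 fun ε ε0 x _ => ⟨_, self_mem_nhdsWithin,
      .of_forall fun n y _ => by simpa using ε0⟩, fun x _ => ⟨1, one_pos, (loc x).choose_spec.mono
      fun n k => ⟨fun y hy => (k y hy).1, fun y _ => aG y⟩⟩⟩, fun s => ?_⟩
  refine ⟨1, (‖s‖ + 1) + (8 * ‖δ‖ * (‖s‖ + 1) * (2 * (‖s‖ + 1)) + 2 * ‖δ‖), one_pos, ?_⟩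
  filter_upwards [H, hR.eventually_ge_atTop (‖s‖ + 1)] with n ⟨Z, hν⟩ hn
  refine ⟨fun y hy => ?_, fun y hy => ?_⟩
  · have := (K.aθ Z.cv (Z.sub (mem_closedBall_zero_iff.2
      (((norm_snd_le y).trans (nb hy)).trans hn)))).deriv
    exact analyticAt_snd.prod (((this.comp_of_eq analyticAt_snd rfl).mul
      (analyticAt_snd.sub analyticAt_fst)).sub analyticAt_const)
  · have n1 := (norm_fst_le y).trans (nb hy)
    have n2 := (norm_snd_le y).trans (nb hy)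
    have g1 : ‖deriv (θ n) y.2‖ ≤ 8 * ‖δ‖ * (‖s‖ + 1) :=
      ((hO δ _ _ _ _ _ _ _ Z hν).1 y.2 (n2.trans hn)).2.2.1.trans (by gcongr)
    have g2 : ‖y.2 - y.1‖ ≤ 2 * (‖s‖ + 1) := by linarith [norm_sub_le y.2 y.1]
    have g3 := mul_le_mul g1 g2 (norm_nonneg _) (by positivity)
    have g4 := norm_sub_le (deriv (θ n) y.2 * (y.2 - y.1)) (2 * δ)
    rw [norm_mul, norm_mul, Complex.norm_ofNat] at g4
    rw [kZ, Prod.norm_def]
    exact max_le (n2.trans (le_add_of_nonneg_right (by positivity)))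
      (by linarith [norm_nonneg s])

end Vale.Agent.P097EE.LZ
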