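import Vale.Agent.P097EE.LZDefs
import Vale.Agent.P097F.N.Fo

/-!
# P097EE.LZ: the backward step near a zero
-/

set_option linter.all false

noncomputable section

namespace Vale.Agent.P097EE.LZ

open Filter Topology Set Metric Complex Vale.Agent.P097N Vale.Agent.P097Mo
open Vale.Agent.P097F.N (nx ps)

namespace TbA

/-- the estimate of the time -/
theorem eth {δ y e σ u : ℂ} {ν C : ℝ} (d0 : 0 < ‖δ‖) (y0 : 0 < ‖y‖) (ν0 : 0 ≤ ν)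
    (hs : σ * u = 2 * δ + e) (h1 : ‖u - 4 * δ * y‖ ≤ 8 * ‖δ‖ * ν * ‖y‖ ^ 3)
    (h2 : 3 * ‖δ‖ * ‖y‖ ≤ ‖u‖) (h3 : ‖σ‖ * ‖y‖ ≤ C) :
    ‖(y - σ) ^ 2 - y ^ 2 - ((-1 : ℝ) : ℂ)‖ ≤
      1 / ‖δ‖ * ‖e‖ + 3 * (ν * ‖y‖ ^ 2) + C ^ 2 * (1 / ‖y‖ ^ 2) := by
  have e1 : (y - σ) ^ 2 - y ^ 2 - ((-1 : ℝ) : ℂ) = -(2 * y * σ - 1) + σ ^ 2 := by
    push_cast; ring
  have e2 : (2 * y * σ - 1) * u = -(u - 4 * δ * y) + 2 * e * y := by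
    linear_combination 2 * y * hs
  have a1 : ‖2 * y * σ - 1‖ * ‖u‖ ≤ 8 * ‖δ‖ * ν * ‖y‖ ^ 3 + 2 * ‖e‖ * ‖y‖ := by
    rw [← norm_mul, e2]
    refine (norm_add_le _ _).trans (add_le_add (by rwa [norm_neg]) (le_of_eq ?_))
    rw [norm_mul, norm_mul, Complex.norm_two]
  have a2 : ‖2 * y * σ - 1‖ ≤ 1 / ‖δ‖ * ‖e‖ + 3 * (ν * ‖y‖ ^ 2) := by
    refine le_of_mul_le_mul_right (a := 3 * ‖δ‖ * ‖y‖) ?_ (by positivity)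
    refine ((mul_le_mul_of_nonneg_left h2 (norm_nonneg _)).trans a1).trans ?_
    have : (1 / ‖δ‖ * ‖e‖ + 3 * (ν * ‖y‖ ^ 2)) * (3 * ‖δ‖ * ‖y‖) =
        9 * (‖δ‖ * ν * ‖y‖ ^ 3) + 3 * (‖e‖ * ‖y‖) := by field_simp; ring
    rw [this]
    have b1 : 0 ≤ ‖δ‖ * ν * ‖y‖ ^ 3 := by positivity
    have b2 : 0 ≤ ‖e‖ * ‖y‖ := by positivity
    linarith
  have a3 : ‖σ ^ 2‖ ≤ C ^ 2 * (1 / ‖y‖ ^ 2) := by
    rw [norm_pow, mul_one_div, le_div_iff₀ (by positivity), ← mul_pow]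
    exact pow_le_pow_left₀ (by positivity) h3 2
  rw [e1]
  refine (norm_add_le _ _).trans ?_
  rw [norm_neg]
  linarith

/-- the estimate of the small parameter -/
theorem em {δ y e σ u v : ℂ} {ν C : ℝ} (ν0 : 0 ≤ ν)
    (hs : σ * u = 2 * δ + e) (h1 : ‖u - 4 * δ * y‖ ≤ 8 * ‖δ‖ * ν * ‖y‖ ^ 3)
    (h2 : ‖v - 4 * δ‖ ≤ 8 * ‖δ‖ * ν * ‖y‖ ^ 2) (h4 : ‖u‖ ≤ 8 * ‖δ‖ * ‖y‖)
    (h3 : ‖σ‖ * ‖y‖ ≤ C) :
    ‖σ ^ 2 * v * y ^ 2 * δ - (δ + e / 2) ^ 2‖ ≤ 32 * ‖δ‖ ^ 2 * C ^ 2 * (ν * ‖y‖ ^ 2) := by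
  have e1 : σ ^ 2 * v * y ^ 2 * δ - (δ + e / 2) ^ 2 =
      σ ^ 2 * ((v - 4 * δ) * y ^ 2 * δ - (u - 4 * δ * y) * (u + 4 * δ * y) / 4) := by
    linear_combination (σ * u + 2 * δ + e) / 4 * hs
  have a1 : ‖u + 4 * δ * y‖ ≤ 12 * ‖δ‖ * ‖y‖ := by
    refine (norm_add_le _ _).trans ?_
    rw [norm_mul, norm_mul, Complex.norm_ofNat]
    linarith
  have a2 : ‖(v - 4 * δ) * y ^ 2 * δ - (u - 4 * δ * y) * (u + 4 * δ * y) / 4‖ ≤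
      32 * ‖δ‖ ^ 2 * ν * ‖y‖ ^ 4 := by
    refine (norm_sub_le _ _).trans ?_
    rw [norm_div, norm_mul, norm_mul, norm_mul, norm_pow, Complex.norm_ofNat]
    calc _ ≤ 8 * ‖δ‖ * ν * ‖y‖ ^ 2 * ‖y‖ ^ 2 * ‖δ‖ +
          8 * ‖δ‖ * ν * ‖y‖ ^ 3 * (12 * ‖δ‖ * ‖y‖) / 4 := by gcongr
      _ = _ := by ring
  rw [e1, norm_mul, norm_pow]
  calc _ ≤ ‖σ‖ ^ 2 * (32 * ‖δ‖ ^ 2 * ν * ‖y‖ ^ 4) := by gcongr
    _ = 32 * ‖δ‖ ^ 2 * (‖σ‖ * ‖y‖) ^ 2 * (ν * ‖y‖ ^ 2) := by ring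
    _ ≤ _ := by gcongr

/-- the estimate of the second coordinate -/
theorem ee {d da m ma p pa ρ r : ℂ} {K E P w ν : ℝ} (w0 : 0 ≤ w) (ν0 : 0 ≤ ν) (K0 : 0 ≤ K)
    (E0 : 0 ≤ E) (P0 : 0 ≤ P) (hρ : ρ = 2 * da - 2 * d + m) (h1 : ‖ρ‖ ≤ K * ν)
    (h2 : ‖d - da‖ ≤ K * w) (h3 : ‖m‖ ≤ K * w) (h4 : ‖ma‖ ≤ K * w) (h5 : ‖m - ma‖ ≤ K * ν)
    (h6 : ‖da‖ ≤ E) (h7 : ‖p‖ ≤ P) (h8 : ‖p - pa‖ ≤ P * ‖d - da‖) :
    ‖2 * da * (1 - ma * pa) - r - 2 * d + m * (1 + 2 * d * p)‖ ≤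
      (2 * K ^ 2 * P + 2 * E * K ^ 2 * P) * w ^ 2 + (K + 2 * E * K * P) * ν + ‖r‖ := by
  have e1 : 2 * da * (1 - ma * pa) - r - 2 * d + m * (1 + 2 * d * p) =
      ρ + 2 * ((d - da) * m * p) + 2 * (da * (m - ma) * p) + 2 * (da * ma * (p - pa)) - r := by
    rw [hρ]; ring
  have h9 := h8.trans (mul_le_mul_of_nonneg_left h2 P0)
  have a1 : ‖2 * ((d - da) * m * p)‖ ≤ 2 * (K * w * (K * w) * P) := by
    rw [norm_mul, norm_mul, norm_mul, Complex.norm_two]; gcongr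
  have a2 : ‖2 * (da * (m - ma) * p)‖ ≤ 2 * (E * (K * ν) * P) := by
    rw [norm_mul, norm_mul, norm_mul, Complex.norm_two]; gcongr
  have a3 : ‖2 * (da * ma * (p - pa))‖ ≤ 2 * (E * (K * w) * (P * (K * w))) := by
    rw [norm_mul, norm_mul, norm_mul, Complex.norm_two]; gcongr
  rw [e1]
  refine (norm_sub_le _ _).trans (add_le_add ?_ le_rfl)
  refine (norm_add_le_of_le (norm_add_le_of_le (norm_add_le_of_le h1 a1) a2) a3).trans (le_of_eq ?_)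
  ring

/-- the two points of the backward step -/
structure Pre (δ : ℂ) (θ h : ℂ → ℂ) (c : ℂ) (U : Set ℂ) (c₁ C K ν w : ℝ) (y e σ : ℂ) : Prop where
  ν0 : 0 ≤ ν
  y0 : 0 < ‖y‖
  u1 : ‖deriv θ y - 4 * δ * y‖ ≤ 8 * ‖δ‖ * ν * ‖y‖ ^ 3
  u2 : ‖deriv (deriv θ) y - 4 * δ‖ ≤ 8 * ‖δ‖ * ν * ‖y‖ ^ 2
  u3 : ‖deriv θ y‖ ≤ 8 * ‖δ‖ * ‖y‖
  u5 : 3 * ‖δ‖ * ‖y‖ ≤ ‖deriv θ y‖
  hs : σ * deriv θ y = 2 * δ + e
  T1 : Pt θ h c c₁ C y σ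
  T2 : Pt θ h c c₁ C (y - σ) (-σ)
  a2 : ‖y‖ / 2 ≤ ‖y - σ‖
  my : y ∈ U
  ma : y - σ ∈ U
  r1 : ‖σ * (deriv θ (y - σ) - deriv θ y - -σ * deriv (deriv θ) y)‖ ≤ K * ν
  r2 : ‖σ * deriv θ y - σ * deriv θ (y - σ)‖ ≤ K * w
  r4 : ‖-σ * deriv θ (y - σ) + 2 * δ‖ ≤ 1
  m1 : ‖σ ^ 2 * deriv (deriv θ) y‖ ≤ K * w
  m2 : ‖σ ^ 2 * deriv (deriv θ) (y - σ)‖ ≤ K * w
  m3 : ‖σ ^ 2 * deriv (deriv θ) y - σ ^ 2 * deriv (deriv θ) (y - σ)‖ ≤ K * ν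

theorem pre (hO : S_ODE) {δ : ℂ} {e₁ l₁ ν₁ c₁ C K ν R w : ℝ} (hP : PT δ e₁ l₁ ν₁ c₁ C)
    (d0 : 0 < ‖δ‖) (hK : K = 8 * ‖δ‖ * C ^ 2 + 16 * ‖δ‖ * C ^ 3) {θ h Q : ℂ → ℂ} {c : ℂ}
    {U : Set ℂ} {y e σ : ℂ} (Z : ZS δ ν R θ h Q c U) (hν : ν * R ^ 2 ≤ ν₁)
    (hl : 4 * l₁ + 2 * C + 2 * K / e₁ ≤ ‖y‖ ^ 2) (hR : 4 * ‖y‖ ≤ R) (he : ‖e‖ ≤ e₁ / 2)
    (hσ : σ = sZ θ δ (y, e)) (hw : w = 1 / ‖y‖ ^ 2) : Pre δ θ h c U c₁ C K ν w y e σ := by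
  obtain ⟨e0, e1, l1, n0, n1, -, -, C1, H⟩ := hP
  have C0 : 0 < C := by linarith
  have k1 : 0 < 8 * ‖δ‖ * C ^ 2 := by positivity
  have k2 : 0 < 16 * ‖δ‖ * C ^ 3 := by positivity
  have K0 : 0 < K := by linarith
  have p7 : 0 < 2 * K / e₁ := by positivity
  have Y1 : 1 ≤ ‖y‖ ^ 2 := by linarith
  have y1 : 1 ≤ ‖y‖ := (one_le_pow_iff_of_nonneg (norm_nonneg y) two_ne_zero).1 Y1
  have y0 : 0 < ‖y‖ := by linarith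
  have ν0 : 0 ≤ ν := (norm_nonneg _).trans (Z.q 0 (mem_closedBall_self (by linarith)))
  have νy : ν * ‖y‖ ^ 2 ≤ 1 / 100 :=
    (mul_le_mul_of_nonneg_left (pow_le_pow_left₀ y0.le (by linarith) 2) ν0).trans (hν.trans n1)
  obtain ⟨O1, O2⟩ := hO δ ν R θ h Q c U Z (by linarith)
  obtain ⟨u1, u2, u3, u4⟩ := O1 y (by linarith)
  have u5 : 3 * ‖δ‖ * ‖y‖ ≤ ‖deriv θ y‖ := by
    have a1 : ‖4 * δ * y‖ = 4 * ‖δ‖ * ‖y‖ := by rw [norm_mul, norm_mul, Complex.norm_ofNat]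
    have a2 := norm_sub_norm_le (4 * δ * y) (deriv θ y)
    rw [norm_sub_rev] at a2
    have a3 : 8 * ‖δ‖ * ν * ‖y‖ ^ 3 = 8 * (‖δ‖ * ‖y‖) * (ν * ‖y‖ ^ 2) := by ring
    have a4 : 8 * (‖δ‖ * ‖y‖) * (ν * ‖y‖ ^ 2) ≤ 8 * (‖δ‖ * ‖y‖) * (1 / 100) := by gcongr
    have a5 : 0 < ‖δ‖ * ‖y‖ := by positivity
    linarith
  have u0 : deriv θ y ≠ 0 := norm_pos_iff.1 (lt_of_lt_of_le (by positivity) u5)
  have hs : σ * deriv θ y = 2 * δ + e := by rw [hσ, sZ]; exact div_mul_cancel₀ _ u0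
  have T1 := H ν R θ h Q c U y σ Z hν (by linarith) (by linarith)
    (Or.inl (by rw [hs, add_sub_cancel_left]; linarith))
  have s1 := T1.s1
  have s2 : 2 * ‖σ‖ ≤ ‖y‖ := le_of_mul_le_mul_right (a := ‖y‖) (by linarith [sq ‖y‖]) y0
  have a1 : ‖y - σ‖ ≤ 3 / 2 * ‖y‖ := by linarith [norm_sub_le y σ]
  have a2 : ‖y‖ / 2 ≤ ‖y - σ‖ := by linarith [norm_sub_norm_le y σ]
  obtain ⟨t1, t2⟩ := O2 y (-σ) (by rw [norm_neg]; linarith)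
  rw [← sub_eq_add_neg, norm_neg] at t1 t2
  obtain ⟨-, -, -, v4⟩ := O1 (y - σ) (by linarith)
  clear O1 O2
  have w0 : 0 < w := by rw [hw]; positivity
  have νw : ν ≤ w := by rw [hw, le_div_iff₀ (by positivity)]; linarith
  have s3 : ‖σ‖ ^ 2 ≤ C ^ 2 * w := by
    rw [hw, mul_one_div, le_div_iff₀ (by positivity), ← mul_pow]
    exact pow_le_pow_left₀ (by positivity) s1 2
  have s4 : (‖y‖ + ‖σ‖) * ‖σ‖ ^ 3 ≤ 2 * C ^ 3 := by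
    have b1 : (‖σ‖ * ‖y‖) ^ 3 ≤ C ^ 3 := pow_le_pow_left₀ (by positivity) s1 3
    have b2 : ‖y‖ ≤ ‖y‖ ^ 3 := le_self_pow₀ y1 (by norm_num)
    calc _ ≤ (‖y‖ ^ 3 + ‖y‖ ^ 3) * ‖σ‖ ^ 3 :=
          mul_le_mul_of_nonneg_right (by linarith) (by positivity)
      _ = 2 * (‖σ‖ * ‖y‖) ^ 3 := by ring
      _ ≤ _ := by linarith
  have s5 : 8 * ‖δ‖ * ν * ((‖y‖ + ‖σ‖) * ‖σ‖ ^ 3) ≤ 16 * ‖δ‖ * C ^ 3 * ν :=
    calc _ ≤ 8 * ‖δ‖ * ν * (2 * C ^ 3) := mul_le_mul_of_nonneg_left s4 (by positivity)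
      _ = _ := by ring
  have s6 : 16 * ‖δ‖ * C ^ 3 * ν ≤ K * ν := mul_le_mul_of_nonneg_right (by linarith) ν0
  have mb : ∀ v : ℂ, ‖v‖ ≤ 8 * ‖δ‖ → ‖σ ^ 2 * v‖ ≤ 8 * ‖δ‖ * C ^ 2 * w := fun v hv => by
    rw [norm_mul, norm_pow]
    calc _ ≤ C ^ 2 * w * (8 * ‖δ‖) := mul_le_mul s3 hv (norm_nonneg _) (by positivity)
      _ = _ := by ring
  have s7 : 8 * ‖δ‖ * C ^ 2 * w ≤ K * w := mul_le_mul_of_nonneg_right (by linarith) w0.le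
  have r1 : ‖σ * (deriv θ (y - σ) - deriv θ y - -σ * deriv (deriv θ) y)‖ ≤
      16 * ‖δ‖ * C ^ 3 * ν := by
    rw [norm_mul]
    refine le_trans ?_ s5
    calc _ ≤ ‖σ‖ * (8 * ‖δ‖ * ν * (‖y‖ + ‖σ‖) * ‖σ‖ ^ 2) :=
          mul_le_mul_of_nonneg_left t1 (norm_nonneg _)
      _ = _ := by ring
  have r2 : ‖σ * deriv θ y - σ * deriv θ (y - σ)‖ ≤ K * w := by
    have b1 : σ * deriv θ y - σ * deriv θ (y - σ) = σ ^ 2 * deriv (deriv θ) y -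
        σ * (deriv θ (y - σ) - deriv θ y - -σ * deriv (deriv θ) y) := by ring
    have b2 : 16 * ‖δ‖ * C ^ 3 * ν ≤ 16 * ‖δ‖ * C ^ 3 * w := mul_le_mul_of_nonneg_left νw k2.le
    rw [b1, hK]
    linarith [norm_sub_le (σ ^ 2 * deriv (deriv θ) y)
      (σ * (deriv θ (y - σ) - deriv θ y - -σ * deriv (deriv θ) y)), mb _ u4]
  have r3 : K * w ≤ e₁ / 2 := by
    have b1 : 2 * K / e₁ ≤ ‖y‖ ^ 2 := by linarith
    rw [div_le_iff₀ e0] at b1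
    rw [hw, mul_one_div, div_le_iff₀ (by positivity)]
    linarith
  have r4 : ‖-σ * deriv θ (y - σ) + 2 * δ‖ ≤ e₁ := by
    have b1 : -σ * deriv θ (y - σ) + 2 * δ = σ * deriv θ y - σ * deriv θ (y - σ) - e := by
      linear_combination -hs
    rw [b1]
    linarith [norm_sub_le (σ * deriv θ y - σ * deriv θ (y - σ)) e]
  have a3 : (‖y‖ / 2) ^ 2 ≤ ‖y - σ‖ ^ 2 := pow_le_pow_left₀ (by positivity) a2 2
  have T2 := H ν R θ h Q c U (y - σ) (-σ) Z hν (by rw [div_pow] at a3; linarith) (by linarith)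
    (Or.inr r4)
  refine ⟨ν0, y0, u1, u2, u3, u5, hs, T1, T2, a2,
    Z.sub (by rw [mem_closedBall_zero_iff]; linarith),
    Z.sub (by rw [mem_closedBall_zero_iff]; linarith), r1.trans s6, r2, r4.trans e1,
    (mb _ u4).trans s7, (mb _ v4).trans s7, ?_⟩
  rw [← mul_sub, norm_mul, norm_sub_rev, norm_pow]
  refine le_trans ?_ (s5.trans s6)
  calc _ ≤ ‖σ‖ ^ 2 * (8 * ‖δ‖ * ν * (‖y‖ + ‖σ‖) * ‖σ‖) :=
        mul_le_mul_of_nonneg_left t2 (by positivity)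
    _ = _ := by ring

end TbA

open TbA P097F.N.FoA in
theorem tb (hO : S_ODE) (hP : S_PT) : S_TB := by
  intro δ δ0 hδ
  obtain ⟨e₁, l₁, ν₁, c₁, C, H⟩ := hP δ δ0 hδ
  obtain ⟨L, L1, hL⟩ := psl (‖δ‖ + 1)
  have d0 : 0 < ‖δ‖ := norm_pos_iff.2 δ0
  have e0 := H.1
  have e1 := H.2.1
  have C1 := H.2.2.2.2.2.2.2.1
  obtain ⟨K, hK⟩ : ∃ K : ℝ, K = 8 * ‖δ‖ * C ^ 2 + 16 * ‖δ‖ * C ^ 3 := ⟨_, rfl⟩
  obtain ⟨P, hP'⟩ : ∃ P : ℝ, P = L * C ^ 2 := ⟨_, rfl⟩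
  obtain ⟨E, hE⟩ : ∃ E : ℝ, E = ‖δ‖ + 1 := ⟨_, rfl⟩
  have C0 : 0 < C := by linarith
  have K0 : 0 < K := by rw [hK]; positivity
  have P0 : 0 < P := by rw [hP']; positivity
  have E0 : 0 < E := by linarith
  have p6 : C ≤ C ^ 2 := le_self_pow₀ C1 two_ne_zero
  obtain ⟨A, A1, A2, A3, A4, A5, A6⟩ : ∃ A : ℝ, 3 ≤ A ∧ C ^ 2 ≤ A ∧ 1 / ‖δ‖ ≤ A ∧
      32 * ‖δ‖ ^ 2 * C ^ 2 ≤ A ∧ K + 2 * E * K * P ≤ A ∧
      2 * K ^ 2 * P + 2 * E * K ^ 2 * P + 32 * E * C ≤ A := by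
    have p1 : 0 < 2 * K ^ 2 * P + 2 * E * K ^ 2 * P + 32 * E * C := by positivity
    have p2 : 0 < K + 2 * E * K * P := by positivity
    have p4 : 0 < 32 * ‖δ‖ ^ 2 * C ^ 2 := by positivity
    have p5 : 0 < 1 / ‖δ‖ := by positivity
    refine ⟨2 * K ^ 2 * P + 2 * E * K ^ 2 * P + 32 * E * C + (K + 2 * E * K * P) +
      32 * ‖δ‖ ^ 2 * C ^ 2 + 1 / ‖δ‖ + C ^ 2 + 3, ?_, ?_, ?_, ?_, ?_, ?_⟩ <;> linarith
  refine ⟨e₁ / 2, 4 * l₁ + 2 * C + 2 * K / e₁, ν₁, A, by positivity, H.2.2.2.1, by linarith,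
    fun ν R θ h Q c U s Z hν hl hR he => ?_⟩
  obtain ⟨y, e⟩ := s
  obtain ⟨σ, hσ⟩ : ∃ σ, σ = sZ θ δ (y, e) := ⟨_, rfl⟩
  obtain ⟨w, hw⟩ : ∃ w : ℝ, w = 1 / ‖y‖ ^ 2 := ⟨_, rfl⟩
  obtain ⟨ν0, y0, u1, u2, u3, u5, hs, T1, T2, a2, my, ma, r1, r2, r4, m1, m2, m3⟩ :=
    pre hO H d0 hK Z hν hl hR he hσ hw
  simp only at he
  clear H hl hν hR
  have u0 := T1.g0
  have s1 := T1.s1
  have w0 : 0 < w := by rw [hw]; positivity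
  have hd : σ * deriv θ y / 2 = δ + e / 2 := by rw [hs]; ring
  have r5 : ‖δ + e / 2 - σ * deriv θ (y - σ) / 2‖ ≤ K * w := by
    rw [← hd, ← sub_div, norm_div, Complex.norm_two]
    linarith [norm_nonneg (σ * deriv θ y - σ * deriv θ (y - σ))]
  have r6 : ‖δ + e / 2‖ ≤ ‖δ‖ + 1 := by
    refine (norm_add_le _ _).trans ?_
    rw [norm_div, Complex.norm_two]
    linarith
  have r7 : ‖σ * deriv θ (y - σ) / 2‖ ≤ ‖δ‖ + 1 := by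
    have b1 : σ * deriv θ (y - σ) / 2 = δ - (-σ * deriv θ (y - σ) + 2 * δ) / 2 := by ring
    rw [b1]
    refine (norm_sub_le _ _).trans ?_
    rw [norm_div, Complex.norm_two]
    linarith
  have en : -σ * deriv θ (y - σ) / 2 = -(σ * deriv θ (y - σ) / 2) := by ring
  have sn1 := T1.sn
  have sn2 := T2.sn
  rw [hd] at sn1
  rw [en, snc_neg] at sn2
  obtain ⟨q1, q2⟩ := hL _ _ (1 / C) r6 r7 (by positivity)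
    (by rw [div_le_iff₀ C0]; linarith) (by rw [div_le_iff₀ C0]; linarith)
  have q3 : ‖ps (δ + e / 2)‖ ≤ P := q1.trans (by
    rw [hP', div_div_eq_mul_div, div_one]
    exact mul_le_mul_of_nonneg_left p6 (by linarith))
  have q4 : L / (1 / C) ^ 2 = P := by rw [hP']; field_simp
  rw [q4] at q2
  have x2 := T2.e2
  rw [en, ps_neg, norm_neg] at x2
  have aθ : AnalyticOnNhd ℂ (deriv θ) U := (Z.cv.dθ.analyticOnNhd Z.cv.op).deriv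
  have eT : TmZ θ h δ (y, e) =
      (y - σ, -(deriv θ (y - σ) * nx θ h (y - σ) (-σ)) - 2 * δ) := by
    rw [TmZ, kZ, ← hσ]
    simp
  have eM : mZ θ δ (y, e) = σ ^ 2 * deriv (deriv θ) y := by rw [mZ, ← hσ]
  refine ⟨⟨?_, ?_, ?_, ?_, ?_⟩, ?_⟩
  · have b1 : AnalyticAt ℂ (sZ θ δ) (y, e) :=
      (analyticAt_const.add analyticAt_snd).div
        (AnalyticAt.comp (g := deriv θ) (f := Prod.fst) (aθ y my) analyticAt_fst) u0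
    have b2 : AnalyticAt ℂ (fun s : C2 => s.1 - sZ θ δ s) (y, e) := analyticAt_fst.sub b1
    have b3 : AnalyticAt ℂ (fun s : C2 => nx θ h (s.1 - sZ θ δ s) (-sZ θ δ s)) (y, e) :=
      AnalyticAt.comp (g := fun p : ℂ × ℂ => nx θ h p.1 p.2)
        (f := fun s : C2 => (s.1 - sZ θ δ s, -sZ θ δ s)) (by rw [← hσ]; exact T2.an)
        (b2.prod b1.neg)
    have b4 : AnalyticAt ℂ (fun s : C2 => deriv θ (s.1 - sZ θ δ s)) (y, e) :=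
      AnalyticAt.comp (g := deriv θ) (f := fun s : C2 => s.1 - sZ θ δ s)
        (by rw [← hσ]; exact aθ _ ma) b2
    exact b2.prod ((b4.mul (b2.sub (b2.add b3))).sub analyticAt_const)
  · rw [eT]
    refine (eth d0 y0 ν0 hs u1 u5 s1).trans ?_
    simp only
    rw [mul_add, mul_add]
    have b1 : 0 ≤ ν * ‖y‖ ^ 2 := by positivity
    gcongr
  · rw [eT]
    simp only [sub_sub_cancel_left, norm_neg]
    linarith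
  · rw [eT, eM]
    obtain ⟨r, hr⟩ : ∃ r, r = nx θ h (y - σ) (-σ) - -σ - -σ * ((-σ) ^ 2 *
      deriv (deriv θ) (y - σ) * -ps (σ * deriv θ (y - σ) / 2)) := ⟨_, rfl⟩
    rw [← hr] at x2
    have b1 := ee (r := deriv θ (y - σ) * r) (ma := σ ^ 2 * deriv (deriv θ) (y - σ))
      (m := σ ^ 2 * deriv (deriv θ) y) w0.le ν0 K0.le E0.le P0.le
      (by linear_combination -hs) r1 r5 m1 m2 m3 (hE ▸ r7) q3 q2
    have b2 : ‖deriv θ (y - σ) * r‖ ≤ 32 * E * C * w ^ 2 := by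
      have c1 : ‖σ‖ * ‖deriv θ (y - σ)‖ ≤ 2 * E := by
        rw [norm_div, norm_mul, Complex.norm_two] at r7
        linarith
      have c2 : C / ‖y - σ‖ ^ 4 ≤ 16 * C * w ^ 2 :=
        calc _ ≤ C / (‖y‖ / 2) ^ 4 := by gcongr
          _ = _ := by rw [hw]; field_simp; ring
      rw [norm_mul]
      calc _ ≤ ‖deriv θ (y - σ)‖ * (16 * C * w ^ 2 * ‖σ‖) := by
            gcongr
            exact x2.trans (by gcongr)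
        _ = 16 * C * w ^ 2 * (‖σ‖ * ‖deriv θ (y - σ)‖) := by ring
        _ ≤ 16 * C * w ^ 2 * (2 * E) := by gcongr
        _ = _ := by ring
    have b3 : -(deriv θ (y - σ) * nx θ h (y - σ) (-σ)) - 2 * δ - e - ((-1 : ℝ) : ℂ) *
        (σ ^ 2 * deriv (deriv θ) y) * (1 + (2 * δ + e) * ps (δ + e / 2)) =
        2 * (σ * deriv θ (y - σ) / 2) * (1 - σ ^ 2 * deriv (deriv θ) (y - σ) *
          ps (σ * deriv θ (y - σ) / 2)) - deriv θ (y - σ) * r - 2 * (δ + e / 2) +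
          σ ^ 2 * deriv (deriv θ) y * (1 + 2 * (δ + e / 2) * ps (δ + e / 2)) := by
      rw [hr]; push_cast; ring
    have b4 : A / ‖y‖ ^ 4 = A * w ^ 2 := by rw [hw]; field_simp
    simp only
    rw [b3, b4]
    have b5 : (2 * K ^ 2 * P + 2 * E * K ^ 2 * P + 32 * E * C) * w ^ 2 ≤ A * w ^ 2 :=
      mul_le_mul_of_nonneg_right A6 (by positivity)
    have b6 : (K + 2 * E * K * P) * ν ≤ A * ν := mul_le_mul_of_nonneg_right A5 ν0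
    linarith
  · rw [eM]
    exact (em ν0 hs u1 u2 u3 s1).trans (mul_le_mul_of_nonneg_right A4 (by positivity))
  · have b1 := T2.law
    rw [EE_symm, sub_neg_eq_add, sub_add_cancel] at b1
    rw [← hσ]
    exact b1

end Vale.Agent.P097EE.LZ
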