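import Vale.Agent.P097EE.LZDefs

/-!
# P097EE.LZ: the forward step
-/

set_option linter.all false

noncomputable section

namespace Vale.Agent.P097EE.LZ

open Filter Topology Set Metric Complex Vale.Agent.P097N Vale.Agent.P097Mo
open Vale.Agent.P097F.N (nx ps)

theorem tf_th {δ y e g s t : ℂ} {x C : ℝ} (δ0 : δ ≠ 0) (Y1 : 1 ≤ ‖y‖) (x0 : 0 ≤ x)
    (x1 : x ≤ 1 / 100) (C1 : 1 ≤ C) (hs : s * g = 2 * δ + e)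
    (hg : ‖g - 4 * δ * y‖ ≤ 8 * ‖δ‖ * x * ‖y‖) (s1 : ‖s‖ * ‖y‖ ≤ C)
    (e1 : ‖t - s‖ ≤ C / ‖y‖ ^ 2 * ‖s‖) (t1 : ‖t‖ ≤ 2 * ‖s‖) :
    ‖(y + t) ^ 2 - y ^ 2 - 1‖ ≤ 1 / ‖δ‖ * ‖e‖ + 3 * x + 6 * C ^ 2 * (1 / ‖y‖ ^ 2) := by
  have D0 : 0 < ‖δ‖ := norm_pos_iff.2 δ0
  have Y0 : 0 < ‖y‖ := by linarith
  have DY := mul_pos D0 Y0
  have g1 : 3 * (‖δ‖ * ‖y‖) ≤ ‖g‖ := by
    have := norm_le_norm_add_norm_sub' (4 * δ * y) g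
    rw [norm_sub_rev, norm_mul, norm_mul, Complex.norm_ofNat] at this
    nlinarith
  have h1 : ‖2 * y * s - 1‖ ≤ 1 / ‖δ‖ * ‖e‖ + 3 * x := by
    refine le_of_mul_le_mul_right (a := ‖g‖) ?_ (by linarith)
    rw [← norm_mul, show (2 * y * s - 1) * g = 2 * y * e - (g - 4 * δ * y) by
      linear_combination 2 * y * hs]
    refine (norm_sub_le _ _).trans ?_
    rw [norm_mul, norm_mul, Complex.norm_ofNat]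
    refine le_trans ?_ (mul_le_mul_of_nonneg_left g1 (by positivity))
    rw [show (1 / ‖δ‖ * ‖e‖ + 3 * x) * (3 * (‖δ‖ * ‖y‖)) = 3 * ‖y‖ * ‖e‖ + 9 * ‖δ‖ * x * ‖y‖ by
      field_simp; ring]
    nlinarith [mul_nonneg Y0.le (norm_nonneg e), mul_nonneg DY.le x0]
  have h2 : ‖2 * y * (t - s)‖ ≤ 2 * C ^ 2 * (1 / ‖y‖ ^ 2) := by
    rw [norm_mul, norm_mul, Complex.norm_ofNat]
    calc _ ≤ 2 * ‖y‖ * (C / ‖y‖ ^ 2 * ‖s‖) := by gcongr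
      _ = 2 * C * (‖s‖ * ‖y‖) * (1 / ‖y‖ ^ 2) := by ring
      _ ≤ 2 * C * C * (1 / ‖y‖ ^ 2) := by gcongr
      _ = _ := by ring
  have h3 : ‖t ^ 2‖ ≤ 4 * C ^ 2 * (1 / ‖y‖ ^ 2) := by
    rw [norm_pow]
    calc _ ≤ (2 * ‖s‖) ^ 2 := by gcongr
      _ = 4 * (‖s‖ * ‖y‖) ^ 2 * (1 / ‖y‖ ^ 2) := by field_simp; ring
      _ ≤ _ := by gcongr
  rw [show (y + t) ^ 2 - y ^ 2 - 1 = (2 * y * s - 1) + 2 * y * (t - s) + t ^ 2 by ring]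
  linarith [norm_add₃_le (a := 2 * y * s - 1) (b := 2 * y * (t - s)) (c := t ^ 2)]

theorem tf_e {δ y e g g' G s t p : ℂ} {ν C : ℝ} (Y1 : 1 ≤ ‖y‖) (ν0 : 0 ≤ ν) (C1 : 1 ≤ C)
    (he : ‖e‖ ≤ 1) (hs : s * g = 2 * δ + e) (hg : ‖g'‖ ≤ 8 * ‖δ‖) (s1 : ‖s‖ * ‖y‖ ≤ C)
    (e1 : ‖t - s‖ ≤ C / ‖y‖ ^ 2 * ‖s‖) (t1 : ‖t‖ ≤ 2 * ‖s‖) (t2 : ‖t‖ ≤ ‖y‖)
    (e2 : ‖t - s - s * (s ^ 2 * g' * p)‖ ≤ C / ‖y‖ ^ 4 * ‖s‖)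
    (hG : ‖G - g - t * g'‖ ≤ 8 * ‖δ‖ * ν * (‖y‖ + ‖t‖) * ‖t‖ ^ 2) :
    ‖G * (y + t - y) - 2 * δ - e - s ^ 2 * g' * (1 + (2 * δ + e) * p)‖ ≤
      ((2 * ‖δ‖ + 1) * C + 24 * ‖δ‖ * C ^ 3) / ‖y‖ ^ 4 + 128 * ‖δ‖ * C ^ 3 * ν := by
  have Y0 : 0 < ‖y‖ := by linarith
  have h1 : ‖g * (t - s - s * (s ^ 2 * g' * p))‖ ≤ (2 * ‖δ‖ + 1) * C / ‖y‖ ^ 4 := by
    have : ‖s‖ * ‖g‖ ≤ 2 * ‖δ‖ + 1 := by
      rw [← norm_mul, hs]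
      refine (norm_add_le _ _).trans ?_
      rw [norm_mul, Complex.norm_ofNat]
      linarith
    rw [norm_mul]
    calc _ ≤ ‖g‖ * (C / ‖y‖ ^ 4 * ‖s‖) := by gcongr
      _ = ‖s‖ * ‖g‖ * C / ‖y‖ ^ 4 := by ring
      _ ≤ _ := by gcongr
  have h2 : ‖(t - s) * (t + s) * g'‖ ≤ 24 * ‖δ‖ * C ^ 3 / ‖y‖ ^ 4 := by
    have : ‖t + s‖ ≤ 3 * ‖s‖ := by linarith [norm_add_le t s]
    rw [norm_mul, norm_mul]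
    calc _ ≤ C / ‖y‖ ^ 2 * ‖s‖ * (3 * ‖s‖) * (8 * ‖δ‖) := by gcongr
      _ = 24 * ‖δ‖ * (C * (‖s‖ * ‖y‖) ^ 2) / ‖y‖ ^ 4 := by field_simp; ring
      _ ≤ 24 * ‖δ‖ * (C * C ^ 2) / ‖y‖ ^ 4 := by gcongr
      _ = _ := by ring
  have h3 : ‖(G - g - t * g') * t‖ ≤ 128 * ‖δ‖ * C ^ 3 * ν := by
    have s2 : ‖s‖ ≤ C := le_trans (le_mul_of_one_le_right (norm_nonneg _) Y1) s1
    rw [norm_mul]
    calc _ ≤ 8 * ‖δ‖ * ν * (‖y‖ + ‖t‖) * ‖t‖ ^ 2 * ‖t‖ := by gcongr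
      _ ≤ 8 * ‖δ‖ * ν * (‖y‖ + ‖y‖) * (2 * ‖s‖) ^ 2 * (2 * ‖s‖) := by gcongr
      _ = 128 * ‖δ‖ * (‖s‖ * ‖y‖ * ‖s‖ ^ 2) * ν := by ring
      _ ≤ 128 * ‖δ‖ * (C * C ^ 2) * ν := by gcongr
      _ = _ := by ring
  rw [show G * (y + t - y) - 2 * δ - e - s ^ 2 * g' * (1 + (2 * δ + e) * p) =
    g * (t - s - s * (s ^ 2 * g' * p)) + (t - s) * (t + s) * g' + (G - g - t * g') * t by
      linear_combination (1 + s ^ 2 * g' * p) * hs, add_div]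
  linarith [norm_add₃_le (a := g * (t - s - s * (s ^ 2 * g' * p))) (b := (t - s) * (t + s) * g')
    (c := (G - g - t * g') * t)]

theorem tf_m {δ y e g g' s : ℂ} {x C : ℝ} (x0 : 0 ≤ x) (x1 : x ≤ 1) (hs : s * g = 2 * δ + e)
    (hg : ‖g - 4 * δ * y‖ ≤ 8 * ‖δ‖ * x * ‖y‖) (hg' : ‖g' - 4 * δ‖ ≤ 8 * ‖δ‖ * x)
    (s1 : ‖s‖ * ‖y‖ ≤ C) : ‖s ^ 2 * g' * y ^ 2 * δ - (δ + e / 2) ^ 2‖ ≤ 40 * ‖δ‖ ^ 2 * C ^ 2 * x := by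
  have h1 : ‖(g' - 4 * δ) * y ^ 2 * δ‖ ≤ 8 * ‖δ‖ * x * ‖y‖ ^ 2 * ‖δ‖ := by
    rw [norm_mul, norm_mul, norm_pow]
    gcongr
  have h2 : ‖2 * δ * y * (g - 4 * δ * y)‖ ≤ 2 * ‖δ‖ * ‖y‖ * (8 * ‖δ‖ * x * ‖y‖) := by
    rw [norm_mul, norm_mul, norm_mul, Complex.norm_ofNat]
    gcongr
  have h3 : ‖(g - 4 * δ * y) ^ 2 / 4‖ ≤ (8 * ‖δ‖ * ‖y‖) ^ 2 * x / 4 := by
    rw [norm_div, norm_pow, Complex.norm_ofNat]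
    calc _ ≤ (8 * ‖δ‖ * x * ‖y‖) ^ 2 / 4 := by gcongr
      _ = (8 * ‖δ‖ * ‖y‖) ^ 2 * (x * x) / 4 := by ring
      _ ≤ _ := by gcongr; exact mul_le_of_le_one_left x0 x1
  have h4 : ‖(g' - 4 * δ) * y ^ 2 * δ - 2 * δ * y * (g - 4 * δ * y) - (g - 4 * δ * y) ^ 2 / 4‖ ≤
      40 * ‖δ‖ ^ 2 * x * ‖y‖ ^ 2 := by
    refine (norm_sub_le _ _).trans ?_
    linarith [norm_sub_le ((g' - 4 * δ) * y ^ 2 * δ) (2 * δ * y * (g - 4 * δ * y))]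
  rw [show s ^ 2 * g' * y ^ 2 * δ - (δ + e / 2) ^ 2 = s ^ 2 * ((g' - 4 * δ) * y ^ 2 * δ -
    2 * δ * y * (g - 4 * δ * y) - (g - 4 * δ * y) ^ 2 / 4) by
      linear_combination (s * g + 2 * δ + e) / 4 * hs, norm_mul, norm_pow]
  calc _ ≤ ‖s‖ ^ 2 * (40 * ‖δ‖ ^ 2 * x * ‖y‖ ^ 2) := by gcongr
    _ = 40 * ‖δ‖ ^ 2 * (‖s‖ * ‖y‖) ^ 2 * x := by ring
    _ ≤ _ := by gcongr

theorem tf (hO : S_ODE) (hP : S_PT) : S_TF := by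
  intro δ δ0 hδ
  obtain ⟨e₁, l₁, ν₁, c₁, C, e0, e1, l1, n0, n1, c0, c1, C1, P⟩ := hP δ δ0 hδ
  have D0 : 0 < ‖δ‖ := norm_pos_iff.2 δ0
  obtain ⟨A, A1, A2, A3, A4, A5, A6⟩ : ∃ A : ℝ, 6 * C ^ 2 ≤ A ∧ 1 / ‖δ‖ ≤ A ∧ 6 * C ≤ A ∧
      (2 * ‖δ‖ + 1) * C + 24 * ‖δ‖ * C ^ 3 ≤ A ∧ 128 * ‖δ‖ * C ^ 3 ≤ A ∧
      40 * ‖δ‖ ^ 2 * C ^ 2 ≤ A := by
    have a1 : 0 ≤ 6 * C ^ 2 := by positivity
    have a2 : 0 ≤ 1 / ‖δ‖ := by positivity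
    have a3 : 0 ≤ 6 * C := by positivity
    have a4 : 0 ≤ (2 * ‖δ‖ + 1) * C + 24 * ‖δ‖ * C ^ 3 := by positivity
    have a5 : 0 ≤ 128 * ‖δ‖ * C ^ 3 := by positivity
    have a6 : 0 ≤ 40 * ‖δ‖ ^ 2 * C ^ 2 := by positivity
    exact ⟨6 * C ^ 2 + 1 / ‖δ‖ + 6 * C + ((2 * ‖δ‖ + 1) * C + 24 * ‖δ‖ * C ^ 3) +
      128 * ‖δ‖ * C ^ 3 + 40 * ‖δ‖ ^ 2 * C ^ 2, by linarith, by linarith, by linarith,
      by linarith, by linarith, by linarith⟩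
  refine ⟨e₁, max l₁ (2 * C), ν₁, A, e0, n0, by linarith, ?_⟩
  rintro ν R θ h Q c U ⟨y, e⟩ Z hν hl hR he
  simp only at hl hR he
  have L1 := le_of_max_le_left hl
  have L2 := le_of_max_le_right hl
  have Y1 : 1 ≤ ‖y‖ := by nlinarith [norm_nonneg y]
  have Y0 : 0 < ‖y‖ := by linarith
  have ν0 : 0 ≤ ν := (norm_nonneg _).trans (Z.q 0 (mem_closedBall_self (by linarith)))
  have x0 : 0 ≤ ν * ‖y‖ ^ 2 := by positivity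
  have x1 : ν * ‖y‖ ^ 2 ≤ 1 / 100 := le_trans (by gcongr; linarith) (hν.trans n1)
  obtain ⟨O1, O2⟩ := hO δ ν R θ h Q c U Z (by linarith)
  obtain ⟨o1, o2, -, o4⟩ := O1 y (by linarith)
  replace o1 : ‖deriv θ y - 4 * δ * y‖ ≤ 8 * ‖δ‖ * (ν * ‖y‖ ^ 2) * ‖y‖ := o1.trans_eq (by ring)
  replace o2 : ‖deriv (deriv θ) y - 4 * δ‖ ≤ 8 * ‖δ‖ * (ν * ‖y‖ ^ 2) := o2.trans_eq (by ring)
  have g0 : deriv θ y ≠ 0 := fun k => by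
    rw [k, zero_sub, norm_neg, norm_mul, norm_mul, Complex.norm_ofNat] at o1
    nlinarith [mul_pos D0 Y0]
  have hs : sZ θ δ (y, e) * deriv θ y = 2 * δ + e := div_mul_cancel₀ _ g0
  have p := P ν R θ h Q c U y (sZ θ δ (y, e)) Z hν L1 (by linarith)
    (Or.inl (by rwa [hs, add_sub_cancel_left]))
  have t1 : ‖nx θ h y (sZ θ δ (y, e))‖ ≤ 2 * ‖sZ θ δ (y, e)‖ := by
    nlinarith [norm_le_norm_add_norm_sub' (nx θ h y (sZ θ δ (y, e))) (sZ θ δ (y, e)), p.e0,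
      norm_nonneg (sZ θ δ (y, e))]
  have t3 : ‖nx θ h y (sZ θ δ (y, e))‖ * ‖y‖ ≤ 2 * C := by nlinarith [p.s1]
  have t2 : ‖nx θ h y (sZ θ δ (y, e))‖ ≤ ‖y‖ := le_of_mul_le_mul_right (by nlinarith) Y0
  have aθ : ∀ z : ℂ, ‖z‖ ≤ R → AnalyticAt ℂ (deriv θ) z := fun z hz =>
    ((Z.cv.dθ.analyticOnNhd Z.cv.op) z (Z.sub (mem_closedBall_zero_iff.2 hz))).deriv
  refine ⟨?_, ?_, ?_, ?_, ?_⟩
  · have a1 : AnalyticAt ℂ (sZ θ δ) (y, e) :=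
      (analyticAt_const.add analyticAt_snd).div
        (AnalyticAt.comp (g := deriv θ) (aθ y (by linarith)) analyticAt_fst) g0
    have a2 : AnalyticAt ℂ (vZ θ h δ) (y, e) :=
      analyticAt_fst.add (AnalyticAt.comp (g := fun p : ℂ × ℂ => nx θ h p.1 p.2)
        (f := fun s : C2 => (s.1, sZ θ δ s)) p.an (analyticAt_fst.prod a1))
    have a3 : AnalyticAt ℂ (deriv θ) (vZ θ h δ (y, e)) :=
      aθ (y + nx θ h y (sZ θ δ (y, e))) ((norm_add_le _ _).trans (by linarith))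
    exact a2.prod (((AnalyticAt.comp (g := deriv θ) (f := vZ θ h δ) a3 a2).mul
      (a2.sub analyticAt_fst)).sub analyticAt_const)
  · have k := tf_th δ0 Y1 x0 x1 C1 hs o1 p.s1 p.e1 t1
    rw [ofReal_one]
    refine k.trans ?_
    rw [mul_add, mul_add]
    gcongr
    linarith
  · show ‖y + nx θ h y (sZ θ δ (y, e)) - y‖ * ‖y‖ ≤ A
    rw [add_sub_cancel_left]
    linarith
  · have e2 := p.e2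
    rw [hs, show (2 * δ + e) / 2 = δ + e / 2 by ring] at e2
    have k := tf_e Y1 ν0 C1 (he.trans e1) hs o4 p.s1 p.e1 t1 t2 e2 (O2 y _ (by linarith)).1
    rw [ofReal_one, one_mul]
    exact k.trans (by gcongr)
  · exact (tf_m x0 (by linarith) hs o1 o2 p.s1).trans (by gcongr)

end Vale.Agent.P097EE.LZ
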