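import Vale.Agent.P097EE.LZDefs
import Vale.Agent.P097F.N.FoA

/-!
# P097EE.LZ: three vertices with the law are a step
-/

set_option linter.all false

noncomputable section

namespace Vale.Agent.P097EE.LZ

open Filter Topology Set Metric Complex Vale.Agent.P097N Vale.Agent.P097Mo
open Vale.Agent.P097F.N (nx ps)

/-- the algebraic core -/
theorem un_core {δ a b s t : ℂ} {m c₁ k : ℝ} (hD : 0 < ‖δ‖) (hc : 0 < c₁) (hc' : c₁ ≤ 1 / 4)
    (hm : 0 < m) (hm' : m ≤ c₁ * ‖δ‖) (hk : k * (24 * ‖δ‖) = m) (ha : a ≠ 0)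
    (h1 : ‖a * s - 2 * δ‖ ≤ m / 4) (h2 : ‖b * t - 2 * δ‖ ≤ m / 4) (h3 : ‖b - a‖ ≤ k * ‖a‖) :
    b ≠ 0 ∧ ‖a * t - 2 * δ‖ ≤ m ∧ ‖t - s‖ < c₁ * ‖s‖ ∧ ‖t - s‖ < c₁ * ‖t‖ := by
  have a0 : 0 < ‖a‖ := norm_pos_iff.2 ha
  have k0 : 0 < k := by
    by_contra hn
    nlinarith [not_lt.1 hn]
  have mD : m ≤ ‖δ‖ / 4 := by nlinarith
  have k1 : k ≤ 1 / 2 := by
    by_contra hn
    nlinarith [not_le.1 hn]
  have n2 : ‖(2 : ℂ) * δ‖ = 2 * ‖δ‖ := by rw [norm_mul, Complex.norm_ofNat]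
  have ab : ‖a‖ ≤ 2 * ‖b‖ := by
    have := norm_sub_norm_le a b
    rw [norm_sub_rev] at this
    nlinarith
  have bt : ‖b‖ * ‖t‖ ≤ 3 * ‖δ‖ := by
    have := norm_sub_norm_le (b * t) (2 * δ)
    rw [norm_mul b, n2] at this
    linarith
  have d1 : ‖(b - a) * t‖ ≤ m / 4 := by
    rw [norm_mul]
    calc ‖b - a‖ * ‖t‖ ≤ k * (2 * ‖b‖) * ‖t‖ :=
          mul_le_mul_of_nonneg_right (h3.trans (mul_le_mul_of_nonneg_left ab k0.le))
            (norm_nonneg _)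
      _ = 2 * k * (‖b‖ * ‖t‖) := by ring
      _ ≤ 2 * k * (3 * ‖δ‖) := mul_le_mul_of_nonneg_left bt (by linarith)
      _ = m / 4 := by rw [← hk]; ring
  have d2 : ‖a * t - 2 * δ‖ ≤ m / 2 := by
    rw [show a * t - 2 * δ = (b * t - 2 * δ) - (b - a) * t by ring]
    exact (norm_sub_le _ _).trans (by linarith)
  have d3 : ‖a‖ * ‖t - s‖ ≤ 3 * m / 4 := by
    rw [← norm_mul, show a * (t - s) = (a * t - 2 * δ) - (a * s - 2 * δ) by ring]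
    exact (norm_sub_le _ _).trans (by linarith)
  have low : ∀ u : ℂ, ‖a * u - 2 * δ‖ ≤ m / 2 → ‖t - s‖ < c₁ * ‖u‖ := by
    intro u hu
    have := norm_sub_norm_le (2 * δ) (a * u)
    rw [norm_sub_rev, norm_mul a, n2] at this
    refine lt_of_mul_lt_mul_left ?_ a0.le
    have e : ‖δ‖ ≤ ‖a‖ * ‖u‖ := by linarith
    nlinarith [mul_le_mul_of_nonneg_left e hc.le]
  refine ⟨fun hb => ?_, by linarith, low s (by linarith), low t d2⟩
  rw [hb, norm_zero] at ab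
  linarith

theorem un_g (hO : S_ODE) {δ : ℂ} {ν R c₀ : ℝ} {θ h Q : ℂ → ℂ} {c : ℂ} {U : Set ℂ} {y z : ℂ}
    (hZ : ZS δ ν R θ h Q c U) (hD : 0 < ‖δ‖) (c0 : 0 < c₀) (c1 : c₀ ≤ 1)
    (h1 : ν * R ^ 2 ≤ 1 / 100) (y0 : 0 < ‖y‖) (h3 : 4 * ‖y‖ ≤ R) (h6 : ‖z - y‖ ≤ c₀ * ‖y‖) :
    deriv θ y ≠ 0 ∧ ‖deriv θ z - deriv θ y‖ ≤ 3 * c₀ * ‖deriv θ y‖ := by
  obtain ⟨o1, o2⟩ := hO δ ν R θ h Q c U hZ (by linarith)
  have ν0 : 0 ≤ ν := (norm_nonneg _).trans (hZ.q 0 (mem_closedBall_self (by linarith)))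
  have t0 := norm_nonneg (z - y)
  have ty : ‖z - y‖ ≤ ‖y‖ := h6.trans (mul_le_of_le_one_left y0.le c1)
  obtain ⟨p1, -, -, p4⟩ := o1 y (by linarith)
  obtain ⟨q1, -⟩ := o2 y (z - y) (by linarith)
  rw [add_sub_cancel] at q1
  have a1 := norm_sub_norm_le (4 * δ * y) (deriv θ y)
  rw [norm_sub_rev, norm_mul, norm_mul, Complex.norm_ofNat] at a1
  have a2 := norm_sub_norm_le (deriv θ z - deriv θ y) ((z - y) * deriv (deriv θ) y)
  rw [norm_mul] at a2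
  have key : 0 < ‖deriv θ y‖ ∧ ‖deriv θ z - deriv θ y‖ ≤ 3 * c₀ * ‖deriv θ y‖ := by
    have a3 := a1.trans p1
    have a4 := a2.trans q1
    clear a1 a2 p1 q1 o1 o2 hZ
    generalize ‖deriv θ z - deriv θ y‖ = G at *
    generalize ‖deriv (deriv θ) y‖ = H at *
    generalize ‖deriv θ y‖ = g at *
    generalize ‖z - y‖ = t at *
    generalize ‖y‖ = Y at *
    generalize ‖δ‖ = D at *
    have r1 : ν * Y ^ 2 ≤ 1 / 100 :=
      (mul_le_mul_of_nonneg_left (pow_le_pow_left₀ y0.le (by linarith) 2) ν0).trans h1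
    have r0 : (Y + t) * t ≤ R ^ 2 := by
      rw [sq]
      exact mul_le_mul (by linarith) (by linarith) t0 (by linarith)
    have r2 : ν * ((Y + t) * t) ≤ 1 / 100 := (mul_le_mul_of_nonneg_left r0 ν0).trans h1
    have DY := mul_pos hD y0
    have Dt := mul_nonneg hD.le t0
    have b1 := mul_le_mul_of_nonneg_left r1 DY.le
    have b2 := mul_le_mul_of_nonneg_left r2 Dt
    have b3 := mul_le_mul_of_nonneg_left p4 t0
    have b4 := mul_le_mul_of_nonneg_left h6 hD.le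
    have g1 : 3 * (D * Y) ≤ g := by linarith
    have g2 : G ≤ 9 * (D * t) := by linarith
    have b5 := mul_le_mul_of_nonneg_left g1 c0.le
    exact ⟨by linarith, by linarith⟩
  exact ⟨norm_pos_iff.1 key.1, key.2⟩

theorem un (hO : S_ODE) (hP : S_PT) : S_UN := by
  intro δ hδ hS
  obtain ⟨e₁, l₁, ν₁, c₁, C₁, he, -, hl, hν, hν', hc, hc', -, hPt⟩ := hP δ hδ hS
  have hD : 0 < ‖δ‖ := norm_pos_iff.2 hδ
  obtain ⟨m, m0, m1, m2⟩ : ∃ m : ℝ, 0 < m ∧ m ≤ e₁ ∧ m ≤ c₁ * ‖δ‖ :=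
    ⟨min e₁ (c₁ * ‖δ‖), lt_min he (mul_pos hc hD), min_le_left _ _, min_le_right _ _⟩
  obtain ⟨c₀, c0, ce⟩ : ∃ c₀ : ℝ, 0 < c₀ ∧ c₀ * (72 * ‖δ‖) = m :=
    ⟨m / (72 * ‖δ‖), by positivity, div_mul_cancel₀ _ (by positivity)⟩
  have c1 : c₀ ≤ 1 := by
    by_contra hn
    have a := mul_le_mul_of_nonneg_right (not_le.1 hn).le hD.le
    have b := mul_le_mul_of_nonneg_right hc' hD.le
    linarith
  refine ⟨m / 4, l₁, ν₁, c₀, by linarith, hν, c0, ?_⟩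
  intro ν R θ h Q c U x y z hZ h1 h2 h3 h4 h5 h6 hE
  have y0 : 0 < ‖y‖ := by
    refine norm_pos_iff.2 fun e => ?_
    rw [e, norm_zero, zero_pow two_ne_zero] at h2
    linarith
  obtain ⟨ga, g3⟩ := un_g hO hZ hD c0 c1 (h1.trans hν') y0 h3 h6
  have h4' : ‖deriv θ y * (y - x) - 2 * δ‖ ≤ m / 4 := h4
  have h5' : ‖deriv θ z * (z - y) - 2 * δ‖ ≤ m / 4 := h5
  obtain ⟨gb, k1, k2, k3⟩ := un_core hD hc hc' m0 m2 (k := 3 * c₀) (by linarith) ga h4' h5' g3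
  have R2 : 2 * ‖y‖ ≤ R := by linarith
  have P1 := hPt ν R θ h Q c U y (y - x) hZ h1 h2 R2
    (Or.inl (by rw [mul_comm]; linarith))
  have P2 := hPt ν R θ h Q c U y (-(z - y)) hZ h1 h2 R2 (Or.inr (by
    rw [show -(z - y) * deriv θ y + 2 * δ = -(deriv θ y * (z - y) - 2 * δ) by ring, norm_neg]
    linarith))
  have u1 := P1.un (z - y) (by rwa [sub_sub_cancel, add_sub_cancel]) k2
  have u2 := P2.un (-(y - x)) (by
    rw [show y - -(z - y) = z by ring, show y + -(y - x) = x by ring, P097F.N.FoA.EE_symm]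
    exact hE) (by
    rw [show -(y - x) - -(z - y) = z - y - (y - x) by ring, norm_neg]
    exact k3)
  have s1 : sZ θ δ (kZ θ δ (x, y)) = y - x := by
    simp only [sZ, kZ]
    rw [add_sub_cancel, mul_div_cancel_left₀ _ ga]
  have s2 : sZ θ δ (kZ θ δ (y, z)) = z - y := by
    simp only [sZ, kZ]
    rw [add_sub_cancel, mul_div_cancel_left₀ _ gb]
  have f1 : (kZ θ δ (x, y)).1 = y := rfl
  have f2 : (kZ θ δ (y, z)).1 = z := rfl
  constructor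
  · rw [TZ, vZ, s1, f1, ← u1, add_sub_cancel]
  · rw [TmZ, s2, f2, sub_sub_cancel, ← u2, show y + -(y - x) = x by ring]

end Vale.Agent.P097EE.LZ
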