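import Vale.Agent.P097EE.LZOde
import Vale.Agent.P097EE.LZPt
import Vale.Agent.P097EE.LZFin
import Vale.Agent.P097EE.LZTf
import Vale.Agent.P097EE.LZTb
import Vale.Agent.P097EE.LZUn
import Vale.Agent.P097EE.LZSys
import Vale.Agent.P097EE.LZLoc
import Vale.Agent.P097EE.LZSc

/-!
# P097EE: the local system at a zero of the curve (row 5820)
-/

namespace Vale.Agent.P097EE

open LZ in
theorem locZ : S_LOCZ :=
  locZ_of (loc0 ode (pt ode) fin (tf ode (pt ode)) (tb ode (pt ode)) (un ode (pt ode)) (sys ode))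

end Vale.Agent.P097EE
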