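import Vale.Agent.P097EE.AllE
import Vale.Agent.P097EE.App
import Vale.Agent.P097EE.LZAll
import Vale.Agent.P097EE.LFOut

/-!
# P097EE: the last layer, closed
-/

namespace Vale.Agent.P097EE

/-- **the last layer** -/
theorem specE2 : Spec_E2 := specE2_app app

end Vale.Agent.P097EE
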