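import Vale.Agent.P097EE.ChainN
import Vale.Agent.P097EE.ChainD

/-! The core of the last layer: the chain map is analytic on a tube over a connected domain which
joins a deep point to a point of the level line. -/

open Filter Metric Set Topology

namespace Vale.Agent.P097EE

open Vale.Agent.P299.H720 Vale.Agent.P097T Vale.Agent.P097T.EndTop

variable {ι : Type*}

/-- the states `(t, a, b)` near `(t, w 0 t, w 1 t)`, `t ∈ V` -/
def Tube (V : Set ℂ) (w : ℕ → ℂ → ℂ) (η : ℝ) : Set (ℂ × ℂ × ℂ) :=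
  {p | p.1 ∈ V ∧ ‖p.2.1 - w 0 p.1‖ < η ∧ ‖p.2.2 - w 1 p.1‖ < η}

theorem isOpen_tube {V : Set ℂ} {w : ℕ → ℂ → ℂ} (η : ℝ) (hV : IsOpen V)
    (h0 : ContinuousOn (w 0) V) (h1 : ContinuousOn (w 1) V) : IsOpen (Tube V w η) := by
  rw [isOpen_iff_mem_nhds]
  rintro p ⟨p1, p2, p3⟩
  have c0 : ContinuousAt (fun q : ℂ × ℂ × ℂ => ‖q.2.1 - w 0 q.1‖) p :=
    (continuousAt_snd.fst.sub ((h0.continuousAt (hV.mem_nhds p1)).comp continuousAt_fst)).norm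
  have c1 : ContinuousAt (fun q : ℂ × ℂ × ℂ => ‖q.2.2 - w 1 q.1‖) p :=
    (continuousAt_snd.snd.sub ((h1.continuousAt (hV.mem_nhds p1)).comp continuousAt_fst)).norm
  filter_upwards [continuousAt_fst.eventually (hV.mem_nhds p1),
    c0.eventually_lt continuousAt_const p2, c1.eventually_lt continuousAt_const p3] with q a b c
  exact ⟨a, b, c⟩

/-- `G j` is the vertex number `j` of the chain of the laws `Λ j` as a function of the state -/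
structure Gch (Λ : ℕ → (ℂ × ℂ × ℂ) × ℂ → ℂ) (N : ℕ) (V : Set ℂ) (w : ℕ → ℂ → ℂ) (η τ ρ : ℝ)
    (G : ℕ → ℂ × ℂ × ℂ → ℂ) : Prop where
  g0 : G 0 = fun p => p.2.1
  g1 : G 1 = fun p => p.2.2
  an : ∀ j < N + 2, AnalyticOnNhd ℂ (G j) (Tube V w η)
  cl : ∀ j < N + 2, ∀ p ∈ Tube V w η, ‖G j p - w j p.1‖ ≤ τ
  law : ∀ j < N, ∀ p ∈ Tube V w η, Λ j ((p.1, G j p, G (j + 1) p), G (j + 2) p) = 0
  un : ∀ j < N, ∀ p ∈ Tube V w η, ∀ c, ‖c - w (j + 2) p.1‖ < ρ →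
    Λ j ((p.1, G j p, G (j + 1) p), c) = 0 → c = G (j + 2) p

/-- a chain of the laws which stays in the tube is the chain `G` -/
theorem Gch.eq {Λ : ℕ → (ℂ × ℂ × ℂ) × ℂ → ℂ} {N : ℕ} {V : Set ℂ} {w : ℕ → ℂ → ℂ} {η τ ρ : ℝ}
    {G : ℕ → ℂ × ℂ × ℂ → ℂ} (H : Gch Λ N V w η τ ρ G) {t : ℂ} {d : ℕ → ℂ}
    (hm : (t, d 0, d 1) ∈ Tube V w η)
    (hl : ∀ j < N, Λ j ((t, d j, d (j + 1)), d (j + 2)) = 0 ∧ ‖d (j + 2) - w (j + 2) t‖ < ρ) :
    ∀ j < N + 2, d j = G j (t, d 0, d 1) := by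
  have key : ∀ j < N + 1, d j = G j (t, d 0, d 1) ∧ d (j + 1) = G (j + 1) (t, d 0, d 1) := by
    intro j
    induction j with
    | zero => intro _; rw [H.g0, zero_add, H.g1]; exact ⟨rfl, rfl⟩
    | succ j ih =>
      intro hj
      obtain ⟨e0, e1⟩ := ih (by omega)
      refine ⟨e1, H.un j (by omega) _ hm _ (hl j (by omega)).2 ?_⟩
      rw [← e0, ← e1]; exact (hl j (by omega)).1
  intro j hj
  rcases j with _ | j
  · exact (key 0 (by omega)).1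
  · exact (key j (by omega)).2

theorem ev_compact {α : Type*} [TopologicalSpace α] {l : Filter ι} {K : Set α} (hK : IsCompact K)
    {p : ι → α → Prop} (h : ∀ x ∈ K, ∃ s ∈ 𝓝 x, ∀ᶠ n in l, ∀ y ∈ s, p n y) :
    ∀ᶠ n in l, ∀ y ∈ K, p n y := by
  refine hK.induction_on (p := fun K => ∀ᶠ n in l, ∀ y ∈ K, p n y) (by simp) ?_ ?_ ?_
  · exact fun s t hst h => h.mono fun n hn y hy => hn y (hst hy)
  · exact fun s t h1 h2 => (h1.and h2).mono fun n hn y hy => hy.elim (hn.1 y) (hn.2 y)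
  · intro x hx
    obtain ⟨s, hs, h⟩ := h x hx
    exact ⟨s, mem_nhdsWithin_of_mem_nhds hs, h⟩

/-- **CORE.** `u n j` are the true chains on the domain `B` under the level of `y`, `a n 0`,
`a n 1` the clean continuation of the first two vertices to `B ∪ ball y δ`. -/
theorem core (𝒰 : Ultrafilter ι) {Λ : ℕ → (ℂ × ℂ × ℂ) × ℂ → ℂ}
    {Λn : ι → ℕ → (ℂ × ℂ × ℂ) × ℂ → ℂ} {u a : ι → ℕ → ℂ → ℂ} {B : Set ℂ} {y t0 : ℂ} {δ : ℝ}
    (hδ : 0 < δ) (hB : IsOpen B) (hB' : IsPreconnected B) (hsub : HD y δ ⊆ B)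
    (hlow : ∀ t ∈ B, t.im < y.im) (ht0 : t0 ∈ B) (N : ℕ)
    (hΛ : ∀ j < N, AnalyticOnNhd ℂ (Λ j) {q | q.1.1 ∈ B ∪ ball y δ})
    (hA : ∀ j < N, ∀ q : (ℂ × ℂ × ℂ) × ℂ, q.1.1 ∈ B ∪ ball y δ → ∃ s ∈ 𝓝 q,
      ∀ᶠ n in (𝒰 : Filter ι), AnalyticOnNhd ℂ (Λn n j) s)
    (hl : ∀ j < N, TendstoLocallyUniformlyOn (fun n => Λn n j) (Λ j) 𝒰
      {q | q.1.1 ∈ B ∪ ball y δ})
    (hu : ∀ j < N + 2, ∀ t ∈ B, ∃ r > 0, ∀ᶠ n in (𝒰 : Filter ι),
      DifferentiableOn ℂ (u n j) (ball t r))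
    (hlaw : ∀ j < N, ∀ t ∈ B, ∃ r > 0, ∀ᶠ n in (𝒰 : Filter ι),
      ∀ s ∈ ball t r, Λn n j (st id (u n) j s) = 0)
    (ha : ∀ j < 2, LocBdd (𝒰 : Filter ι) (fun n => a n j) (B ∪ ball y δ))
    (hau : ∀ j < 2, ∀ t ∈ B, ∃ r > 0, ∀ σ > 0, ∀ᶠ n in (𝒰 : Filter ι),
      ∀ s ∈ ball t r, ‖a n j s - u n j s‖ ≤ σ)
    (hb : ∀ j < N + 2, BdAt (𝒰 : Filter ι) (fun n => u n j) t0)
    (hnd : ∀ j < N, ∀ a b c, Tendsto (fun n => u n j t0) 𝒰 (𝓝 a) →
      Tendsto (fun n => u n (j + 1) t0) 𝒰 (𝓝 b) → Tendsto (fun n => u n (j + 2) t0) 𝒰 (𝓝 c) →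
      fderiv ℂ (Λ j) ((t0, a, b), c) (0, 1) ≠ 0) :
    ∃ (z : ℂ) (V K : Set ℂ) (w : ℕ → ℂ → ℂ), z ∈ ball y δ ∧ z.im = y.im ∧ IsOpen V ∧
      IsPreconnected V ∧ IsCompact K ∧ t0 ∈ V ∧ z ∈ V ∧ V ⊆ K ∧ K ⊆ B ∪ ball y δ ∧
      (∀ j < N + 2, AnalyticOnNhd ℂ (w j) K ∧
        TendstoLocallyUniformlyOn (fun n => u n j) (w j) 𝒰 B) ∧
      (∀ j < 2, TendstoUniformlyOn (fun n => a n j) (w j) 𝒰 K) ∧
      ∃ ρ > 0, ∀ τ > 0, ∃ η > 0, ∀ᶠ n in (𝒰 : Filter ι), ∃ G, Gch (Λn n) N V w η τ ρ G := by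
  classical
  have hD : IsOpen (B ∪ ball y δ) := hB.union isOpen_ball
  have hS : IsOpen {q : (ℂ × ℂ × ℂ) × ℂ | q.1.1 ∈ B ∪ ball y δ} := hD.preimage (by fun_prop)
  have hSB : {q : (ℂ × ℂ × ℂ) × ℂ | q.1.1 ∈ B} ⊆ {q | q.1.1 ∈ B ∪ ball y δ} :=
    fun q hq => Or.inl hq
  have lim : ∀ j < N + 2, ∃ c, Tendsto (fun n => u n j t0) 𝒰 (𝓝 c) := by
    intro j hj
    obtain ⟨r, hr, C, hC⟩ := hb j hj
    obtain ⟨c, -, hc⟩ := (isCompact_closedBall (0 : ℂ) C).ultrafilter_le_nhds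
      (𝒰.map fun n => u n j t0) (by
        rw [Ultrafilter.coe_map, le_principal_iff]
        exact hC.mono fun n hn => mem_closedBall_zero_iff.2 (hn t0 (mem_ball_self hr)))
    exact ⟨c, hc⟩
  obtain ⟨v, hv, hv0⟩ := chainN 𝒰 hB hB' ht0 N (fun j hj => (hΛ j hj).mono hSB)
    (fun j hj => (hl j hj).mono hSB) hu hlaw (fun j hj t ht => by
      obtain ⟨r1, h1, C, k1⟩ := ha j hj t (Or.inl ht)
      obtain ⟨r2, h2, k2⟩ := hau j hj t ht
      refine ⟨min r1 r2, lt_min h1 h2, C + 1, (k1.and (k2 1 one_pos)).mono fun n hn s hs => ?_⟩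
      have e1 := hn.1.2 s (ball_subset_ball (min_le_left _ _) hs)
      have e2 := hn.2 s (ball_subset_ball (min_le_right _ _) hs)
      have e3 := norm_sub_norm_le (u n j s) (a n j s)
      rw [norm_sub_rev] at e3
      linarith) hb (fun j hj a b h1 h2 => by
      obtain ⟨c, hc⟩ := lim (j + 2) (by omega)
      by_contra hn
      push Not at hn
      have k := hasDerivAt_snd (hΛ j hj ((t0, a, b), c) (Or.inl ht0)).differentiableAt
      rw [show (fun c => Λ j ((t0, a, b), c)) = fun _ => 0 from funext hn] at k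
      exact hnd j hj a b c h1 h2 hc (k.unique (hasDerivAt_const _ _)))
  have H : ∀ j, ∃ A : ℂ → ℂ, EqOn A (v j) B ∧ (j < 2 → DifferentiableOn ℂ A (B ∪ ball y δ) ∧
      TendstoLocallyUniformlyOn (fun n => a n j) A 𝒰 (B ∪ ball y δ)) := by
    intro j
    by_cases hj : j < 2
    · obtain ⟨A, h1, h2, -⟩ := montel_full 𝒰 hD (ha j hj)
      refine ⟨A, fun t ht => ?_, fun _ => ⟨h1, h2⟩⟩
      obtain ⟨r, hr, k⟩ := hau j hj t ht
      have e1 : Tendsto (fun n => a n j t - u n j t) 𝒰 (𝓝 0) := by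
        refine NormedAddGroup.tendsto_nhds_zero.2 fun σ hσ => ?_
        exact (k (σ / 2) (by positivity)).mono fun n hn =>
          (hn t (mem_ball_self hr)).trans_lt (by linarith)
      exact sub_eq_zero.1 (tendsto_nhds_unique
        ((h2.tendsto_at (Or.inl ht)).sub ((hv j (by omega)).2.tendsto_at ht)) e1)
    · exact ⟨v j, fun _ _ => rfl, fun h => absurd h hj⟩
  choose A hA1 hA2 using H
  have sA : ∀ j, ∀ t ∈ B, st id A j t = st id v j t := fun j t ht => by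
    unfold st; rw [hA1 j ht, hA1 _ ht, hA1 _ ht]
  obtain ⟨z, V, K, w, k1, k2, k3, k4, k5, k6, k7, k8, k9, w1, w2, w3⟩ := chainD (v := A) hδ hB hB'
    hsub hlow ht0 N hΛ (fun j hj => (hA2 j hj).1.mono subset_union_right)
    (fun j hj => (hv j hj).1.congr (hA1 j)) (fun j hj t ht => by rw [sA j t ht]; exact hv0 j hj t ht)
    (fun j hj => by
      rw [sA j t0 ht0]
      exact hnd j hj _ _ _ ((hv j (by omega)).2.tendsto_at ht0)
        ((hv (j + 1) (by omega)).2.tendsto_at ht0) ((hv (j + 2) (by omega)).2.tendsto_at ht0))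
  refine ⟨z, V, K, w, k1, k2, k3, k4, k5, k6, k7, k8, k9, fun j hj => ⟨(w2 j hj).1,
    (hv j hj).2.congr_right fun t ht => ((w2 j hj).2 ht).trans (hA1 j ht) |>.symm⟩,
    fun j hj => ((tendstoLocallyUniformlyOn_iff_forall_isCompact hD).1 (hA2 j hj).2 K k9
      k5).congr_right fun t ht => (w1 j hj ht).symm, ?_⟩
  have cw : ∀ j < N + 2, ContinuousOn (w j) K := fun j hj => (w2 j hj).1.continuousOn
  have H2 : ∀ j, ∃ O C : Set ((ℂ × ℂ × ℂ) × ℂ), j < N → IsOpen O ∧ IsCompact C ∧ O ⊆ C ∧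
      C ⊆ {q | q.1.1 ∈ B ∪ ball y δ} ∧ ∀ t ∈ K, st id w j t ∈ O := by
    intro j
    by_cases hj : j < N
    · have hc : IsCompact (st id w j '' K) := k5.image_of_continuousOn
        ((continuousOn_id.prodMk ((cw j (by omega)).prodMk (cw (j + 1) (by omega)))).prodMk
          (cw (j + 2) (by omega)))
      obtain ⟨e, he, hth⟩ := hc.exists_cthickening_subset_open hS (by
        rintro _ ⟨t, ht, rfl⟩; exact k9 ht)
      exact ⟨thickening e _, cthickening e _, fun _ => ⟨isOpen_thickening, hc.cthickening,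
        thickening_subset_cthickening _ _, hth,
        fun t ht => self_subset_thickening he _ (mem_image_of_mem _ ht)⟩⟩
    · exact ⟨∅, ∅, fun h => absurd h hj⟩
  choose O C hO using H2
  obtain ⟨ρ, hρ, h⟩ := chainP (Λ := Λ) (O := O) (x := id) (v := w) k5 continuousOn_id N
    (fun j hj => (hO j hj).1)
    (fun j hj => (hΛ j hj).mono ((hO j hj).2.2.1.trans (hO j hj).2.2.2.1)) cw
    fun j hj t ht => ⟨(hO j hj).2.2.2.2 t ht, w3 j hj t ht⟩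
  refine ⟨ρ, hρ, fun τ hτ => ?_⟩
  obtain ⟨η, hη, h⟩ := h τ hτ
  refine ⟨η, hη, ?_⟩
  have ev : ∀ᶠ n in (𝒰 : Filter ι), ∀ j ∈ Finset.range N, AnalyticOnNhd ℂ (Λn n j) (O j) ∧
      ∀ q ∈ O j, ‖Λn n j q - Λ j q‖ ≤ η := by
    refine (Finset.range N).eventually_all.2 fun j hj => ?_
    have hj := Finset.mem_range.1 hj
    obtain ⟨-, c2, c3, c4, -⟩ := hO j hj
    have e1 := ev_compact (l := (𝒰 : Filter ι)) c2 (p := fun n q => AnalyticAt ℂ (Λn n j) q)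
      fun q hq => hA j hj q (c4 hq)
    have e2 := Metric.tendstoUniformlyOn_iff.1
      ((tendstoLocallyUniformlyOn_iff_forall_isCompact hS).1 (hl j hj) _ c4 c2) η hη
    filter_upwards [e1, e2] with n h1 h2
    exact ⟨fun q hq => h1 q (c3 hq), fun q hq => by
      rw [← dist_eq_norm, dist_comm]; exact (h2 q (c3 hq)).le⟩
  filter_upwards [ev] with n hn
  obtain ⟨G, g0, g1, g2, g3⟩ := h (Λn n) (fun j hj => hn j (Finset.mem_range.2 hj)) (ℂ × ℂ × ℂ)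
    (Tube V w η) Prod.fst (fun p => p.2.1) (fun p => p.2.2) Prod.fst
    (isOpen_tube η k3 ((cw 0 (by omega)).mono k8) ((cw 1 (by omega)).mono k8))
    analyticOnNhd_fst (fun p _ => analyticAt_fst.fun_comp analyticAt_snd)
    (fun p _ => analyticAt_snd.fun_comp analyticAt_snd) continuousOn_fst
    fun p hp => ⟨k8 hp.1, by simpa using hη.le, hp.2.1.le, hp.2.2.le⟩
  exact ⟨G, g0, g1, fun j hj => (g2 j hj).1, fun j hj => (g2 j hj).2,
    fun j hj p hp => (g3 j hj p hp).1, fun j hj p hp => (g3 j hj p hp).2⟩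

end Vale.Agent.P097EE
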