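import Vale.Agent.P097F.N.StepDefs
import Vale.Agent.P097Mo.Defs

/-!
# P097EE: the last layer (definitions and statements)

A label is `q = (t, ζ)`; one step is `t ↦ t + 1`, the top of the true leaf is `im t = 0`, `ζ = 0`.
Near an obstacle a state is `(η, e)`; `η ^ 2` is the time, `e` is small.
-/

set_option linter.all false

noncomputable section

namespace Vale.Agent.P097EE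

open Filter Topology Set Metric Complex

abbrev C2 := ℂ × ℂ

/-- the shift of a label -/
def sh (q : C2) (j : ℂ) : C2 := (q.1 + j, q.2)

/-- a closed box of labels -/
def Bx (b y₁ y₂ r : ℝ) : Set C2 := {q | |q.1.re| ≤ b ∧ y₁ ≤ q.1.im ∧ q.1.im ≤ y₂ ∧ ‖q.2‖ ≤ r}

/-- an open rectangle -/
def Rc (x b y₁ y₂ : ℝ) : Set ℂ := {t | |t.re - x| < b ∧ y₁ < t.im ∧ t.im < y₂}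

/-- a quantitative local chart -/
def Chart (R : C2 → C2) (Ω : Set C2) (K : ℝ) : Prop := ∀ q ∈ Ω,
  AnalyticOnNhd ℂ R (ball q K⁻¹) ∧ ∀ p ∈ ball q K⁻¹, ∀ p' ∈ ball q K⁻¹,
    ‖p - p'‖ ≤ K * ‖R p - R p'‖ ∧ ‖R p - R p'‖ ≤ K * ‖p - p'‖

/-- 5801: the inverse of a chart along a family -/
def S_INV : Prop := ∀ (R L k : C2 → C2) (Ω : Set C2) (K : ℝ), 1 ≤ K → Chart R Ω K →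
  ∃ Ψ : C2 → C2, ∀ x, AnalyticAt ℂ L x → ContinuousAt k x → k x ∈ Ω →
    ‖L x - R (k x)‖ < 1 / (4 * K ^ 2) →
    AnalyticAt ℂ Ψ x ∧ R (Ψ x) = L x ∧ ‖Ψ x - k x‖ ≤ K * ‖L x - R (k x)‖

/-- 5802: two constants on a truncated sector with apex `c` -/
def S_SECT : Prop := ∀ (D : ℂ → C2) (c : ℂ) (A h M S : ℝ), 2 ≤ A → 0 ≤ S → 0 ≤ M →
  (∀ z : ℂ, |(z - c).re| ≤ A * (c - z).im → (c - z).im ≤ h → DifferentiableAt ℂ D z ∧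
    ‖D z‖ ≤ M ∧ ((c - z).im = h → ‖D z‖ ≤ M * Real.exp (-S))) →
  ∀ z : ℂ, |(z - c).re| ≤ (c - z).im → 1 ≤ (c - z).im → (c - z).im ≤ h →
    ‖D z‖ ≤ M * Real.exp (-(S / (10 * A ^ 2 * h ^ (1 + 1 / A))))

/-- 5803: no continuous square root on a circle -/
def S_NOSQ : Prop := ∀ (η : ℂ → ℂ) (c : ℂ) (R : ℝ), 0 < R → ContinuousOn η (sphere c R) →
  ¬ ∀ z ∈ sphere c R, ‖η z ^ 2 - (z - c)‖ ≤ R / 2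

/-- 5804: a family which follows the step on an open set follows it everywhere -/
def S_TRK : Prop := ∀ (T α : C2 → C2) (U : Set C2) (a : ℂ) (J : ℕ), IsOpen U →
  IsPreconnected U → (∃ q ∈ U, sh q a ∈ U) →
  (∀ q ∈ U, ∀ j ≤ J, AnalyticAt ℂ α (sh q (a * j))) →
  (∀ q ∈ U, ∀ j < J, AnalyticAt ℂ T (T^[j] (α q))) →
  (∃ q₀ ∈ U, ∀ᶠ q in 𝓝 q₀, α (sh q a) = T (α q)) →
  ∀ q ∈ U, ∀ j ≤ J, α (sh q (a * j)) = T^[j] (α q)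

/-- the annulus of states -/
def An (l L e : ℝ) : Set C2 := {s | l < ‖s.1‖ ^ 2 ∧ ‖s.1‖ ^ 2 < L ∧ ‖s.2‖ < e}

/-- the step in the direction `a = ± 1` -/
structure Stp (T : C2 → C2) (a C l L e η ν : ℝ) : Prop where
  an : AnalyticOnNhd ℂ T (An l L e)
  th : ∀ s ∈ An l L e, ‖(T s).1 ^ 2 - s.1 ^ 2 - a‖ ≤ C * (‖s.2‖ + η + 1 / ‖s.1‖ ^ 2)
  e1 : ∀ s ∈ An l L e, ‖(T s).2‖ ≤ (1 + C / ‖s.1‖ ^ 2) * ‖s.2‖ + C / ‖s.1‖ ^ 4 + ν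
  e2 : ∀ s ∈ An l L e, a * (s.1 ^ 2).re ≤ 0 → ‖(T s).2‖ ≤
    (1 + C * (‖s.2‖ + η + 1 / ‖s.1‖ ^ 2) / ‖s.1‖ ^ 2) * ‖s.2‖ + C / ‖s.1‖ ^ 4 + ν
  cr : ∀ s ∈ An l L e, ‖(T s).1 - s.1‖ * ‖s.1‖ ≤ C ∧ ‖(T s).2 - s.2‖ * ‖s.1‖ ^ 2 ≤ C

/-- a clean family at the distance `8 L` before the obstacle `ξ` -/
structure Gate (Z : C2 → C2) (a : ℝ) (f ξ : ℂ) (L β : ℝ) : Prop where
  c : |a * ξ.re - 8 * L| ≤ L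
  f1 : ‖f‖ ≤ 1
  bx : ∀ q ∈ Bx (4 * L) (ξ.im - 4 * L) (ξ.im + 4 * L) L, AnalyticAt ℂ Z q ∧ ‖(Z q).2‖ ≤ β ∧
    ‖(Z q).1 ^ 2 - (q.1 - f * q.2 - ξ)‖ ≤ β * L

/-- the orbit of the label `q` stays off the core up to the step `j` -/
structure Alw (a A ℓ l₁ : ℝ) (ξ : ℂ) (q : C2) (j : ℕ) : Prop where
  z : ‖q.2‖ ≤ 3
  d : A * max ℓ |q.1.im - ξ.im| ≤ l₁
  x : |q.1.re| ≤ A * max ℓ |q.1.im - ξ.im|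
  r : a * (q.1.re - ξ.re) + j ≤ A * max ℓ |q.1.im - ξ.im|
  o : a * (q.1.re - ξ.re) + j ≤ -ℓ ∨ ℓ ≤ |q.1.im - ξ.im|

/-- the result of the approach -/
def App (T Z : C2 → C2) (a A ℓ l₁ l L e δ B : ℝ) (ξ : ℂ) : Prop := ∀ (q : C2) (j : ℕ),
  Alw a A ℓ l₁ ξ q j → AnalyticAt ℂ (fun p => T^[j] (Z p)) q ∧
    T^[j] (Z q) ∈ An (4 * l) (L / 2) (e / 4) ∧ ‖(T^[j] (Z q)).2‖ ≤ δ ∧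
    ‖(T^[j] (Z q)).1 ^ 2 - (q.1 + a * j - ξ)‖ ≤ δ * ‖q.1 + a * j - ξ‖ ∧
    ∑ i ∈ Finset.range j, 1 / ‖(T^[i] (Z q)).1‖ ^ 2 ≤ B

/-- 5805: the approach (dyadic induction) -/
def S_APP : Prop := ∀ C e A δ : ℝ, 1 ≤ C → 0 < e → 2 ≤ A → 0 < δ → ∃ ℓ₀ β₀ C₁ : ℝ, 0 < β₀ ∧
  ∀ (T Z : C2 → C2) (a ℓ l₁ l L η ν β : ℝ) (f ξ₀ : ℂ), ℓ₀ ≤ ℓ → (a = 1 ∨ a = -1) →
    Stp T a C l L e η ν → Gate Z a f ξ₀ l₁ β → 0 ≤ η → 0 ≤ ν → 0 ≤ β → 0 < l → 10 * l ≤ ℓ →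
    60 * l₁ ≤ L → A * ℓ ≤ l₁ → (Real.log l₁ + 1) * (β + η + ν * l₁) ≤ β₀ →
    ∃ ξ : ℂ, ‖ξ - ξ₀‖ ≤ δ * l₁ ∧ App T Z a A ℓ l₁ l L e δ (C₁ * (Real.log l₁ + 1)) ξ

/-- 5806: orbits near a reference orbit -/
def S_LIP : Prop := ∀ C e : ℝ, 1 ≤ C → 0 < e → ∃ C₂ : ℝ, 1 ≤ C₂ ∧
  ∀ (T : C2 → C2) (a l L η ν B : ℝ) (r : ℕ → C2) (j : ℕ), 1 ≤ l → Stp T a C l L e η ν →
    (∀ i ≤ j, r i ∈ An (2 * l) (L / 2) (e / 2)) → (∀ i < j, r (i + 1) = T (r i)) →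
    ∑ i ∈ Finset.range j, 1 / ‖(r i).1‖ ^ 2 ≤ B → ∀ s s' : C2,
    ‖s - r 0‖ * (C₂ * L * Real.exp (C₂ * B)) ≤ 1 → ‖s' - r 0‖ * (C₂ * L * Real.exp (C₂ * B)) ≤ 1 →
    ∀ i ≤ j, T^[i] s ∈ An l L e ∧
      ‖T^[i] s - T^[i] s'‖ ≤ C₂ * L * Real.exp (C₂ * B) * ‖s - s'‖

/-- the inner system: the next vertex `v` solves `F (s, v) = 0`, the next state is `G (s, v)` -/
structure Sys (𝒰 : Filter ℕ) (O : Set C2) (F : C2 × ℂ → ℂ) (G : C2 × ℂ → C2)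
    (Fn : ℕ → C2 × ℂ → ℂ) (Gn : ℕ → C2 × ℂ → C2) : Prop where
  op : IsOpen O
  aF : AnalyticOnNhd ℂ F (O ×ˢ univ)
  aG : AnalyticOnNhd ℂ G (O ×ˢ univ)
  mG : MapsTo G (O ×ˢ univ) O
  cF : TendstoLocallyUniformlyOn Fn F 𝒰 (O ×ˢ univ)
  cG : TendstoLocallyUniformlyOn Gn G 𝒰 (O ×ˢ univ)
  an : ∀ x ∈ O ×ˢ (univ : Set ℂ), ∃ ρ > 0, ∀ᶠ n in 𝒰,
    AnalyticOnNhd ℂ (Fn n) (ball x ρ) ∧ AnalyticOnNhd ℂ (Gn n) (ball x ρ)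

/-- 5807: a column through the core -/
def S_INNER : Prop := ∀ (𝒰 : Ultrafilter ℕ) (O : Set C2) (F : C2 × ℂ → ℂ) (G : C2 × ℂ → C2)
  (Fn : ℕ → C2 × ℂ → ℂ) (Gn : ℕ → C2 × ℂ → C2) (J : ℕ) (h m : ℝ) (K₀ : Set C2)
  (S : ℕ → ℕ → C2 → C2) (V : ℕ → ℕ → C2 → ℂ) (σ : ℕ → ℕ → ℂ → C2) (u : ℕ → ℕ → ℂ → ℂ),
  Sys 𝒰 O F G Fn Gn → 3 ≤ h → 0 < m → IsCompact K₀ → K₀ ⊆ O →
  (∀ᶠ n in (𝒰 : Filter ℕ), ∀ q ∈ Rc 0 2 (-h) 1 ×ˢ ball (0 : ℂ) 1,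
    AnalyticAt ℂ (S n 0) q ∧ S n 0 q ∈ K₀) →
  (∀ᶠ n in (𝒰 : Filter ℕ), ∀ q ∈ Rc 0 2 (-h) (-h + 2) ×ˢ ball (0 : ℂ) 1, ∀ j < J,
    AnalyticAt ℂ (V n j) q ∧ S n j q ∈ K₀ ∧ ‖V n j q‖ ≤ 1 / m ∧ Fn n (S n j q, V n j q) = 0 ∧
    m ≤ ‖fderiv ℂ (Fn n) (S n j q, V n j q) (0, 1)‖ ∧ S n (j + 1) q = Gn n (S n j q, V n j q)) →
  (∀ lam > 0, ∀ᶠ n in (𝒰 : Filter ℕ), ∀ t ∈ Rc 0 2 (-h) (-lam),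
    ‖σ n 0 t - S n 0 (t, 0)‖ ≤ lam ∧ ∀ j < J, AnalyticAt ℂ (σ n j) t ∧ AnalyticAt ℂ (u n j) t ∧
      (σ n j t ∈ O → Fn n (σ n j t, u n j t) = 0 ∧ σ n (j + 1) t = Gn n (σ n j t, u n j t)) ∧
      (t.im < -h + 2 → ‖u n j t - V n j (t, 0)‖ ≤ lam)) →
  ∀ x₁ x₂ : ℝ, -1 ≤ x₁ → x₁ < x₂ → x₂ ≤ 1 → ∃ (x ρ : ℝ) (K₁ : Set C2), 0 < ρ ∧ ρ ≤ 1 / 10 ∧
    x₁ ≤ x - ρ ∧ x + ρ ≤ x₂ ∧ IsCompact K₁ ∧ K₁ ⊆ O ∧ ∀ᶠ n in (𝒰 : Filter ℕ), ∃ S' : C2 → C2,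
      ∀ q ∈ Rc x ρ (-h + 1 / 2) ρ ×ˢ ball (0 : ℂ) ρ, AnalyticAt ℂ S' q ∧ S' q ∈ K₁ ∧
        (q.1.im < -h + 3 / 2 → S' q = S n J q)

/-- the local system at an obstacle; `ι` and `κ` change the coordinates -/
structure Loc (𝒰 : Filter ℕ) (O : Set C2) (F : C2 × ℂ → ℂ) (G : C2 × ℂ → C2)
    (Fn : ℕ → C2 × ℂ → ℂ) (Gn : ℕ → C2 × ℂ → C2) (κ ι T Tm : ℕ → C2 → C2) (v : ℕ → C2 → ℂ)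
    (C l e : ℝ) (L η ν : ℕ → ℝ) : Prop where
  sys : Sys 𝒰 O F G Fn Gn
  C1 : 1 ≤ C
  l1 : 1 ≤ l
  e0 : 0 < e
  aκ : ∀ s ∈ O, ∃ ρ M : ℝ, 0 < ρ ∧ ∀ᶠ n in 𝒰,
    AnalyticOnNhd ℂ (κ n) (ball s ρ) ∧ ∀ x ∈ ball s ρ, ‖κ n x‖ ≤ M
  stp : ∀ᶠ n in 𝒰, Stp (T n) 1 C l (L n) e (η n) (ν n) ∧ Stp (Tm n) (-1) C l (L n) e (η n) (ν n) ∧
    ∀ s ∈ An (2 * l) (L n / 2) (e / 2), T n (Tm n s) = s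
  aι : ∀ᶠ n in 𝒰, ∀ s ∈ An l (L n) e, AnalyticAt ℂ (ι n) s ∧ AnalyticAt ℂ (v n) s ∧
    κ n (ι n s) = s ∧ Fn n (ι n s, v n s) = 0 ∧
    (T n s ∈ An l (L n) e → Gn n (ι n s, v n s) = ι n (T n s))
  bd : ∀ R : ℝ, ∃ (K₀ : Set C2) (m : ℝ), IsCompact K₀ ∧ K₀ ⊆ O ∧ 0 < m ∧ ∀ᶠ n in 𝒰,
    ∀ s ∈ An l R e, ι n s ∈ K₀ ∧ ‖v n s‖ ≤ 1 / m ∧ m ≤ ‖fderiv ℂ (Fn n) (ι n s, v n s) (0, 1)‖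

/-- the sizes: depth `h`, width `w`, polynomial bound `K`, smallness `exp (-S)` -/
structure Gr (𝒰 : Filter ℕ) (A : ℝ) (h w K S : ℕ → ℝ) : Prop where
  A2 : 2 ≤ A
  hl : Tendsto h 𝒰 atTop
  hK : ∀ᶠ n in 𝒰, h n ≤ K n
  hw : ∀ b : ℝ, ∀ᶠ n in 𝒰, b * h n * Real.log (h n) ≤ w n
  hS : ∀ b : ℝ, ∀ᶠ n in 𝒰, b * h n ^ (1 + 1 / A) * Real.log (K n) ≤ S n

/-- a gap: the clean chart `C` and the true pair of vertices `Z`, defined below `ω` -/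
structure Gap (𝒰 : Filter ℕ) (h w K S : ℕ → ℝ) (ω : ℂ → ℝ) (C Z : ℕ → C2 → C2) : Prop where
  om : ∀ ζ, |ω ζ| ≤ 2 * ‖ζ‖
  ch : ∀ᶠ n in 𝒰, Chart (C n) (Bx (w n) (-h n) 3 81) (K n)
  cp : ∃ M : ℝ, 0 < M ∧ ∀ᶠ n in 𝒰, ∀ q ∈ Bx (w n) (-h n) 3 81,
    ‖C n q‖ ≤ M ∧ (C n q).1.im ≤ -(1 / M) ∧ (C n q).2.im ≤ -(1 / M)
  tr : ∀ lam > 0, ∀ᶠ n in 𝒰, ∀ q ∈ Bx (w n) (-h n) 3 81, q.1.im ≤ ω q.2 - lam →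
    AnalyticAt ℂ (Z n) q ∧ (Z n q).1.im < 0 ∧ (Z n q).2.im < 0
  dp : ∀ᶠ n in 𝒰, ∀ x ζ : ℝ, |x| ≤ w n → |ζ| ≤ 81 →
    ‖Z n (x - h n * I, ζ) - C n (x - h n * I, ζ)‖ ≤ Real.exp (-S n)

/-- the true family read in the chart -/
def Phi (𝒰 : Filter ℕ) (A : ℝ) (h K S : ℕ → ℝ) (ω : ℂ → ℝ) (C Z Φ : ℕ → C2 → C2) : Prop :=
  ∀ lam > 0, ∀ b : ℕ, ∀ᶠ n in 𝒰, ∀ q ∈ Bx (50 * A * h n) (-h n) 2 2, q.1.im ≤ ω q.2 - lam →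
    AnalyticAt ℂ (Φ n) q ∧ C n (Φ n q) = Z n q ∧ ‖Φ n q - q‖ * K n ^ b ≤ 1 ∧
      (q.1.im ≤ -h n + 1 → ‖Φ n q - q‖ ≤ Real.exp (-(S n / 8)))

/-- 5808 -/
def S_PHI : Prop := ∀ (𝒰 : Filter ℕ) (A : ℝ) (h w K S : ℕ → ℝ) (ω : ℂ → ℝ)
  (C Z : ℕ → C2 → C2), Gr 𝒰 A h w K S → Gap 𝒰 h w K S ω C Z → ∃ Φ, Phi 𝒰 A h K S ω C Z Φ

/-- the deep labels -/
def Dp (h : ℝ) : Set C2 := Rc 0 1 (-h) (-h + 1) ×ˢ ball 0 1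

/-- a transition which is defined up to the top -/
def Far (𝒰 : Filter ℕ) (h K : ℕ → ℝ) (CL ZL CR ZR : ℕ → C2 → C2) : Prop :=
  ∀ᶠ n in 𝒰, ∃ B : C2 → C2,
    (∀ q ∈ Bx 2 (-h n - 1) 1 2, AnalyticAt ℂ B q ∧ ‖B q‖ * (4 * K n) ≤ 1) ∧
    ∀ q ∈ Dp (h n), ∀ p ∈ ball q (2 * K n)⁻¹, CL n p = ZL n q → CR n (p + B p) = ZR n q

/-- an obstacle near the top: gates `L0`, `R0`, true states `α` (outer), `σ`, `u` (inner) -/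
structure Near (𝒰 : Filter ℕ) (A : ℝ) (h K : ℕ → ℝ) (CL ZL CR ZR : ℕ → C2 → C2) (O : Set C2)
    (Fn : ℕ → C2 × ℂ → ℂ) (Gn : ℕ → C2 × ℂ → C2) (ι T Tm : ℕ → C2 → C2) (v : ℕ → C2 → ℂ)
    (l e : ℝ) (L η ν β : ℕ → ℝ) (L0 R0 α σ : ℕ → C2 → C2) (u : ℕ → C2 → ℂ) (ξ f : ℕ → ℂ)
    (N : ℕ → ℕ) : Prop where
  LK : ∀ᶠ n in 𝒰, 600 * A * h n ≤ L n ∧ L n ≤ K n ∧ 0 ≤ η n ∧ 0 ≤ ν n ∧ 0 ≤ β n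
  sm : Tendsto (fun n => (Real.log (10 * A * h n) + 1) * (β n + η n + ν n * (10 * A * h n))) 𝒰
    (𝓝 0)
  gt : ∀ᶠ n in 𝒰, Gate (L0 n) 1 (f n) (ξ n) (10 * A * h n) (β n) ∧
    Gate (R0 n) (-1) (f n) (ξ n - N n) (10 * A * h n) (β n) ∧ |(ξ n).im| ≤ h n / 2 ∧
    Chart (R0 n) (Bx 3 (-h n) 3 2) (K n)
  tr : ∀ lam > 0, ∀ᶠ n in 𝒰, ∀ q ∈ Bx (50 * A * h n) (-h n) 0 2, q.1.im ≤ -(2 * ‖q.2‖) - lam →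
    ∀ j ≤ N n, AnalyticAt ℂ (α n) (sh q j) ∧ AnalyticAt ℂ (σ n) (sh q j) ∧
      AnalyticAt ℂ (u n) (sh q j) ∧
      (σ n (sh q j) ∈ O → Fn n (σ n (sh q j), u n (sh q j)) = 0 ∧
        σ n (sh q (j + 1)) = Gn n (σ n (sh q j), u n (sh q j))) ∧
      (α n (sh q j) ∈ An l (L n) e → σ n (sh q j) = ι n (α n (sh q j)) ∧
        (α n (sh q (j + 1)) = T n (α n (sh q j)) → u n (sh q j) = v n (α n (sh q j))))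
  lk : ∀ᶠ n in 𝒰, ∀ q ∈ Dp (h n), (∀ p ∈ ball q (K n)⁻¹, (CL n p = ZL n q → L0 n p = α n q) ∧
      (CR n p = ZR n q → R0 n p = α n (sh q (N n)))) ∧ α n (sh q 1) = T n (α n q) ∧
    α n (sh q (N n - 1)) = Tm n (α n (sh q (N n)))

def NearE (𝒰 : Filter ℕ) (A : ℝ) (h K : ℕ → ℝ) (CL ZL CR ZR : ℕ → C2 → C2) : Prop :=
  ∃ O F G Fn Gn κ ι T Tm v C l e L η ν β L0 R0 α σ u ξ f N,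
    Loc 𝒰 O F G Fn Gn κ ι T Tm v C l e L η ν ∧
    Near 𝒰 A h K CL ZL CR ZR O Fn Gn ι T Tm v l e L η ν β L0 R0 α σ u ξ f N

/-- the transition continues to a column which crosses the top line -/
def Pass (𝒰 : Filter ℕ) (ΦL ΦR : ℕ → C2 → C2) : Prop := ∀ x₁ x₂ : ℝ, -1 ≤ x₁ → x₁ < x₂ →
  x₂ ≤ 1 → ∃ x ρ : ℝ, 0 < ρ ∧ ρ ≤ 1 / 10 ∧ x₁ ≤ x - ρ ∧ x + ρ ≤ x₂ ∧ ∀ e > 0, ∀ᶠ n in 𝒰,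
    ∃ Ψ : C2 → C2, (∀ q ∈ Rc x ρ (-2) ρ ×ˢ ball (0 : ℂ) ρ, AnalyticAt ℂ Ψ q ∧ ‖Ψ q - q‖ ≤ e) ∧
      ∀ q ∈ Rc x (ρ / 2) (-(3 / 2)) (-1) ×ˢ ball (0 : ℂ) (ρ / 2), ΦR n q = Ψ (ΦL n q)

/-- the weak cone -/
def om0 (ζ : ℂ) : ℝ := -(2 * ‖ζ‖)

/-- the cone of an end gap -/
def omp (a : ℝ) (ζ : ℂ) : ℝ := if 0 ≤ a * ζ.im then a * ζ.im / 2 - ‖ζ‖ / 40 else om0 ζ

def omg (k i : ℕ) : ℂ → ℝ := if i = 0 then omp 1 else if i = k then omp (-1) else om0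

/-- 5809 -/
def S_FAR : Prop := ∀ (𝒰 : Filter ℕ) (A : ℝ) (h w K S : ℕ → ℝ)
  (CL ZL ΦL CR ZR ΦR : ℕ → C2 → C2), Gr 𝒰 A h w K S →
  (∀ᶠ n in 𝒰, Chart (CR n) (Dp (h n)) (K n)) → Phi 𝒰 A h K S om0 CL ZL ΦL →
  Phi 𝒰 A h K S om0 CR ZR ΦR → Far 𝒰 h K CL ZL CR ZR → Pass 𝒰 ΦL ΦR

/-- the passage of an obstacle near the top -/
def S_PASS : Prop := ∀ (𝒰 : Ultrafilter ℕ) (A : ℝ) (h w K S : ℕ → ℝ)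
  (CL ZL ΦL CR ZR ΦR : ℕ → C2 → C2), Gr 𝒰 A h w K S → Phi 𝒰 A h K S om0 CL ZL ΦL →
  Phi 𝒰 A h K S om0 CR ZR ΦR → NearE 𝒰 A h K CL ZL CR ZR → Pass 𝒰 ΦL ΦR

/-- 5810: the discs -/
def S_END : Prop := ∀ (𝒰 : Filter ℕ) (k m : ℕ) (Φ : ℕ → ℕ → C2 → C2), 0 < k → m ≤ k →
  (∀ lam > 0, ∀ e > 0, ∀ᶠ n in 𝒰, ∀ i ≤ k, ∀ q ∈ Bx 2 (-2) 1 1, q.1.im ≤ omg k i q.2 - lam →
    AnalyticAt ℂ (Φ i n) q ∧ ‖Φ i n q - q‖ ≤ e) →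
  (∀ c < k, Pass 𝒰 (Φ c) (Φ (c + 1))) →
  ∃ x μ : ℝ, |x| ≤ 1 ∧ 0 < μ ∧ μ ≤ 1 / 10 ∧ ∀ e > 0, ∀ᶠ n in 𝒰, ∃ P : C2 → C2,
    (∀ q ∈ Rc x μ (-(5 / 4)) μ ×ˢ ball (0 : ℂ) μ, AnalyticAt ℂ P q ∧ ‖P q - q‖ ≤ e) ∧
    P =ᶠ[𝓝 ((x : ℂ) - 6 / 5 * I, (0 : ℂ))] Φ m n

/-- **block E**: the true pair of the gap `m` continues over the top line -/
def Spec_E : Prop := ∀ (𝒰 : Ultrafilter ℕ) (k m : ℕ) (A : ℝ) (h w K S : ℕ → ℝ)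
  (C Z : ℕ → ℕ → C2 → C2), 0 < k → m ≤ k → Gr 𝒰 A h w K S →
  (∀ i ≤ k, Gap 𝒰 h w K S (omg k i) (C i) (Z i)) →
  (∀ c < k, Far 𝒰 h K (C c) (Z c) (C (c + 1)) (Z (c + 1)) ∨
    NearE 𝒰 A h K (C c) (Z c) (C (c + 1)) (Z (c + 1))) →
  ∃ x μ M : ℝ, |x| ≤ 1 ∧ 0 < μ ∧ ∀ᶠ n in (𝒰 : Filter ℕ), ∃ F : C2 → C2,
    (∀ q ∈ Rc x μ (-(5 / 4)) μ ×ˢ ball (0 : ℂ) μ, AnalyticAt ℂ F q ∧ ‖F q‖ ≤ M ∧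
      (F q).1.im < 0 ∧ (F q).2.im < 0) ∧ F =ᶠ[𝓝 ((x : ℂ) - 6 / 5 * I, (0 : ℂ))] Z m n

/-- 5811: the assembly -/
def S_ASM : Prop := S_PHI → S_FAR → S_PASS → S_END → Spec_E

/-! ## the two local systems of the billiard -/

open Vale.Agent.P097N Vale.Agent.P097Mo

/-- outer coordinates of the pair `p` at a zero `z` of `θ'` -/
def acZ (θ : ℂ → ℂ) (k z δ : ℂ) (p : C2) : C2 :=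
  (k * (p.2 - z), deriv θ p.2 * (p.2 - p.1) - 2 * δ)

/-- outer coordinates of the pair `p` at a fold -/
def acF (θ : ℂ → ℂ) (r z δ : ℂ) (p : C2) : C2 :=
  ((deriv θ p.2 * (p.2 - p.1) - 2 * δ) / r, p.2 - z)

/-- the local system describes the law -/
structure Bil (𝒰 : Filter ℕ) (θ h : ℕ → ℂ → ℂ) (U : ℕ → Set ℂ) (ac co : ℕ → C2 → C2)
    (cu : ℕ → C2 → ℂ) (O : Set C2) (Fn : ℕ → C2 × ℂ → ℂ) (Gn : ℕ → C2 × ℂ → C2)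
    (ι T Tm : ℕ → C2 → C2) (v : ℕ → C2 → ℂ) (l e : ℝ) (L : ℕ → ℝ) : Prop where
  an : ∀ n, ∀ p ∈ U n ×ˢ U n, AnalyticAt ℂ (ac n) p ∧ AnalyticAt ℂ (co n) p ∧
    AnalyticAt ℂ (cu n) p
  inn : ∀ᶠ n in 𝒰, ∀ a b c : ℂ, (co n (a, b) ∈ O → EE (θ n) (h n) a b c = 0 →
      Fn n (co n (a, b), cu n (b, c)) = 0 ∧ co n (b, c) = Gn n (co n (a, b), cu n (b, c))) ∧
    (ac n (a, b) ∈ An l (L n) e → co n (a, b) = ι n (ac n (a, b)) ∧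
      (ac n (b, c) = T n (ac n (a, b)) → cu n (b, c) = v n (ac n (a, b))))
  un : ∃ c₀ : ℝ, 0 < c₀ ∧ ∀ᶠ n in 𝒰, ∀ a b c : ℂ, ac n (a, b) ∈ An (2 * l) (L n / 2) (e / 2) →
    ac n (b, c) ∈ An (2 * l) (L n / 2) (e / 2) →
    ‖(ac n (b, c)).1 - (ac n (a, b)).1‖ ≤ c₀ * ‖(ac n (a, b)).1‖ → EE (θ n) (h n) a b c = 0 →
    ac n (b, c) = T n (ac n (a, b)) ∧ ac n (a, b) = Tm n (ac n (b, c))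

/-- a local system with the outer coordinates `ac` -/
def LocB (𝒰 : Filter ℕ) (ε : ℕ → ℂ) (θ h : ℕ → ℂ → ℂ) (U : ℕ → Set ℂ) (ac : ℕ → C2 → C2)
    (L : ℕ → ℝ) : Prop :=
  ∃ O F G Fn Gn κ ι T Tm v C l e co cu,
    Loc 𝒰 O F G Fn Gn κ ι T Tm v C l e L (fun n => √(‖ε n‖ * L n)) (fun n => C * ‖ε n‖) ∧
    Bil 𝒰 θ h U ac co cu O Fn Gn ι T Tm v l e L

/-- 5820: a zero of `g` -/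
def S_LOCZ : Prop := ∀ (𝒰 : Ultrafilter ℕ) ε θ h Q c U g Lw (y₀ δ : ℂ) (z k : ℕ → ℂ) (L : ℕ → ℝ),
  Seq 𝒰 ε θ h Q c U g Lw → y₀ ∈ Lw → g y₀ = 0 → deriv g y₀ ≠ 0 → δ ≠ 0 → Sf δ = 0 →
  Tendsto z 𝒰 (𝓝 y₀) → (∀ᶠ n in (𝒰 : Filter ℕ), deriv (θ n) (z n) = 0 ∧
    4 * δ * k n ^ 2 = deriv (deriv (θ n)) (z n)) →
  Tendsto (fun n => ‖ε n‖ * L n) 𝒰 (𝓝 0) → Tendsto L 𝒰 atTop →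
  LocB 𝒰 ε θ h U (fun n => acZ (θ n) (k n) (z n) δ) L

/-- 5830: a fold -/
def S_LOCF : Prop := ∀ (𝒰 : Ultrafilter ℕ) ε θ h Q c U g Lw (y₀ : ℂ) (j : ℤ) (z r : ℕ → ℂ)
  (L : ℕ → ℝ), Seq 𝒰 ε θ h Q c U g Lw → y₀ ∈ Lw → g y₀ ≠ 0 → deriv g y₀ ≠ 0 → j ≠ 0 →
  Tendsto z 𝒰 (𝓝 y₀) → (∀ᶠ n in (𝒰 : Filter ℕ),
    r n ^ 2 * deriv (θ n) (z n) ^ 2 = -48 * (j * Real.pi) * deriv (deriv (θ n)) (z n)) →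
  Tendsto (fun n => ‖ε n‖ * L n) 𝒰 (𝓝 0) → Tendsto L 𝒰 atTop →
  LocB 𝒰 ε θ h U (fun n => acF (θ n) (r n) (z n) (j * Real.pi)) L

end Vale.Agent.P097EE
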