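import Vale.Agent.P097EE.Defs

/-!
# P097EE: the passage of one obstacle (definitions and statements of the steps)
-/

set_option linter.all false

noncomputable section

namespace Vale.Agent.P097EE

open Filter Topology Set Metric Complex

/-- the labels below the weak cone -/
def Cn (h lam : ℝ) : Set C2 :=
  {q | |q.1.re| < 3 ∧ -h < q.1.im ∧ q.1.im < -(2 * ‖q.2‖) - lam ∧ ‖q.2‖ < 2}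

/-- the row of height `y` stays off the core, with a margin, up to the step `j` -/
def Ok (a ℓ : ℝ) (ξ : ℂ) (y : ℝ) (j : ℕ) : Prop := (j : ℝ) + 4 + ℓ ≤ a * ξ.re ∨
  ∃ D : ℝ, ℓ ≤ D ∧ D + 1 < |y - ξ.im| ∧ (j : ℝ) + 4 ≤ a * ξ.re + 4 * D

/-- one side of the obstacle: the clean orbits and the true orbits -/
structure Sd (T Z α Φ : C2 → C2) (a ℓ l₁ l L e δ B h lam s : ℝ) (ξ : ℂ) (J : ℕ) : Prop where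
  app : App T Z a 4 ℓ l₁ l L e δ B ξ
  alw : ∀ (p : C2) (y : ℝ) (j : ℕ), |p.1.re| ≤ 4 → ‖p.2‖ ≤ 3 → -h - 1 ≤ p.1.im → p.1.im ≤ 3 →
    |p.1.im - y| ≤ 1 → Ok a ℓ ξ y j → Alw a 4 ℓ l₁ ξ p j
  tr : ∀ q ∈ Cn h lam, ∀ j ≤ J, Ok a ℓ ξ q.1.im j → α (sh q (a * j)) = T^[j] (Z (Φ q)) ∧
    ‖α (sh q (a * j)) - T^[j] (Z q)‖ ≤ s

/-- 5812 -/
def S_SIDE : Prop := ∀ (T Z α Φ : C2 → C2) (a ℓ l₁ l L e δ B h lam s C η ν : ℝ) (ξ : ℂ) (J : ℕ),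
  (a = 1 ∨ a = -1) → App T Z a 4 ℓ l₁ l L e δ B ξ → Stp T a C l L e η ν → 1 ≤ l → 0 < e →
  100 ≤ ℓ → 4 * ℓ ≤ l₁ → 4 * (h + |ξ.im| + 4) ≤ l₁ → 4 * ℓ ≤ a * ξ.re → 5 ≤ h → 0 < lam →
  lam ≤ 1 → 0 ≤ s → s ≤ 1 / 2 → 1 ≤ J →
  (∀ q ∈ Cn h lam, AnalyticAt ℂ Φ q ∧ ‖Φ q - q‖ ≤ s ∧ ∀ j ≤ J, AnalyticAt ℂ α (sh q (a * j))) →
  (∀ q ∈ Dp h, Z (Φ q) = α q ∧ α (sh q a) = T (α q)) →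
  Sd T Z α Φ a ℓ l₁ l L e δ B h lam (8 * (L + e) * s) ξ J

/-- the data of an obstacle -/
structure Ob where
  A : ℝ
  h : ℕ → ℝ
  w : ℕ → ℝ
  K : ℕ → ℝ
  S : ℕ → ℝ
  CL : ℕ → C2 → C2
  ZL : ℕ → C2 → C2
  ΦL : ℕ → C2 → C2
  CR : ℕ → C2 → C2
  ZR : ℕ → C2 → C2
  ΦR : ℕ → C2 → C2
  O : Set C2
  F : C2 × ℂ → ℂ
  G : C2 × ℂ → C2
  Fn : ℕ → C2 × ℂ → ℂ
  Gn : ℕ → C2 × ℂ → C2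
  κ : ℕ → C2 → C2
  ι : ℕ → C2 → C2
  T : ℕ → C2 → C2
  Tm : ℕ → C2 → C2
  v : ℕ → C2 → ℂ
  C : ℝ
  l : ℝ
  e : ℝ
  L : ℕ → ℝ
  η : ℕ → ℝ
  ν : ℕ → ℝ
  β : ℕ → ℝ
  L0 : ℕ → C2 → C2
  R0 : ℕ → C2 → C2
  α : ℕ → C2 → C2
  σ : ℕ → C2 → C2
  u : ℕ → C2 → ℂ
  ξ : ℕ → ℂ
  f : ℕ → ℂ
  N : ℕ → ℕ

namespace Ob

variable (D : Ob) (𝒰 : Filter ℕ)

structure Good : Prop where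
  gr : Gr 𝒰 D.A D.h D.w D.K D.S
  pL : Phi 𝒰 D.A D.h D.K D.S om0 D.CL D.ZL D.ΦL
  pR : Phi 𝒰 D.A D.h D.K D.S om0 D.CR D.ZR D.ΦR
  loc : Loc 𝒰 D.O D.F D.G D.Fn D.Gn D.κ D.ι D.T D.Tm D.v D.C D.l D.e D.L D.η D.ν
  nr : Near 𝒰 D.A D.h D.K D.CL D.ZL D.CR D.ZR D.O D.Fn D.Gn D.ι D.T D.Tm D.v D.l D.e D.L D.η D.ν
    D.β D.L0 D.R0 D.α D.σ D.u D.ξ D.f D.N

/-- both sides; `cL`, `cR` are the centres seen from the left and from the right -/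
structure Two (ℓ : ℕ) (C₁ : ℝ) (cL cR : ℕ → ℂ) : Prop where
  l1 : 100 ≤ ℓ
  l2 : 10 * D.l ≤ ℓ
  C0 : 0 ≤ C₁
  geo : ∀ᶠ n in 𝒰, |(cL n).im| ≤ 3 / 5 * D.h n ∧ ‖cL n - cR n‖ ≤ D.h n / 10 ∧
    D.h n ≤ (cL n).re ∧ (cL n).re + D.h n ≤ D.N n
  sd : ∀ lam > 0, ∀ b : ℕ, ∀ᶠ n in 𝒰,
    Sd (D.T n) (D.L0 n) (D.α n) (D.ΦL n) 1 ℓ (10 * D.A * D.h n) D.l (D.L n) D.e (1 / 400)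
      (C₁ * (Real.log (D.K n) + 1)) (D.h n) lam (1 / D.K n ^ b) (cL n) (D.N n) ∧
    Sd (D.Tm n) (D.R0 n) (fun q => D.α n (sh q (D.N n))) (D.ΦR n) (-1) ℓ (10 * D.A * D.h n) D.l
      (D.L n) D.e (1 / 400) (C₁ * (Real.log (D.K n) + 1)) (D.h n) lam (1 / D.K n ^ b)
      (cR n - D.N n) (D.N n)

/-- the left clean family continues to a column at a place which is free from the right -/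
def Xd (ℓ : ℕ) (cL cR : ℕ → ℂ) (x ρ H : ℝ) : Prop := ∀ᶠ n in 𝒰, ∃ (j : ℕ) (X : C2 → C2),
  j ≤ D.N n ∧ (∀ y ∈ Icc (-H) 1, Ok (-1) ℓ (cR n - D.N n) y (D.N n - j)) ∧
  (∀ y ∈ Icc (-H) (-H + 1), Ok 1 ℓ (cL n) y j) ∧
  ∀ q ∈ Rc x ρ (-H) ρ ×ˢ ball (0 : ℂ) ρ, AnalyticAt ℂ X q ∧ ‖X q‖ ≤ D.K n ∧
    (q.1.im < -H + 1 → X q = (D.T n)^[j] (D.L0 n q))

end Ob

/-- the two centres are close -/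
def Cen (𝒰 : Filter ℕ) (ℓ : ℕ) (cL cR : ℕ → ℂ) : Prop :=
  ∀ᶠ n in 𝒰, ‖cL n - cR n‖ ≤ (ℓ + max 0 (cL n).im) / 50

/-- 5813 (from `S_APP`, `S_SIDE`) -/
def S_TWO : Prop := ∀ (D : Ob) (𝒰 : Filter ℕ), D.Good 𝒰 → ∃ ℓ C₁ cL cR, D.Two 𝒰 ℓ C₁ cL cR

/-- 5814 -/
def S_CEN : Prop := ∀ (D : Ob) (𝒰 : Filter ℕ) ℓ C₁ cL cR, D.Good 𝒰 → D.Two 𝒰 ℓ C₁ cL cR →
  Cen 𝒰 ℓ cL cR

/-- 5815 (from `S_NOSQ`) -/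
def S_LEV : Prop := ∀ (D : Ob) (𝒰 : Filter ℕ) ℓ C₁ cL cR, D.Good 𝒰 → D.Two 𝒰 ℓ C₁ cL cR →
  Cen 𝒰 ℓ cL cR → ∀ᶠ n in 𝒰, -(4 * ℓ : ℝ) < (cL n).im

/-- 5816 (from `S_LIP`, `S_INV`) -/
def S_FINI : Prop := ∀ (D : Ob) (𝒰 : Filter ℕ) ℓ C₁ cL cR (x ρ H : ℝ), D.Good 𝒰 →
  D.Two 𝒰 ℓ C₁ cL cR → |x| ≤ 1 → 0 < ρ → ρ ≤ 1 / 10 → 3 ≤ H → D.Xd 𝒰 ℓ cL cR x ρ H →
  ∀ e > 0, ∀ᶠ n in 𝒰, ∃ Ψ : C2 → C2,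
    (∀ q ∈ Rc x (ρ / 4) (-2) (ρ / 4) ×ˢ ball (0 : ℂ) (ρ / 4), AnalyticAt ℂ Ψ q ∧ ‖Ψ q - q‖ ≤ e) ∧
    ∀ q ∈ Rc x (ρ / 4 / 2) (-(3 / 2)) (-1) ×ˢ ball (0 : ℂ) (ρ / 4 / 2), D.ΦR n q = Ψ (D.ΦL n q)

/-- 5817 (from `S_INNER`): the obstacle is within a bounded number of steps of the top -/
def S_CORE : Prop := ∀ (D : Ob) (𝒰 : Ultrafilter ℕ) ℓ C₁ cL cR, D.Good 𝒰 → D.Two 𝒰 ℓ C₁ cL cR →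
  Cen 𝒰 ℓ cL cR → (∀ᶠ n in (𝒰 : Filter ℕ), -(4 * ℓ : ℝ) < (cL n).im ∧ (cL n).im < 2 * ℓ) →
  ∀ x₁ x₂ : ℝ, -1 ≤ x₁ → x₁ < x₂ → x₂ ≤ 1 → ∃ x ρ H : ℝ, 0 < ρ ∧ ρ ≤ 1 / 10 ∧ x₁ ≤ x - ρ ∧
    x + ρ ≤ x₂ ∧ 3 ≤ H ∧ D.Xd 𝒰 ℓ cL cR x ρ H

/-- 5818: the obstacle is high above the top -/
def S_ROW : Prop := ∀ (D : Ob) (𝒰 : Filter ℕ) ℓ C₁ cL cR (x ρ : ℝ), D.Good 𝒰 →
  D.Two 𝒰 ℓ C₁ cL cR → Cen 𝒰 ℓ cL cR → (∀ᶠ n in 𝒰, (2 * ℓ : ℝ) ≤ (cL n).im) → |x| ≤ 1 →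
  0 < ρ → ρ ≤ 1 / 10 → D.Xd 𝒰 ℓ cL cR x ρ 3

/-- the assembly of the passage -/
theorem pass_of (h1 : S_TWO) (h2 : S_CEN) (h3 : S_LEV) (h4 : S_FINI) (h5 : S_CORE)
    (h6 : S_ROW) : S_PASS := by
  rintro 𝒰 A h w K S CL ZL ΦL CR ZR ΦR gr pL pR
    ⟨O, F, G, Fn, Gn, κ, ι, T, Tm, v, C, l, e, L, η, ν, β, L0, R0, α, σ, u, ξ, f, N, loc, nr⟩
  let D : Ob := ⟨A, h, w, K, S, CL, ZL, ΦL, CR, ZR, ΦR, O, F, G, Fn, Gn, κ, ι, T, Tm, v, C, l, e,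
    L, η, ν, β, L0, R0, α, σ, u, ξ, f, N⟩
  have g : D.Good 𝒰 := ⟨gr, pL, pR, loc, nr⟩
  obtain ⟨ℓ, C₁, cL, cR, t⟩ := h1 D 𝒰 g
  have c := h2 D 𝒰 ℓ C₁ cL cR g t
  have lv := h3 D 𝒰 ℓ C₁ cL cR g t c
  intro x₁ x₂ a1 a2 a3
  have key : ∃ x ρ H : ℝ, 0 < ρ ∧ ρ ≤ 1 / 10 ∧ x₁ ≤ x - ρ ∧ x + ρ ≤ x₂ ∧ 3 ≤ H ∧
      D.Xd 𝒰 ℓ cL cR x ρ H := by
    rcases 𝒰.em (fun n => (cL n).im < 2 * ℓ) with b | b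
    · exact h5 D 𝒰 ℓ C₁ cL cR g t c (lv.and b) x₁ x₂ a1 a2 a3
    · have m1 := min_le_left (1 / 10 : ℝ) ((x₂ - x₁) / 2)
      have m2 := min_le_right (1 / 10 : ℝ) ((x₂ - x₁) / 2)
      have m0 : 0 < min (1 / 10 : ℝ) ((x₂ - x₁) / 2) := lt_min (by norm_num) (by linarith)
      exact ⟨(x₁ + x₂) / 2, _, 3, m0, m1, by linarith, by linarith, le_rfl,
        h6 D 𝒰 ℓ C₁ cL cR _ _ g t c (b.mono fun n hn => not_lt.1 hn)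
          (abs_le.2 ⟨by linarith, by linarith⟩) m0 m1⟩
  obtain ⟨x, ρ, H, r0, r1, r2, r3, H3, X⟩ := key
  exact ⟨x, ρ / 4, by linarith, by linarith, by linarith, by linarith,
    h4 D 𝒰 ℓ C₁ cL cR x ρ H g t (abs_le.2 ⟨by linarith, by linarith⟩) r0 r1 H3 X⟩

end Vale.Agent.P097EE
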