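import Vale.Agent.P097T.EndTop1

/-! A root of an analytic equation on a half disc continues over some disc centred on the
diameter. -/

open Filter Metric Set Topology

namespace Vale.Agent.P097EE

open Vale.Agent.P097T Vale.Agent.P097T.EndTop

theorem imp2 {f : ℂ × ℂ → ℂ} {p x : ℂ} (hf : AnalyticAt ℂ f (p, x))
    (h : fderiv ℂ f (p, x) (0, 1) ≠ 0) :
    ∃ ψ : ℂ → ℂ, AnalyticAt ℂ ψ p ∧ ψ p = x ∧
      ∀ᶠ v in 𝓝 (p, x), f v = f (p, x) ↔ ψ v.1 = v.2 := by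
  have c : ContDiffAt ℂ ⊤ f (p, x) := hf.contDiffAt
  have i : (fderiv ℂ f (p, x) ∘L .inr ℂ ℂ ℂ).IsInvertible :=
    ⟨ContinuousLinearEquiv.unitsEquivAut ℂ (Units.mk0 _ h), by ext; simp⟩
  exact ⟨c.implicitFunction (by simp) i,
    (c.contDiffAt_implicitFunction (by simp) i).analyticAt,
    c.implicitFunction_apply_self (by simp) i,
    c.eventually_apply_eq_iff_implicitFunction (by simp) i⟩

theorem zeros_countable {g : ℂ → ℂ} (hg : AnalyticOnNhd ℂ g univ) (h0 : ∃ w, g w ≠ 0) :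
    {w | g w = 0}.Countable := by
  obtain ⟨w0, hw0⟩ := h0
  have hiso : ∀ w, ∀ᶠ v in 𝓝[≠] w, g v ≠ 0 := fun w =>
    (hg w (mem_univ _)).eventually_eq_zero_or_eventually_ne_zero.resolve_left fun h => hw0
      (hg.eqOn_zero_of_preconnected_of_eventuallyEq_zero isPreconnected_univ (mem_univ w) h
        (mem_univ w0))
  have hd : DiscreteTopology {w | g w = 0} := by
    refine discreteTopology_subtype_iff.2 fun w _ => ?_
    rw [Filter.inf_principal_eq_bot]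
    exact hiso w
  exact Set.countable_coe_iff.1 (TopologicalSpace.separableSpace_iff_countable.1 inferInstance)

/-- at a point of the diameter a root tends to infinity or has a finite limit -/
theorem lim_or {F : ℂ × ℂ → ℂ} {v : ℂ → ℂ} {y z : ℂ} {δ : ℝ}
    (hF : AnalyticOnNhd ℂ F (ball y δ ×ˢ univ)) (hv : DifferentiableOn ℂ v (HD y δ))
    (h0 : ∀ t ∈ HD y δ, F (t, v t) = 0) (hz : z ∈ ball y δ) (hi : z.im = y.im)
    (hne : ∃ w, F (z, w) ≠ 0) :
    Tendsto v (Fl z) (Bornology.cobounded ℂ) ∨ ∃ l, Tendsto v (Fl z) (𝓝 l) ∧ F (z, l) = 0 := by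
  have := fl_neBot z
  have hm := hd_mem' hz hi
  have hcl : ∀ c, MapClusterPt c (Fl z) v → F (z, c) = 0 := by
    intro c hc
    obtain ⟨U, hU, hc'⟩ := mapClusterPt_iff_ultrafilter.1 hc
    have h1 : Tendsto (fun t => (t, v t)) U (𝓝 (z, c)) :=
      (tendsto_id.mono_left (hU.trans (fl_le z))).prodMk_nhds hc'
    have h2 := ((hF (z, c) ⟨hz, mem_univ _⟩).continuousAt.tendsto).comp h1
    exact tendsto_nhds_unique h2 (tendsto_const_nhds.congr'
      (mem_of_superset (hU hm) fun t ht => (h0 t ht).symm))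
  by_cases hb : Tendsto v (Fl z) (Bornology.cobounded ℂ)
  · exact Or.inl hb
  right
  rw [← tendsto_norm_atTop_iff_cobounded, Filter.tendsto_atTop] at hb
  push Not at hb
  obtain ⟨b, hb⟩ := hb
  obtain ⟨l, -, hl⟩ := (isCompact_closedBall (0 : ℂ) b).exists_mapClusterPt_of_frequently
    (l := Fl z) (f := v) (hb.mono fun t ht => by simpa using ht.le)
  obtain ⟨e, he, hsub⟩ := mem_fl.1 hm
  have ha : AnalyticOnNhd ℂ (fun w => F (z, w)) univ := fun w _ =>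
    (hF (z, w) ⟨hz, mem_univ _⟩).comp₂ analyticAt_const analyticAt_id
  exact ⟨l, clus he (hv.continuousOn.mono hsub) (zeros_countable ha hne) hcl hl, hcl l hl⟩

/-- **DISC.** -/
theorem disc {F : ℂ × ℂ → ℂ} {v : ℂ → ℂ} {y : ℂ} {δ : ℝ} (hδ : 0 < δ)
    (hF : AnalyticOnNhd ℂ F (ball y δ ×ˢ univ)) (hv : DifferentiableOn ℂ v (HD y δ))
    (h0 : ∀ t ∈ HD y δ, F (t, v t) = 0)
    (hne : ∀ z ∈ ball y δ, z.im = y.im → ∃ w, F (z, w) ≠ 0)
    (hnd : ∃ t ∈ HD y δ, fderiv ℂ F (t, v t) (0, 1) ≠ 0) :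
    ∃ z ∈ ball y δ, z.im = y.im ∧ ∃ e > 0, ball z e ⊆ ball y δ ∧ ∃ ψ : ℂ → ℂ,
      DifferentiableOn ℂ ψ (ball z e) ∧ (∀ t ∈ HD z e, ψ t = v t) ∧
      ∀ t ∈ ball z e, F (t, ψ t) = 0 ∧ fderiv ℂ F (t, ψ t) (0, 1) ≠ 0 := by
  have hsub : ∀ z ∈ ball y δ, z.im = y.im → ∀ s ∈ Fl z, ∃ e > 0, ball z e ⊆ ball y δ ∧
      HD z e ⊆ HD y δ ∧ HD z e ⊆ s := by
    intro z hz hi s hs
    obtain ⟨e1, he1, h1⟩ := Metric.isOpen_iff.1 isOpen_ball z hz
    obtain ⟨e2, he2, h2⟩ := mem_fl.1 hs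
    have h3 : ball z (min e1 e2) ⊆ ball y δ := (ball_subset_ball (min_le_left _ _)).trans h1
    exact ⟨min e1 e2, lt_min he1 he2, h3, fun t ht => ⟨h3 ht.1, by
      have h4 : t.im < z.im := ht.2; show t.im < y.im; rwa [← hi]⟩,
      (hd_mono z (min_le_right _ _)).trans h2⟩
  -- a point with a finite limit
  have hfin : ∃ z ∈ ball y δ, z.im = y.im ∧ ∃ l, Tendsto v (Fl z) (𝓝 l) := by
    by_contra hn
    push Not at hn
    have hinf : ∀ z ∈ ball y δ, z.im = y.im → Tendsto v (Fl z) (Bornology.cobounded ℂ) :=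
      fun z hz hi => (lim_or hF hv h0 hz hi (hne z hz hi)).resolve_right
        fun ⟨l, hl, _⟩ => hn z hz hi l hl
    have h1 : ∀ᶠ t in Fl y, v t ≠ 0 :=
      (hinf y (mem_ball_self hδ) rfl).eventually
        (Bornology.isBounded_singleton (x := (0 : ℂ))).compl
    obtain ⟨e, he, hb, hh, hs⟩ := hsub y (mem_ball_self hδ) rfl _ h1
    have h2 := bu' he ((hv.mono hh).inv hs)
      fun z hz hi => Filter.tendsto_inv₀_cobounded.comp (hinf z (hb hz) hi)
    have := fl_neBot y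
    obtain ⟨t, ht⟩ := Filter.nonempty_of_mem (hd_mem y he)
    exact hs ht (inv_eq_zero.1 (h2 t ht))
  obtain ⟨z0, hz0, hi0, l0, hl0⟩ := hfin
  obtain ⟨e0, he0, hb0, hh0, hs0⟩ := hsub z0 hz0 hi0 _ (hl0 (ball_mem_nhds l0 one_pos))
  have hlim : ∀ z ∈ ball z0 e0, z.im = z0.im → ∃ l, Tendsto v (Fl z) (𝓝 l) ∧ F (z, l) = 0 := by
    intro z hz hi
    refine (lim_or hF hv h0 (hb0 hz) (hi.trans hi0) (hne z (hb0 hz) (hi.trans hi0))).resolve_left
      fun h => ?_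
    have := fl_neBot z
    obtain ⟨t, h1, h2⟩ := ((h.eventually (isBounded_ball (x := l0) (r := 1)).compl).and
      (hd_mem' hz hi)).exists
    exact h1 (hs0 h2)
  have hD : AnalyticOnNhd ℂ (fun p => fderiv ℂ F p (0, 1)) (ball y δ ×ˢ univ) := fun p hp =>
    ((ContinuousLinearMap.apply ℂ ℂ ((0, 1) : ℂ × ℂ)).analyticAt _).comp (hF p hp).fderiv
  have hgood : ∃ z ∈ ball z0 e0, z.im = z0.im ∧ ∃ l, Tendsto v (Fl z) (𝓝 l) ∧ F (z, l) = 0 ∧
      fderiv ℂ F (z, l) (0, 1) ≠ 0 := by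
    by_contra hn
    push Not at hn
    have hg : AnalyticOnNhd ℂ (fun t => fderiv ℂ F (t, v t) (0, 1)) (HD y δ) := fun t ht =>
      (hD (t, v t) ⟨ht.1, mem_univ _⟩).comp₂ analyticAt_id
        (hv.analyticOnNhd (hd_open y δ) t ht)
    have h1 := bu' he0 (hg.differentiableOn.mono hh0) fun z hz hi => by
      obtain ⟨l, hl, hl'⟩ := hlim z hz hi
      have h2 := ((hD (z, l) ⟨hb0 hz, mem_univ _⟩).continuousAt.tendsto).comp
        ((tendsto_id.mono_left (fl_le z)).prodMk_nhds hl)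
      rw [hn z hz hi l hl hl'] at h2
      exact h2
    have := fl_neBot z0
    obtain ⟨t0, ht0⟩ := Filter.nonempty_of_mem (hd_mem z0 he0)
    obtain ⟨t, ht, ht'⟩ := hnd
    exact ht' (hg.eqOn_zero_of_preconnected_of_eventuallyEq_zero (hd_convex y δ).isPreconnected
      (hh0 ht0) (mem_of_superset ((hd_open z0 e0).mem_nhds ht0) h1) ht)
  obtain ⟨z, hz, hi, l, hl, hl0', hld⟩ := hgood
  have hzb := hb0 hz
  obtain ⟨ψ, hψ, hψl, hψe⟩ := imp2 (hF (z, l) ⟨hzb, mem_univ _⟩) hld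
  rw [hl0'] at hψe
  have ht1 : Tendsto (fun t => (t, ψ t)) (𝓝 z) (𝓝 (z, l)) :=
    tendsto_id.prodMk_nhds (hψl ▸ hψ.continuousAt.tendsto)
  have e1 : ∀ᶠ t in 𝓝 z, F (t, ψ t) = 0 := (ht1.eventually hψe).mono fun t ht => ht.2 rfl
  have e2 : ∀ᶠ t in 𝓝 z, fderiv ℂ F (t, ψ t) (0, 1) ≠ 0 :=
    ht1.eventually ((hD (z, l) ⟨hzb, mem_univ _⟩).continuousAt.eventually_ne hld)
  have e3 : ∀ᶠ t in Fl z, ψ t = v t := by
    filter_upwards [((tendsto_id.mono_left (fl_le z)).prodMk_nhds hl).eventually hψe,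
      hd_mem' hzb (hi.trans hi0)] with t h1 h2
    exact h1.1 (h0 t h2)
  obtain ⟨e, he, hb, -, hs⟩ := hsub z hzb (hi.trans hi0) _ e3
  obtain ⟨e', he', hs'⟩ := Metric.eventually_nhds_iff_ball.1
    ((e1.and e2).and hψ.eventually_analyticAt)
  refine ⟨z, hzb, hi.trans hi0, min e e', lt_min he he',
    (ball_subset_ball (min_le_left _ _)).trans hb, ψ, fun t ht => ?_,
    fun t ht => hs (hd_mono z (min_le_left _ _) ht),
    fun t ht => (hs' t (ball_subset_ball (min_le_right _ _) ht)).1⟩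
  exact (hs' t (ball_subset_ball (min_le_right _ _) ht)).2.differentiableAt.differentiableWithinAt

end Vale.Agent.P097EE
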