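import Vale.Agent.P097EE.FiniA

/-!
# P097EE: the end of the passage
-/

set_option linter.all false

noncomputable section

namespace Vale.Agent.P097EE

open Filter Topology Set Metric Complex

namespace Fi

structure Hy (T Tm L0 R0 α ΦL ΦR X : C2 → C2) (ℓ l₁ l L e δ B h s K K₂ t x ρ H : ℝ) (cL cR : ℂ)
    (N j : ℕ) : Prop where
  jN : j ≤ N
  x1 : |x| ≤ 1
  r0 : 0 < ρ
  r1 : ρ ≤ 1 / 10
  H3 : 3 ≤ H
  Hh : H ≤ h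
  l1 : 1 ≤ l
  e0 : 0 < e
  K1 : 1 ≤ K
  LK : L ≤ K
  eK : e ≤ K
  s0 : 0 ≤ s
  sρ : s ≤ ρ / 8
  sK : s * (4 * K) ≤ 1
  t0 : 0 ≤ t
  K2 : 1 ≤ K₂
  tK : K₂ * t * K ^ 2 * 8 ≤ 1
  SL : Sd T L0 α ΦL 1 ℓ l₁ l L e δ B h (1 / 4) s cL N
  SR : Sd Tm R0 (fun q => α (sh q N)) ΦR (-1) ℓ l₁ l L e δ B h (1 / 4) s (cR - N) N
  hT : AnalyticOnNhd ℂ T (An l L e)
  inv : ∀ s ∈ An (2 * l) (L / 2) (e / 2), T (Tm s) = s
  lip : ∀ (r : ℕ → C2) (k : ℕ), (∀ i ≤ k, r i ∈ An (2 * l) (L / 2) (e / 2)) →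
    (∀ i < k, r (i + 1) = T (r i)) → ∑ i ∈ Finset.range k, 1 / ‖(r i).1‖ ^ 2 ≤ B + 1 →
    ∀ s s' : C2, ‖s - r 0‖ * K₂ ≤ 1 → ‖s' - r 0‖ * K₂ ≤ 1 →
    ∀ i ≤ k, T^[i] s ∈ An l L e ∧ ‖T^[i] s - T^[i] s'‖ ≤ K₂ * ‖s - s'‖
  ch : Chart R0 (Bx 3 (-h) 3 2) K
  hΦ : ∀ q ∈ Cn h (1 / 4), AnalyticAt ℂ ΦL q ∧ AnalyticAt ℂ ΦR q ∧ ‖ΦL q - q‖ ≤ s ∧
    ‖ΦR q - q‖ ≤ s
  oR : ∀ y ∈ Icc (-H) 1, Ok (-1) ℓ (cR - N) y (N - j)
  oL : ∀ y ∈ Icc (-H) (-H + 1), Ok 1 ℓ cL y j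
  hX : ∀ q ∈ Rc x ρ (-H) ρ ×ˢ ball (0 : ℂ) ρ, AnalyticAt ℂ X q ∧ ‖X q‖ ≤ K ∧
    (q.1.im < -H + 1 → X q = T^[j] (L0 q))
  sp : ∀ f : ℂ → C2, DifferentiableOn ℂ f (Rc x ρ (-H) ρ) →
    (∀ z ∈ Rc x ρ (-H) ρ, ‖f z‖ ≤ 3 * K) →
    (∀ z ∈ Rc x ρ (-H) ρ, z.im < -H + 1 → ‖f z‖ ≤ 3 * K * s) →
    ∀ z ∈ Rc x (ρ / 2) (-H + 1 / 4) (ρ / 2), ‖f z‖ ≤ t

namespace Hy

variable {T Tm L0 R0 α ΦL ΦR X : C2 → C2} {ℓ l₁ l L e δ B h s K K₂ t x ρ H : ℝ} {cL cR : ℂ}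
  {N j : ℕ} (y : Hy T Tm L0 R0 α ΦL ΦR X ℓ l₁ l L e δ B h s K K₂ t x ρ H cL cR N j)

include y

theorem s42 : An (4 * l) (L / 2) (e / 4) ⊆ An (2 * l) (L / 2) (e / 2) :=
  an_mono (by linarith [y.l1]) le_rfl (by linarith [y.e0])

theorem aR (p : C2) (v : ℝ) (a1 : |p.1.re| ≤ 4) (a2 : ‖p.2‖ ≤ 3) (a3 : -H ≤ v) (a4 : v ≤ 1)
    (a5 : -h - 1 ≤ p.1.im) (a6 : p.1.im ≤ 3) (a7 : |p.1.im - v| ≤ 1) (i : ℕ) (hi : i ≤ N - j) :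
    Alw (-1) 4 ℓ l₁ (cR - N) p i :=
  y.SR.alw p v i a1 a2 a5 a6 a7 (ok_mono (y.oR v ⟨a3, a4⟩) hi)

theorem cR' : ∀ q ∈ Rc x ρ (-H) ρ ×ˢ ball (0 : ℂ) ρ, ∀ i ≤ N - j,
    Alw (-1) 4 ℓ l₁ (cR - N) q i := by
  rintro q ⟨⟨a1, a2, a3⟩, a4⟩
  have b := abs_lt.1 a1
  have c := mem_ball_zero_iff.1 a4
  have xa := abs_le.1 y.x1
  have := y.r1
  exact y.aR q q.1.im (abs_le.2 ⟨by linarith, by linarith⟩) (by linarith) a2.le (by linarith)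
    (by linarith [y.Hh]) (by linarith) (by simp)

theorem cn : ∀ q ∈ Rc x ρ (-H) ρ ×ˢ ball (0 : ℂ) ρ, q.1.im < -(1 / 2) → q ∈ Cn h (1 / 4) := by
  rintro q ⟨⟨a1, a2, a3⟩, a4⟩ a5
  have b := abs_lt.1 a1
  have c := mem_ball_zero_iff.1 a4
  have xa := abs_le.1 y.x1
  have := y.r1
  exact ⟨abs_lt.2 ⟨by linarith, by linarith⟩, by linarith [y.Hh], by linarith, by linarith⟩

theorem bx : ∀ q ∈ Rc x ρ (-H) ρ ×ˢ ball (0 : ℂ) ρ, q ∈ Bx 3 (-h) 3 2 := by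
  rintro q ⟨⟨a1, a2, a3⟩, a4⟩
  have b := abs_lt.1 a1
  have c := mem_ball_zero_iff.1 a4
  have xa := abs_le.1 y.x1
  have := y.r1
  exact ⟨abs_le.2 ⟨by linarith, by linarith⟩, by linarith [y.Hh], by linarith, by linarith⟩

theorem tR : ∀ q ∈ Rc x ρ (-H) ρ ×ˢ ball (0 : ℂ) ρ, q.1.im < -H + 1 →
    α (sh q j) = Tm^[N - j] (R0 (ΦR q)) ∧ ‖α (sh q j) - Tm^[N - j] (R0 q)‖ ≤ s := by
  intro q hq lo
  have := y.H3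
  have a := y.SR.tr q (y.cn q hq (by linarith)) (N - j) (by omega)
    (y.oR _ ⟨hq.1.2.1.le, by linarith⟩)
  have e1 : sh (sh q (((-1 : ℝ) : ℂ) * ((N - j : ℕ) : ℂ))) (N : ℂ) = sh q j := by
    simp only [sh, Nat.cast_sub y.jN]; congr 1; push_cast; ring
  simpa only [e1] using a

theorem tL : ∀ q ∈ Rc x ρ (-H) ρ ×ˢ ball (0 : ℂ) ρ, q.1.im < -H + 1 →
    α (sh q j) = T^[j] (L0 (ΦL q)) ∧ ‖α (sh q j) - T^[j] (L0 q)‖ ≤ s := by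
  intro q hq lo
  have := y.H3
  have a := y.SL.tr q (y.cn q hq (by linarith)) j y.jN (y.oL _ ⟨hq.1.2.1.le, lo.le⟩)
  simpa only [ofReal_one, one_mul] using a

theorem sub : Rc x (ρ / 2) (-H + 1 / 4) (ρ / 2) ⊆ Rc x ρ (-H) ρ := fun z hz =>
  ⟨by linarith [hz.1, y.r0], by linarith [hz.2.1], by linarith [hz.2.2, y.r0]⟩

theorem sm : ∀ q ∈ Rc x (ρ / 2) (-H + 1 / 4) (ρ / 2) ×ˢ ball (0 : ℂ) ρ,
    ‖X q - Tm^[N - j] (R0 q)‖ ≤ t := by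
  rintro q ⟨a1, a2⟩
  refine y.sp (fun z => X (z, q.2) - Tm^[N - j] (R0 (z, q.2))) (fun z hz => ?_) (fun z hz => ?_)
    (fun z hz lo => ?_) q.1 a1
  · have b1 := (y.hX (z, q.2) ⟨hz, a2⟩).1
    have b2 := (y.SR.app _ _ (y.cR' (z, q.2) ⟨hz, a2⟩ _ le_rfl)).1
    exact ((b1.sub b2).comp (f := fun z : ℂ => (z, q.2))
      (analyticAt_id.prod analyticAt_const)).differentiableAt.differentiableWithinAt
  · have b1 := (y.hX (z, q.2) ⟨hz, a2⟩).2.1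
    have b2 := (y.SR.app _ _ (y.cR' (z, q.2) ⟨hz, a2⟩ _ le_rfl)).2.1
    have b3 := an_norm (by linarith [y.l1]) (by linarith [y.e0]) b2
    have b4 : 0 < L := by linarith [b2.1, b2.2.1, y.l1]
    exact (norm_sub_le _ _).trans (by linarith [y.LK, y.eK, y.K1])
  · have b1 := (y.tL (z, q.2) ⟨hz, a2⟩ lo).2
    have b2 := (y.tR (z, q.2) ⟨hz, a2⟩ lo).2
    rw [(y.hX (z, q.2) ⟨hz, a2⟩).2.2 lo]
    have := norm_sub_le_norm_sub_add_norm_sub (T^[j] (L0 (z, q.2))) (α (sh (z, q.2) j))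
      (Tm^[N - j] (R0 (z, q.2)))
    rw [norm_sub_rev] at b1
    have := mul_le_mul_of_nonneg_right y.K1 y.s0
    linarith [y.s0]

theorem k3 : K₂ * t ≤ 1 / (8 * K ^ 2) ∧ 1 / (8 * K ^ 2) < 1 / (4 * K ^ 2) ∧ K₂ * t ≤ 1 := by
  have K1 := y.K1
  have K2 : 1 ≤ K ^ 2 := one_le_pow₀ K1
  have a : K₂ * t ≤ 1 / (8 * K ^ 2) := by rw [le_div_iff₀ (by positivity)]; linarith [y.tK]
  exact ⟨a, one_div_lt_one_div_of_lt (by positivity) (by linarith),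
    a.trans (by rw [div_le_one (by positivity)]; linarith)⟩

theorem fw : ∀ q ∈ Rc x (ρ / 2) (-H + 1 / 4) (ρ / 2) ×ˢ ball (0 : ℂ) ρ,
    AnalyticAt ℂ (fun p => T^[N - j] (X p)) q ∧ ‖T^[N - j] (X q) - R0 q‖ ≤ K₂ * t := by
  intro q hq
  have hq' : q ∈ Rc x ρ (-H) ρ ×ˢ ball (0 : ℂ) ρ := ⟨y.sub hq.1, hq.2⟩
  have al := y.cR' q hq'
  have d := y.sm q hq
  generalize N - j = k at al d ⊢
  have m : ∀ i ≤ k, Tm^[i] (R0 q) ∈ An (4 * l) (L / 2) (e / 4) := fun i hi =>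
    (y.SR.app _ _ (al i hi)).2.1
  have K2 : 0 ≤ K₂ := by linarith [y.K2]
  have z := y.lip (fun i => Tm^[k - i] (R0 q)) k (fun i hi => y.s42 (m _ (by omega)))
    (fun i hi => by
      show Tm^[k - (i + 1)] (R0 q) = T (Tm^[k - i] (R0 q))
      rw [show k - i = (k - (i + 1)) + 1 by omega, Function.iterate_succ_apply',
        y.inv _ (y.s42 (m _ (by omega)))])
    (sum_rev (f := fun i => 1 / ‖(Tm^[i] (R0 q)).1‖ ^ 2) (by positivity) (by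
      have := (m k le_rfl).1
      have := y.l1
      rw [div_le_one (by linarith)]; linarith) (y.SR.app _ _ (al k le_rfl)).2.2.2.2)
    (X q) (Tm^[k] (R0 q)) (by
      simp only [Nat.sub_zero]
      exact (mul_le_mul_of_nonneg_right d K2).trans (by linarith [y.k3.2.2])) (by simp)
  refine ⟨iter_an y.hT (y.hX q hq').1 k fun i hi => (z i hi.le).1, ?_⟩
  have c := (z k le_rfl).2
  rw [cancel y.inv k fun i hi => y.s42 (m i hi)] at c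
  exact c.trans (mul_le_mul_of_nonneg_left d K2)

theorem psi (hI : S_INV) : ∃ Ψ : C2 → C2,
    ∀ q ∈ Rc x (ρ / 2) (-H + 1 / 4) (ρ / 2) ×ˢ ball (0 : ℂ) ρ, AnalyticAt ℂ Ψ q ∧
      R0 (Ψ q) = T^[N - j] (X q) ∧ ‖Ψ q - q‖ ≤ K * (K₂ * t) := by
  obtain ⟨Ψ, hΨ⟩ := hI R0 (fun p => T^[N - j] (X p)) id _ K y.K1 y.ch
  refine ⟨Ψ, fun q hq => ?_⟩
  obtain ⟨a1, a2⟩ := y.fw q hq
  obtain ⟨b1, b2, b3⟩ := hΨ q a1 continuousAt_id (y.bx q ⟨y.sub hq.1, hq.2⟩)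
    (a2.trans_lt (y.k3.1.trans_lt y.k3.2.1))
  exact ⟨b1, b2, b3.trans (mul_le_mul_of_nonneg_left a2 (by linarith [y.K1]))⟩

theorem w1 : ∀ q ∈ Rc x (ρ / 4) (-H + 1 / 2) (-(1 / 2)) ×ˢ ball (0 : ℂ) (ρ / 4),
    q ∈ Rc x ρ (-H) ρ ×ˢ ball (0 : ℂ) ρ := fun q hq =>
  ⟨⟨by linarith [hq.1.1, y.r0], by linarith [hq.1.2.1], by linarith [hq.1.2.2, y.r0]⟩,
    ball_subset_ball (by linarith [y.r0]) hq.2⟩

theorem w3 : ∀ q ∈ Rc x (ρ / 4) (-H + 1 / 2) (-(1 / 2)) ×ˢ ball (0 : ℂ) (ρ / 4),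
    ΦL q ∈ Rc x (ρ / 2) (-H + 1 / 4) (ρ / 2) ×ˢ ball (0 : ℂ) ρ := by
  intro q hq
  obtain ⟨a1, a2, a3⟩ := near1 (y.hΦ q (y.cn q (y.w1 q hq) hq.1.2.2)).2.2.1
  have b1 := abs_le.1 a1
  have b2 := abs_le.1 a2
  have b3 := abs_lt.1 hq.1.1
  have c := mem_ball_zero_iff.1 hq.2
  have := y.r0
  have := y.r1
  have := y.sρ
  exact ⟨⟨abs_lt.2 ⟨by linarith, by linarith⟩, by linarith [hq.1.2.1], by linarith [hq.1.2.2]⟩,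
    mem_ball_zero_iff.2 (by linarith)⟩

theorem Ki : s < K⁻¹ ∧ K * (K₂ * t) + s < K⁻¹ := by
  have K0 : 0 < K := by linarith [y.K1]
  have a : s ≤ 1 / (4 * K) := by rw [le_div_iff₀ (by positivity)]; linarith [y.sK]
  have b : K * (K₂ * t) ≤ K * (1 / (8 * K ^ 2)) := mul_le_mul_of_nonneg_left y.k3.1 K0.le
  have c : K * (1 / (8 * K ^ 2)) = K⁻¹ / 8 := by field_simp
  have d : 1 / (4 * K) = K⁻¹ / 4 := by field_simp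
  have : 0 < K⁻¹ := by positivity
  constructor <;> linarith

theorem low {Ψ : C2 → C2}
    (ps : ∀ q ∈ Rc x (ρ / 2) (-H + 1 / 4) (ρ / 2) ×ˢ ball (0 : ℂ) ρ, AnalyticAt ℂ Ψ q ∧
      R0 (Ψ q) = T^[N - j] (X q) ∧ ‖Ψ q - q‖ ≤ K * (K₂ * t)) :
    ∀ q ∈ Rc x (ρ / 4) (-H + 1 / 2) (-(1 / 2)) ×ˢ ball (0 : ℂ) (ρ / 4), q.1.im < -H + 3 / 4 →
      ΦR q = Ψ (ΦL q) := by
  intro q hq lo
  have w1 := y.w1 q hq
  have w3 := y.w3 q hq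
  obtain ⟨-, -, f1, f2⟩ := y.hΦ q (y.cn q w1 hq.1.2.2)
  obtain ⟨-, p2, p3⟩ := ps _ w3
  obtain ⟨a1, a2, a3⟩ := near1 f1
  obtain ⟨c1, c2, c3⟩ := near1 f2
  have b3 := abs_lt.1 hq.1.1
  have c := mem_ball_zero_iff.1 hq.2
  have y1 := hq.1.2.1
  have xa := abs_le.1 y.x1
  have := y.r0
  have := y.r1
  have := y.sρ
  have := y.H3
  have := y.Hh
  have e1 : X (ΦL q) = T^[j] (L0 (ΦL q)) :=
    (y.hX _ ⟨y.sub w3.1, w3.2⟩).2.2 (by linarith [(abs_le.1 a2).2])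
  have m : ∀ i ≤ N - j, Tm^[i] (R0 (ΦR q)) ∈ An (2 * l) (L / 2) (e / 2) := fun i hi =>
    y.s42 (y.SR.app _ _ (y.aR (ΦR q) q.1.im
      (abs_le.2 ⟨by linarith [(abs_le.1 c1).1], by linarith [(abs_le.1 c1).2]⟩) (by linarith)
      (by linarith) (by linarith) (by linarith [(abs_le.1 c2).1]) (by linarith [(abs_le.1 c2).2])
      (by linarith) i hi)).2.1
  rw [e1, ← (y.tL q w1 (by linarith)).1, (y.tR q w1 (by linarith)).1, cancel y.inv _ m] at p2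
  have g := ((y.ch q (y.bx q w1)).2 (ΦR q) (mem_ball_iff_norm.2 (f2.trans_lt y.Ki.1))
    (Ψ (ΦL q)) (mem_ball_iff_norm.2 (by
      linarith [norm_sub_le_norm_sub_add_norm_sub (Ψ (ΦL q)) (ΦL q) q, y.Ki.2]))).1
  rw [p2, sub_self, norm_zero, mul_zero] at g
  exact sub_eq_zero.1 (norm_le_zero_iff.1 g)

theorem fix (hI : S_INV) :
    ∃ Ψ : C2 → C2, (∀ q ∈ Rc x (ρ / 4) (-2) (ρ / 4) ×ˢ ball (0 : ℂ) (ρ / 4),
      AnalyticAt ℂ Ψ q ∧ ‖Ψ q - q‖ ≤ K * (K₂ * t)) ∧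
      ∀ q ∈ Rc x (ρ / 4 / 2) (-(3 / 2)) (-1) ×ˢ ball (0 : ℂ) (ρ / 4 / 2), ΦR q = Ψ (ΦL q) := by
  obtain ⟨Ψ, ps⟩ := y.psi hI
  have r0 := y.r0
  have H3 := y.H3
  refine ⟨Ψ, fun q hq => ?_, ?_⟩
  · have := ps q ⟨⟨by linarith [hq.1.1], by linarith [hq.1.2.1], by linarith [hq.1.2.2]⟩,
      ball_subset_ball (by linarith) hq.2⟩
    exact ⟨this.1, this.2.2⟩
  have q0 : ((x : ℂ) + (-H + 5 / 8 : ℝ) * I, (0 : ℂ)) ∈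
      Rc x (ρ / 4) (-H + 1 / 2) (-(1 / 2)) ×ˢ ball (0 : ℂ) (ρ / 4) :=
    ⟨⟨by simpa using r0, by simp; linarith, by simp; linarith⟩, mem_ball_self (by linarith)⟩
  have id : EqOn ΦR (fun q => Ψ (ΦL q))
      (Rc x (ρ / 4) (-H + 1 / 2) (-(1 / 2)) ×ˢ ball (0 : ℂ) (ρ / 4)) := by
    refine AnalyticOnNhd.eqOn_of_preconnected_of_eventuallyEq (𝕜 := ℂ)
      (fun q hq => (y.hΦ q (y.cn q (y.w1 q hq) hq.1.2.2)).2.1)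
      (fun q hq => (ps _ (y.w3 q hq)).1.comp (y.hΦ q (y.cn q (y.w1 q hq) hq.1.2.2)).1)
      ((rc_conv _ _ _ _).prod (convex_ball _ _)).isPreconnected q0 ?_
    have o : IsOpen {q : C2 | q.1.im < -H + 3 / 4} :=
      isOpen_lt (by fun_prop) continuous_const
    filter_upwards [((rc_open _ _ _ _).prod isOpen_ball).mem_nhds q0,
      o.mem_nhds (by simp; linarith)] with q a b using y.low ps q a b
  exact fun q hq => id ⟨⟨by linarith [hq.1.1], by linarith [hq.1.2.1], by linarith [hq.1.2.2]⟩,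
    ball_subset_ball (by linarith) hq.2⟩

end Hy

theorem num2 {K ρ ω c e' : ℝ} {b : ℕ} (b2 : 2 ≤ b) (r0 : 0 < ρ) (K4 : 4 ≤ K) (Kρ : 8 / ρ ≤ K)
    (ω0 : 0 ≤ ω) (nm : ω * K ^ 2 * K ≤ c) (Kc : 8 * c ≤ K) (e0 : 0 < e') (Kc' : c / e' ≤ K) :
    1 / K ^ b ≤ ρ / 8 ∧ 1 / K ^ b * (4 * K) ≤ 1 ∧ ω * K ^ 2 * 8 ≤ 1 ∧ K * ω ≤ e' := by
  have K0 : 0 < K := by linarith
  have p2 : K ^ 2 ≤ K ^ b := pow_le_pow_right₀ (by linarith) b2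
  have s2 : 1 / K ^ b ≤ 1 / K ^ 2 := one_div_le_one_div_of_le (by positivity) p2
  rw [div_le_iff₀ r0] at Kρ
  rw [div_le_iff₀ e0] at Kc'
  refine ⟨s2.trans ?_, (mul_le_mul_of_nonneg_right s2 (by positivity)).trans ?_, ?_, ?_⟩
  · rw [div_le_div_iff₀ (by positivity) (by norm_num)]; nlinarith
  · rw [one_div_mul_eq_div, div_le_one (by positivity)]; nlinarith
  · exact le_of_mul_le_mul_right (by linarith) K0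
  · have a : 0 ≤ ω * K ^ 2 := by positivity
    have : K * ω * K ≤ e' * K := by nlinarith
    exact le_of_mul_le_mul_right this K0

end Fi

open Fi in
theorem fini (hL : S_LIP) (hI : S_INV) : S_FINI := by
  intro D 𝒰 ℓ C₁ cL cR x ρ H g t x1 r0 r1 H3 hX e' e0
  obtain ⟨γ, g0, sp⟩ := col x ρ H r0 r1 H3
  obtain ⟨C₂, C1, lip⟩ := hL D.C D.e g.loc.C1 g.loc.e0
  obtain ⟨b₀, hb⟩ := exists_nat_ge ((C₂ * C₁ + 5) / γ)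
  have hb' : C₂ * C₁ + 5 ≤ γ * (b₀ + 2 : ℕ) := by
    rw [div_le_iff₀ g0] at hb
    push_cast; nlinarith
  have b2 : 2 ≤ b₀ + 2 := by omega
  generalize b₀ + 2 = b at hb' b2
  have Kt : Tendsto D.K 𝒰 atTop := tendsto_atTop_mono' _ g.gr.hK g.gr.hl
  have A2 := g.gr.A2
  have C0 := t.C0
  filter_upwards [hX, t.sd (1 / 4) (by norm_num) b, g.pL (1 / 4) (by norm_num) b,
    g.pR (1 / 4) (by norm_num) b, g.loc.stp, g.nr.gt, g.nr.LK, g.gr.hl.eventually_ge_atTop H,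
    Kt.eventually_ge_atTop 4, Kt.eventually_ge_atTop D.e, Kt.eventually_ge_atTop (8 / ρ),
    Kt.eventually_ge_atTop (8 * (3 * C₂ * Real.exp (C₂ * (C₁ + 1)))),
    Kt.eventually_ge_atTop (3 * C₂ * Real.exp (C₂ * (C₁ + 1)) / e')]
    with n hX SS pL pR st gt LK Hh K4 Ke Kρ Kc Kc'
  obtain ⟨j, X, jN, oR, oL, hX⟩ := hX
  have K0 : 0 < D.K n := by linarith
  have K1 : 1 ≤ D.K n := by linarith
  have Ah : 6 ≤ D.A * D.h n := by nlinarith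
  have L0 : 1 ≤ D.L n := by linarith [LK.1]
  have lg := Real.log_nonneg K1
  have es : Real.exp (-(b * Real.log (D.K n))) = 1 / D.K n ^ b := by
    rw [Real.exp_neg, Real.exp_nat_mul, Real.exp_log K0, one_div]
  have nm := num (C₁ := C₁) (γ := γ) (b := b) K1 (by linarith) LK.2.1 (by linarith : 0 ≤ C₂) hb'
  have C2 : 0 ≤ C₂ := by linarith
  have K2 : 1 ≤ C₂ * D.L n * Real.exp (C₂ * (C₁ * (Real.log (D.K n) + 1) + 1)) :=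
    one_le_mul_of_one_le_of_one_le (one_le_mul_of_one_le_of_one_le C1 L0)
      (Real.one_le_exp (by positivity))
  obtain ⟨n1, n2, n3, n4⟩ := num2 b2 r0 K4 Kρ (by positivity) nm Kc e0 Kc'
  have bxm : ∀ q ∈ Cn (D.h n) (1 / 4), q ∈ Bx (50 * D.A * D.h n) (-D.h n) 2 2 ∧
      q.1.im ≤ om0 q.2 - 1 / 4 := fun q hq =>
    ⟨⟨by linarith [hq.1], hq.2.1.le, by linarith [hq.2.2.1, norm_nonneg q.2], hq.2.2.2.le⟩,
      hq.2.2.1.le⟩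
  obtain ⟨Ψ, h1, h2⟩ := Hy.fix ⟨jN, x1, r0, r1, H3, Hh, g.loc.l1, g.loc.e0, K1, LK.2.1, Ke,
    by positivity, n1, n2, by positivity, K2, n3, SS.1, SS.2, st.1.an, st.2.2,
    fun r k a1 a2 a3 => lip _ _ _ _ _ _ _ r k g.loc.l1 st.1 a1 a2 a3, gt.2.2.2,
    fun q hq => by
      obtain ⟨a1, -, a2, -⟩ := pL q (bxm q hq).1 (bxm q hq).2
      obtain ⟨b1, -, b2, -⟩ := pR q (bxm q hq).1 (bxm q hq).2
      exact ⟨a1, b1, (le_div_iff₀ (by positivity)).2 a2, (le_div_iff₀ (by positivity)).2 b2⟩,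
    oR, oL, hX, fun f a1 a2 a3 => sp f (3 * D.K n) (b * Real.log (D.K n)) (by positivity) a1 a2
      (by rw [es]; exact a3)⟩ hI
  exact ⟨Ψ, fun q hq => ⟨(h1 q hq).1, (h1 q hq).2.trans n4⟩, h2⟩

end Vale.Agent.P097EE
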