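import Vale.Agent.P097EE.Defs2
import Vale.Agent.P097EE.Tc

/-!
# P097EE: the end of the passage, one scale
-/

set_option linter.all false

noncomputable section

namespace Vale.Agent.P097EE

open Filter Topology Set Metric Complex

namespace Fi

theorem ok_mono {a ℓ : ℝ} {ξ : ℂ} {y : ℝ} {i j : ℕ} (h : Ok a ℓ ξ y j) (hi : i ≤ j) :
    Ok a ℓ ξ y i := by
  have c : (i : ℝ) ≤ j := by exact_mod_cast hi
  rcases h with h | ⟨D, h1, h2, h3⟩
  · exact Or.inl (by linarith)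
  · exact Or.inr ⟨D, h1, h2, by linarith⟩

theorem an_mono {l L e l' L' e' : ℝ} (h1 : l ≤ l') (h2 : L' ≤ L) (h3 : e' ≤ e) :
    An l' L' e' ⊆ An l L e := fun s hs => ⟨by linarith [hs.1], by linarith [hs.2.1],
      by linarith [hs.2.2]⟩

theorem an_norm {l L e : ℝ} {s : C2} (l1 : 1 ≤ l) (e0 : 0 < e) (hs : s ∈ An l L e) :
    ‖s‖ ≤ L + e := by
  obtain ⟨h1, h2, h3⟩ := hs
  have n := norm_nonneg s.1
  have a : 1 ≤ ‖s.1‖ := by nlinarith
  have b : ‖s.1‖ ≤ L := by nlinarith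
  rw [Prod.norm_def]
  exact max_le (by linarith) (by linarith)

theorem iter_an {T X : C2 → C2} {A : Set C2} (hT : AnalyticOnNhd ℂ T A) {q : C2}
    (hX : AnalyticAt ℂ X q) (k : ℕ) (h : ∀ i < k, T^[i] (X q) ∈ A) :
    AnalyticAt ℂ (fun p => T^[k] (X p)) q := by
  induction k with
  | zero => exact hX
  | succ k ih =>
    simp only [Function.iterate_succ_apply']
    exact AnalyticAt.comp (f := fun p => T^[k] (X p)) (hT _ (h k (by omega)))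
      (ih fun i hi => h i (by omega))

theorem cancel {T Tm : C2 → C2} {A : Set C2} (inv : ∀ s ∈ A, T (Tm s) = s) {s : C2} (k : ℕ)
    (h : ∀ i ≤ k, Tm^[i] s ∈ A) : T^[k] (Tm^[k] s) = s := by
  induction k with
  | zero => rfl
  | succ k ih =>
    rw [Function.iterate_succ_apply, Function.iterate_succ_apply', inv _ (h k (by omega))]
    exact ih fun i hi => h i (by omega)

theorem sum_rev {f : ℕ → ℝ} {k : ℕ} {B : ℝ} (h0 : 0 ≤ f 0) (h1 : f k ≤ 1)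
    (h : ∑ i ∈ Finset.range k, f i ≤ B) : ∑ i ∈ Finset.range k, f (k - i) ≤ B + 1 := by
  have a := Finset.sum_range_reflect f (k + 1)
  rw [Finset.sum_range_succ, Finset.sum_range_succ] at a
  simp only [Nat.add_sub_cancel, Nat.sub_self] at a
  linarith

theorem rc_conv (x b y₁ y₂ : ℝ) : Convex ℝ (Rc x b y₁ y₂) := by
  have e : Rc x b y₁ y₂ = ({t : ℂ | x - b < t.re} ∩ {t | t.re < x + b}) ∩
      ({t | y₁ < t.im} ∩ {t | t.im < y₂}) := by
    ext t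
    simp only [Rc, mem_setOf_eq, mem_inter_iff, abs_lt]
    constructor
    · rintro ⟨⟨a, b⟩, c, d⟩; exact ⟨⟨by linarith, by linarith⟩, c, d⟩
    · rintro ⟨⟨a, b⟩, c, d⟩; exact ⟨⟨by linarith, by linarith⟩, c, d⟩
  rw [e]
  exact ((convex_halfSpace_re_gt _).inter (convex_halfSpace_re_lt _)).inter
    ((convex_halfSpace_im_gt _).inter (convex_halfSpace_im_lt _))

theorem rc_open (x b y₁ y₂ : ℝ) : IsOpen (Rc x b y₁ y₂) :=
  (isOpen_lt (f := fun t : ℂ => |t.re - x|) (by fun_prop) continuous_const).inter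
    ((isOpen_lt continuous_const continuous_im).inter (isOpen_lt continuous_im continuous_const))

/-- propagation of smallness along the column -/
theorem col (x ρ H : ℝ) (r0 : 0 < ρ) (r1 : ρ ≤ 1 / 10) (H3 : 3 ≤ H) : ∃ γ : ℝ, 0 < γ ∧
    ∀ (f : ℂ → C2) (M Λ : ℝ), 0 ≤ Λ → DifferentiableOn ℂ f (Rc x ρ (-H) ρ) →
      (∀ z ∈ Rc x ρ (-H) ρ, ‖f z‖ ≤ M) →
      (∀ z ∈ Rc x ρ (-H) ρ, z.im < -H + 1 → ‖f z‖ ≤ M * Real.exp (-Λ)) →
      ∀ z ∈ Rc x (ρ / 2) (-H + 1 / 4) (ρ / 2), ‖f z‖ ≤ M * Real.exp (-(γ * Λ)) := by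
  obtain ⟨γ, g0, -, h⟩ := Tc.small_pow (E := C2) (U := Rc x ρ (-H) ρ)
    (K := Icc (x - ρ / 2) (x + ρ / 2) ×ℂ Icc (-H + 1 / 4) (ρ / 2))
    (z₀ := (x : ℂ) + (-H + 1 / 2 : ℝ) * I) (ρ := 1 / 4) (rc_open _ _ _ _)
    (rc_conv _ _ _ _).isPreconnected (isCompact_Icc.reProdIm isCompact_Icc)
    (fun z hz => ⟨abs_lt.2 ⟨by linarith [hz.1.1], by linarith [hz.1.2]⟩, by linarith [hz.2.1],
      by linarith [hz.2.2]⟩)
    ⟨by simpa using r0, by simp, by simp; linarith⟩ (by norm_num)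
  refine ⟨γ, g0, fun f M Λ l0 df b1 b2 z hz => h f M Λ l0 df b1 (fun w hw hb => b2 w hw ?_) z
    ⟨⟨by linarith [(abs_lt.1 hz.1).1], by linarith [(abs_lt.1 hz.1).2]⟩, hz.2.1.le, hz.2.2.le⟩⟩
  have := (abs_im_le_norm (w - ((x : ℂ) + (-H + 1 / 2 : ℝ) * I))).trans_lt
    (mem_ball_iff_norm.1 hb)
  simp at this
  linarith [(abs_lt.1 this).2]

theorem num {C₁ C₂ γ b K L : ℝ} (K1 : 1 ≤ K) (L0 : 0 ≤ L) (LK : L ≤ K) (C0 : 0 ≤ C₂)
    (hb : C₂ * C₁ + 5 ≤ γ * b) :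
    C₂ * L * Real.exp (C₂ * (C₁ * (Real.log K + 1) + 1)) *
      (3 * K * Real.exp (-(γ * (b * Real.log K)))) * K ^ 2 * K ≤
      3 * C₂ * Real.exp (C₂ * (C₁ + 1)) := by
  have l0 := Real.log_nonneg K1
  have K0 : 0 < K := by linarith
  have e1 : Real.exp (C₂ * (C₁ * (Real.log K + 1) + 1)) * Real.exp (-(γ * (b * Real.log K))) ≤
      Real.exp (C₂ * (C₁ + 1)) * (K ^ 5)⁻¹ := by
    have : (K ^ 5)⁻¹ = Real.exp (-(5 * Real.log K)) := by
      rw [Real.exp_neg, show (5 : ℝ) * Real.log K = (5 : ℕ) * Real.log K by norm_num,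
        Real.exp_nat_mul, Real.exp_log K0]
    rw [this, ← Real.exp_add, ← Real.exp_add]
    exact Real.exp_le_exp.2 (by nlinarith)
  calc _ = 3 * C₂ * (L * K ^ 4) * (Real.exp (C₂ * (C₁ * (Real.log K + 1) + 1)) *
        Real.exp (-(γ * (b * Real.log K)))) := by ring
    _ ≤ 3 * C₂ * (K * K ^ 4) * (Real.exp (C₂ * (C₁ + 1)) * (K ^ 5)⁻¹) := by gcongr
    _ = _ := by field_simp

theorem near1 {p q : C2} {s : ℝ} (h : ‖p - q‖ ≤ s) :
    |p.1.re - q.1.re| ≤ s ∧ |p.1.im - q.1.im| ≤ s ∧ ‖p.2‖ ≤ ‖q.2‖ + s := by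
  have a : ‖p.1 - q.1‖ ≤ s := (norm_fst_le (p - q)).trans h
  have b : ‖p.2 - q.2‖ ≤ s := (norm_snd_le (p - q)).trans h
  refine ⟨by simpa using (abs_re_le_norm _).trans a, by simpa using (abs_im_le_norm _).trans a, ?_⟩
  linarith [norm_sub_norm_le p.2 q.2]

end Fi

end Vale.Agent.P097EE
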