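import Vale.Agent.P097EE.Core
import Vale.Agent.P097EE.Defs

/-! Chains of an inner system: limits and the disc. -/

open Filter Metric Set Topology

namespace Vale.Agent.P097EE

open Vale.Agent.P299.H720 Vale.Agent.P097T Vale.Agent.P097T.EndTop

/-- the states along the chain with the vertices `w` -/
def stc {T : Type} (G : C2 × ℂ → C2) (s : T → C2) (w : ℕ → T → ℂ) : ℕ → T → C2
  | 0, t => s t
  | j + 1, t => G (stc G s w j t, w j t)

theorem stc_congr {T : Type} {G : C2 × ℂ → C2} {s : T → C2} {w w' : ℕ → T → ℂ} {t : T} {j : ℕ}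
    (h : ∀ i < j, w i t = w' i t) : stc G s w j t = stc G s w' j t := by
  induction j with
  | zero => rfl
  | succ j ih => simp only [stc]; rw [ih fun i hi => h i (by omega), h j (by omega)]

theorem stc_upd {T : Type} {G : C2 × ℂ → C2} {s : T → C2} {w : ℕ → T → ℂ} {N j : ℕ} (ψ : T → ℂ)
    (h : j ≤ N) : stc G s (Function.update w N ψ) j = stc G s w j :=
  funext fun _ => stc_congr fun i hi => by rw [Function.update_of_ne (by omega)]

variable {O : Set C2} {F : C2 × ℂ → ℂ} {G : C2 × ℂ → C2}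

theorem stc_an (aG : AnalyticOnNhd ℂ G (O ×ˢ univ)) (mG : MapsTo G (O ×ˢ univ) O) {s : ℂ → C2}
    {w : ℕ → ℂ → ℂ} {t : ℂ} (hs : AnalyticAt ℂ s t) (hm : s t ∈ O) {j : ℕ}
    (h : ∀ i < j, AnalyticAt ℂ (w i) t) : AnalyticAt ℂ (stc G s w j) t ∧ stc G s w j t ∈ O := by
  induction j with
  | zero => exact ⟨hs, hm⟩
  | succ j ih =>
    obtain ⟨h1, h2⟩ := ih fun i hi => h i (by omega)
    exact ⟨(aG (stc G s w j t, w j t) ⟨h2, mem_univ _⟩).fun_comp
      (f := fun t => (stc G s w j t, w j t)) (h1.prod (h j (by omega))), mG ⟨h2, mem_univ _⟩⟩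

theorem fd_snd2 {Λ : C2 × ℂ → ℂ} {s : ℂ → C2} {t c : ℂ}
    (hΛ : DifferentiableAt ℂ Λ (s t, c)) (hG : DifferentiableAt ℂ s t) :
    fderiv ℂ (fun y : ℂ × ℂ => Λ (s y.1, y.2)) (t, c) (0, 1) = fderiv ℂ Λ (s t, c) (0, 1) := by
  have h1 : DifferentiableAt ℂ (fun y : ℂ × ℂ => Λ (s y.1, y.2)) (t, c) :=
    hΛ.comp (t, c) ((hG.comp (t, c) differentiableAt_fst).prodMk differentiableAt_snd)
  exact (hasDerivAt_snd h1).unique (hasDerivAt_snd hΛ)

theorem an_fd2 {Λ : C2 × ℂ → ℂ} {s : ℂ → C2} {w : ℂ → ℂ} {t : ℂ}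
    (hΛ : AnalyticAt ℂ Λ (s t, w t)) (h0 : AnalyticAt ℂ s t) (h1 : AnalyticAt ℂ w t) :
    AnalyticAt ℂ (fun t => fderiv ℂ Λ (s t, w t) (0, 1)) t :=
  ((ContinuousLinearMap.apply ℂ ℂ ((0, 1) : C2 × ℂ)).analyticAt _).fun_comp
    (hΛ.fderiv.fun_comp (f := fun t => (s t, w t)) (h0.prod h1))

theorem nz_of_fd {Λ : C2 × ℂ → ℂ} {a : C2} {c : ℂ} (hΛ : DifferentiableAt ℂ Λ (a, c))
    (h : fderiv ℂ Λ (a, c) (0, 1) ≠ 0) : ∃ c0, Λ (a, c0) ≠ 0 := by
  by_contra hn
  push Not at hn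
  have k := hasDerivAt_snd hΛ
  rw [show (fun c => Λ (a, c)) = fun _ => 0 from funext hn] at k
  exact h (k.unique (hasDerivAt_const _ _))

variable {Fn : ℕ → C2 × ℂ → ℂ} {Gn : ℕ → C2 × ℂ → C2}

theorem limN (𝒰 : Ultrafilter ℕ) (Y : Sys 𝒰 O F G Fn Gn) {σ : ℕ → ℕ → ℂ → C2}
    {u : ℕ → ℕ → ℂ → ℂ} {B : Set ℂ} (hB : IsOpen B) (hB' : IsPreconnected B) {t0 : ℂ}
    (ht0 : t0 ∈ B) {s : ℂ → C2} (as : AnalyticOnNhd ℂ s B) (ms : MapsTo s B O)
    (h0 : TendstoLocallyUniformlyOn (fun n => σ n 0) s 𝒰 B) (J : ℕ)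
    (hl : ∀ j < J, ∀ t ∈ B, ∃ r > 0, ∀ᶠ n in (𝒰 : Filter ℕ), ∀ y ∈ ball t r,
      AnalyticAt ℂ (u n j) y ∧ (σ n j y ∈ O → Fn n (σ n j y, u n j y) = 0 ∧
        σ n (j + 1) y = Gn n (σ n j y, u n j y)))
    (hb : ∀ j < J, BdAt (𝒰 : Filter ℕ) (fun n => u n j) t0)
    (hnd : ∀ j < J, ∀ a, Tendsto (fun n => σ n j t0) 𝒰 (𝓝 a) → ∃ c, F (a, c) ≠ 0) :
    ∃ w : ℕ → ℂ → ℂ, (∀ j < J, AnalyticOnNhd ℂ (w j) B ∧
      TendstoLocallyUniformlyOn (fun n => u n j) (w j) 𝒰 B ∧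
      ∀ t ∈ B, F (stc G s w j t, w j t) = 0) ∧
      ∀ j ≤ J, TendstoLocallyUniformlyOn (fun n => σ n j) (stc G s w j) 𝒰 B := by
  induction J with
  | zero => exact ⟨0, by simp, fun j hj => by obtain rfl : j = 0 := by omega
                                              exact h0⟩
  | succ N ih =>
    obtain ⟨v, hv, hs⟩ := ih (fun j hj => hl j (by omega)) (fun j hj => hb j (by omega))
      (fun j hj => hnd j (by omega))
    have a0 := fun t ht => stc_an Y.aG Y.mG (as t ht) (ms ht) (j := N) fun i hi => (hv i hi).1 t ht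
    have a1 : AnalyticOnNhd ℂ (stc G s v N) B := fun t ht => (a0 t ht).1
    have a2 := hs N le_rfl
    have hS : IsOpen (O ×ˢ (univ : Set ℂ)) := Y.op.prod isOpen_univ
    have hop : IsOpen (B ×ˢ (univ : Set ℂ)) := hB.prod isOpen_univ
    have hF : AnalyticOnNhd ℂ (fun y : ℂ × ℂ => F (stc G s v N y.1, y.2)) (B ×ˢ univ) :=
      fun y hy => (Y.aF _ ⟨(a0 _ hy.1).2, mem_univ _⟩).fun_comp
        (f := fun y : ℂ × ℂ => (stc G s v N y.1, y.2))
        (((a1 y.1 hy.1).fun_comp analyticAt_fst).prod analyticAt_snd)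
    obtain ⟨c0, hc0⟩ := hnd N (by omega) _ (a2.tendsto_at ht0)
    have hg : AnalyticOnNhd ℂ (fun t : ℂ => F (stc G s v N t, c0)) B := fun t ht =>
      (hF (t, c0) ⟨ht, mem_univ _⟩).fun_comp (f := fun t : ℂ => (t, c0))
        (analyticAt_id.prod analyticAt_const)
    have cs := (tlu_iff hB a1.continuousOn).1 a2
    have inO : ∀ t ∈ B, ∃ r > 0, ∀ᶠ n in (𝒰 : Filter ℕ), ∀ y ∈ ball t r,
        AnalyticAt ℂ (u n N) y ∧ Fn n (σ n N y, u n N y) = 0 ∧
        σ n (N + 1) y = Gn n (σ n N y, u n N y) := by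
      intro t ht
      obtain ⟨r1, h1, k1⟩ := hl N (by omega) t ht
      obtain ⟨p, hp, q, hq, hpq⟩ := eventually_prod_iff.1
        ((cs t ht).eventually (Y.op.mem_nhds (a0 t ht).2))
      obtain ⟨r2, h2, k2⟩ := Metric.eventually_nhds_iff_ball.1 hq
      refine ⟨min r1 r2, lt_min h1 h2, (k1.and hp).mono fun n hn y hy => ?_⟩
      have := hn.1 y (ball_subset_ball (min_le_left _ _) hy)
      exact ⟨this.1, this.2 (hpq hn.2 (k2 y (ball_subset_ball (min_le_right _ _) hy)))⟩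
    obtain ⟨-, w, w1, w2, w3⟩ := norm1 𝒰 (u := fun n => u n N)
      (Fn := fun n y => Fn n (σ n N y.1, y.2)) (E := {t | F (stc G s v N t, c0) = 0}) hB hB'
      (fun t ht => (hg t ht).eventually_eq_zero_or_eventually_ne_zero.resolve_left fun h =>
        hc0 (hg.eqOn_zero_of_preconnected_of_eventuallyEq_zero hB' ht h ht0))
      hF.continuousOn (by
        rw [tlu_iff hop hF.continuousOn]
        intro y hy
        have p1 : Tendsto (fun z : ℕ × ℂ × ℂ => (z.1, z.2.1)) ((𝒰 : Filter ℕ) ×ˢ 𝓝 y)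
            ((𝒰 : Filter ℕ) ×ˢ 𝓝 y.1) :=
          tendsto_fst.prodMk ((continuous_fst.tendsto y).comp tendsto_snd)
        have k4 : Tendsto (fun z : ℕ × ℂ × ℂ => z.2.2) ((𝒰 : Filter ℕ) ×ˢ 𝓝 y) (𝓝 y.2) :=
          (continuous_snd.tendsto y).comp tendsto_snd
        exact ((tlu_iff hS Y.aF.continuousOn).1 Y.cF (stc G s v N y.1, y.2)
          ⟨(a0 _ hy.1).2, mem_univ _⟩).comp
          (tendsto_fst.prodMk (((cs y.1 hy.1).comp p1).prodMk_nhds k4)))
      (fun t ht c => ((hF (t, c) ⟨ht, mem_univ _⟩).fun_comp (f := fun c : ℂ => (t, c))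
        (analyticAt_const.prod analyticAt_id)).differentiableAt)
      (fun t _ htE => ⟨c0, htE⟩) (fun t ht => (inO t ht).imp fun r h => ⟨h.1, h.2.mono fun n hn =>
        ⟨fun y hy => (hn y hy).1.differentiableAt.differentiableWithinAt,
          fun y hy => (hn y hy).2.1⟩⟩) ht0 (hb N (by omega))
    have aw := w1.analyticOnNhd hB
    refine ⟨Function.update v N w, fun j hj => ?_, fun j hj => ?_⟩
    · rw [stc_upd w (by omega)]
      rcases Nat.lt_succ_iff_lt_or_eq.1 hj with hj | rfl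
      · rw [Function.update_of_ne (by omega)]; exact hv j hj
      · rw [Function.update_self]; exact ⟨aw, w2, w3⟩
    · rcases Nat.le_succ_iff.1 hj with hj | rfl
      · rw [stc_upd w hj]; exact hs j hj
      have e : stc G s (Function.update v N w) (N + 1) = fun t => G (stc G s v N t, w t) := by
        funext t; simp only [stc]; rw [stc_upd w le_rfl, Function.update_self]
      rw [e]
      refine (tlu_iff hB (Y.aG.continuousOn.comp (f := fun t => (stc G s v N t, w t))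
        (a1.continuousOn.prodMk aw.continuousOn) fun t ht => ⟨(a0 t ht).2, mem_univ _⟩)).2
        fun t ht => ?_
      obtain ⟨r, hr, k⟩ := inO t ht
      refine (((tlu_iff hS Y.aG.continuousOn).1 Y.cG (stc G s v N t, w t)
        ⟨(a0 _ ht).2, mem_univ _⟩).comp (tendsto_fst.prodMk ((cs t ht).prodMk_nhds
          ((tlu_iff hB aw.continuousOn).1 w2 t ht)))).congr' ?_
      filter_upwards [k.prod_mk (ball_mem_nhds t hr)] with z hz
      exact (hz.1 z.2 hz.2).2.2.symm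

theorem hd_pt (z : ℂ) {e : ℝ} (he : 0 < e) : z - (e / 2 : ℝ) * Complex.I ∈ HD z e := by
  refine ⟨?_, by simp [he]⟩
  rw [mem_ball, dist_eq_norm, sub_sub_cancel_left, norm_neg, norm_mul, Complex.norm_I,
    Complex.norm_real, Real.norm_eq_abs, abs_of_pos (by positivity)]
  linarith

theorem discD (aF : AnalyticOnNhd ℂ F (O ×ˢ univ)) (aG : AnalyticOnNhd ℂ G (O ×ˢ univ))
    (mG : MapsTo G (O ×ˢ univ) O) {s : ℂ → C2} {v : ℕ → ℂ → ℂ} {y : ℂ} {δ : ℝ} (hδ : 0 < δ)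
    (as : AnalyticOnNhd ℂ s (ball y δ)) (ms : MapsTo s (ball y δ) O) (N : ℕ)
    (hv : ∀ j < N, DifferentiableOn ℂ (v j) (HD y δ))
    (h0 : ∀ j < N, ∀ t ∈ HD y δ, F (stc G s v j t, v j t) = 0)
    (hnd : ∀ j < N, ∀ t ∈ HD y δ, ∀ᶠ x in 𝓝[≠] t,
      fderiv ℂ F (stc G s v j x, v j x) (0, 1) ≠ 0) :
    ∃ z ∈ ball y δ, z.im = y.im ∧ ∃ e > 0, ball z e ⊆ ball y δ ∧ ∃ w : ℕ → ℂ → ℂ,
      ∀ j < N, AnalyticOnNhd ℂ (w j) (ball z e) ∧ (∀ t ∈ HD z e, w j t = v j t) ∧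
        ∀ t ∈ ball z e, F (stc G s w j t, w j t) = 0 ∧
          fderiv ℂ F (stc G s w j t, w j t) (0, 1) ≠ 0 := by
  induction N with
  | zero => exact ⟨y, mem_ball_self hδ, rfl, δ, hδ, Subset.rfl, v, by simp⟩
  | succ N ih =>
    obtain ⟨z, hz, zi, e, he, hsub, w, w2⟩ := ih
      (fun j hj => hv j (by omega)) (fun j hj => h0 j (by omega)) (fun j hj => hnd j (by omega))
    have hs : ∀ z' e', z'.im = z.im → ball z' e' ⊆ ball z e → HD z' e' ⊆ HD z e :=
      fun z' e' h1 h2 t ht => ⟨h2 ht.1, by rw [← h1]; exact ht.2⟩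
    have hs0 : HD z e ⊆ HD y δ := fun t ht => ⟨hsub ht.1, by rw [← zi]; exact ht.2⟩
    have a0 := fun t ht => stc_an aG mG (as t (hsub ht)) (ms (hsub ht)) (j := N)
      fun i hi => (w2 i hi).1 t ht
    set Φ : ℂ × ℂ → ℂ := fun q => F (stc G s w N q.1, q.2) with hFd
    have hF : AnalyticOnNhd ℂ Φ (ball z e ×ˢ univ) := fun q hq =>
      (aF _ ⟨(a0 _ hq.1).2, mem_univ _⟩).fun_comp (f := fun q : ℂ × ℂ => (stc G s w N q.1, q.2))
        (((a0 q.1 hq.1).1.fun_comp analyticAt_fst).prod analyticAt_snd)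
    have es : ∀ t ∈ HD z e, stc G s w N t = stc G s v N t := fun t ht =>
      stc_congr fun i hi => (w2 i hi).2.1 t ht
    have fd : ∀ t ∈ ball z e, ∀ c, fderiv ℂ Φ (t, c) (0, 1) =
        fderiv ℂ F (stc G s w N t, c) (0, 1) := fun t ht c =>
      fd_snd2 (aF _ ⟨(a0 _ ht).2, mem_univ _⟩).differentiableAt (a0 t ht).1.differentiableAt
    have nd : ∀ z' e', 0 < e' → z'.im = z.im → ball z' e' ⊆ ball z e →
        ∃ t ∈ HD z' e', fderiv ℂ Φ (t, v N t) (0, 1) ≠ 0 := by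
      intro z' e' h1 h2 h3
      have ho : IsOpen (HD z' e') := isOpen_ball.inter (isOpen_lt (by fun_prop) (by fun_prop))
      have hm := hd_pt z' h1
      obtain ⟨t, k1, k2⟩ := ((hnd N (by omega) _ (hs0 (hs z' e' h2 h3 hm))).and
        (mem_nhdsWithin_of_mem_nhds (ho.mem_nhds hm))).exists
      refine ⟨t, k2, ?_⟩
      rw [fd t (h3 k2.1), es t (hs z' e' h2 h3 k2)]
      exact k1
    obtain ⟨t1, ht1, hd1⟩ := nd z e he rfl Subset.rfl
    obtain ⟨c0, hc0⟩ : ∃ c0, Φ (t1, c0) ≠ 0 :=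
      nz_of_fd (aF _ ⟨(a0 _ ht1.1).2, mem_univ _⟩).differentiableAt (fd t1 ht1.1 _ ▸ hd1)
    have hg : AnalyticOnNhd ℂ (fun t => Φ (t, c0)) (ball z e) := fun t ht =>
      (hF (t, c0) ⟨ht, mem_univ _⟩).fun_comp (f := fun t : ℂ => (t, c0))
        (analyticAt_id.prod analyticAt_const)
    have iso : ∀ᶠ s in 𝓝[≠] z, Φ (s, c0) ≠ 0 :=
      (hg z (mem_ball_self he)).eventually_eq_zero_or_eventually_ne_zero.resolve_left fun h =>
        hc0 (hg.eqOn_zero_of_preconnected_of_eventuallyEq_zero (convex_ball z e).isPreconnected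
          (mem_ball_self he) h ht1.1)
    obtain ⟨r, hr, hr'⟩ := Metric.mem_nhdsWithin_iff.1 iso
    set m := min r e with hm
    have m0 : 0 < m := lt_min hr he
    have bs : ball (z + (m / 2 : ℝ)) (m / 2) ⊆ ball z m \ {z} := by
      intro t ht
      have d : dist (z + (m / 2 : ℝ)) z = m / 2 := by
        rw [dist_eq_norm, add_sub_cancel_left, Complex.norm_real, Real.norm_eq_abs,
          abs_of_pos (by positivity)]
      refine ⟨ball_subset_ball' (by rw [d]; linarith) ht, fun h => ?_⟩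
      rw [mem_singleton_iff.1 h, mem_ball, dist_comm, d] at ht
      exact lt_irrefl _ ht
    have b2 : ball (z + (m / 2 : ℝ)) (m / 2) ⊆ ball z e :=
      (bs.trans sdiff_subset).trans (ball_subset_ball (min_le_right _ _))
    have i2 : (z + (m / 2 : ℝ)).im = z.im := by simp
    have s2 := hs _ _ i2 b2
    obtain ⟨z', hz', zi', e', he', hsub', ψ, p1, p2, p3⟩ := disc (F := Φ) (v := v N)
      (y := z + (m / 2 : ℝ)) (δ := m / 2) (by positivity) (hF.mono (prod_mono b2 Subset.rfl))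
      ((hv N (by omega)).mono (s2.trans hs0))
      (fun t ht => by
        show F (stc G s w N t, v N t) = 0
        rw [es t (s2 ht)]; exact h0 N (by omega) t (hs0 (s2 ht)))
      (fun t ht _ => ⟨c0, hr' ⟨ball_subset_ball (min_le_left _ _) (bs ht).1, (bs ht).2⟩⟩)
      (nd _ _ (by positivity) i2 b2)
    have b3 := hsub'.trans b2
    have s3 := hs z' e' (zi'.trans i2) b3
    refine ⟨z', hsub (b2 hz'), (zi'.trans i2).trans zi, e', he', b3.trans hsub,
      Function.update w N ψ, fun j hj => ?_⟩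
    rw [stc_upd ψ (by omega)]
    rcases Nat.lt_succ_iff_lt_or_eq.1 hj with hj | rfl
    · rw [Function.update_of_ne (by omega)]
      exact ⟨(w2 j hj).1.mono b3, fun t ht => (w2 j hj).2.1 t (s3 ht),
        fun t ht => (w2 j hj).2.2 t (b3 ht)⟩
    · rw [Function.update_self]
      exact ⟨p1.analyticOnNhd isOpen_ball, p2,
        fun t ht => ⟨(p3 t ht).1, fd t (b3 ht) _ ▸ (p3 t ht).2⟩⟩

end Vale.Agent.P097EE
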