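import Vale.Agent.P097EE.InnA

/-! Chains of an inner system: persistence, the limit at one point, the column. -/

open Filter Metric Set Topology

namespace Vale.Agent.P097EE

variable {O : Set C2} {F : C2 × ℂ → ℂ} {G : C2 × ℂ → C2} {Fn : ℕ → C2 × ℂ → ℂ}
  {Gn : ℕ → C2 × ℂ → C2}

theorem stc_an2 {Ω : Set C2} {G : C2 × ℂ → C2} {a : C2 → C2} {c : ℕ → C2 → ℂ} {j : ℕ}
    (h : AnalyticOnNhd ℂ (stc G a c j) Ω) (hc : AnalyticOnNhd ℂ (c j) Ω)
    (hG : ∀ p ∈ Ω, AnalyticAt ℂ G (stc G a c j p, c j p)) :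
    AnalyticOnNhd ℂ (stc G a c (j + 1)) Ω := fun p hp =>
  (hG p hp).fun_comp (f := fun p => (stc G a c j p, c j p)) ((h p hp).prod (hc p hp))

theorem perP {𝒰 : Filter ℕ} (Y : Sys 𝒰 O F G Fn Gn) {K : Set ℂ} (hK : IsCompact K) {s : ℂ → C2}
    {w : ℕ → ℂ → ℂ} (as : AnalyticOnNhd ℂ s K) (ms : MapsTo s K O) (N : ℕ)
    (hw : ∀ j < N, AnalyticOnNhd ℂ (w j) K ∧ ∀ t ∈ K, F (stc G s w j t, w j t) = 0 ∧
      fderiv ℂ F (stc G s w j t, w j t) (0, 1) ≠ 0) :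
    ∃ ρ > 0, ∀ τ > 0, ∃ η > 0, ∀ᶠ n in 𝒰, ∀ (Ω : Set C2) (a : C2 → C2), IsOpen Ω →
      AnalyticOnNhd ℂ a Ω → (∀ p ∈ Ω, p.1 ∈ K ∧ ‖a p - s p.1‖ ≤ η) →
      ∃ c : ℕ → C2 → ℂ, (∀ j ≤ N, AnalyticOnNhd ℂ (stc (Gn n) a c j) Ω ∧
        ∀ p ∈ Ω, ‖stc (Gn n) a c j p - stc G s w j p.1‖ ≤ τ) ∧
        ∀ j < N, ∀ p ∈ Ω, ∀ x, ‖x - w j p.1‖ < ρ → Fn n (stc (Gn n) a c j p, x) = 0 →
          x = c j p := by
  induction N with
  | zero =>
    refine ⟨1, one_pos, fun τ hτ => ⟨τ, hτ, Eventually.of_forall fun n Ω a _ ha h =>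
      ⟨0, fun j hj => ?_, by simp⟩⟩⟩
    obtain rfl : j = 0 := by omega
    exact ⟨ha, fun p hp => (h p hp).2⟩
  | succ N ih =>
    obtain ⟨ρ1, hρ1, h1⟩ := ih fun j hj => hw j (by omega)
    have a0 := fun t ht => stc_an Y.aG Y.mG (as t ht) (ms ht) (j := N)
      fun i hi => (hw i (by omega)).1 t ht
    have c1 : ContinuousOn (stc G s w N) K := fun t ht =>
      (a0 t ht).1.continuousAt.continuousWithinAt
    have c2 := (hw N (by omega)).1.continuousOn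
    have hS : IsOpen (O ×ˢ (univ : Set ℂ)) := Y.op.prod isOpen_univ
    have hc : IsCompact ((fun t => (stc G s w N t, w N t)) '' K) :=
      hK.image_of_continuousOn (c1.prodMk c2)
    obtain ⟨e, he, hth⟩ := hc.exists_cthickening_subset_open hS (by
      rintro _ ⟨t, ht, rfl⟩; exact ⟨(a0 t ht).2, mem_univ _⟩)
    set Z := (fun t => (stc G s w N t, w N t)) '' K with hZ
    have hC : IsCompact (cthickening e Z) := hc.cthickening
    have tc : thickening e Z ⊆ cthickening e Z := thickening_subset_cthickening _ _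
    obtain ⟨ρ2, hρ2, h2⟩ := persist2 (O := thickening e Z) isOpen_thickening
      (Y.aF.mono (tc.trans hth)) hK c1 c2
      (fun t ht => self_subset_thickening he _ (mem_image_of_mem _ ht))
      (fun t ht => ((hw N (by omega)).2 t ht).1) (fun t ht => ((hw N (by omega)).2 t ht).2)
    refine ⟨min ρ1 ρ2, lt_min hρ1 hρ2, fun τ hτ => ?_⟩
    obtain ⟨d, hd, hu⟩ := Metric.uniformContinuousOn_iff.1
      (hC.uniformContinuousOn_of_continuous (Y.aG.continuousOn.mono hth)) (τ / 2) (by positivity)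
    obtain ⟨η2, hη2, h2⟩ := h2 (min (d / 2) e) (by positivity)
    obtain ⟨η1, hη1, h1⟩ := h1 (min (min τ η2) (min (d / 2) e)) (by positivity)
    refine ⟨η1, hη1, ?_⟩
    have e1 := ev_compact (l := 𝒰) hC
      (p := fun n q => AnalyticAt ℂ (Fn n) q ∧ AnalyticAt ℂ (Gn n) q) fun q hq => by
        obtain ⟨r, hr, h⟩ := Y.an q (hth hq)
        exact ⟨ball q r, ball_mem_nhds q hr, h.mono fun n hn y hy => ⟨hn.1 y hy, hn.2 y hy⟩⟩
    have e2 := Metric.tendstoUniformlyOn_iff.1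
      ((tendstoLocallyUniformlyOn_iff_forall_isCompact hS).1 Y.cF _ hth hC) η2 hη2
    have e3 := Metric.tendstoUniformlyOn_iff.1
      ((tendstoLocallyUniformlyOn_iff_forall_isCompact hS).1 Y.cG _ hth hC) (τ / 2) (by positivity)
    filter_upwards [h1, e1, e2, e3] with n h1 e1 e2 e3 Ω a hΩ ha h
    obtain ⟨c, k1, k2⟩ := h1 Ω a hΩ ha h
    have l1 : min (min τ η2) (min (d / 2) e) ≤ τ := (min_le_left _ _).trans (min_le_left _ _)
    have l2 : min (min τ η2) (min (d / 2) e) ≤ η2 := (min_le_left _ _).trans (min_le_right _ _)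
    obtain ⟨ψ, d1, d2⟩ := h2 (Fn n) (fun q hq => (e1 q (tc hq)).1) (fun q hq => by
      rw [← dist_eq_norm, dist_comm]; exact (e2 q (tc hq)).le) C2 Ω (stc (Gn n) a c N) Prod.fst hΩ
      (k1 N le_rfl).1 continuousOn_fst fun p hp => ⟨(h p hp).1, ((k1 N le_rfl).2 p hp).trans l2⟩
    have cl : ∀ p ∈ Ω, dist (stc (Gn n) a c N p, ψ p) (stc G s w N p.1, w N p.1) ≤
        min (d / 2) e := fun p hp => by
      rw [Prod.dist_eq, dist_eq_norm, dist_eq_norm]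
      exact max_le (((k1 N le_rfl).2 p hp).trans (min_le_right _ _)) (d2 p hp).2.1
    have mC : ∀ p ∈ Ω, (stc (Gn n) a c N p, ψ p) ∈ cthickening e Z := fun p hp =>
      mem_cthickening_of_dist_le _ _ _ _ (mem_image_of_mem _ (h p hp).1)
        ((cl p hp).trans (min_le_right _ _))
    refine ⟨Function.update c N ψ, fun j hj => ?_, fun j hj p hp x hx => ?_⟩
    · rcases Nat.le_succ_iff.1 hj with hj | rfl
      · rw [stc_upd ψ hj]
        exact ⟨(k1 j hj).1, fun p hp => ((k1 j hj).2 p hp).trans l1⟩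
      refine ⟨stc_an2 (by rw [stc_upd ψ le_rfl]; exact (k1 N le_rfl).1)
        (by rw [Function.update_self]; exact d1) (fun p hp => by
          rw [stc_upd ψ le_rfl, Function.update_self]; exact (e1 _ (mC p hp)).2), fun p hp => ?_⟩
      simp only [stc]
      rw [stc_upd ψ le_rfl, Function.update_self, ← dist_eq_norm]
      have b1 := e3 _ (mC p hp)
      have b2 := hu _ (mC p hp) _ (self_subset_cthickening _ (mem_image_of_mem _ (h p hp).1))
        ((cl p hp).trans_lt ((min_le_left _ _).trans_lt (by linarith)))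
      have b3 := dist_triangle_left (Gn n (stc (Gn n) a c N p, ψ p))
        (G (stc G s w N p.1, w N p.1)) (G (stc (Gn n) a c N p, ψ p))
      linarith
    · rw [stc_upd ψ (by omega)]
      rcases Nat.lt_succ_iff_lt_or_eq.1 hj with hj | rfl
      · rw [Function.update_of_ne (by omega)]
        exact k2 j hj p hp x (hx.trans_le (min_le_left _ _))
      · rw [Function.update_self]
        exact (d2 p hp).2.2 x (hx.trans_le (min_le_right _ _))

theorem cc_pt {E : Type} [NormedAddCommGroup E] {𝒰 : Filter ℕ} {H : C2 × ℂ → E}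
    {Hn : ℕ → C2 × ℂ → E} (hO : IsOpen O) (hc : ContinuousOn H (O ×ˢ univ))
    (h : TendstoLocallyUniformlyOn Hn H 𝒰 (O ×ˢ univ)) {a : C2} {c : ℂ} (ha : a ∈ O)
    {x : ℕ → C2} {y : ℕ → ℂ} (hx : Tendsto x 𝒰 (𝓝 a)) (hy : Tendsto y 𝒰 (𝓝 c)) :
    Tendsto (fun n => Hn n (x n, y n)) 𝒰 (𝓝 (H (a, c))) :=
  ((tlu_iff (hO.prod isOpen_univ) hc).1 h (a, c) ⟨ha, mem_univ _⟩).comp
    (tendsto_id.prodMk (hx.prodMk_nhds hy))

theorem fd_lim {𝒰 : Filter ℕ} (Y : Sys 𝒰 O F G Fn Gn) {a : C2} {c : ℂ} (ha : a ∈ O)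
    {x : ℕ → C2} {y : ℕ → ℂ} (hx : Tendsto x 𝒰 (𝓝 a)) (hy : Tendsto y 𝒰 (𝓝 c)) :
    Tendsto (fun n => fderiv ℂ (Fn n) (x n, y n) (0, 1)) 𝒰 (𝓝 (fderiv ℂ F (a, c) (0, 1))) := by
  obtain ⟨r, hr, h⟩ := Y.an (a, c) ⟨ha, mem_univ _⟩
  have dF : ∀ v, DifferentiableAt ℂ F (a, v) := fun v =>
    (Y.aF _ ⟨ha, mem_univ _⟩).differentiableAt
  have d0 : Differentiable ℂ fun v => F (a, v) := fun v => (hasDerivAt_snd (dF v)).differentiableAt
  have ev : ∀ᶠ n in 𝒰, ∀ v ∈ ball c r, DifferentiableAt ℂ (Fn n) (x n, v) := by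
    filter_upwards [h, hx.eventually (ball_mem_nhds a hr)] with n h1 h2 v hv
    exact (h1.1 _ (by rw [← ball_prod_same]; exact ⟨h2, hv⟩)).differentiableAt
  have t1 : TendstoLocallyUniformlyOn (fun n v => Fn n (x n, v)) (fun v => F (a, v)) 𝒰
      (ball c r) := (tlu_iff isOpen_ball d0.continuous.continuousOn).2 fun v _ =>
    ((tlu_iff (Y.op.prod isOpen_univ) Y.aF.continuousOn).1 Y.cF (a, v) ⟨ha, mem_univ _⟩).comp
      (tendsto_fst.prodMk ((hx.comp tendsto_fst).prodMk_nhds tendsto_snd))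
  have t2 := t1.deriv (ev.mono fun n hn v hv =>
    (hasDerivAt_snd (hn v hv)).differentiableAt.differentiableWithinAt) isOpen_ball
  have t3 := ((tlu_iff isOpen_ball (d0.deriv.continuous.continuousOn)).1 t2 c
    (mem_ball_self hr)).comp (tendsto_id.prodMk hy)
  rw [(hasDerivAt_snd (dF c)).deriv] at t3
  refine t3.congr' ?_
  filter_upwards [ev, hy.eventually (ball_mem_nhds c hr)] with n h1 h2
  exact (hasDerivAt_snd (h1 _ h2)).deriv

theorem ulim {E : Type} [TopologicalSpace E] (𝒰 : Ultrafilter ℕ) {K : Set E} (hK : IsCompact K)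
    {x : ℕ → E} (h : ∀ᶠ n in (𝒰 : Filter ℕ), x n ∈ K) : ∃ a ∈ K, Tendsto x 𝒰 (𝓝 a) :=
  hK.ultrafilter_le_nhds (𝒰.map x) (by rw [Ultrafilter.coe_map, le_principal_iff]; exact h)

/-- the two chains at one point have the same limits -/
theorem ptl (𝒰 : Ultrafilter ℕ) (Y : Sys 𝒰 O F G Fn Gn) {J : ℕ} {m : ℝ} (hm : 0 < m)
    {S σ : ℕ → ℕ → C2} {V u : ℕ → ℕ → ℂ} {a : C2} (ha : a ∈ O)
    (h1 : Tendsto (fun n => S n 0) 𝒰 (𝓝 a)) (h2 : Tendsto (fun n => σ n 0) 𝒰 (𝓝 a))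
    (hS : ∀ᶠ n in (𝒰 : Filter ℕ), ∀ j < J, ‖V n j‖ ≤ 1 / m ∧
      m ≤ ‖fderiv ℂ (Fn n) (S n j, V n j) (0, 1)‖ ∧ S n (j + 1) = Gn n (S n j, V n j))
    (hσ : ∀ᶠ n in (𝒰 : Filter ℕ), ∀ j < J, σ n j ∈ O → σ n (j + 1) = Gn n (σ n j, u n j))
    (hu : ∀ j < J, Tendsto (fun n => u n j - V n j) 𝒰 (𝓝 0)) :
    ∀ j < J, ∃ a ∈ O, ∃ c, Tendsto (fun n => σ n j) 𝒰 (𝓝 a) ∧ Tendsto (fun n => u n j) 𝒰 (𝓝 c) ∧
      fderiv ℂ F (a, c) (0, 1) ≠ 0 := by
  have lv : ∀ j < J, ∃ c, Tendsto (fun n => V n j) 𝒰 (𝓝 c) ∧ Tendsto (fun n => u n j) 𝒰 (𝓝 c) := by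
    intro j hj
    obtain ⟨c, -, hc⟩ := ulim 𝒰 (isCompact_closedBall (0 : ℂ) (1 / m)) (x := fun n => V n j)
      (hS.mono fun n hn => mem_closedBall_zero_iff.2 (hn j hj).1)
    exact ⟨c, hc, by simpa using (hu j hj).add hc⟩
  have key : ∀ j ≤ J, ∃ a ∈ O, Tendsto (fun n => S n j) 𝒰 (𝓝 a) ∧
      Tendsto (fun n => σ n j) 𝒰 (𝓝 a) := by
    intro j
    induction j with
    | zero => exact fun _ => ⟨a, ha, h1, h2⟩
    | succ j ih =>
      intro hj
      obtain ⟨b, hb, k1, k2⟩ := ih (by omega)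
      obtain ⟨c, c1, c2⟩ := lv j (by omega)
      refine ⟨G (b, c), Y.mG ⟨hb, mem_univ _⟩,
        (cc_pt Y.op Y.aG.continuousOn Y.cG hb k1 c1).congr'
          (hS.mono fun n hn => (hn j (by omega)).2.2.symm),
        (cc_pt Y.op Y.aG.continuousOn Y.cG hb k2 c2).congr' ?_⟩
      filter_upwards [hσ, k2.eventually (Y.op.mem_nhds hb)] with n e1 e2
      exact (e1 j (by omega) e2).symm
  intro j hj
  obtain ⟨b, hb, k1, k2⟩ := key j hj.le
  obtain ⟨c, c1, c2⟩ := lv j hj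
  refine ⟨b, hb, c, k2, c2, norm_pos_iff.1 (hm.trans_le ?_)⟩
  exact ge_of_tendsto (fd_lim Y hb k1 c1).norm (hS.mono fun n hn => (hn j hj).2.1)

theorem zeros_ctb {g : ℂ → ℂ} {D : Set ℂ} (hD : IsPreconnected D) (hg : AnalyticOnNhd ℂ g D)
    {a : ℂ} (ha : a ∈ D) (h0 : g a ≠ 0) : {w | w ∈ D ∧ g w = 0}.Countable := by
  have hd : DiscreteTopology {w | w ∈ D ∧ g w = 0} := by
    refine discreteTopology_subtype_iff.2 fun w hw => ?_
    rw [Filter.inf_principal_eq_bot]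
    exact ((hg w hw.1).eventually_eq_zero_or_eventually_ne_zero.resolve_left fun h => h0
      (hg.eqOn_zero_of_preconnected_of_eventuallyEq_zero hD hw.1 h ha)).mono
      fun v hv h => hv h.2
  exact Set.countable_coe_iff.1 (TopologicalSpace.separableSpace_iff_countable.1 inferInstance)

/-- a column which avoids the zeros -/
theorem column {g : ℂ → ℂ} {D : Set ℂ} (hD : IsOpen D) (hD' : IsPreconnected D)
    (hg : AnalyticOnNhd ℂ g D) {z y e : ℝ} (he : 0 < e) (hb : ball (z : ℂ) e ⊆ D)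
    (h0 : ∀ t ∈ ball (z : ℂ) e, g t ≠ 0)
    (hc : ∀ t : ℂ, |t.re - z| < e → y ≤ t.im → t.im < 0 → t ∈ D) :
    ∃ x ρ : ℝ, 0 < ρ ∧ ρ ≤ e / 4 ∧ |x - z| < e / 4 ∧
      ∀ t ∈ Icc (x - ρ) (x + ρ) ×ℂ Icc y ρ, t ∈ D ∧ g t ≠ 0 := by
  obtain ⟨x, x1, x2⟩ := (((zeros_ctb hD' hg (hb (mem_ball_self he))
    (h0 _ (mem_ball_self he))).image Complex.re).dense_compl ℝ).exists_mem_open
    (isOpen_ball (x := z) (ε := e / 4)) (nonempty_ball.2 (by positivity))
  rw [mem_ball, Real.dist_eq] at x2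
  have ho : IsOpen (D \ {t | g t = 0}) :=
    hg.continuousOn.isOpen_inter_preimage hD (isOpen_compl_singleton (x := (0 : ℂ)))
  have hK : IsCompact (Icc x x ×ℂ Icc y (e / 4)) := isCompact_Icc.reProdIm isCompact_Icc
  obtain ⟨r, hr, hth⟩ := hK.exists_cthickening_subset_open ho (by
    rintro t ⟨t1, t2⟩
    have e1 : t.re = x := le_antisymm t1.2 t1.1
    rcases lt_or_ge t.im 0 with h | h
    · have m := hc t (by rw [e1]; linarith) t2.1 h
      exact ⟨m, fun k => x1 ⟨t, ⟨m, k⟩, e1⟩⟩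
    · have m : t ∈ ball (z : ℂ) e := by
        rw [mem_ball, dist_eq_norm]
        refine (Complex.norm_le_abs_re_add_abs_im _).trans_lt ?_
        simp only [Complex.sub_re, Complex.ofReal_re, Complex.sub_im, Complex.ofReal_im, sub_zero]
        rw [e1, abs_of_nonneg h]
        linarith [t2.2]
      exact ⟨hb m, h0 t m⟩)
  refine ⟨x, min r (e / 4), by positivity, min_le_right _ _, x2, fun t ht => hth
    (mem_cthickening_of_dist_le t (x + t.im * Complex.I) r _ ⟨by simp, by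
      simpa using ⟨ht.2.1, ht.2.2.trans (min_le_right _ _)⟩⟩ ?_)⟩
  have e2 : t - (x + t.im * Complex.I) = ((t.re - x : ℝ) : ℂ) := by
    apply Complex.ext <;> simp
  rw [dist_eq_norm, e2, Complex.norm_real, Real.norm_eq_abs, abs_le]
  have := min_le_left r (e / 4)
  constructor <;> linarith [ht.1.1, ht.1.2]

end Vale.Agent.P097EE
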