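import Vale.Agent.P097EE.Defs

/-!
# P097EE.LF: the local system at a fold (definitions and statements)

A state is `p = (s, e)`: the vertex is `b = z + e`, the previous vertex is `fa p`; the inner
unknown `v` gives the next vertex `fc (p, v)`.
-/

set_option linter.all false

noncomputable section

namespace Vale.Agent.P097EE.LF

open Filter Topology Set Metric Complex Vale.Agent.P097N Vale.Agent.P097Mo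

/-- the previous vertex -/
def fa (θ : ℂ → ℂ) (r z δ : ℂ) (p : C2) : ℂ := z + p.2 - (r * p.1 + 2 * δ) / deriv θ (z + p.2)

/-- the next vertex -/
def fc (θ : ℂ → ℂ) (r z δ : ℂ) (x : C2 × ℂ) : ℂ :=
  z + x.1.2 + (r * x.2 + 2 * δ) / deriv θ (z + x.1.2)

/-- the inner unknown of the pair (vertex, next vertex) -/
def cu (θ : ℂ → ℂ) (r δ : ℂ) (q : C2) : ℂ := (deriv θ q.1 * (q.2 - q.1) - 2 * δ) / r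

/-- the normalised law -/
def FF (θ h : ℂ → ℂ) (c r z δ : ℂ) (x : C2 × ℂ) : ℂ :=
  8 * deriv θ (z + x.1.2) ^ 3 / (c ^ 2 * r ^ 3) *
    EE θ h (fa θ r z δ x.1) (z + x.1.2) (fc θ r z δ x)

/-- the next state -/
def GF (θ : ℂ → ℂ) (r z δ : ℂ) (x : C2 × ℂ) : C2 := acF θ r z δ (z + x.1.2, fc θ r z δ x)

/-- the inner unknown and the second coordinate of the previous state -/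
def HF (θ : ℂ → ℂ) (r z δ : ℂ) (p : C2) : C2 :=
  (cu θ r δ (fa θ r z δ p, z + p.2), fa θ r z δ p - z)

/-- the coefficient of the model law -/
def mu (θ : ℂ → ℂ) (r δ y : ℂ) : ℂ := -48 * δ * deriv (deriv θ) y / (r ^ 2 * deriv θ y ^ 2)

/-- the model law -/
def md (m s v : ℂ) : ℂ := 4 * s * v * (v - s) - m * (s + v)

/-- the data at a fold -/
structure Fd (θ h Q : ℂ → ℂ) (c : ℂ) (U : Set ℂ) (ε r z δ : ℂ) (ρ K : ℝ) : Prop where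
  cv : Cv θ h Q c U
  sub : ball z (2 * ρ) ⊆ U
  e0 : ε ≠ 0
  r1 : ‖ε‖ ≤ K * ‖r‖ ^ 2
  r2 : ‖r‖ ^ 2 ≤ K * ‖ε‖
  bd : ∀ y ∈ ball z (2 * ρ), 1 ≤ K * ‖ε * deriv θ y‖ ∧ ‖ε * deriv θ y‖ ≤ K ∧
    ‖ε * deriv (deriv θ) y‖ ≤ K ∧ ‖Q y‖ ≤ K ∧ ‖mu θ r δ y - 1‖ ≤ K * ‖y - z‖

/-- 5831: the expansion of the law -/
def S_LFE : Prop := ∀ (j : ℤ) (ρ K : ℝ), j ≠ 0 → 0 < ρ → ρ ≤ 1 → 1 ≤ K → ∃ C ε₀ : ℝ, 1 ≤ C ∧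
  0 < ε₀ ∧ ∀ θ h Q c U ε r z, Fd θ h Q c U ε r z (j * Real.pi) ρ K → ‖ε‖ ≤ ε₀ →
    ∀ s e v : ℂ, ‖e‖ < ρ → ‖r * s‖ ≤ 1 → ‖r * v‖ ≤ 1 →
      AnalyticAt ℂ (FF θ h c r z (j * Real.pi)) ((s, e), v) ∧
      ‖FF θ h c r z (j * Real.pi) ((s, e), v) - md (mu θ r (j * Real.pi) (z + e)) s v‖ ≤
        C * ‖r‖ * ((1 + ‖s‖ + ‖v‖) ^ 2 + ‖s‖ * ‖v‖ * ‖v - s‖ * (‖s‖ + ‖v‖))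

/-- 5832: the changes of the base point -/
def S_LFG : Prop := ∀ (δ : ℂ) (ρ K : ℝ), 0 < ρ → 1 ≤ K → ∃ C ε₀ : ℝ, 1 ≤ C ∧
  0 < ε₀ ∧ ∀ θ h Q c U ε r z, Fd θ h Q c U ε r z δ ρ K → ‖ε‖ ≤ ε₀ →
    (∀ s e v : ℂ, ‖e‖ < ρ → ‖r * v‖ ≤ 1 → AnalyticAt ℂ (GF θ r z δ) ((s, e), v) ∧
      ‖(GF θ r z δ ((s, e), v)).1 - v‖ ≤ C * ‖r‖ ∧ ‖(GF θ r z δ ((s, e), v)).2 - e‖ ≤ C * ‖ε‖) ∧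
    ∀ s e : ℂ, ‖e‖ < ρ → ‖r * s‖ ≤ 1 → AnalyticAt ℂ (HF θ r z δ) (s, e) ∧
      ‖(HF θ r z δ (s, e)).1 - s‖ ≤ C * ‖r‖ ∧ ‖(HF θ r z δ (s, e)).2 - e‖ ≤ C * ‖ε‖

/-- 5833: the root of a perturbed model law -/
def S_LFR : Prop := ∀ C : ℝ, 1 ≤ C → ∃ l C' c₀ η₀ : ℝ, 1 ≤ l ∧ C ≤ C' ∧ 0 < c₀ ∧ c₀ ≤ 1 / 8 ∧
  0 < η₀ ∧ 8 * C' ≤ c₀ * l ∧ ∀ (Φ : C2 × ℂ → ℂ) (G : C2 × ℂ → C2) (m : C2 → ℂ) (a L e η ν : ℝ),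
    (a = 1 ∨ a = -1) → e ≤ 1 → 0 ≤ η → η ≤ η₀ → 0 ≤ ν → ν * L ≤ 1 →
    (∀ p ∈ An l L e, ‖m p - 1‖ ≤ C * (‖p.2‖ + η) ∧ ∀ x : ℂ, ‖x - p.1‖ ≤ ‖p.1‖ / 4 →
      AnalyticAt ℂ Φ (p, x) ∧ AnalyticAt ℂ G (p, x) ∧
      ‖Φ (p, x) - md (a * m p) p.1 x‖ ≤ C * η * (‖p.1‖ + ‖p.1‖ ^ 2 * ‖x - p.1‖) ∧
      ‖(G (p, x)).1 - x‖ * ‖p.1‖ ≤ C * η ∧ ‖(G (p, x)).2 - p.2‖ ≤ ν) →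
    ∃ w : C2 → ℂ, Stp (fun p => G (p, w p)) a C' l L e η ν ∧ ∀ p ∈ An l L e,
      AnalyticAt ℂ w p ∧ Φ (p, w p) = 0 ∧ ‖w p - p.1‖ * ‖p.1‖ ≤ C' ∧
      1 ≤ ‖fderiv ℂ Φ (p, w p) (0, 1)‖ ∧
      ∀ x : ℂ, ‖x - p.1‖ ≤ c₀ * ‖p.1‖ → Φ (p, x) = 0 → x = w p

/-- 5834: the data along the sequence -/
def S_LFD : Prop := ∀ (𝒰 : Ultrafilter ℕ) ε θ h Q c U g Lw (y₀ δ : ℂ) (z r : ℕ → ℂ),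
  Seq 𝒰 ε θ h Q c U g Lw → y₀ ∈ Lw → g y₀ ≠ 0 → deriv g y₀ ≠ 0 → δ ≠ 0 →
  Tendsto z 𝒰 (𝓝 y₀) → (∀ᶠ n in (𝒰 : Filter ℕ),
    r n ^ 2 * deriv (θ n) (z n) ^ 2 = -48 * δ * deriv (deriv (θ n)) (z n)) →
  ∃ (ρ K : ℝ) (m : ℂ → ℂ), 0 < ρ ∧ ρ ≤ 1 ∧ 1 ≤ K ∧ AnalyticOnNhd ℂ m (ball 0 ρ) ∧
    (∀ᶠ n in (𝒰 : Filter ℕ), Fd (θ n) (h n) (Q n) (c n) (U n) (ε n) (r n) (z n) δ ρ K) ∧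
    ∀ σ > 0, ∀ᶠ n in (𝒰 : Filter ℕ), ∀ e ∈ ball (0 : ℂ) ρ,
      ‖mu (θ n) (r n) δ (z n + e) - m e‖ ≤ σ

/-- 5835: the inner system -/
def S_LFS : Prop := ∀ (𝒰 : Filter ℕ) (ε r : ℕ → ℂ) (μ : ℕ → ℂ → ℂ) (m : ℂ → ℂ) (ρ C : ℝ)
  (Fn : ℕ → C2 × ℂ → ℂ) (Gn : ℕ → C2 × ℂ → C2), Tendsto ε 𝒰 (𝓝 0) → Tendsto r 𝒰 (𝓝 0) →
  AnalyticOnNhd ℂ m (ball 0 ρ) →
  (∀ σ > 0, ∀ᶠ n in 𝒰, ∀ e ∈ ball (0 : ℂ) ρ, ‖μ n e - m e‖ ≤ σ) →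
  (∀ᶠ n in 𝒰, ∀ s e v : ℂ, ‖e‖ < ρ → ‖r n * s‖ ≤ 1 → ‖r n * v‖ ≤ 1 →
    AnalyticAt ℂ (Fn n) ((s, e), v) ∧ AnalyticAt ℂ (Gn n) ((s, e), v) ∧
    ‖Fn n ((s, e), v) - md (μ n e) s v‖ ≤
      C * ‖r n‖ * ((1 + ‖s‖ + ‖v‖) ^ 2 + ‖s‖ * ‖v‖ * ‖v - s‖ * (‖s‖ + ‖v‖)) ∧
    ‖(Gn n ((s, e), v)).1 - v‖ ≤ C * ‖r n‖ ∧ ‖(Gn n ((s, e), v)).2 - e‖ ≤ C * ‖ε n‖) →
  Sys 𝒰 (univ ×ˢ ball 0 ρ) (fun x => md (m x.1.2) x.1.1 x.2) (fun x => (x.2, x.1.2)) Fn Gn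

/-- the two steps at a fold -/
structure Two (θ h : ℂ → ℂ) (c ε r z δ : ℂ) (C l L e c₀ : ℝ) (v x : C2 → ℂ) : Prop where
  s1 : Stp (fun p => GF θ r z δ (p, v p)) 1 C l L e √(‖ε‖ * L) (C * ‖ε‖)
  s2 : Stp (fun p => (x p, (HF θ r z δ p).2)) (-1) C l L e √(‖ε‖ * L) (C * ‖ε‖)
  r1 : ∀ p ∈ An l L e, AnalyticAt ℂ v p ∧ FF θ h c r z δ (p, v p) = 0 ∧ ‖v p‖ ≤ 2 * ‖p.1‖ ∧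
    1 ≤ ‖fderiv ℂ (FF θ h c r z δ) (p, v p) (0, 1)‖
  u1 : ∀ p ∈ An l L e, ∀ p' ∈ An l L e, ‖p'.1 - p.1‖ ≤ c₀ * ‖p.1‖ → (HF θ r z δ p').2 = p.2 →
    FF θ h c r z δ (p, (HF θ r z δ p').1) = 0 → (HF θ r z δ p').1 = v p ∧ p.1 = x p'
  iv : ∀ p ∈ An (2 * l) (L / 2) (e / 2), (x p, (HF θ r z δ p).2) ∈ An l L e ∧
    ‖p.1 - x p‖ ≤ c₀ * ‖x p‖ ∧ FF θ h c r z δ ((x p, (HF θ r z δ p).2), (HF θ r z δ p).1) = 0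

/-- 5836: the two steps exist -/
def S_LFT : Prop := ∀ (j : ℤ) (ρ K : ℝ), j ≠ 0 → 0 < ρ → ρ ≤ 1 → 1 ≤ K → ∃ C l c₀ ε₀ : ℝ,
  1 ≤ C ∧ 1 ≤ l ∧ 0 < c₀ ∧ 0 < ε₀ ∧ ∀ θ h Q c U ε r z (L : ℝ),
    Fd θ h Q c U ε r z (j * Real.pi) ρ K → 1 ≤ L → ‖ε‖ * L ≤ ε₀ →
    ∃ v x, Two θ h c ε r z (j * Real.pi) C l L (ρ / 2) c₀ v x

/-- 5837: the assembly -/
def S_LFA : Prop := S_LFE → S_LFG → S_LFD → S_LFS → S_LFT → S_LOCF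

end Vale.Agent.P097EE.LF
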