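import Vale.Agent.P097EE.LFDefs

/-! # P097EE.LF: the trigonometric part of the expansion (statement) -/

set_option linter.all false

noncomputable section

namespace Vale.Agent.P097EE.LF

open Complex Vale.Agent.P097F.N

/-- the first kernel in units of the angle -/
def kA (μ Ω : ℂ) : ℂ := 1 - cos Ω + μ * (Ω ^ 4 * VV Ω)

/-- the second kernel in units of the angle -/
def kB (μ Ω : ℂ) : ℂ := -sin Ω + μ * (Ω ^ 3 * UU Ω)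

/-- 5838: the trigonometric estimate -/
def S_LFX : Prop := ∀ (j : ℤ) (K : ℝ), j ≠ 0 → 1 ≤ K → ∃ C : ℝ, 1 ≤ C ∧
  ∀ r s v m μ Ωa Ωc e₁ e₂ e₃ e₄ : ℂ, r ≠ 0 → ‖r‖ ≤ 1 → ‖r * s‖ ≤ 1 → ‖r * v‖ ≤ 1 → ‖m‖ ≤ K →
    m * r ^ 2 = -48 * (j * Real.pi) * μ → Ωa = -(r * s + 2 * (j * Real.pi)) →
    Ωc = r * v + 2 * (j * Real.pi) → ‖e₁‖ ≤ K * ‖r‖ ^ 4 → ‖e₂‖ ≤ K * ‖r‖ ^ 4 →
    ‖e₃‖ ≤ K * ‖r‖ ^ 4 → ‖e₄‖ ≤ K * ‖r‖ ^ 4 →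
    ‖8 / r ^ 3 * ((kA μ Ωc + e₁) * (kB μ Ωa + e₂) + (kA μ Ωa + e₃) * (kB μ Ωc + e₄)) - md m s v‖ ≤
      C * ‖r‖ * ((1 + ‖s‖ + ‖v‖) ^ 2 + ‖s‖ * ‖v‖ * ‖v - s‖ * (‖s‖ + ‖v‖))

end Vale.Agent.P097EE.LF
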