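import Vale.Agent.P097EE.LFDefs2
import Vale.Agent.P097F.N.FoA

/-!
# P097EE.LF: the trigonometric estimate (row 5838)
-/

set_option linter.all false

noncomputable section

namespace Vale.Agent.P097EE.LF

open Complex Vale.Agent.P097F.N

namespace TrigA

/-- the entire form of the first kernel -/
def AA (Ω : ℂ) : ℂ := Ω ^ 2 * sin Ω / 2 + Ω * (1 + 2 * cos Ω) - 3 * sin Ω

/-- the entire form of the second kernel -/
def BB (Ω : ℂ) : ℂ := -(Ω ^ 2 * cos Ω / 2) + 2 * Ω * sin Ω - 3 * (1 - cos Ω)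

theorem eA {Ω : ℂ} (h : Ω ≠ 0) : Ω ^ 4 * VV Ω = AA Ω := by
  rw [VV, AA]
  field_simp

theorem eB {Ω : ℂ} (h : Ω ≠ 0) : Ω ^ 3 * UU Ω = BB Ω := by
  rw [UU, BB]
  field_simp

theorem ms (z : ℂ) : sin z = z * snc z := by
  simpa [snc] using (sub_smul_dslope sin 0 z).symm

theorem hc (x : ℂ) : 1 - cos x = 2 * sin (x / 2) ^ 2 := by
  have := cos_two_mul (x / 2)
  rw [show 2 * (x / 2) = x by ring] at this
  linear_combination -this - 2 * sin_sq_add_cos_sq (x / 2)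

theorem hs (x : ℂ) : sin x = 2 * sin (x / 2) * cos (x / 2) := by
  rw [← sin_two_mul, show 2 * (x / 2) = x by ring]

theorem main (x y : ℂ) : (1 - cos x) * sin y - (1 - cos y) * sin x =
    x * y * (x - y) / 2 * (snc (x / 2) * snc (y / 2) * snc (x / 2 - y / 2)) := by
  have : (1 - cos x) * sin y - (1 - cos y) * sin x =
      4 * sin (x / 2) * sin (y / 2) * sin (x / 2 - y / 2) := by
    rw [hc x, hc y, hs x, hs y, sin_sub]
    ring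
  rw [this, ms (x / 2), ms (y / 2), ms (x / 2 - y / 2)]
  ring

theorem nm {a b : ℂ} {A B : ℝ} (ha : ‖a‖ ≤ A) (hb : ‖b‖ ≤ B) : ‖a * b‖ ≤ A * B :=
  (norm_mul a b).trans_le (mul_le_mul ha hb (norm_nonneg _) ((norm_nonneg _).trans ha))

theorem na {a b : ℂ} {A B : ℝ} (ha : ‖a‖ ≤ A) (hb : ‖b‖ ≤ B) : ‖a + b‖ ≤ A + B :=
  (norm_add_le a b).trans (add_le_add ha hb)

theorem ns {a b : ℂ} {A B : ℝ} (ha : ‖a‖ ≤ A) (hb : ‖b‖ ≤ B) : ‖a - b‖ ≤ A + B :=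
  (norm_sub_le a b).trans (add_le_add ha hb)

/-- the small factors on one side -/
theorem side {K L ρ P : ℝ} {x μ a b e e' : ℂ} (K1 : 1 ≤ K) (L1 : 1 ≤ L) (ρ0 : 0 ≤ ρ) (ρ1 : ρ ≤ 1)
    (P1 : 1 ≤ P) (hx : ‖x‖ ≤ ρ * P) (s1 : ‖snc x‖ ≤ L) (s2 : ‖snc (x / 2)‖ ≤ L)
    (hμ : ‖μ‖ ≤ K * ρ ^ 2) (ha : ‖a‖ ≤ L * ‖x‖) (hb : ‖b‖ ≤ L) (he : ‖e‖ ≤ K * ρ ^ 4)
    (he' : ‖e'‖ ≤ K * ρ ^ 4) :
    ‖1 - cos x‖ ≤ 3 * K * L ^ 2 * (ρ ^ 2 * P ^ 2) ∧ ‖μ * a + e‖ ≤ 3 * K * L ^ 2 * (ρ ^ 3 * P) ∧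
      ‖μ * b + e'‖ ≤ 3 * K * L ^ 2 * ρ ^ 2 ∧
      ‖sin x‖ + ‖μ * b + e'‖ ≤ 3 * K * L ^ 2 * (ρ * P) := by
  have L2 : L ≤ L ^ 2 := by nlinarith
  have k1 : L ^ 2 ≤ K * L ^ 2 := le_mul_of_one_le_left (by positivity) K1
  have k2 : K ≤ K * L ^ 2 := le_mul_of_one_le_right (by positivity) (by linarith)
  have k3 : K * L ≤ K * L ^ 2 := mul_le_mul_of_nonneg_left L2 (by positivity)
  have r1 : ρ ^ 4 ≤ ρ ^ 2 := pow_le_pow_of_le_one ρ0 ρ1 (by norm_num)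
  have r2 : ρ ^ 4 ≤ ρ ^ 3 * P := (pow_le_pow_of_le_one ρ0 ρ1 (by norm_num)).trans
    (le_mul_of_one_le_right (by positivity) P1)
  have r3 : ρ ^ 2 ≤ ρ * P := by nlinarith
  have b0 : ‖μ * b + e'‖ ≤ 2 * K * L ^ 2 * ρ ^ 2 := by
    have := mul_le_mul k2 r1 (by positivity) (by positivity)
    have := mul_le_mul_of_nonneg_right k3 (sq_nonneg ρ)
    linarith [na (nm hμ hb) he']
  refine ⟨?_, ?_, b0.trans (by gcongr; norm_num), ?_⟩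
  · have h2 : ‖x / 2‖ ≤ ρ * P / 2 := by rw [norm_div, Complex.norm_two]; linarith
    have h3 := nm (nm h2 s2) (nm h2 s2)
    rw [hc, ms, norm_mul, Complex.norm_two, sq]
    have := mul_le_mul_of_nonneg_right k1 (show 0 ≤ ρ ^ 2 * P ^ 2 by positivity)
    have : 0 ≤ L ^ 2 * (ρ ^ 2 * P ^ 2) := by positivity
    linarith
  · have h2 := na (nm hμ (ha.trans (mul_le_mul_of_nonneg_left hx (by positivity)))) he
    have := mul_le_mul k2 r2 (by positivity) (by positivity)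
    have := mul_le_mul_of_nonneg_right k3 (show 0 ≤ ρ ^ 3 * P by positivity)
    have : 0 ≤ K * L ^ 2 * (ρ ^ 3 * P) := by positivity
    linarith
  · have h2 := nm hx s1
    rw [← ms] at h2
    have := mul_le_mul_of_nonneg_left r3 (show 0 ≤ K * L ^ 2 by positivity)
    have := mul_le_mul_of_nonneg_right (L2.trans k1) (show 0 ≤ ρ * P by positivity)
    linarith

theorem tri {a b c : ℂ} {L t : ℝ} (L1 : 1 ≤ L) (hb : ‖b‖ ≤ L) (hc : ‖c‖ ≤ L) (t0 : 0 ≤ t)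
    (a1 : ‖a - 1‖ ≤ L * t) (b1 : ‖b - 1‖ ≤ L * t) (c1 : ‖c - 1‖ ≤ L * t) :
    ‖a * b * c - 1‖ ≤ 3 * L ^ 3 * t := by
  have h := na (na (nm (nm a1 hb) hc) (nm b1 hc)) c1
  rw [show (a - 1) * b * c + (b - 1) * c + (c - 1) = a * b * c - 1 by ring] at h
  have h1 : L * t ≤ L * t * L := le_mul_of_one_le_right (by positivity) L1
  have h2 : L * t * L ≤ L * t * L * L := le_mul_of_one_le_right (by positivity) L1
  linarith

theorem idn {r s v m μ d Ac Aa Bc Ba e₁ e₂ e₃ e₄ : ℂ} (r0 : r ≠ 0)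
    (em : m * r ^ 2 = -48 * d * μ) :
    8 / r ^ 3 * ((1 - cos (r * v) + μ * Ac + e₁) * (sin (r * s) + μ * Ba + e₂) +
      (1 - cos (r * s) + μ * Aa + e₃) * (-sin (r * v) + μ * Bc + e₄)) - md m s v =
    4 * s * v * (v - s) * (snc (r * v / 2) * snc (r * s / 2) * snc (r * v / 2 - r * s / 2) - 1) -
      m * (v * (snc (r * v) - 1) + s * (snc (r * s) - 1)) +
      8 / r ^ 3 * ((1 - cos (r * v)) * (μ * Ba + e₂) + (1 - cos (r * s)) * (μ * Bc + e₄) +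
        6 * d * μ * (μ * Ba + e₂ - (μ * Bc + e₄)) +
        (μ * (Ac - 6 * d) + e₁) * (sin (r * s) + (μ * Ba + e₂)) +
        (μ * (Aa - -(6 * d)) + e₃) * (μ * Bc + e₄ - sin (r * v))) := by
  have k : 8 / r ^ 3 * r ^ 3 = 8 := by field_simp
  rw [md]
  generalize 8 / r ^ 3 = u at *
  linear_combination u * main (r * v) (r * s) + u * (6 * d * μ) * (ms (r * v) + ms (r * s)) +
    u * (r * v * snc (r * v) + r * s * snc (r * s)) / 8 * em +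
    (s * v * (v - s) / 2 * (snc (r * v / 2) * snc (r * s / 2) * snc (r * v / 2 - r * s / 2)) -
      m * (v * snc (r * v) + s * snc (r * s)) / 8) * k

theorem fin {K L M ρ a b c : ℝ} (K1 : 1 ≤ K) (L1 : 1 ≤ L) (ρ0 : 0 < ρ) (a0 : 0 ≤ a) (b0 : 0 ≤ b)
    (c0 : 0 ≤ c) :
    4 * a * b * c * (3 * L ^ 3 * (ρ * (a + b))) + K * (b * (L * (ρ * b)) + a * (L * (ρ * a))) +
      8 / ρ ^ 3 * (M * (ρ ^ 2 * (1 + a + b) ^ 2) * (M * ρ ^ 2) +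
        M * (ρ ^ 2 * (1 + a + b) ^ 2) * (M * ρ ^ 2) + M * ρ ^ 2 * (M * ρ ^ 2 + M * ρ ^ 2) +
        M * (ρ ^ 3 * (1 + a + b)) * (M * (ρ * (1 + a + b))) +
        M * (ρ ^ 3 * (1 + a + b)) * (M * (ρ * (1 + a + b)))) ≤
    (12 * L ^ 3 + K * L + 48 * M ^ 2 + 1) * ρ * ((1 + a + b) ^ 2 + a * b * c * (a + b)) := by
  have q1 : b ^ 2 + a ^ 2 ≤ (1 + a + b) ^ 2 := by nlinarith
  have q2 : 1 ≤ (1 + a + b) ^ 2 := one_le_pow₀ (by linarith)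
  have q3 := mul_le_mul_of_nonneg_left q1 (show 0 ≤ K * L * ρ by positivity)
  have q4 := mul_le_mul_of_nonneg_left q2 (show 0 ≤ M ^ 2 * ρ by positivity)
  have q5 : 0 ≤ (12 * L ^ 3 + 1) * ρ * (1 + a + b) ^ 2 := by positivity
  have q6 : 0 ≤ (K * L + 48 * M ^ 2 + 1) * ρ * (a * b * c * (a + b)) := by positivity
  have q7 : ∀ X : ℝ, 8 / ρ ^ 3 * (ρ ^ 3 * X) = 8 * X := fun X => by field_simp
  have q8 := q7 (M ^ 2 * ρ * (4 * (1 + a + b) ^ 2 + 2))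
  generalize 8 / ρ ^ 3 = u at *
  generalize 1 + a + b = P at *
  linarith

end TrigA

open TrigA in
theorem lfx : S_LFX := by
  intro j K j0 K1
  obtain ⟨d, hd⟩ : ∃ d : ℂ, d = j * Real.pi := ⟨_, rfl⟩
  have d1 : 1 ≤ ‖d‖ := by
    rw [hd, norm_mul, norm_intCast, norm_real, Real.norm_of_nonneg Real.pi_pos.le]
    have : (1 : ℝ) ≤ |(j : ℝ)| := by exact_mod_cast Int.one_le_abs j0
    nlinarith [Real.pi_gt_three]
  have pc : ∀ x, cos (x + 2 * d) = cos x := fun x => by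
    rw [← cos_add_int_mul_two_pi x j, hd]; congr 1; ring
  have ps : ∀ x, sin (x + 2 * d) = sin x := fun x => by
    rw [← sin_add_int_mul_two_pi x j, hd]; congr 1; ring
  have A1 : AA (0 + 2 * d) = 6 * d := by rw [AA, pc, ps, sin_zero, cos_zero]; ring
  have A2 : AA (-(0 + 2 * d)) = -(6 * d) := by
    rw [AA, sin_neg, cos_neg, pc, ps, sin_zero, cos_zero]; ring
  obtain ⟨L₁, l1, h1⟩ := FoA.lipE (f := AA) (by unfold AA; fun_prop) (1 + 2 * ‖d‖)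
  obtain ⟨L₂, l2, h2⟩ := FoA.lipE (f := BB) (by unfold BB; fun_prop) (1 + 2 * ‖d‖)
  obtain ⟨L₃, l3, h3⟩ := FoA.lipE FoA.snc_d 1
  obtain ⟨L, hL⟩ : ∃ L, L = L₁ + L₂ + L₃ := ⟨_, rfl⟩
  have L1 : 1 ≤ L := by linarith
  have sn : ∀ x : ℂ, ‖x‖ ≤ 1 → ∀ t, ‖x‖ ≤ t → ‖snc x‖ ≤ L ∧ ‖snc x - 1‖ ≤ L * t := fun x hx t ht => by
    have := h3 x 0 hx (by simp)
    rw [FoA.snc_zero, sub_zero] at this
    exact ⟨by linarith, this.2.trans (mul_le_mul (by linarith) ht (norm_nonneg _) (by linarith))⟩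
  have nn : ∀ x : ℂ, ‖x‖ ≤ 1 → x + 2 * d ≠ 0 ∧ ‖x + 2 * d‖ ≤ 1 + 2 * ‖d‖ := fun x hx => by
    refine ⟨fun h => ?_, na hx (by simp)⟩
    rw [eq_neg_of_add_eq_zero_left h, norm_neg, norm_mul, Complex.norm_two] at hx
    linarith
  obtain ⟨M, hM⟩ : ∃ M, M = 3 * K * L ^ 2 := ⟨_, rfl⟩
  have M1 : K ≤ M := by rw [hM]; nlinarith [one_le_pow₀ (n := 2) L1]
  refine ⟨12 * L ^ 3 + K * L + 48 * M ^ 2 + 1, le_add_of_nonneg_left (by positivity), ?_⟩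
  rintro r s v m μ _ _ e₁ e₂ e₃ e₄ r0 r1 hs hv hm em rfl rfl b1 b2 b3 b4
  rw [← hd] at em ⊢
  have ρ0 : 0 < ‖r‖ := norm_pos_iff.2 r0
  have s0 := norm_nonneg s
  have v0 := norm_nonneg v
  have t1 : ‖6 * d * μ‖ ≤ K * ‖r‖ ^ 2 / 8 := by
    rw [show 6 * d * μ = -(m * r ^ 2 / 8) by linear_combination em / 8, norm_neg, norm_div]
    simp only [norm_ofNat]
    linarith [nm hm (norm_pow r 2).le]
  have t2 : ‖μ‖ ≤ K * ‖r‖ ^ 2 := by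
    rw [norm_mul, norm_mul, norm_ofNat] at t1
    nlinarith [norm_nonneg μ]
  have t3 : ‖6 * d * μ‖ ≤ M * ‖r‖ ^ 2 := by nlinarith [sq_nonneg ‖r‖]
  have x1 : ‖r * v‖ ≤ ‖r‖ * (‖s‖ + ‖v‖) := nm le_rfl (by linarith)
  have y1 : ‖r * s‖ ≤ ‖r‖ * (‖s‖ + ‖v‖) := nm le_rfl (by linarith)
  have hf : ∀ x : ℂ, ‖x / 2‖ = ‖x‖ / 2 := fun x => by rw [norm_div, Complex.norm_two]
  have n1 := norm_nonneg (r * v)
  have n2 := norm_nonneg (r * s)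
  have sx := sn (r * v / 2) (by rw [hf]; linarith) (‖r‖ * (‖s‖ + ‖v‖)) (by rw [hf]; linarith)
  have sy := sn (r * s / 2) (by rw [hf]; linarith) (‖r‖ * (‖s‖ + ‖v‖)) (by rw [hf]; linarith)
  have sz := sn (r * v / 2 - r * s / 2) ((ns (hf _).le (hf _).le).trans (by linarith))
    (‖r‖ * (‖s‖ + ‖v‖)) ((ns (hf _).le (hf _).le).trans (by linarith))
  have z0 := (nn 0 (by simp)).2
  have P1 : 1 ≤ 1 + ‖s‖ + ‖v‖ := by linarith
  have ac := (h1 _ _ (nn _ hv).2 z0).2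
  have aa := (h1 (-(r * s + 2 * d)) (-(0 + 2 * d)) (by rw [norm_neg]; exact (nn _ hs).2)
    (by rw [norm_neg]; exact z0)).2
  rw [A1, show r * v + 2 * d - (0 + 2 * d) = r * v by ring] at ac
  rw [A2, show -(r * s + 2 * d) - -(0 + 2 * d) = -(r * s) by ring, norm_neg] at aa
  obtain ⟨c1, c2, c3, c4⟩ := side (P := 1 + ‖s‖ + ‖v‖) K1 L1 ρ0.le r1 P1
    (nm le_rfl (by linarith)) (sn _ hv _ le_rfl).1 sx.1 t2
    (ac.trans (mul_le_mul_of_nonneg_right (by linarith) n1))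
    ((h2 _ 0 (nn _ hv).2 (by simp; positivity)).1.trans (by linarith)) b1 b4
  obtain ⟨a1, a2, a3, a4⟩ := side (P := 1 + ‖s‖ + ‖v‖) K1 L1 ρ0.le r1 P1
    (nm le_rfl (by linarith)) (sn _ hs _ le_rfl).1 sy.1 t2
    (aa.trans (mul_le_mul_of_nonneg_right (by linarith) n2))
    ((h2 (-(r * s + 2 * d)) 0 (by rw [norm_neg]; exact (nn _ hs).2)
      (by simp; positivity)).1.trans (by linarith)) b3 b2
  rw [← hM] at c1 c2 c3 c4 a1 a2 a3 a4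
  have R := na (na (na (na (nm c1 a3) (nm a1 c3)) (nm t3 (ns a3 c3)))
    (nm c2 ((norm_add_le _ _).trans a4)))
      (nm a2 ((norm_sub_le _ _).trans ((add_comm _ _).trans_le c4)))
  have E1 := nm (nm (nm (nm (norm_ofNat 4).le (le_refl ‖s‖)) (le_refl ‖v‖)) (le_refl ‖v - s‖))
    (tri L1 sy.1 sz.1 (by positivity) sx.2 sy.2 sz.2)
  have E2 := nm hm (na (nm (le_refl ‖v‖) (sn _ hv _ (norm_mul r v).le).2)
    (nm (le_refl ‖s‖) (sn _ hs _ (norm_mul r s).le).2))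
  have E3 := nm (show ‖8 / r ^ 3‖ ≤ 8 / ‖r‖ ^ 3 by simp) R
  have E := na (ns E1 E2) E3
  refine le_trans (le_of_eq ?_) (E.trans (fin K1 L1 ρ0 s0 v0 (norm_nonneg _)))
  rw [← idn r0 em]
  simp only [kA, kB, eA (nn _ hv).1, eB (nn _ hv).1, eA (neg_ne_zero.2 (nn _ hs).1),
    eB (neg_ne_zero.2 (nn _ hs).1), sin_neg, cos_neg, pc, ps, neg_neg]

end Vale.Agent.P097EE.LF
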