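import Vale.Agent.P097EE.LFDefs
import Vale.Agent.P097F.N.StepAll

/-!
# P097EE.LF: the expansion of the law at a fold
-/

set_option linter.all false

noncomputable section

namespace Vale.Agent.P097EE.LF

open Filter Topology Set Metric Complex Vale.Agent.P097N Vale.Agent.P097F.N
open Vale.Agent.P097F.N.StepA

namespace LFe

theorem lip1 {f : ℂ → ℂ} (hf : ∀ y : ℂ, ‖y‖ ≤ 2 → DifferentiableAt ℂ f y) (f0 : f 0 = 1) :
    ∃ M : ℝ, 1 ≤ M ∧ ∀ y : ℂ, ‖y‖ ≤ 1 → ‖f y‖ ≤ M ∧ ‖f y - 1‖ ≤ M * ‖y‖ := by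
  obtain ⟨N, hN⟩ := (isCompact_closedBall (0 : ℂ) 2).exists_bound_of_continuousOn
    (f := f) fun y hy => (hf y (by simpa using hy)).continuousAt.continuousWithinAt
  have b : ∀ x ∈ ball (0 : ℂ) 1, ‖2 * x‖ ≤ 2 := fun x hx => by
    rw [norm_mul, Complex.norm_two]; linarith [mem_ball_zero_iff.1 hx]
  refine ⟨max N 1, le_max_right _ _, fun y hy => ⟨(hN y (by
    rw [mem_closedBall_zero_iff]; linarith)).trans (le_max_left _ _), ?_⟩⟩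
  have := sch (f := fun x => f (2 * x)) (c := 0) (z := y / 2) (M := N)
    (fun x hx => ((hf _ (b x hx)).comp x (by fun_prop)).differentiableWithinAt)
    (fun x hx => hN _ (by simpa using b x hx))
    (by rw [mem_ball_zero_iff, norm_div, Complex.norm_two]; linarith)
  simp only [mul_zero, f0, sub_zero, norm_div, Complex.norm_two,
    mul_div_cancel₀ y (two_ne_zero' ℂ)] at this
  nlinarith [le_max_left N 1, norm_nonneg y]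

theorem anEE {θ h Q : ℂ → ℂ} {c : ℂ} {U : Set ℂ} (Cu : Cv θ h Q c U) {a b d : C2 × ℂ → ℂ}
    {x : C2 × ℂ} (ha : AnalyticAt ℂ a x) (hb : AnalyticAt ℂ b x) (hd : AnalyticAt ℂ d x)
    (ma : a x ∈ U) (mb : b x ∈ U) (md : d x ∈ U) :
    AnalyticAt ℂ (fun x => EE θ h (a x) (b x) (d x)) x := by
  have a1 := (sk θ h Q c U Cu).1 _ mb _ md
  have a2 := (sk θ h Q c U Cu).1 _ mb _ ma
  have b1 := a1.1.comp_of_eq (hb.prod hd) rfl
  have b2 := a1.2.1.comp_of_eq (hb.prod hd) rfl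
  have b3 := a2.1.comp_of_eq (hb.prod ha) rfl
  have b4 := a2.2.1.comp_of_eq (hb.prod ha) rfl
  refine ((b1.fun_mul b4).fun_add (b3.fun_mul b2)).congr (Eventually.of_forall fun q => ?_)
  simp only [EE, Function.comp]

theorem two {a b x y : ℂ} {M : ℝ} (hb : ‖b‖ ≤ M) (M1 : 1 ≤ M) (h1 : ‖a - 1‖ ≤ M * ‖x‖)
    (h2 : ‖b - 1‖ ≤ M * ‖y‖) : ‖a * b - 1‖ ≤ M ^ 2 * (‖x‖ + ‖y‖) := by
  rw [show a * b - 1 = (a - 1) * b + (b - 1) by ring]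
  have := norm_add_le_of_le (norm_mul_le_of_le h1 hb) h2
  nlinarith [mul_nonneg (sub_nonneg.2 M1) (mul_nonneg (zero_le_one.trans M1) (norm_nonneg y))]

theorem est {r s v m n₁ n₂ h₁ h₂ h₃ Φ Φ' d₁ d₃ R R' P P' : ℂ} {M B : ℝ} (M1 : 1 ≤ M) (B1 : 1 ≤ B)
    (hs : ‖r * s‖ ≤ 1) (hv : ‖r * v‖ ≤ 1) (hm : ‖m‖ ≤ B)
    (a1 : ‖n₁‖ ≤ M ∧ ‖n₁ - 1‖ ≤ M * ‖r * s‖) (a2 : ‖n₂‖ ≤ M ∧ ‖n₂ - 1‖ ≤ M * ‖r * v‖)
    (b1 : ‖h₁‖ ≤ M ∧ ‖h₁ - 1‖ ≤ M * ‖r * s / 2‖) (b2 : ‖h₂‖ ≤ M ∧ ‖h₂ - 1‖ ≤ M * ‖r * v / 2‖)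
    (b3 : ‖h₃‖ ≤ M ∧ ‖h₃ - 1‖ ≤ M * ‖r * v / 2 - r * s / 2‖) (c1 : ‖Φ - 1‖ ≤ M * ‖r * s‖)
    (c2 : ‖Φ' - 1‖ ≤ M * ‖r * v‖) (e1 : ‖d₁‖ ≤ B * ‖r‖) (e3 : ‖d₃‖ ≤ B * ‖r‖)
    (f1 : ‖R‖ ≤ B * ‖r‖) (f2 : ‖R'‖ ≤ B * ‖r‖) (g1 : ‖P‖ ≤ B) (g2 : ‖P'‖ ≤ B) :
    ‖4 * s * v * (v - s) * (h₁ * h₂ * h₃ - 1) - m * (s * (Φ' * n₁ - 1) + v * (Φ * n₂ - 1)) +
      (32 * (d₁ * (r * s) * n₁ - d₃ * (r * v) * n₂) +
        8 * (s ^ 2 * h₁ ^ 2 * R' - v ^ 2 * h₂ ^ 2 * R) + 64 * (P * R' - P' * R))‖ ≤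
      256 * B ^ 2 * M ^ 3 * ‖r‖ *
        ((1 + ‖s‖ + ‖v‖) ^ 2 + ‖s‖ * ‖v‖ * ‖v - s‖ * (‖s‖ + ‖v‖)) := by
  have r0 := norm_nonneg r
  have s0 := norm_nonneg s
  have v0 := norm_nonneg v
  have w0 := norm_nonneg (v - s)
  have M0 : 0 ≤ M := zero_le_one.trans M1
  have B0 : 0 ≤ B := zero_le_one.trans B1
  have k0 : ‖r * v / 2 - r * s / 2‖ ≤ ‖r‖ * (‖s‖ + ‖v‖) / 2 := by
    refine (norm_sub_le _ _).trans (le_of_eq ?_)
    simp only [norm_div, norm_mul, Complex.norm_two]; ring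
  have k1 : ‖h₁ * h₂ * h₃ - 1‖ ≤ M ^ 3 * (‖r‖ * (‖s‖ + ‖v‖)) := by
    have t := two b2.1 M1 b1.2 b2.2
    simp only [norm_div, norm_mul, Complex.norm_two] at t
    rw [show h₁ * h₂ * h₃ - 1 = (h₁ * h₂ - 1) * h₃ + (h₃ - 1) by ring]
    refine (norm_add_le_of_le (norm_mul_le_of_le t b3.1)
      (b3.2.trans (mul_le_mul_of_nonneg_left k0 M0))).trans ?_
    have : M ≤ M ^ 3 := le_self_pow₀ M1 (by norm_num)
    nlinarith [mul_le_mul_of_nonneg_right this (show 0 ≤ ‖r‖ * (‖s‖ + ‖v‖) by positivity)]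
  have k2 := two a1.1 M1 c2 a1.2
  have k3 := two a2.1 M1 c1 a2.2
  simp only [norm_mul] at k2 k3
  have t1 : ‖4 * s * v * (v - s) * (h₁ * h₂ * h₃ - 1)‖ ≤
      4 * ‖s‖ * ‖v‖ * ‖v - s‖ * (M ^ 3 * (‖r‖ * (‖s‖ + ‖v‖))) :=
    norm_mul_le_of_le (by simp) k1
  have t2 := norm_mul_le_of_le hm (norm_add_le_of_le (norm_mul_le_of_le (le_refl ‖s‖) k2)
    (norm_mul_le_of_le (le_refl ‖v‖) k3))
  have t3 := norm_mul_le_of_le (show ‖(32 : ℂ)‖ ≤ 32 by simp) (norm_sub_le_of_le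
    (norm_mul_le_of_le (norm_mul_le_of_le e1 hs) a1.1)
    (norm_mul_le_of_le (norm_mul_le_of_le e3 hv) a2.1))
  have p : ∀ {x : ℂ} {y : ℝ}, ‖x‖ ≤ y → ‖x ^ 2‖ ≤ y ^ 2 := fun h => by
    rw [norm_pow]; exact pow_le_pow_left₀ (norm_nonneg _) h 2
  have t4 := norm_mul_le_of_le (show ‖(8 : ℂ)‖ ≤ 8 by simp) (norm_sub_le_of_le
    (norm_mul_le_of_le (norm_mul_le_of_le (p (le_refl ‖s‖)) (p b1.1)) f2)
    (norm_mul_le_of_le (norm_mul_le_of_le (p (le_refl ‖v‖)) (p b2.1)) f1))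
  have t5 := norm_mul_le_of_le (show ‖(64 : ℂ)‖ ≤ 64 by simp) (norm_sub_le_of_le
    (norm_mul_le_of_le g1 f2) (norm_mul_le_of_le g2 f1))
  refine (norm_add_le_of_le (norm_sub_le_of_le t1 t2)
    (norm_add_le_of_le (norm_add_le_of_le t3 t4) t5)).trans ?_
  obtain ⟨X, hX⟩ : ∃ X, X = B ^ 2 * M ^ 3 := ⟨_, rfl⟩
  have B2 : B ≤ B ^ 2 := le_self_pow₀ B1 (by norm_num)
  have B3 : 1 ≤ B ^ 2 := B1.trans B2
  have M3 : 1 ≤ M ^ 3 := one_le_pow₀ M1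
  have x1 : M ^ 3 ≤ X := hX ▸ le_mul_of_one_le_left (by positivity) B3
  have x2 : B * M ^ 2 ≤ X := hX ▸ mul_le_mul B2 (pow_le_pow_right₀ M1 (by norm_num))
    (by positivity) (by positivity)
  have x3 : B * M ≤ X := hX ▸ mul_le_mul B2 (le_self_pow₀ M1 (by norm_num)) M0 (by positivity)
  have x4 : B ^ 2 ≤ X := hX ▸ le_mul_of_one_le_right (by positivity) M3
  have X0 : 0 ≤ X := by linarith
  have y1 := mul_le_mul_of_nonneg_right x1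
    (show 0 ≤ ‖r‖ * (‖s‖ * ‖v‖ * ‖v - s‖ * (‖s‖ + ‖v‖)) by positivity)
  have y2 := mul_le_mul_of_nonneg_right x2 (show 0 ≤ ‖r‖ * (‖s‖ + ‖v‖) ^ 2 by positivity)
  have y3 := mul_le_mul_of_nonneg_right x3 r0
  have y4 := mul_le_mul_of_nonneg_right x2 (show 0 ≤ ‖r‖ * (‖s‖ ^ 2 + ‖v‖ ^ 2) by positivity)
  have y5 := mul_le_mul_of_nonneg_right x4 r0
  have z1 : 0 ≤ X * (‖r‖ * (‖s‖ * ‖v‖ * ‖v - s‖ * (‖s‖ + ‖v‖))) := by positivity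
  have z2 : 0 ≤ X * ‖r‖ := by positivity
  have z3 : 0 ≤ X * ‖r‖ * (‖s‖ + ‖v‖) := by positivity
  have z4 : 0 ≤ X * ‖r‖ * (‖s‖ * ‖v‖) := by positivity
  have z5 : 0 ≤ X * ‖r‖ * (‖s‖ ^ 2 + ‖v‖ ^ 2) := by positivity
  rw [mul_assoc 256, ← hX]
  linarith

theorem dv {x r : ℂ} {B : ℝ} {i k : ℕ} (r0 : r ≠ 0) (h : ‖x‖ ≤ B * ‖r‖ ^ i * ‖r‖ ^ k) :
    ‖x / r ^ k‖ ≤ B * ‖r‖ ^ i := by
  rwa [norm_div, norm_pow, div_le_iff₀ (pow_pos (norm_pos_iff.2 r0) k)]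

end LFe

open LFe

theorem lfe : S_LFE := by
  intro j ρ K j0 ρ0 ρ1 K1
  obtain ⟨J, hJ⟩ : ∃ J : ℂ, J = j * Real.pi := ⟨_, rfl⟩
  rw [← hJ]
  have J3 : 3 ≤ ‖J‖ := by
    rw [hJ, norm_mul, Complex.norm_intCast, Complex.norm_real, Real.norm_of_nonneg Real.pi_pos.le]
    have : (1 : ℝ) ≤ |(j : ℝ)| := by exact_mod_cast Int.one_le_abs j0
    nlinarith [Real.pi_gt_three]
  have J0 : J ≠ 0 := norm_pos_iff.1 (by linarith)
  have sJ : sin J = 0 := by rw [hJ]; exact Complex.sin_int_mul_pi j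
  have cJ : cos J ^ 2 = 1 := by simpa [sJ] using Complex.sin_sq_add_cos_sq J
  have s2 : sin (2 * J) = 0 := by rw [Complex.sin_two_mul, sJ]; simp
  have c2 : cos (2 * J) = 1 := by rw [Complex.cos_two_mul, cJ]; norm_num
  have ne : ∀ y : ℂ, ‖y‖ ≤ 2 → y + 2 * J ≠ 0 := fun y hy e => by
    rw [eq_neg_of_add_eq_zero_left e, norm_neg, norm_mul, Complex.norm_two] at hy
    linarith
  obtain ⟨A, hA⟩ : ∃ A : ℝ, A = 2 * ‖J‖ + 1 := ⟨_, rfl⟩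
  have A1 : 1 ≤ A := by linarith
  have bA : ∀ y : ℂ, ‖y‖ ≤ 1 → ‖y + 2 * J‖ ≤ A := fun y hy => by
    have := norm_add_le y (2 * J)
    rw [norm_mul, Complex.norm_two] at this
    linarith
  obtain ⟨C, C1, hC⟩ := sexp (A * K ^ 2)
  obtain ⟨M₁, M1, hM1⟩ := lip1 (f := snc) (fun y _ => snc_d y) snc_zero
  obtain ⟨M₂, M2, hM2⟩ := lip1 (f := fun y => (y + 2 * J) ^ 4 * VV (y + 2 * J) / (6 * J))
    (fun y hy => by
      have := ne y hy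
      unfold VV
      fun_prop (disch := simp [this]))
    (by simp only [zero_add, VV, s2, c2]; field_simp; ring)
  have hM : ∀ y : ℂ, ‖y‖ ≤ 1 → ‖snc y‖ ≤ M₁ + M₂ ∧ ‖snc y - 1‖ ≤ (M₁ + M₂) * ‖y‖ := fun y hy =>
    ⟨by linarith [(hM1 y hy).1], (hM1 y hy).2.trans (by gcongr; linarith)⟩
  have hM' : ∀ y : ℂ, ‖y‖ ≤ 1 → ‖(y + 2 * J) ^ 4 * VV (y + 2 * J) / (6 * J) - 1‖ ≤
      (M₁ + M₂) * ‖y‖ := fun y hy => (hM2 y hy).2.trans (by gcongr; linarith)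
  obtain ⟨D, hD⟩ : ∃ D : ℝ, D = A ^ 2 * K ^ 4 := ⟨_, rfl⟩
  have D1 : 1 ≤ D := hD ▸ one_le_mul_of_one_le_of_one_le (one_le_pow₀ A1) (one_le_pow₀ K1)
  obtain ⟨B, hB⟩ : ∃ B : ℝ, B = 2 * C * A ^ 2 * D ^ 2 * K := ⟨_, rfl⟩
  have B2 : 2 * C * A ^ 2 * D ^ 2 ≤ B := hB ▸ le_mul_of_one_le_right (by positivity) K1
  have A2 : 1 ≤ A ^ 2 := one_le_pow₀ A1
  have D2 : D ≤ D ^ 2 := le_self_pow₀ D1 (by norm_num)
  have B3 : 2 * K ≤ B := by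
    have : 1 ≤ C * A ^ 2 * D ^ 2 := one_le_mul_of_one_le_of_one_le
      (one_le_mul_of_one_le_of_one_le C1 A2) (D1.trans D2)
    rw [hB]; nlinarith
  have B1 : 1 ≤ B := by linarith
  refine ⟨256 * B ^ 2 * (M₁ + M₂) ^ 3, ρ / (A ^ 2 * K ^ 3), ?_, by positivity, ?_⟩
  · have : 1 ≤ B ^ 2 * (M₁ + M₂) ^ 3 :=
      one_le_mul_of_one_le_of_one_le (one_le_pow₀ B1) (one_le_pow₀ (by linarith))
    linarith
  intro θ h Q c U ε r z F hε s e v he hs hv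
  have ep := norm_pos_iff.2 F.e0
  have r0 : r ≠ 0 := fun e => by have := F.r1; simp [e] at this; exact F.e0 this
  have c0 := F.cv.c0
  rw [le_div_iff₀ (by positivity)] at hε
  have a1 : A * K * ‖ε‖ ≤ ‖ε‖ * (A ^ 2 * K ^ 3) := by
    rw [mul_comm ‖ε‖]
    exact mul_le_mul_of_nonneg_right (mul_le_mul (le_self_pow₀ A1 (by norm_num))
      (le_self_pow₀ K1 (by norm_num)) (by positivity) (by positivity)) ep.le
  have sb : closedBall (z + e) (A * K * ‖ε‖) ⊆ ball z (2 * ρ) :=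
    closedBall_subset_ball' (by rw [dist_self_add_left]; linarith)
  have mb := sb (mem_closedBall_self (by positivity))
  obtain ⟨g0, g1, -, -, g4⟩ := F.bd _ mb
  rw [norm_mul] at g0 g1
  have Gp : 0 < ‖deriv θ (z + e)‖ := by
    by_contra hh
    have := mul_nonpos_of_nonneg_of_nonpos (zero_le_one.trans K1)
      (mul_nonpos_of_nonneg_of_nonpos ep.le (not_lt.1 hh))
    linarith
  have G0 := norm_pos_iff.1 Gp
  have bt : ∀ y : ℂ, ‖y‖ ≤ 1 → ‖(y + 2 * J) / deriv θ (z + e)‖ ≤ A * K * ‖ε‖ := fun y hy => by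
    rw [norm_div, div_le_iff₀ Gp]
    nlinarith [bA y hy, mul_le_mul_of_nonneg_left g0 (zero_le_one.trans A1)]
  have κ1 : ‖ε‖ * (A ^ 2 * K ^ 3) ≤ 1 := hε.trans ρ1
  have S : Sc θ Q U (z + e) (A * K * ‖ε‖) (A * K ^ 2) (‖ε‖ * (A ^ 2 * K ^ 3)) := by
    refine ⟨sb.trans F.sub, ?_, fun y hy => ?_, fun y hy => ?_, κ1⟩
    · linarith [mul_le_mul_of_nonneg_left g1 (show 0 ≤ A * K by positivity)]
    · have := (F.bd y (sb hy)).2.2.1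
      rw [norm_mul] at this
      linarith [mul_le_mul_of_nonneg_left this (show 0 ≤ (A * K) ^ 2 * ‖ε‖ by positivity)]
    · have := mul_le_mul_of_nonneg_left (F.bd y (sb hy)).2.2.2.1
        (show 0 ≤ (A * K * ‖ε‖) ^ 2 by positivity)
      have e1 : 1 ≤ A ^ 2 * K ^ 3 := one_le_mul_of_one_le_of_one_le A2 (one_le_pow₀ K1)
      linarith [mul_le_mul_of_nonneg_left e1 (show 0 ≤ ‖ε‖ ^ 2 * (A ^ 2 * K ^ 3) by positivity)]
  have mU : ∀ t : ℂ, ‖t‖ ≤ A * K * ‖ε‖ → z + e + t ∈ U := fun t ht =>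
    S.sub (by simpa [mem_closedBall, dist_eq_norm] using ht)
  constructor
  · have aG : AnalyticAt ℂ (deriv θ) (z + e) := (P097N.K.aθ F.cv (F.sub mb)).deriv
    have p0 : AnalyticAt ℂ (fun x : C2 × ℂ => z + x.1.2) ((s, e), v) := analyticAt_const.fun_add
      (AnalyticAt.comp (g := Prod.snd) (f := Prod.fst) analyticAt_snd analyticAt_fst)
    have p1 : AnalyticAt ℂ (fun x : C2 × ℂ => x.1.1) ((s, e), v) :=
      AnalyticAt.comp (g := Prod.fst) (f := Prod.fst) analyticAt_fst analyticAt_fst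
    have p2 : AnalyticAt ℂ (fun x : C2 × ℂ => deriv θ (z + x.1.2)) ((s, e), v) :=
      aG.comp_of_eq p0 rfl
    exact ((analyticAt_const.fun_mul (p2.fun_pow 3)).div_const).fun_mul (anEE F.cv
      (a := fun x => fa θ r z J x.1) (d := fc θ r z J)
      (p0.fun_sub (((analyticAt_const.fun_mul p1).fun_add analyticAt_const).fun_div p2 G0)) p0
      (p0.fun_add (((analyticAt_const.fun_mul analyticAt_snd).fun_add analyticAt_const).fun_div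
        p2 G0)) (by simpa [fa, sub_eq_add_neg] using mU _ ((norm_neg _).trans_le (bt _ hs)))
      (F.sub mb) (mU _ (bt _ hv)))
  have hm : ∀ t : ℂ, ‖t‖ ≤ A * K * ‖ε‖ →
      ‖t ^ 2 * deriv (deriv θ) (z + e)‖ ≤ ‖ε‖ * (A ^ 2 * K ^ 3) := fun t ht => by
    refine le_trans ?_ (S.g1 _ (mem_closedBall_self (by positivity)))
    rw [norm_mul, norm_pow]; gcongr
  have NF := fun t (t0 : t ≠ 0) (ht : ‖t‖ ≤ A * K * ‖ε‖) =>
    have e := hC θ h Q c U _ t _ _ F.cv S ht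
    nf c0 t0 (hm t ht) κ1 e.1 e.2.1 e.2.2.1 e.2.2.2
  have n1 := ne (r * s) (by linarith)
  have n2 := ne (r * v) (by linarith)
  obtain ⟨e₁, e₂, f1, -, g1, g2, k1, k2⟩ := NF _ (div_ne_zero n2 G0) (bt _ hv)
  obtain ⟨e₃, e₄, f3, -, g3, g4', k3, k4⟩ := NF _ (neg_ne_zero.2 (div_ne_zero n1 G0))
    ((norm_neg _).trans_le (bt _ hs))
  rw [div_mul_cancel₀ _ G0] at g1 g2 k1 k2
  rw [neg_mul, div_mul_cancel₀ _ G0] at g3 g4' k3 k4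
  rw [← sub_eq_add_neg, snc_neg] at k4
  rw [← sub_eq_add_neg, neg_div, snc_neg] at k3
  have q1 : ∀ y : ℂ, ((y + 2 * J) / 2) ^ 2 * snc ((y + 2 * J) / 2) ^ 2 =
      (y / 2) ^ 2 * snc (y / 2) ^ 2 := fun y => by
    rw [← mul_pow, ← mul_pow, mul_snc, mul_snc, show (y + 2 * J) / 2 = y / 2 + J by ring,
      Complex.sin_add, sJ, mul_zero, add_zero, mul_pow, cJ, mul_one]
  have q2 : ∀ y : ℂ, (y + 2 * J) * snc (y + 2 * J) = y * snc y := fun y => by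
    rw [mul_snc, mul_snc, Complex.sin_add, s2, c2]; ring
  have q3 : ∀ y : ℂ, snc y = snc (y / 2) * cos (y / 2) := fun y => by
    rw [← snc_two, mul_div_cancel₀ y (two_ne_zero' ℂ)]
  have q4 : v * snc (r * v / 2) * cos (r * s / 2) - s * snc (r * s / 2) * cos (r * v / 2) =
      (v - s) * snc (r * v / 2 - r * s / 2) := by
    refine mul_left_cancel₀ r0 ?_
    linear_combination 2 * cos (r * s / 2) * mul_snc (r * v / 2) - 2 * cos (r * v / 2) *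
      mul_snc (r * s / 2) - 2 * mul_snc (r * v / 2 - r * s / 2) -
      2 * Complex.sin_sub (r * v / 2) (r * s / 2)
  have κD : ‖ε‖ * (A ^ 2 * K ^ 3) ≤ D * ‖r‖ ^ 2 := by
    rw [hD]; linarith [mul_le_mul_of_nonneg_left F.r1 (show 0 ≤ A ^ 2 * K ^ 3 by positivity)]
  have hδ : ∀ y : ℂ, ‖y‖ ≤ 1 → ‖(y + 2 * J) / 2‖ ≤ A ^ 2 ∧ ‖((y + 2 * J) / 2) ^ 2‖ ≤ A ^ 2 :=
    fun y hy => by
      have t : ‖(y + 2 * J) / 2‖ ≤ A := by
        rw [norm_div, Complex.norm_two]; linarith [bA y hy]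
      exact ⟨t.trans (le_self_pow₀ A1 (by norm_num)), by
        rw [norm_pow]; exact pow_le_pow_left₀ (norm_nonneg _) t 2⟩
  have w1 : ∀ {d x : ℂ}, ‖d‖ ≤ A ^ 2 → ‖x‖ ≤ 2 * C * (‖ε‖ * (A ^ 2 * K ^ 3)) →
      ‖d * x‖ ≤ B * ‖r‖ ^ 2 := fun hd hx => (norm_mul_le_of_le hd hx).trans (by
    have t1 := mul_le_mul_of_nonneg_left (κD.trans (mul_le_mul_of_nonneg_right D2 (sq_nonneg _)))
      (show 0 ≤ 2 * C * A ^ 2 by positivity)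
    linarith [mul_le_mul_of_nonneg_right B2 (sq_nonneg ‖r‖)])
  have w2 : ∀ {d x : ℂ}, ‖d‖ ≤ A ^ 2 → ‖x‖ ≤ C * (‖ε‖ * (A ^ 2 * K ^ 3)) ^ 2 →
      ‖d * x‖ ≤ B * ‖r‖ ^ 1 * ‖r‖ ^ 3 := fun hd hx => (norm_mul_le_of_le hd hx).trans (by
    have t1 := mul_le_mul_of_nonneg_left (pow_le_pow_left₀ (by positivity) κD 2)
      (show 0 ≤ C * A ^ 2 by positivity)
    have t2 : 0 ≤ C * A ^ 2 * D ^ 2 * ‖r‖ ^ 4 := by positivity
    linarith [mul_le_mul_of_nonneg_right B2 (show 0 ≤ ‖r‖ ^ 4 by positivity)])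
  have hf : ∀ y : ℂ, ‖y‖ ≤ 1 → ‖y / 2‖ ≤ 1 / 2 := fun y hy => by
    rw [norm_div, Complex.norm_two]; linarith
  have bm : ‖mu θ r J (z + e)‖ ≤ B := by
    rw [add_sub_cancel_left] at g4
    have t := norm_le_norm_sub_add (mu θ r J (z + e)) 1
    rw [norm_one] at t
    nlinarith
  have key := est (by linarith) B1 hs hv bm (hM _ hs) (hM _ hv) (hM _ (by linarith [hf _ hs]))
    (hM _ (by linarith [hf _ hv])) (hM _ ((norm_sub_le_of_le (hf _ hv) (hf _ hs)).trans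
      (by norm_num))) (hM' _ hs) (hM' _ hv)
    ((dv r0 (w2 (hδ _ hv).2 f1)).trans_eq (by rw [pow_one]))
    ((dv r0 (w2 (hδ _ hs).2 f3)).trans_eq (by rw [pow_one]))
    ((dv (i := 1) (k := 1) r0 ((w1 (hδ _ hs).1 g4').trans_eq (by ring))).trans_eq (by rw [pow_one]))
    ((dv (i := 1) (k := 1) r0 ((w1 (hδ _ hv).1 g2).trans_eq (by ring))).trans_eq (by rw [pow_one]))
    ((dv (i := 0) (k := 2) r0 ((w1 (hδ _ hs).2 g3).trans_eq (by ring))).trans_eq (by simp))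
    ((dv (i := 0) (k := 2) r0 ((w1 (hδ _ hv).2 g1).trans_eq (by ring))).trans_eq (by simp))
  refine le_trans (le_of_eq (congrArg _ ?_)) key
  have u1 : snc ((r * v + 2 * J) / 2) ^ 2 = (r * v) ^ 2 * snc (r * v / 2) ^ 2 /
      (r * v + 2 * J) ^ 2 := by
    rw [eq_div_iff (pow_ne_zero _ n2)]; linear_combination 4 * q1 (r * v)
  have u2 : snc ((r * s + 2 * J) / 2) ^ 2 = (r * s) ^ 2 * snc (r * s / 2) ^ 2 /
      (r * s + 2 * J) ^ 2 := by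
    rw [eq_div_iff (pow_ne_zero _ n1)]; linear_combination 4 * q1 (r * s)
  have u3 : snc (r * v + 2 * J) = r * v * snc (r * v) / (r * v + 2 * J) := by
    rw [eq_div_iff n2]; linear_combination q2 (r * v)
  have u4 : snc (r * s + 2 * J) = r * s * snc (r * s) / (r * s + 2 * J) := by
    rw [eq_div_iff n1]; linear_combination q2 (r * s)
  simp only [FF, fa, fc, EE, md, mu]
  rw [k1, k2, k3, k4, u1, u2, u3, u4, VV_neg, q3 (r * s), q3 (r * v)]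
  generalize snc (r * v / 2 - r * s / 2) = h₃ at q4 ⊢
  generalize snc (r * v / 2) = h₂ at q4 ⊢
  generalize snc (r * s / 2) = h₁ at q4 ⊢
  generalize cos (r * v / 2) = k₂ at q4 ⊢
  generalize cos (r * s / 2) = k₁ at q4 ⊢
  generalize VV (r * v + 2 * J) = V₂
  generalize VV (r * s + 2 * J) = V₁
  generalize UU (r * v + 2 * J) = U₂
  generalize UU (-(r * s + 2 * J)) = U₁
  generalize deriv (deriv θ) (z + e) = ω
  generalize deriv θ (z + e) = G at G0 ⊢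
  have n1' := n1
  have n2' := n2
  generalize r * v + 2 * J = y₂ at n2' ⊢
  generalize r * s + 2 * J = y₁ at n1' ⊢
  rw [← sub_eq_zero, ← mul_eq_zero_of_right (4 * s * v * h₁ * h₂) (sub_eq_zero.2 q4)]
  field_simp
  ring

end Vale.Agent.P097EE.LF
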