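import Vale.Agent.P097EE.Defs

/-!
# P097EE.LZ: the local system at a zero of the curve (definitions and statements)

Scaled coordinates: `θ' 0 = 0`, `θ'' 0 = 4 δ`, `Q` is small.
-/

set_option linter.all false

noncomputable section

namespace Vale.Agent.P097EE.LZ

open Filter Topology Set Metric Complex Vale.Agent.P097N Vale.Agent.P097Mo
open Vale.Agent.P097F.N (nx ps)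

/-- the scaled curve -/
structure ZS (δ : ℂ) (ν R : ℝ) (θ h Q : ℂ → ℂ) (c : ℂ) (U : Set ℂ) : Prop where
  cv : Cv θ h Q c U
  sub : closedBall 0 R ⊆ U
  d1 : deriv θ 0 = 0
  d2 : deriv (deriv θ) 0 = 4 * δ
  q : ∀ y ∈ closedBall (0 : ℂ) R, ‖Q y‖ ≤ ν

/-- the step of the state `s = (η, e)` -/
def sZ (θ : ℂ → ℂ) (δ : ℂ) (s : C2) : ℂ := (2 * δ + s.2) / deriv θ s.1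

/-- outer coordinates of a pair -/
def kZ (θ : ℂ → ℂ) (δ : ℂ) (p : C2) : C2 := (p.2, deriv θ p.2 * (p.2 - p.1) - 2 * δ)

/-- the pair of a state -/
def iZ (θ : ℂ → ℂ) (δ : ℂ) (s : C2) : C2 := (s.1 - sZ θ δ s, s.1)

/-- the next vertex -/
def vZ (θ h : ℂ → ℂ) (δ : ℂ) (s : C2) : ℂ := s.1 + nx θ h s.1 (sZ θ δ s)

def TZ (θ h : ℂ → ℂ) (δ : ℂ) (s : C2) : C2 := kZ θ δ (s.1, vZ θ h δ s)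

def TmZ (θ h : ℂ → ℂ) (δ : ℂ) (s : C2) : C2 :=
  kZ θ δ (s.1 - sZ θ δ s + nx θ h (s.1 - sZ θ δ s) (-sZ θ δ s), s.1 - sZ θ δ s)

/-- the normalised law -/
def FZ (θ h : ℂ → ℂ) (c : ℂ) (x : C2 × ℂ) : ℂ := EE θ h x.1.1 x.1.2 x.2 / c ^ 2

def GZ (x : C2 × ℂ) : C2 := (x.1.2, x.2)

/-- the small parameter of the step -/
def mZ (θ : ℂ → ℂ) (δ : ℂ) (s : C2) : ℂ := sZ θ δ s ^ 2 * deriv (deriv θ) s.1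

/-- 5821: the curve near the zero -/
def S_ODE : Prop := ∀ (δ : ℂ) (ν R : ℝ) (θ h Q : ℂ → ℂ) (c : ℂ) (U : Set ℂ),
  ZS δ ν R θ h Q c U → ν * R ^ 2 ≤ 1 / 2 →
  (∀ y : ℂ, ‖y‖ ≤ R → ‖deriv θ y - 4 * δ * y‖ ≤ 8 * ‖δ‖ * ν * ‖y‖ ^ 3 ∧
    ‖deriv (deriv θ) y - 4 * δ‖ ≤ 8 * ‖δ‖ * ν * ‖y‖ ^ 2 ∧
    ‖deriv θ y‖ ≤ 8 * ‖δ‖ * ‖y‖ ∧ ‖deriv (deriv θ) y‖ ≤ 8 * ‖δ‖) ∧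
  ∀ y t : ℂ, ‖y‖ + ‖t‖ ≤ R →
    ‖deriv θ (y + t) - deriv θ y - t * deriv (deriv θ) y‖ ≤
      8 * ‖δ‖ * ν * (‖y‖ + ‖t‖) * ‖t‖ ^ 2 ∧
    ‖deriv (deriv θ) (y + t) - deriv (deriv θ) y‖ ≤ 8 * ‖δ‖ * ν * (‖y‖ + ‖t‖) * ‖t‖

/-- one step from the vertex `y` with the previous vertex `y - s` -/
structure Pt (θ h : ℂ → ℂ) (c : ℂ) (c₁ C₁ : ℝ) (y s : ℂ) : Prop where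
  g0 : deriv θ y ≠ 0
  s1 : ‖s‖ * ‖y‖ ≤ C₁
  s0 : 1 ≤ C₁ * (‖s‖ * ‖y‖)
  sn : 1 ≤ C₁ * ‖P097F.N.snc (s * deriv θ y / 2)‖
  law : EE θ h (y - s) y (y + nx θ h y s) = 0
  un : ∀ t, EE θ h (y - s) y (y + t) = 0 → ‖t - s‖ < c₁ * ‖s‖ → t = nx θ h y s
  an : AnalyticAt ℂ (fun p : ℂ × ℂ => nx θ h p.1 p.2) (y, s)
  e0 : ‖nx θ h y s - s‖ ≤ c₁ / 2 * ‖s‖
  e1 : ‖nx θ h y s - s‖ ≤ C₁ / ‖y‖ ^ 2 * ‖s‖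
  e2 : ‖nx θ h y s - s - s * (s ^ 2 * deriv (deriv θ) y * ps (s * deriv θ y / 2))‖ ≤
    C₁ / ‖y‖ ^ 4 * ‖s‖
  nd : ‖c‖ ^ 2 * ‖s‖ ^ 2 ≤ C₁ * ‖deriv (fun t => EE θ h (y - s) y (y + t)) (nx θ h y s)‖

/-- the step lemma holds with the constants `e₁ l₁ ν₁ c₁ C₁` -/
def PT (δ : ℂ) (e₁ l₁ ν₁ c₁ C₁ : ℝ) : Prop := 0 < e₁ ∧ e₁ ≤ 1 ∧ 1 ≤ l₁ ∧ 0 < ν₁ ∧ ν₁ ≤ 1 / 100 ∧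
  0 < c₁ ∧ c₁ ≤ 1 / 4 ∧ 1 ≤ C₁ ∧ ∀ (ν R : ℝ) (θ h Q : ℂ → ℂ) (c : ℂ) (U : Set ℂ) (y s : ℂ),
    ZS δ ν R θ h Q c U → ν * R ^ 2 ≤ ν₁ → l₁ ≤ ‖y‖ ^ 2 → 2 * ‖y‖ ≤ R →
    (‖s * deriv θ y - 2 * δ‖ ≤ e₁ ∨ ‖s * deriv θ y + 2 * δ‖ ≤ e₁) → Pt θ h c c₁ C₁ y s

/-- 5822 -/
def S_PT : Prop := ∀ δ : ℂ, δ ≠ 0 → Sf δ = 0 → ∃ e₁ l₁ ν₁ c₁ C₁, PT δ e₁ l₁ ν₁ c₁ C₁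

/-- 5823: the growth of `e` -/
def S_FIN : Prop := ∀ δ : ℂ, δ ≠ 0 → Sf δ = 0 → ∃ e₂ : ℝ, 0 < e₂ ∧ ∀ A : ℝ, 1 ≤ A →
  ∃ C : ℝ, 1 ≤ C ∧ ∀ (a : ℝ) (η e e' m : ℂ) (ν ω : ℝ), (a = 1 ∨ a = -1) → 1 ≤ ‖η‖ ^ 2 →
    ‖e‖ ≤ e₂ → 0 ≤ ω → ω ≤ 1 → ν * ‖η‖ ^ 2 ≤ A →
    ‖e' - e - a * m * (1 + (2 * δ + e) * ps (δ + e / 2))‖ ≤ A / ‖η‖ ^ 4 + ν →
    ‖m * η ^ 2 * δ - (δ + e / 2) ^ 2‖ ≤ A * ω →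
    ‖e'‖ ≤ (1 + C / ‖η‖ ^ 2) * ‖e‖ + C / ‖η‖ ^ 4 + ν ∧
    (a * (η ^ 2).re ≤ 0 →
      ‖e'‖ ≤ (1 + C * (‖e‖ + ω + 1 / ‖η‖ ^ 2) / ‖η‖ ^ 2) * ‖e‖ + C / ‖η‖ ^ 4 + ν) ∧
    ‖e' - e‖ * ‖η‖ ^ 2 ≤ C

/-- the estimates of one step in the direction `a` -/
structure Est (θ : ℂ → ℂ) (δ : ℂ) (T : C2 → C2) (a A ν : ℝ) (s : C2) : Prop where
  an : AnalyticAt ℂ T s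
  th : ‖(T s).1 ^ 2 - s.1 ^ 2 - a‖ ≤ A * (‖s.2‖ + ν * ‖s.1‖ ^ 2 + 1 / ‖s.1‖ ^ 2)
  cr : ‖(T s).1 - s.1‖ * ‖s.1‖ ≤ A
  e : ‖(T s).2 - s.2 - a * mZ θ δ s * (1 + (2 * δ + s.2) * ps (δ + s.2 / 2))‖ ≤
    A / ‖s.1‖ ^ 4 + A * ν
  m : ‖mZ θ δ s * s.1 ^ 2 * δ - (δ + s.2 / 2) ^ 2‖ ≤ A * (ν * ‖s.1‖ ^ 2)

/-- 5824: the forward step -/
def S_TF : Prop := ∀ δ : ℂ, δ ≠ 0 → Sf δ = 0 → ∃ e₃ l₃ ν₃ A : ℝ, 0 < e₃ ∧ 0 < ν₃ ∧ 1 ≤ A ∧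
  ∀ (ν R : ℝ) (θ h Q : ℂ → ℂ) (c : ℂ) (U : Set ℂ) (s : C2), ZS δ ν R θ h Q c U →
    ν * R ^ 2 ≤ ν₃ → l₃ ≤ ‖s.1‖ ^ 2 → 4 * ‖s.1‖ ≤ R → ‖s.2‖ ≤ e₃ →
    Est θ δ (TZ θ h δ) 1 A ν s

/-- 5825: the backward step -/
def S_TB : Prop := ∀ δ : ℂ, δ ≠ 0 → Sf δ = 0 → ∃ e₃ l₃ ν₃ A : ℝ, 0 < e₃ ∧ 0 < ν₃ ∧ 1 ≤ A ∧
  ∀ (ν R : ℝ) (θ h Q : ℂ → ℂ) (c : ℂ) (U : Set ℂ) (s : C2), ZS δ ν R θ h Q c U →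
    ν * R ^ 2 ≤ ν₃ → l₃ ≤ ‖s.1‖ ^ 2 → 4 * ‖s.1‖ ≤ R → ‖s.2‖ ≤ e₃ →
    Est θ δ (TmZ θ h δ) (-1) A ν s ∧
      EE θ h (s.1 - sZ θ δ s + nx θ h (s.1 - sZ θ δ s) (-sZ θ δ s)) (s.1 - sZ θ δ s) s.1 = 0

/-- 5826: three vertices with the law are a step -/
def S_UN : Prop := ∀ δ : ℂ, δ ≠ 0 → Sf δ = 0 → ∃ e₃ l₃ ν₃ c₀ : ℝ, 0 < e₃ ∧ 0 < ν₃ ∧ 0 < c₀ ∧
  ∀ (ν R : ℝ) (θ h Q : ℂ → ℂ) (c : ℂ) (U : Set ℂ) (x y z : ℂ), ZS δ ν R θ h Q c U →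
    ν * R ^ 2 ≤ ν₃ → l₃ ≤ ‖y‖ ^ 2 → 4 * ‖y‖ ≤ R → ‖(kZ θ δ (x, y)).2‖ ≤ e₃ →
    ‖(kZ θ δ (y, z)).2‖ ≤ e₃ → ‖z - y‖ ≤ c₀ * ‖y‖ → EE θ h x y z = 0 →
    kZ θ δ (y, z) = TZ θ h δ (kZ θ δ (x, y)) ∧ kZ θ δ (x, y) = TmZ θ h δ (kZ θ δ (y, z))

/-- 5827: the limit law -/
def S_SYS : Prop := ∀ (𝒰 : Ultrafilter ℕ) (δ : ℂ) (ν R : ℕ → ℝ) (θ h Q : ℕ → ℂ → ℂ) (c : ℕ → ℂ)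
  (U : ℕ → Set ℂ), (∀ᶠ n in (𝒰 : Filter ℕ),
    ZS δ (ν n) (R n) (θ n) (h n) (Q n) (c n) (U n) ∧ ν n * R n ^ 2 ≤ 1 / 2) →
  Tendsto R 𝒰 atTop → (∃ F, Sys 𝒰 univ F GZ (fun n => FZ (θ n) (h n) (c n)) fun _ => GZ) ∧
    ∀ s : C2, ∃ ρ M : ℝ, 0 < ρ ∧ ∀ᶠ n in (𝒰 : Filter ℕ),
      AnalyticOnNhd ℂ (kZ (θ n) δ) (ball s ρ) ∧ ∀ x ∈ ball s ρ, ‖kZ (θ n) δ x‖ ≤ M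

/-- the law and the step maps in scaled coordinates -/
def Un (𝒰 : Filter ℕ) (δ : ℂ) (θ h : ℕ → ℂ → ℂ) (l e : ℝ) (L : ℕ → ℝ) : Prop :=
  ∃ c₀ : ℝ, 0 < c₀ ∧ ∀ᶠ n in 𝒰, (∀ s ∈ An l (L n) e, deriv (θ n) s.1 ≠ 0) ∧
    ∀ x y z : ℂ, kZ (θ n) δ (x, y) ∈ An l (L n) e → kZ (θ n) δ (y, z) ∈ An l (L n) e →
      ‖z - y‖ ≤ c₀ * ‖y‖ → EE (θ n) (h n) x y z = 0 →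
      kZ (θ n) δ (y, z) = TZ (θ n) (h n) δ (kZ (θ n) δ (x, y)) ∧
        kZ (θ n) δ (x, y) = TmZ (θ n) (h n) δ (kZ (θ n) δ (y, z))

/-- 5828: the scaled local system -/
def S_LOC0 : Prop := ∀ (𝒰 : Ultrafilter ℕ) (δ : ℂ) (B : ℝ) (w L : ℕ → ℝ) (θ h Q : ℕ → ℂ → ℂ)
  (c : ℕ → ℂ) (U : ℕ → Set ℂ), δ ≠ 0 → Sf δ = 0 → 1 ≤ B → (∀ n, 0 ≤ w n) →
  (∀ᶠ n in (𝒰 : Filter ℕ), ZS δ (B * w n) (4 * √(L n)) (θ n) (h n) (Q n) (c n) (U n)) →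
  Tendsto (fun n => w n * L n) 𝒰 (𝓝 0) → Tendsto L 𝒰 atTop →
  ∃ F C l e, Loc 𝒰 univ F GZ (fun n => FZ (θ n) (h n) (c n)) (fun _ => GZ)
      (fun n => kZ (θ n) δ) (fun n => iZ (θ n) δ) (fun n => TZ (θ n) (h n) δ)
      (fun n => TmZ (θ n) (h n) δ) (fun n => vZ (θ n) (h n) δ) C l e L
      (fun n => √(w n * L n)) (fun n => C * w n) ∧ Un 𝒰 δ θ h l e L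

end Vale.Agent.P097EE.LZ
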