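import Vale.Agent.P097EE.LZDefs

/-! # P097EE.LZ: the curve near the zero -/

set_option linter.all false

noncomputable section

namespace Vale.Agent.P097EE.LZ

open Filter Topology Set Metric Complex Vale.Agent.P097N

theorem od_tay {u : ℂ → ℂ} {U : Set ℂ} {y t : ℂ} {r B : ℝ} (hU : IsOpen U)
    (du : DifferentiableOn ℂ u U) (s : closedBall y r ⊆ U)
    (b : ∀ z ∈ closedBall y r, ‖deriv (deriv u) z‖ ≤ B) (ht : ‖t‖ ≤ r) :
    ‖u (y + t) - u y - t * deriv u y‖ ≤ B * r ^ 2 ∧ ‖deriv u (y + t) - deriv u y‖ ≤ B * r := by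
  have r0 : 0 ≤ r := (norm_nonneg _).trans ht
  have y0 : y ∈ closedBall y r := mem_closedBall_self r0
  have B0 : 0 ≤ B := (norm_nonneg _).trans (b y y0)
  have m : y + t ∈ closedBall y r := mem_closedBall_iff_norm.2 (by rwa [add_sub_cancel_left])
  have h1 : ∀ z ∈ closedBall y r, ‖deriv u z - deriv u y‖ ≤ B * r := fun z hz =>
    ((convex_closedBall y r).norm_image_sub_le_of_norm_deriv_le
      (fun x hx => (du.deriv hU).differentiableAt (hU.mem_nhds (s hx))) b y0 hz).trans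
      (mul_le_mul_of_nonneg_left (mem_closedBall_iff_norm.1 hz) B0)
  refine ⟨?_, h1 _ m⟩
  have h2 := (convex_closedBall y r).norm_image_sub_le_of_norm_hasDerivWithin_le
    (f := fun z => u z - z * deriv u y) (f' := fun z => deriv u z - 1 * deriv u y)
    (fun x hx => ((du.differentiableAt (hU.mem_nhds (s hx))).hasDerivAt.sub
      ((hasDerivAt_id x).mul_const _)).hasDerivWithinAt)
    (fun x hx => by rw [one_mul]; exact h1 x hx) y0 m
  rw [add_sub_cancel_left, show u (y + t) - (y + t) * deriv u y - (u y - y * deriv u y) =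
    u (y + t) - u y - t * deriv u y by ring] at h2
  calc _ ≤ B * r * ‖t‖ := h2
    _ ≤ B * r * r := by gcongr
    _ = _ := by ring

theorem ode : S_ODE := by
  intro δ ν R θ h Q c U Z hν
  have op := Z.cv.op
  have du := Z.cv.dθ.deriv op
  have key : ∀ r : ℝ, 0 ≤ r → r ≤ R → 0 ≤ ν ∧ ν * r ^ 2 ≤ 1 / 2 ∧ ∀ z ∈ closedBall (0 : ℂ) r,
      ‖deriv θ z‖ ≤ 8 * ‖δ‖ * r ∧ ‖deriv (deriv (deriv θ)) z‖ ≤ 8 * ‖δ‖ * ν * r := by
    intro r r0 r1
    have sb := closedBall_subset_closedBall (x := (0 : ℂ)) r1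
    have ν0 : 0 ≤ ν := (norm_nonneg _).trans (Z.q 0 (mem_closedBall_self (r0.trans r1)))
    have n1 : ν * r ^ 2 ≤ 1 / 2 := le_trans (by gcongr) hν
    obtain ⟨z₀, z1, z2⟩ := (isCompact_closedBall (0 : ℂ) r).exists_isMaxOn
      ⟨0, mem_closedBall_self r0⟩ (du.continuousOn.mono (sb.trans Z.sub)).norm
    have b : ∀ M : ℝ, (∀ z ∈ closedBall (0 : ℂ) r, ‖deriv θ z‖ ≤ M) →
        ∀ z ∈ closedBall (0 : ℂ) r, ‖deriv (deriv (deriv θ)) z‖ ≤ ν * M := fun M hM z hz => by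
      rw [Z.cv.hq z (Z.sub (sb hz)), norm_mul]
      exact mul_le_mul (Z.q z (sb hz)) (hM z hz) (norm_nonneg _) ν0
    have z3 := mem_closedBall_zero_iff.1 z1
    have k := (od_tay op du (sb.trans Z.sub) (b _ fun z hz => z2 hz) z3).1
    rw [zero_add, Z.d1, Z.d2, sub_zero] at k
    have k1 := norm_sub_norm_le (deriv θ z₀) (z₀ * (4 * δ))
    rw [norm_mul, norm_mul, Complex.norm_ofNat] at k1
    have k2 : ‖z₀‖ * (4 * ‖δ‖) ≤ r * (4 * ‖δ‖) := by gcongr
    have k3 : ν * r ^ 2 * ‖deriv θ z₀‖ ≤ 1 / 2 * ‖deriv θ z₀‖ := by gcongr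
    have k4 : ∀ z ∈ closedBall (0 : ℂ) r, ‖deriv θ z‖ ≤ 8 * ‖δ‖ * r := fun z hz =>
      le_trans (z2 hz) (by simp only []; nlinarith)
    exact ⟨ν0, n1, fun z hz => ⟨k4 z hz, (b _ k4 z hz).trans_eq (by ring)⟩⟩
  refine ⟨fun y hy => ?_, fun y t hy => ?_⟩
  · obtain ⟨ν0, n1, k⟩ := key _ (norm_nonneg y) hy
    obtain ⟨a, b⟩ := od_tay op du ((closedBall_subset_closedBall hy).trans Z.sub)
      (fun z hz => (k z hz).2) (le_refl ‖y‖)
    rw [zero_add, Z.d2] at a b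
    rw [Z.d1, sub_zero, mul_comm y] at a
    refine ⟨a.trans_eq (by ring), b.trans_eq (by ring),
      (k y (mem_closedBall_zero_iff.2 le_rfl)).1, ?_⟩
    have k1 := norm_sub_norm_le (deriv (deriv θ) y) (4 * δ)
    rw [norm_mul, Complex.norm_ofNat] at k1
    have k2 : ‖δ‖ * (ν * ‖y‖ ^ 2) ≤ ‖δ‖ * (1 / 2) := by gcongr
    nlinarith
  · obtain ⟨-, -, k⟩ := key _ (by positivity) hy
    have sb : closedBall y ‖t‖ ⊆ closedBall 0 (‖y‖ + ‖t‖) :=
      closedBall_subset_closedBall' (by rw [dist_zero_right, add_comm])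
    exact od_tay op du (sb.trans ((closedBall_subset_closedBall hy).trans Z.sub))
      (fun z hz => (k z (sb hz)).2) le_rfl

end Vale.Agent.P097EE.LZ
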