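import Vale.Agent.P299.H720.Montel

/-! Normality of solutions of a convergent family of equations. -/

open Filter Metric Set Topology

namespace Vale.Agent.P097EE

open Vale.Agent.P299.H720

variable {ι : Type*}

/-- bounded near `t` along `l` -/
def BdAt (l : Filter ι) (u : ι → ℂ → ℂ) (t : ℂ) : Prop :=
  ∃ r > 0, ∃ C : ℝ, ∀ᶠ j in l, ∀ y ∈ ball t r, ‖u j y‖ ≤ C

theorem BdAt.isOpen (l : Filter ι) (u : ι → ℂ → ℂ) : IsOpen {t | BdAt l u t} := by
  rw [Metric.isOpen_iff]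
  rintro t ⟨r, hr, C, hC⟩
  refine ⟨r, hr, fun s hs => ?_⟩
  obtain ⟨e, he, hsub⟩ := Metric.isOpen_iff.1 isOpen_ball s hs
  exact ⟨e, he, C, hC.mono fun j hj y hy => hj y (hsub hy)⟩

theorem bd_compact {l : Filter ι} {u : ι → ℂ → ℂ} {K : Set ℂ} (hK : IsCompact K)
    (h : ∀ t ∈ K, BdAt l u t) : ∃ C : ℝ, ∀ᶠ j in l, ∀ y ∈ K, ‖u j y‖ ≤ C := by
  refine hK.induction_on (p := fun K => ∃ C : ℝ, ∀ᶠ j in l, ∀ y ∈ K, ‖u j y‖ ≤ C)
    ⟨0, by simp⟩ ?_ ?_ ?_
  · rintro s t hst ⟨C, hC⟩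
    exact ⟨C, hC.mono fun j hj y hy => hj y (hst hy)⟩
  · rintro s t ⟨C, hC⟩ ⟨D, hD⟩
    refine ⟨max C D, (hC.and hD).mono fun j hj y hy => ?_⟩
    rcases hy with hy | hy
    · exact (hj.1 y hy).trans (le_max_left _ _)
    · exact (hj.2 y hy).trans (le_max_right _ _)
  · intro t ht
    obtain ⟨r, hr, C, hC⟩ := h t ht
    exact ⟨ball t r, mem_nhdsWithin_of_mem_nhds (ball_mem_nhds t hr), C, hC⟩

/-- a bound on a circle gives a bound near the centre -/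
theorem bd_of_sphere {l : Filter ι} {u : ι → ℂ → ℂ} {t : ℂ} {s δ C : ℝ} (hs : 0 < s)
    (hsδ : s < δ) (hd : ∀ᶠ j in l, DifferentiableOn ℂ (u j) (ball t δ))
    (h : ∀ᶠ j in l, ∀ y ∈ sphere t s, ‖u j y‖ ≤ C) : BdAt l u t := by
  refine ⟨s, hs, C, (hd.and h).mono fun j hj y hy => ?_⟩
  refine Complex.norm_le_of_forall_mem_frontier_norm_le isBounded_ball
    (hj.1.mono (closure_ball_subset_closedBall.trans (closedBall_subset_ball hsδ))).diffContOnCl
    (fun z hz => hj.2 z (frontier_ball_subset_sphere hz)) (subset_closure hy)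

theorem bd_of_circle (𝒰 : Ultrafilter ι) {u : ι → ℂ → ℂ} {t c : ℂ} {δ ρ : ℝ} (hδ : 0 < δ)
    (hρ : 0 < ρ) (hd : ∀ᶠ j in (𝒰 : Filter ι), DifferentiableOn ℂ (u j) (ball t δ))
    (hc : ∀ᶠ j in (𝒰 : Filter ι), ∀ y ∈ ball t δ, ‖u j y - c‖ ≠ ρ)
    (ht : t ∈ closure {t | BdAt (𝒰 : Filter ι) u t}) : BdAt (𝒰 : Filter ι) u t := by
  have hdi : ∀ᶠ j in (𝒰 : Filter ι), (∀ y ∈ ball t δ, ‖u j y - c‖ < ρ) ∨
      ∀ y ∈ ball t δ, ρ < ‖u j y - c‖ := by
    filter_upwards [hd, hc] with j h1 h2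
    have hco : ContinuousOn (fun y => ‖u j y - c‖) (ball t δ) :=
      (h1.continuousOn.sub continuousOn_const).norm
    have hp := ((convex_ball t δ).isPreconnected.image _ hco)
    by_contra hn
    push Not at hn
    obtain ⟨⟨a, ha, ha'⟩, b, hb, hb'⟩ := hn
    obtain ⟨y, hy, hy'⟩ := hp.Icc_subset (mem_image_of_mem _ hb) (mem_image_of_mem _ ha)
      (show ρ ∈ Icc _ _ from ⟨hb', ha'⟩)
    exact h2 y hy hy'
  rcases Ultrafilter.eventually_or.1 hdi with h | h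
  · refine ⟨δ, hδ, ρ + ‖c‖, h.mono fun j hj y hy => ?_⟩
    have := norm_sub_norm_le (u j y) c
    have := hj y hy
    linarith
  have hne : ∀ᶠ j in (𝒰 : Filter ι), ∀ y ∈ ball t δ, u j y - c ≠ 0 :=
    h.mono fun j hj y hy e => by
      have := hj y hy
      rw [e, norm_zero] at this
      linarith
  obtain ⟨w, hw, hwl, hwp⟩ := montel_full 𝒰 (f := fun j y => (u j y - c)⁻¹) (U := ball t δ)
    isOpen_ball (by
      intro x hx
      obtain ⟨e, he, hsub⟩ := Metric.isOpen_iff.1 isOpen_ball x hx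
      refine ⟨e, he, ρ⁻¹, ?_⟩
      filter_upwards [hd, h, hne] with j h1 h2 h3
      refine ⟨((h1.sub_const c).inv h3).mono hsub, fun y hy => ?_⟩
      rw [norm_inv]
      exact inv_anti₀ hρ (h2 y (hsub hy)).le)
  obtain ⟨g, hg, hgt⟩ := Metric.mem_closure_iff.1 ht δ hδ
  have hgb : g ∈ ball t δ := by rw [mem_ball, dist_comm]; exact hgt
  have hwg : w g ≠ 0 := by
    obtain ⟨r, hr, C, hC⟩ := hg
    have h1 := (hwp g hgb (fun _ => g) tendsto_const_nhds).norm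
    have h2 : (|C| + ‖c‖ + 1)⁻¹ ≤ ‖w g‖ := by
      refine ge_of_tendsto h1 ?_
      filter_upwards [hC, hne] with j hj hj'
      rw [norm_inv]
      refine inv_anti₀ (norm_pos_iff.2 (hj' g hgb)) ?_
      have := norm_sub_le (u j g) c
      have := hj g (mem_ball_self hr)
      have := le_abs_self C
      linarith
    intro e
    rw [e, norm_zero] at h2
    have : 0 < (|C| + ‖c‖ + 1)⁻¹ := by positivity
    linarith
  have hwa := hw.analyticOnNhd isOpen_ball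
  have hiso : ∀ᶠ y in 𝓝[≠] t, w y ≠ 0 := by
    refine (hwa t (mem_ball_self hδ)).eventually_eq_zero_or_eventually_ne_zero.resolve_left
      fun h0 => hwg ?_
    exact hwa.eqOn_zero_of_preconnected_of_eventuallyEq_zero (convex_ball t δ).isPreconnected
      (mem_ball_self hδ) h0 hgb
  obtain ⟨e, he, hsub⟩ := Metric.mem_nhdsWithin_iff.1 hiso
  set s := min e δ / 2 with hs
  have hs0 : 0 < s := by positivity
  have hse : s < e := by have := min_le_left e δ; linarith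
  have hsδ : s < δ := by have := min_le_right e δ; linarith
  have hsb : sphere t s ⊆ ball t δ := sphere_subset_closedBall.trans (closedBall_subset_ball hsδ)
  obtain ⟨y0, hy0, hmin⟩ := (isCompact_sphere t s).exists_isMinOn
    (NormedSpace.sphere_nonempty.2 hs0.le) (hw.continuousOn.mono hsb).norm
  have hm : 0 < ‖w y0‖ := by
    refine norm_pos_iff.2 (hsub ⟨?_, ?_⟩)
    · rw [mem_ball, mem_sphere.1 hy0]; exact hse
    · intro e0
      rw [mem_singleton_iff.1 e0, mem_sphere, dist_self] at hy0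
      exact hs0.ne hy0
  have hun := (tendstoLocallyUniformlyOn_iff_forall_isCompact isOpen_ball).1 hwl _ hsb
    (isCompact_sphere t s)
  refine bd_of_sphere hs0 hsδ hd (C := (‖w y0‖ / 2)⁻¹ + ‖c‖) ?_
  filter_upwards [Metric.tendstoUniformlyOn_iff.1 hun (‖w y0‖ / 2) (by linarith)] with j hj y hy
  have h1 := hj y hy
  rw [dist_eq_norm] at h1
  have h2 : ‖w y0‖ ≤ ‖w y‖ := hmin hy
  have h3 := norm_sub_norm_le (w y) (u j y - c)⁻¹
  have h4 : ‖w y0‖ / 2 ≤ ‖u j y - c‖⁻¹ := by rw [← norm_inv]; linarith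
  have h5 : ‖u j y - c‖ ≤ (‖w y0‖ / 2)⁻¹ := by
    rcases (norm_nonneg (u j y - c)).eq_or_lt with h6 | h6
    · rw [← h6]; positivity
    · exact (le_inv_comm₀ h6 (by linarith)).2 h4
  have h6 := norm_sub_norm_le (u j y) c
  linarith

/-- If the `u j` are holomorphic, omit a circle near every point off a discrete set and are
bounded near one point, they are locally bounded. -/
theorem norm0 (𝒰 : Ultrafilter ι) {u : ι → ℂ → ℂ} {B E : Set ℂ} (hB : IsOpen B)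
    (hB' : IsPreconnected B) (hE : ∀ t ∈ B, ∀ᶠ s in 𝓝[≠] t, s ∉ E)
    (hd : ∀ t ∈ B, ∃ δ > 0, ∀ᶠ j in (𝒰 : Filter ι), DifferentiableOn ℂ (u j) (ball t δ))
    (hc : ∀ t ∈ B, t ∉ E → ∃ c : ℂ, ∃ ρ > 0, ∃ δ > 0,
      ∀ᶠ j in (𝒰 : Filter ι), ∀ y ∈ ball t δ, ‖u j y - c‖ ≠ ρ)
    {t0 : ℂ} (ht0 : t0 ∈ B) (h0 : BdAt (𝒰 : Filter ι) u t0) : LocBdd (𝒰 : Filter ι) u B := by
  set G := {t | BdAt (𝒰 : Filter ι) u t} with hG
  have hGo : IsOpen G := BdAt.isOpen _ u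
  have h1 : ∀ t ∈ B, t ∉ E → t ∈ closure G → t ∈ G := by
    intro t ht htE htc
    obtain ⟨δ, hδ, hd'⟩ := hd t ht
    obtain ⟨c, ρ, hρ, δ', hδ', hc'⟩ := hc t ht htE
    exact bd_of_circle 𝒰 (lt_min hδ hδ') hρ
      (hd'.mono fun j hj => hj.mono (ball_subset_ball (min_le_left _ _)))
      (hc'.mono fun j hj y hy => hj y (ball_subset_ball (min_le_right _ _) hy)) htc
  have h2 : ∀ t ∈ B, t ∈ closure G → t ∈ G := by
    intro t ht htc
    by_contra hn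
    obtain ⟨δ, hδ, hd'⟩ := hd t ht
    obtain ⟨e, he, hsub⟩ := Metric.mem_nhdsWithin_iff.1
      ((hE t ht).and (mem_nhdsWithin_of_mem_nhds (hB.mem_nhds ht)))
    obtain ⟨g, hg, hgt⟩ := Metric.mem_closure_iff.1 htc (min e δ) (lt_min he hδ)
    have hgne : g ≠ t := fun e0 => hn (e0 ▸ hg)
    have hs0 : 0 < dist t g := dist_pos.2 hgne.symm
    have hsp : ∀ y ∈ sphere t (dist t g), y ∉ E ∧ y ∈ B := by
      intro y hy
      refine hsub ⟨?_, fun e0 => ?_⟩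
      · rw [mem_ball, mem_sphere.1 hy]; exact hgt.trans_le (min_le_left _ _)
      · rw [mem_singleton_iff.1 e0, mem_sphere, dist_self] at hy
        exact hs0.ne hy
    have hsG : sphere t (dist t g) ⊆ G :=
      (isPreconnected_sphere (by simp) t _).subset_of_closure_inter_subset hGo
        ⟨g, by rw [mem_sphere, dist_comm], hg⟩
        fun y hy => h1 y (hsp y hy.2).2 (hsp y hy.2).1 hy.1
    obtain ⟨C, hC⟩ := bd_compact (isCompact_sphere t _) hsG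
    exact hn (bd_of_sphere hs0 (hgt.trans_le (min_le_right _ _)) hd' hC)
  have h3 : B ⊆ G := hB'.subset_of_closure_inter_subset hGo ⟨t0, ht0, h0⟩
    fun y hy => h2 y hy.2 hy.1
  intro t ht
  obtain ⟨r, hr, C, hC⟩ := h3 ht
  obtain ⟨δ, hδ, hd'⟩ := hd t ht
  refine ⟨min r δ, lt_min hr hδ, C, (hd'.and hC).mono fun j hj => ⟨?_, fun y hy => ?_⟩⟩
  · exact hj.1.mono (ball_subset_ball (min_le_right _ _))
  · exact hj.2 y (ball_subset_ball (min_le_left _ _) hy)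

/-- the circle condition from a convergent family of equations -/
theorem circle_of_eq {l : Filter ι} {u : ι → ℂ → ℂ} {Fn : ι → ℂ × ℂ → ℂ} {F : ℂ × ℂ → ℂ}
    {B : Set ℂ} (hB : IsOpen B) (hF : ContinuousOn F (B ×ˢ univ))
    (hl : TendstoLocallyUniformlyOn Fn F l (B ×ˢ univ)) {t : ℂ} (ht : t ∈ B)
    (hFd : Differentiable ℂ fun v => F (t, v)) (hF0 : ∃ v, F (t, v) ≠ 0)
    (hu : ∃ δ > 0, ∀ᶠ j in l, ∀ y ∈ ball t δ, Fn j (y, u j y) = 0) :
    ∃ c : ℂ, ∃ ρ > 0, ∃ δ > 0, ∀ᶠ j in l, ∀ y ∈ ball t δ, ‖u j y - c‖ ≠ ρ := by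
  obtain ⟨v0, hv0⟩ := hF0
  have ha : AnalyticOnNhd ℂ (fun v => F (t, v)) univ :=
    hFd.differentiableOn.analyticOnNhd isOpen_univ
  have hiso : ∀ᶠ v in 𝓝[≠] (0 : ℂ), F (t, v) ≠ 0 := by
    refine (ha 0 (mem_univ _)).eventually_eq_zero_or_eventually_ne_zero.resolve_left
      fun h0 => hv0 ?_
    exact ha.eqOn_zero_of_preconnected_of_eventuallyEq_zero isPreconnected_univ
      (mem_univ 0) h0 (mem_univ v0)
  obtain ⟨e, he, hsub⟩ := Metric.mem_nhdsWithin_iff.1 hiso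
  have hop : IsOpen (B ×ˢ (univ : Set ℂ)) := hB.prod isOpen_univ
  have hne : ∀ v ∈ sphere (0 : ℂ) (e / 2), F (t, v) ≠ 0 := by
    intro v hv
    refine hsub ⟨?_, fun e0 => ?_⟩
    · rw [mem_ball, mem_sphere.1 hv]; linarith
    · rw [mem_singleton_iff.1 e0, mem_sphere, dist_self] at hv
      linarith
  have hO : IsOpen (B ×ˢ (univ : Set ℂ) ∩ F ⁻¹' {0}ᶜ) :=
    hF.isOpen_inter_preimage hop isOpen_compl_singleton
  obtain ⟨a, b, hao, -, hta, hsb, hab⟩ := generalized_tube_lemma (isCompact_singleton (x := t))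
    (isCompact_sphere (0 : ℂ) (e / 2)) hO (by
      rintro ⟨x, v⟩ ⟨hx, hv⟩
      obtain rfl : x = t := hx
      exact ⟨⟨ht, mem_univ _⟩, hne v hv⟩)
  obtain ⟨r, hr, hra⟩ := Metric.nhds_basis_closedBall.mem_iff.1
    (hao.mem_nhds (hta (mem_singleton t)))
  have hK : IsCompact (closedBall t r ×ˢ sphere (0 : ℂ) (e / 2)) :=
    (isCompact_closedBall t r).prod (isCompact_sphere _ _)
  have hKO := (prod_mono hra hsb).trans hab
  obtain ⟨p0, hp0, hmin⟩ := hK.exists_isMinOn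
    ((nonempty_closedBall.2 hr.le).prod (NormedSpace.sphere_nonempty.2 (by linarith)))
    (hF.mono (hKO.trans inter_subset_left)).norm
  have hm : 0 < ‖F p0‖ := norm_pos_iff.2 (hKO hp0).2
  have hun := (tendstoLocallyUniformlyOn_iff_forall_isCompact hop).1 hl _
    (hKO.trans inter_subset_left) hK
  obtain ⟨δ, hδ, hu'⟩ := hu
  refine ⟨0, e / 2, by linarith, min r δ, lt_min hr hδ, ?_⟩
  filter_upwards [Metric.tendstoUniformlyOn_iff.1 hun _ hm, hu'] with j h1 h2 y hy e0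
  have hy' : (y, u j y) ∈ closedBall t r ×ˢ sphere (0 : ℂ) (e / 2) :=
    ⟨ball_subset_closedBall (ball_subset_ball (min_le_left _ _) hy), by
      rw [mem_sphere, dist_eq_norm]; exact e0⟩
  have h3 := h1 _ hy'
  rw [h2 y (ball_subset_ball (min_le_right _ _) hy), dist_zero_right] at h3
  exact absurd (hmin hy') (not_le.2 h3)

/-- **NORM.** Holomorphic solutions `u j` of `Fn j (t, u j t) = 0` on a connected open set, with
`Fn → F`, `F (t, ·)` entire and not zero off a discrete set, bounded near one point, converge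
locally uniformly along the ultrafilter to a holomorphic solution of `F (t, v t) = 0`. -/
theorem norm1 (𝒰 : Ultrafilter ι) {u : ι → ℂ → ℂ} {Fn : ι → ℂ × ℂ → ℂ} {F : ℂ × ℂ → ℂ}
    {B E : Set ℂ} (hB : IsOpen B) (hB' : IsPreconnected B)
    (hE : ∀ t ∈ B, ∀ᶠ s in 𝓝[≠] t, s ∉ E) (hF : ContinuousOn F (B ×ˢ univ))
    (hl : TendstoLocallyUniformlyOn Fn F 𝒰 (B ×ˢ univ))
    (hFd : ∀ t ∈ B, Differentiable ℂ fun v => F (t, v))
    (hF0 : ∀ t ∈ B, t ∉ E → ∃ v, F (t, v) ≠ 0)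
    (hu : ∀ t ∈ B, ∃ δ > 0, ∀ᶠ j in (𝒰 : Filter ι), DifferentiableOn ℂ (u j) (ball t δ) ∧
      ∀ y ∈ ball t δ, Fn j (y, u j y) = 0)
    {t0 : ℂ} (ht0 : t0 ∈ B) (h0 : BdAt (𝒰 : Filter ι) u t0) :
    LocBdd (𝒰 : Filter ι) u B ∧ ∃ v : ℂ → ℂ, DifferentiableOn ℂ v B ∧
      TendstoLocallyUniformlyOn u v 𝒰 B ∧ ∀ t ∈ B, F (t, v t) = 0 := by
  have hb : LocBdd (𝒰 : Filter ι) u B := norm0 𝒰 hB hB' hE
    (fun t ht => (hu t ht).imp fun δ h => ⟨h.1, h.2.mono fun j hj => hj.1⟩)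
    (fun t ht htE => circle_of_eq hB hF hl ht (hFd t ht) (hF0 t ht htE)
      ((hu t ht).imp fun δ h => ⟨h.1, h.2.mono fun j hj => hj.2⟩)) ht0 h0
  obtain ⟨v, hv, hvl, hvp⟩ := montel_full 𝒰 hB hb
  refine ⟨hb, v, hv, hvl, fun t ht => ?_⟩
  have hop : IsOpen (B ×ˢ (univ : Set ℂ)) := hB.prod isOpen_univ
  have hm : (t, v t) ∈ B ×ˢ (univ : Set ℂ) := ⟨ht, mem_univ _⟩
  have h1 : Tendsto (fun j => (t, u j t)) 𝒰 (𝓝[B ×ˢ univ] (t, v t)) := by
    rw [hop.nhdsWithin_eq hm]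
    exact tendsto_const_nhds.prodMk_nhds (hvp t ht (fun _ => t) tendsto_const_nhds)
  have h2 := hl.tendsto_comp (hF _ hm) hm h1
  obtain ⟨δ, hδ, h3⟩ := hu t ht
  exact tendsto_nhds_unique h2 (tendsto_const_nhds.congr'
    (h3.mono fun j hj => (hj.2 t (mem_ball_self hδ)).symm))

end Vale.Agent.P097EE
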