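import Vale.Agent.P097EE.Defs
import Vale.Agent.P097EE.Tc

/-!
# P097EE: two constants on a truncated sector
-/

set_option linter.all false

noncomputable section

namespace Vale.Agent.P097EE

open Filter Topology Set Metric Complex

theorem sect_arg {w : ℂ} (hw : 0 < w.re) : |arg w| = Real.arctan (|w.im| / w.re) := by
  have h := abs_lt.1 (abs_arg_lt_pi_div_two_iff.2 (Or.inl hw))
  have e : arg w = Real.arctan (w.im / w.re) := by
    rw [← tan_arg, Real.arctan_tan h.1 h.2]
  rw [e]
  rcases le_total 0 w.im with k | k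
  · rw [abs_of_nonneg k, abs_of_nonneg (Real.arctan_nonneg.2 (div_nonneg k hw.le))]
  · rw [abs_of_nonpos k, neg_div, Real.arctan_neg, abs_of_nonpos]
    have := Real.arctan_nonneg.2 (div_nonneg (neg_nonneg.2 k) hw.le)
    rw [neg_div, Real.arctan_neg] at this
    linarith

theorem sect_re (w : ℂ) {p : ℝ} (hp : 0 ≤ p) :
    (w ^ (p : ℂ)).re = ‖w‖ ^ p * Real.cos (|arg w| * p) := by
  rw [cpow_ofReal_re, ← Real.cos_abs (arg w * p), abs_mul, abs_of_nonneg hp]

theorem sect_atan {x : ℝ} (hx : 0 ≤ x) : Real.arctan x ≤ x := by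
  have := Real.le_tan (Real.arctan_nonneg.2 hx) (Real.arctan_lt_pi_div_two x)
  rwa [Real.tan_arctan] at this

theorem sect : S_SECT := by
  intro D c A h M S hA hS hM hD z z1 z2 z3
  have A0 : 0 < A := by linarith
  have h1 : 1 ≤ h := z2.trans z3
  have iA : 1 / A ≤ 1 / 2 := one_div_le_one_div_of_le (by norm_num) hA
  have iA0 : 0 < 1 / A := by positivity
  set p : ℝ := 1 + 1 / A with hp
  have p0 : 0 < p := by linarith
  have hp1 : 1 ≤ h ^ p := Real.one_le_rpow h1 p0.le
  have hden : 0 < 10 * A ^ 2 * h ^ p := by positivity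
  rcases z3.eq_or_lt with z4 | z4
  · refine ((hD z (z1.trans (by nlinarith)) z3).2.2 z4).trans
      (mul_le_mul_of_nonneg_left (Real.exp_le_exp.2 (neg_le_neg ?_)) hM)
    exact div_le_self hS (by nlinarith)
  set R : ℝ := (1 + A) * h with hR
  have R0 : 0 < R := by positivity
  have Rp : 0 < R ^ p := Real.rpow_pos_of_pos R0 p
  set U : Set ℂ := {w | |w.im| < A * w.re ∧ w.re < h} with hU
  have ca : Continuous fun w : ℂ => |w.im| := continuous_im.abs
  have cb : Continuous fun w : ℂ => A * w.re := continuous_const.mul continuous_re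
  have oU : IsOpen U := (isOpen_lt ca cb).inter (isOpen_lt continuous_re continuous_const)
  have cU : closure U ⊆ {w | |w.im| ≤ A * w.re ∧ w.re ≤ h} :=
    closure_minimal (fun w hw => ⟨hw.1.le, hw.2.le⟩)
      ((isClosed_le ca cb).inter (isClosed_le continuous_re continuous_const))
  have re0 : ∀ w : ℂ, |w.im| ≤ A * w.re → 0 ≤ w.re := fun w hw => by
    by_contra hn
    nlinarith [abs_nonneg w.im, not_le.1 hn]
  have nR : ∀ w : ℂ, |w.im| ≤ A * w.re → w.re ≤ h → ‖w‖ ≤ R := fun w a b => by
    have := norm_le_abs_re_add_abs_im w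
    rw [abs_of_nonneg (re0 w a)] at this
    nlinarith
  have hD' : ∀ w : ℂ, |w.im| ≤ A * w.re → w.re ≤ h → DifferentiableAt ℂ D (c - I * w) ∧
      ‖D (c - I * w)‖ ≤ M ∧ (w.re = h → ‖D (c - I * w)‖ ≤ M * Real.exp (-S)) := by
    intro w a b
    have e1 : (c - I * w - c).re = w.im := by simp
    have e2 : (c - (c - I * w)).im = w.re := by simp
    have := hD (c - I * w) (by rwa [e1, e2]) (by rwa [e2])
    rwa [e2] at this
  have hf : ∀ w ∈ closure U, DifferentiableAt ℂ (fun w => D (c - I * w)) w := fun w hw =>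
    (hD' w (cU hw).1 (cU hw).2).1.comp w (by fun_prop)
  have hre : ∀ w : ℂ, (w ^ (p : ℂ) / ((R ^ p : ℝ) : ℂ)).re =
      ‖w‖ ^ p * Real.cos (|arg w| * p) / R ^ p := fun w => by
    rw [div_ofReal_re, sect_re w p0.le]
  have e1 : (I * (z - c)).im = (z - c).re := by simp
  have e2 : (I * (z - c)).re = (c - z).im := by simp
  have key := Tc.tc (f := fun w => D (c - I * w)) (Φ := fun w => w ^ (p : ℂ) / ((R ^ p : ℝ) : ℂ))
    (U := U) (M := M) (L := S) (z := I * (z - c))
    ((isBounded_closedBall (x := (0 : ℂ)) (r := R)).subset fun w hw =>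
      mem_closedBall_zero_iff.2 (nR w hw.1.le hw.2.le))
    (DifferentiableOn.diffContOnCl fun w hw => (hf w hw).differentiableWithinAt)
    ⟨fun w hw => ((differentiableAt_id.cpow_const (Or.inl (by
        show 0 < w.re
        by_contra hn
        nlinarith [abs_nonneg w.im, not_lt.1 hn, hw.1]))).div_const _).differentiableWithinAt,
      fun w hw => ((continuousAt_cpow_const_of_re_pos (Or.inl (re0 w (cU hw).1))
        (by rwa [ofReal_re])).div_const _).continuousWithinAt⟩ hS hM
    (fun w hw => by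
      rw [oU.frontier_eq] at hw
      obtain ⟨a, b⟩ := cU hw.1
      rw [hre]
      rcases b.eq_or_lt with b' | b'
      · refine Or.inl ⟨(hD' w a b).2.2 b', (div_le_one Rp).2 ?_⟩
        exact (mul_le_of_le_one_right (by positivity) (Real.cos_le_one _)).trans
          (Real.rpow_le_rpow (norm_nonneg _) (nR w a b) p0.le)
      · refine Or.inr ⟨(hD' w a b).2.1, div_nonpos_of_nonpos_of_nonneg ?_ Rp.le⟩
        have a' : |w.im| = A * w.re := le_antisymm a (not_lt.1 fun k => hw.2 ⟨k, b'⟩)
        rcases (re0 w a).eq_or_lt with k | k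
        · have : w = 0 := Complex.ext k.symm (by
            rw [← k, mul_zero] at a'
            exact abs_eq_zero.1 a')
          rw [this, norm_zero, Real.zero_rpow p0.ne', zero_mul]
        · refine mul_nonpos_of_nonneg_of_nonpos (by positivity) ?_
          rw [sect_arg k, a', mul_div_assoc, div_self k.ne', mul_one]
          have t1 := Real.arctan_inv_of_pos A0
          have t2 := sect_atan (inv_pos.2 A0).le
          have t3 := Real.arctan_lt_pi_div_two A
          have t4 := Real.pi_gt_d2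
          rw [← one_div] at t1 t2
          refine Real.cos_nonpos_of_pi_div_two_le_of_le ?_ ?_
          · nlinarith
          · nlinarith [Real.arctan_nonneg.2 A0.le])
    (subset_closure ⟨by rw [e1, e2]; nlinarith, by rwa [e2]⟩)
  have e3 : c - I * (I * (z - c)) = z := by
    rw [← mul_assoc, I_mul_I]
    ring
  simp only [e3] at key
  refine key.trans (mul_le_mul_of_nonneg_left (Real.exp_le_exp.2 (neg_le_neg ?_)) hM)
  rw [hre, div_eq_mul_one_div S]
  refine mul_le_mul_of_nonneg_left ?_ hS
  have k : 0 < (I * (z - c)).re := by rw [e2]; linarith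
  have n1 : 1 ≤ ‖I * (z - c)‖ ^ p :=
    Real.one_le_rpow ((e2 ▸ z2).trans (re_le_norm _)) p0.le
  have a1 : |arg (I * (z - c))| ≤ Real.pi / 4 := by
    rw [sect_arg k, ← Real.arctan_one]
    exact Real.arctan_mono ((div_le_one k).2 (by rwa [e1, e2]))
  have a2 : |arg (I * (z - c))| * p ≤ 6 / 5 := by
    nlinarith [abs_nonneg (arg (I * (z - c))), Real.pi_lt_d2]
  have a3 : 0 ≤ |arg (I * (z - c))| * p := by positivity
  have c1 : 1 / 4 ≤ Real.cos (|arg (I * (z - c))| * p) :=
    le_trans (by nlinarith) Real.one_sub_sq_div_two_le_cos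
  have r1 : R ^ p ≤ 9 / 4 * A ^ 2 * h ^ p := by
    rw [hR, Real.mul_rpow (by linarith) (by linarith)]
    refine mul_le_mul_of_nonneg_right ?_ (by positivity)
    calc (1 + A) ^ p ≤ (1 + A) ^ ((2 : ℕ) : ℝ) :=
          Real.rpow_le_rpow_of_exponent_le (by linarith) (by push_cast; linarith)
      _ ≤ _ := by rw [Real.rpow_natCast]; nlinarith
  rw [div_le_div_iff₀ hden Rp]
  have c2 : 1 / 4 ≤ ‖I * (z - c)‖ ^ p * Real.cos (|arg (I * (z - c))| * p) := by nlinarith
  have c3 : 0 < A ^ 2 * h ^ p := by positivity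
  nlinarith

end Vale.Agent.P097EE
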