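import Vale.Agent.P097EE.Defs
import Vale.Agent.P097EE.End
import Vale.Agent.P097F.Defs

/-!
# P097EE: a continuation over the top line contradicts the maximality of the true leaf
-/

set_option linter.all false

noncomputable section

namespace Vale.Agent.P097EE

open Filter Topology Set Metric Complex

theorem Up.rc_open (x b y₁ y₂ : ℝ) : IsOpen (Rc x b y₁ y₂) :=
  IsOpen.and (isOpen_lt (f := fun t : ℂ => |t.re - x|) (by fun_prop) continuous_const)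
    (IsOpen.and (isOpen_lt continuous_const continuous_im) (isOpen_lt continuous_im continuous_const))

theorem Up.rc_convex (x b y₁ y₂ : ℝ) : Convex ℝ (Rc x b y₁ y₂) := by
  have e : Rc x b y₁ y₂ = ({z : ℂ | x - b < z.re} ∩ {z : ℂ | z.re < x + b}) ∩
      ({z : ℂ | y₁ < z.im} ∩ {z : ℂ | z.im < y₂}) := by
    ext z
    simp only [Rc, mem_setOf_eq, mem_inter_iff, abs_lt, and_assoc]
    constructor <;> rintro ⟨a, b, c⟩ <;> exact ⟨by linarith, by linarith, c⟩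
  rw [e]
  exact ((convex_halfSpace_re_gt _).inter (convex_halfSpace_re_lt _)).inter
    ((convex_halfSpace_im_gt _).inter (convex_halfSpace_im_lt _))

/-- the pair of true vertices with the label `q` -/
def pr (F : C2 → ℂ) (ε v α : ℂ) (c : ℂ → ℂ) (q : C2) : C2 :=
  (F (v + α * q.2, c q.2 + ε * (v + α * q.2) * (q.1 - 1)),
    F (v + α * q.2, c q.2 + ε * (v + α * q.2) * q.1))

/-- **UP**, one scale -/
theorem up {ε v H x μ : ℝ} {θ h : ℂ → ℂ} {U : Set ℂ} {O : Set C2} {F : C2 → ℂ} {α : ℂ}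
    {c : ℂ → ℂ} {G : C2 → C2} (T : P097F.Tru ε θ h U O v H F) (e0 : 0 < ε) (v0 : 0 < v)
    (α0 : α ≠ 0) (hc : AnalyticAt ℂ c 0) (μ0 : 0 < μ) (top : H < (c 0).im + ε * v * μ)
    (low : (c 0).im - ε * v < H)
    (col : ∀ y : ℂ, |y.re - (c 0).re| ≤ ε * v * (|x| + μ + 1) → (c 0).im - 2 * (ε * v) ≤ y.im →
      y.im < H → ((v : ℂ), y) ∈ O)
    (hG : ∀ q ∈ Rc x μ (-(5 / 4)) μ ×ˢ ball (0 : ℂ) μ,
      AnalyticAt ℂ G q ∧ (G q).1 ∈ U ∧ (G q).2 ∈ U)
    (hZ : G =ᶠ[𝓝 ((x : ℂ) - 6 / 5 * I, (0 : ℂ))] pr F ε v α c) : False := by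
  have p0 : 0 < ε * v := mul_pos e0 v0
  have v' : (v : ℂ) ≠ 0 := ofReal_ne_zero.2 v0.ne'
  have e' : (ε : ℂ) ≠ 0 := ofReal_ne_zero.2 e0.ne'
  obtain ⟨t₀, ht₀⟩ : ∃ t₀ : ℝ, H = (c 0).im + ε * v * t₀ :=
    ⟨(H - (c 0).im) / (ε * v), by field_simp; ring⟩
  have t1 : t₀ < μ := lt_of_mul_lt_mul_left (by linarith) p0.le
  have t2 : -1 < t₀ := lt_of_mul_lt_mul_left (a := ε * v) (by linarith) p0.le
  have cm : ∀ t ∈ Rc x μ (-(5 / 4)) t₀, ∀ s : ℝ, |s| ≤ 1 →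
      ((v : ℂ), c 0 + ε * v * (t - s)) ∈ O := by
    rintro t ⟨a1, a2, a3⟩ s hs
    have r : (c 0 + ε * v * (t - s)).re - (c 0).re = ε * v * (t.re - s) := by simp
    have i : (c 0 + ε * v * (t - s)).im = (c 0).im + ε * v * t.im := by simp
    refine col _ ?_ (by rw [i]; nlinarith) (by rw [i]; nlinarith)
    rw [r, abs_mul, abs_of_pos p0]
    refine mul_le_mul_of_nonneg_left ?_ p0.le
    have := abs_sub (t.re - x + x) s
    have := abs_add_le (t.re - x) x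
    rw [sub_add_cancel] at *
    linarith
  have aW : ∀ q : C2, AnalyticAt ℂ (fun q : C2 => (v : ℂ) + α * q.2) q := fun q =>
    analyticAt_const.add (analyticAt_const.mul analyticAt_snd)
  have aP : ∀ t ∈ Rc x μ (-(5 / 4)) t₀, ∀ s : ℝ, |s| ≤ 1 → AnalyticAt ℂ
      (fun q : C2 => F (v + α * q.2, c q.2 + ε * (v + α * q.2) * (q.1 - s))) (t, 0) :=
    fun t ht s hs => AnalyticAt.comp
      (f := fun q : C2 => ((v : ℂ) + α * q.2, c q.2 + ε * (v + α * q.2) * (q.1 - s)))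
      (T.an _ (by simpa using cm t ht s hs)) ((aW _).prod ((AnalyticAt.comp (f := Prod.snd) hc
        analyticAt_snd).add ((analyticAt_const.mul (aW _)).mul (analyticAt_fst.sub
          analyticAt_const))))
  have sp := End.spread (F := G) (G := pr F ε v α c) (w := 0)
    (Up.rc_convex x μ (-(5 / 4)) t₀).isPreconnected (x₀ := (x : ℂ) - 6 / 5 * I)
    ⟨by simpa using μ0, by norm_num, by simp; linarith⟩ (fun t ht =>
      ⟨(hG (t, 0) ⟨⟨ht.1, ht.2.1, ht.2.2.trans t1⟩, mem_ball_self μ0⟩).1,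
        AnalyticAt.prod (by simpa using aP t ht 1 (by simp))
          (by simpa using aP t ht 0 (by simp))⟩) hZ
  set lb : C2 → C2 := fun p => ((p.2 - c ((p.1 - v) / α)) / (ε * p.1) + 1, (p.1 - v) / α) with hlb
  have aζ : ∀ p : C2, AnalyticAt ℂ (fun p : C2 => (p.1 - v) / α) p := fun p =>
    (analyticAt_fst.sub analyticAt_const).div analyticAt_const α0
  have al : ∀ y : ℂ, AnalyticAt ℂ lb (v, y) := fun y =>
    (((analyticAt_snd.sub (AnalyticAt.comp (f := fun p : C2 => (p.1 - v) / α)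
      (by simpa using hc) (aζ _))).div (analyticAt_const.mul analyticAt_fst)
        (mul_ne_zero e' v')).add analyticAt_const).prod (aζ _)
  have lv : ∀ y : ℂ, lb (v, y) = ((y - c 0) / (ε * v) + 1, 0) := fun y => by simp [hlb]
  set x₁ : ℂ := c 0 + ε * v * (x + t₀ * I - 1) with hx₁
  have l1 : lb (v, x₁) = ((x : ℂ) + t₀ * I, 0) := by
    rw [lv, hx₁]
    congr 1
    field_simp
    ring
  obtain ⟨δ, δ0, hδ⟩ := Metric.eventually_nhds_iff_ball.1 ((al x₁).eventually_analyticAt.and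
    ((al x₁).continuousAt.eventually_mem (((Up.rc_open x μ (-(5 / 4)) μ).prod
      (isOpen_ball (x := (0 : ℂ)) (ε := μ))).mem_nhds (by
        rw [l1]
        exact ⟨⟨by simpa using μ0, by simp; linarith, by simpa using t1⟩, mem_ball_self μ0⟩))))
  rw [← ball_prod_same] at hδ
  have an : ∀ p ∈ ball (v : ℂ) δ ×ˢ ball x₁ δ, AnalyticAt ℂ (fun p => G (lb p)) p := fun p hp =>
    (hG _ (hδ p hp).2).1.comp (hδ p hp).1
  refine T.top x₁ δ (fun p => (G (lb p)).1) (fun p => (G (lb p)).2) (by simp [hx₁, ht₀]) δ0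
    (fun p hp => analyticAt_fst.comp (an p hp)) (fun p hp => analyticAt_snd.comp (an p hp))
    (fun p hp => (hG _ (hδ p hp).2).2.1) (fun p hp => (hG _ (hδ p hp).2).2.2) fun y hy lt => ?_
  have m := (hδ (v, y) ⟨mem_ball_self δ0, hy⟩).2.1
  rw [lv] at m
  set t : ℂ := (y - c 0) / (ε * v) + 1 with ht
  have ey : y = c 0 + ε * v * (t - 1) := by
    rw [ht]
    field_simp
    ring
  have i : y.im = (c 0).im + ε * v * t.im := by
    rw [ey]
    simp
  have m' : t ∈ Rc x μ (-(5 / 4)) t₀ :=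
    ⟨m.1, m.2.1, lt_of_mul_lt_mul_left (a := ε * v) (by linarith) p0.le⟩
  have ev : ∀ᶠ p : C2 in 𝓝 ((v : ℂ), y), G (lb p) = (F p, F (p.1, p.2 + ε * p.1)) := by
    have k := sp t m'
    rw [← lv] at k
    filter_upwards [(al y).continuousAt.eventually k,
      (continuousAt_fst (p := ((v : ℂ), y))).eventually_ne v'] with p h1 h2
    have w : (v : ℂ) + α * ((p.1 - v) / α) = p.1 := by field_simp; ring
    rw [h1, pr, hlb]
    simp only [w]
    have h3 : p.1 ≠ 0 := h2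
    refine Prod.ext (congrArg F (Prod.ext rfl ?_)) (congrArg F (Prod.ext rfl ?_)) <;>
      simp only <;> field_simp <;> ring
  refine ⟨by simpa [ey] using cm t m' 1 (by simp), ?_, ev.mono fun p hp => congrArg Prod.fst hp,
    ev.mono fun p hp => congrArg Prod.snd hp⟩
  have := cm t m' 0 (by simp)
  rwa [show c 0 + ε * v * (t - (0 : ℝ)) = y + ε * v by rw [ey]; push_cast; ring] at this

/-- compact subsets of the limit domain are eventually in the domains of the curves -/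
theorem seq_cpt {l : Filter ℕ} {ε θ h Q c U g L} (s : P097Mo.Seq l ε θ h Q c U g L) {K : Set ℂ}
    (hK : IsCompact K) (m : K ⊆ L) : ∀ᶠ n in l, K ⊆ U n := by
  refine hK.induction_on (p := fun S => ∀ᶠ n in l, S ⊆ U n) (.of_forall fun _ => empty_subset _)
    (fun _ _ e k => k.mono fun _ a => e.trans a)
    (fun _ _ a b => (a.and b).mono fun _ k => union_subset k.1 k.2) fun y hy => ?_
  obtain ⟨ρ, ρ0, k⟩ := s.ex y (m hy)
  exact ⟨_, nhdsWithin_le_nhds (ball_mem_nhds y ρ0), k⟩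

theorem seq_box {l : Filter ℕ} {ε θ h Q c U g} (s : P097Mo.Seq l ε θ h Q c U g (P097D.Lo 0))
    {M : ℝ} (M0 : 0 < M) : ∀ᶠ n in l, ∀ y : ℂ, ‖y‖ ≤ M → y.im ≤ -(1 / M) → y ∈ U n :=
  (seq_cpt s (K := closedBall 0 M ∩ {y | y.im ≤ -(1 / M)}) ((isCompact_closedBall _ _).inter_right
    (isClosed_le continuous_im continuous_const)) fun y hy =>
      lt_of_le_of_lt (b := -(1 / M)) hy.2 (by simpa using M0)).mono
    fun n k y a b => k ⟨mem_closedBall_zero_iff.2 a, b⟩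

/-- **UP** along the ultrafilter: `Z n` is the true pair near the deep label -/
theorem upU {𝒰 : Ultrafilter ℕ} {ε : ℕ → ℝ} {θ h Q c U g} {a L T ρ K C W H₀ b₀ x μ M : ℝ}
    {v H b : ℕ → ℝ} {F : ℕ → C2 → ℂ} {F₀ : C2 → ℂ} {α : ℕ → ℂ} {o : ℕ → ℂ → ℂ} {Z : ℕ → C2 → C2}
    (s : P097Mo.Seq 𝒰 (fun j => (ε j : ℂ)) θ h Q c U g (P097D.Lo 0)) (e0 : ∀ j, 0 < ε j)
    (l : P097F.Loc 𝒰 ε θ h U a L T ρ K C v H b W H₀ b₀ F F₀) (W0 : 0 < W)
    (lab : ∀ lam > 0, ∀ᶠ n in (𝒰 : Filter ℕ), α n ≠ 0 ∧ AnalyticAt ℂ (o n) 0 ∧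
      |(o n 0).re - a| ≤ L - 1 / 2 ∧ |(o n 0).im - H n| ≤ lam * ε n ∧
      Z n =ᶠ[𝓝 ((x : ℂ) - 6 / 5 * I, (0 : ℂ))] pr (F n) (ε n) (v n) (α n) (o n))
    (μ0 : 0 < μ) (M0 : 0 < M) (out : ∀ᶠ n in (𝒰 : Filter ℕ), ∃ G : C2 → C2,
      (∀ q ∈ Rc x μ (-(5 / 4)) μ ×ˢ ball (0 : ℂ) μ, AnalyticAt ℂ G q ∧ ‖G q‖ ≤ M ∧
        (G q).1.im ≤ -(1 / M) ∧ (G q).2.im ≤ -(1 / M)) ∧
      G =ᶠ[𝓝 ((x : ℂ) - 6 / 5 * I, (0 : ℂ))] Z n) : False := by
  have el : Tendsto ε 𝒰 (𝓝 0) := (continuous_re.tendsto 0).comp s.el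
  have m0 : 0 < min μ 1 := lt_min μ0 one_pos
  have s1 : Tendsto (fun n => ε n * v n * (|x| + μ + 1)) 𝒰 (𝓝 0) := by
    simpa using (el.mul l.lv).mul_const (|x| + μ + 1)
  have hT : H₀ - 1 > -T := by
    have := l.hi
    nlinarith [l.ρ0, l.C1, mul_nonneg l.K0 (sq_nonneg ρ)]
  obtain ⟨n, ⟨a0, a1, a2, a3, a4⟩, ⟨G, g1, g2⟩, tr, bx, k1, k2, k3⟩ :=
    ((lab (W / 4 * min μ 1) (by positivity)).and (out.and (l.tr.and ((seq_box s M0).and
      ((s1.eventually (gt_mem_nhds (show (0 : ℝ) < 1 / 8 by norm_num))).and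
        ((l.lv.eventually (lt_mem_nhds (half_lt_self W0))).and
          (l.lH.eventually (lt_mem_nhds (show H₀ - 1 / 2 < H₀ by linarith))))))))).exists
  have e := e0 n
  have v0 : 0 < v n := by linarith
  have p0 := mul_pos e v0
  have q1 : W / 4 * min μ 1 * ε n < ε n * v n * min μ 1 := by nlinarith [mul_pos e m0]
  have q2 : ε n * v n * min μ 1 ≤ ε n * v n * μ := by gcongr; exact min_le_left _ _
  have q3 : ε n * v n * min μ 1 ≤ ε n * v n * 1 := by gcongr; exact min_le_right _ _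
  have q4 : ε n * v n ≤ ε n * v n * (|x| + μ + 1) :=
    le_mul_of_one_le_right p0.le (by linarith [abs_nonneg x])
  obtain ⟨b1, b2⟩ := abs_le.1 a3
  refine up tr e v0 a0 a1 μ0 (by linarith) (by linarith) (fun y y1 y2 y3 => ?_)
    (fun q hq => ?_) (g2.trans a4)
  · refine ⟨mem_ball_self l.ρ0, ?_, by simp only; linarith, by simpa using y3⟩
    have := abs_sub_le y.re (o n 0).re a
    simp only
    linarith
  · obtain ⟨c1, c2, c3, c4⟩ := g1 q hq
    exact ⟨c1, bx _ ((norm_fst_le _).trans c2) c3, bx _ ((norm_snd_le _).trans c2) c4⟩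

end Vale.Agent.P097EE
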